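import Crest.Agent.R302.AuxSys

/-!
Row 302, part D5: anticoncentration.  Most of the weight lies in deep cells.
-/

set_option autoImplicit false
set_option linter.unusedSectionVars false

namespace Crest.Agent.R302

open Finset

variable {E : Type} [Fintype E] [DecidableEq E]

namespace Sys.Ok

variable {Y : Sys E}

lemma AC_big (h : Y.Ok) : (2 : ℝ) ^ 20 ≤ Y.s := by exact_mod_cast h.sz.big

lemma AC_card (h : Y.Ok) : (Fintype.card E : ℝ) ≤ Y.s := by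
  have := h.sz.card
  rw [Fintype.card_prod, Fintype.card_bool] at this
  exact_mod_cast (by omega : Fintype.card E ≤ Y.s)

lemma AC_pw_pos (h : Y.Ok) : (0 : ℝ) < pw Y.s := by
  have := AC_big h
  have h0 : (0 : ℝ) < Y.s := by linarith [show (0 : ℝ) < 2 ^ 20 by positivity]
  unfold pw
  push_cast
  positivity

lemma AC_wE_pos (Y : Sys E) (j : E → ℤ) (x : (E × Bool → ℤ) × (E × Bool → ℤ)) : 0 < Y.wE j x :=
  mul_pos (Y.W_pos _) (Real.exp_pos _)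

lemma AC_Mass_nonneg (Y : Sys E) (j γ : E → ℤ) : 0 ≤ Y.Mass j γ :=
  sum_nonneg fun x _ => (AC_wE_pos Y j x).le

lemma AC_wE_le (Y : Sys E) (j : E → ℤ) (x : (E × Bool → ℤ) × (E × Bool → ℤ)) {t : ℝ}
    (ht : t ≤ ∑ r, pL Y.s * max 0 (Y.Hc r (Y.pt x) + j r / pw Y.s)) :
    Y.wE j x ≤ Y.W x.1 * Real.exp (-t) :=
  mul_le_mul_of_nonneg_left (Real.exp_le_exp.2 (neg_le_neg ht)) (Y.W_pos _).le

lemma AC_le_wE (Y : Sys E) (j : E → ℤ) (x : (E × Bool → ℤ) × (E × Bool → ℤ)) {t : ℝ}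
    (ht : ∑ r, pL Y.s * max 0 (Y.Hc r (Y.pt x) + j r / pw Y.s) ≤ t) :
    Y.W x.1 * Real.exp (-t) ≤ Y.wE j x :=
  mul_le_mul_of_nonneg_left (Real.exp_le_exp.2 (neg_le_neg ht)) (Y.W_pos _).le

lemma AC_wE_le_W (Y : Sys E) (j : E → ℤ) (x : (E × Bool → ℤ) × (E × Bool → ℤ)) :
    Y.wE j x ≤ Y.W x.1 := by
  simpa using AC_wE_le Y j x (t := 0)
    (sum_nonneg fun r _ => mul_nonneg (Nat.cast_nonneg _) (le_max_left _ _))

lemma AC_W_le_wE (Y : Sys E) (j : E → ℤ) (x : (E × Bool → ℤ) × (E × Bool → ℤ))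
    (hx : ∀ r, Y.Hc r (Y.pt x) + j r / pw Y.s ≤ 0) : Y.W x.1 ≤ Y.wE j x := by
  simpa using AC_le_wE Y j x (t := 0)
    (sum_nonpos fun r _ => by rw [max_eq_left (hx r), mul_zero])

lemma AC_wE_shift (Y : Sys E) {j j' : E → ℤ} (hj : ∀ r, j r ≤ j' r)
    (x : (E × Bool → ℤ) × (E × Bool → ℤ)) (r₀ : E) {t : ℝ}
    (ht : t + pL Y.s * max 0 (Y.Hc r₀ (Y.pt x) + j r₀ / pw Y.s) ≤
      pL Y.s * max 0 (Y.Hc r₀ (Y.pt x) + j' r₀ / pw Y.s)) :
    Y.wE j' x ≤ Y.wE j x * Real.exp (-t) := by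
  have hm : ∀ r, (pL Y.s : ℝ) * max 0 (Y.Hc r (Y.pt x) + j r / pw Y.s) ≤
      pL Y.s * max 0 (Y.Hc r (Y.pt x) + j' r / pw Y.s) := fun r =>
    mul_le_mul_of_nonneg_left (max_le_max le_rfl (add_le_add le_rfl
      (div_le_div_of_nonneg_right (by exact_mod_cast hj r) (Nat.cast_nonneg _))))
      (Nat.cast_nonneg _)
  have h1 : t + ∑ r, (pL Y.s : ℝ) * max 0 (Y.Hc r (Y.pt x) + j r / pw Y.s) ≤
      ∑ r, (pL Y.s : ℝ) * max 0 (Y.Hc r (Y.pt x) + j' r / pw Y.s) := by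
    rw [← Finset.add_sum_erase _ _ (mem_univ r₀), ← Finset.add_sum_erase _ _ (mem_univ r₀),
      ← add_assoc]
    exact add_le_add ht (sum_le_sum fun r _ => hm r)
  refine (AC_wE_le Y j' x h1).trans (le_of_eq ?_)
  unfold Sys.wE
  rw [mul_assoc, ← Real.exp_add]
  congr 2
  ring

lemma AC_wE_mono (Y : Sys E) {j j' : E → ℤ} (hj : ∀ r, j r ≤ j' r)
    (x : (E × Bool → ℤ) × (E × Bool → ℤ)) : Y.wE j' x ≤ Y.wE j x :=
  AC_wE_le Y j' x (sum_le_sum fun r _ =>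
    mul_le_mul_of_nonneg_left (max_le_max le_rfl (add_le_add le_rfl
      (div_le_div_of_nonneg_right (by exact_mod_cast hj r) (Nat.cast_nonneg _))))
      (Nat.cast_nonneg _))

lemma AC_mem_TCells {x : (E × Bool → ℤ) × (E × Bool → ℤ)} :
    x ∈ Y.TCells ↔ x ∈ Y.Cells ∧ ∃ i k, Y.ty x.1 = Y.τ i k := by
  unfold Sys.TCells
  rw [mem_filter]

lemma AC_mem_Deep {x : (E × Bool → ℤ) × (E × Bool → ℤ)} {t : ℝ} :
    x ∈ Y.Deep t ↔ x ∈ Y.TCells ∧ ∀ r, Y.Hc r (Y.pt x) ≤ -t := by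
  unfold Sys.Deep
  rw [mem_filter]

lemma AC_deep_half {x : (E × Bool → ℤ) × (E × Bool → ℤ)} (hx : x ∈ Y.Deep 1) :
    x ∈ Y.Deep (1 / 2) :=
  AC_mem_Deep.2 ⟨(AC_mem_Deep.1 hx).1, fun r => ((AC_mem_Deep.1 hx).2 r).trans (by norm_num)⟩

lemma AC_off {o : E × Bool → ℤ} (ho : o ∈ Y.Off) : ∀ g ∈ Y.H, |o g| ≤ 2 * Y.Δ g := fun g hg => by
  have := (mem_Off.1 ho).1 g hg
  rw [abs_of_nonneg this.1]
  omega

/-- the number of states in a cell -/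
noncomputable def AC_cnt (Y : Sys E) (x : (E × Bool → ℤ) × (E × Bool → ℤ)) : ℕ :=
  (Y.Off.filter (fun o => Y.pt x + Y.ov o ∈ Y.Om)).card

lemma AC_cnt_le (Y : Sys E) (x : (E × Bool → ℤ) × (E × Bool → ℤ)) :
    (AC_cnt Y x : ℝ) ≤ Y.Off.card := by
  exact_mod_cast card_filter_le _ _

lemma AC_cnt_deep (h : Y.Ok) {x : (E × Bool → ℤ) × (E × Bool → ℤ)} (hx : x ∈ Y.Deep 1) :
    AC_cnt Y x = Y.Off.card := by
  unfold AC_cnt
  rw [filter_true_of_mem fun o ho => (h.deep_mem (AC_deep_half hx) (AC_off ho)).1]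

lemma AC_cnt_Hc (h : Y.Ok) {x : (E × Bool → ℤ) × (E × Bool → ℤ)} (hx : x ∈ Y.Cells)
    (hc : AC_cnt Y x ≠ 0) (r : E) : Y.Hc r (Y.pt x) ≤ 1 / Y.s ^ 20 := by
  obtain ⟨o, ho⟩ := card_ne_zero.1 hc
  rw [mem_filter] at ho
  have := h.Hc_cellOf r ho.2
  rwa [(h.cellOf_pt hx ho.1).1] at this

lemma AC_sum (h : Y.Ok) (P : (E × Bool → ℤ) → Prop) [DecidablePred P]
    (Q : (E × Bool → ℤ) × (E × Bool → ℤ) → Prop) [DecidablePred Q]
    (hPQ : ∀ a, P a ↔ Q (Y.cellOf a)) (hQ : ∀ x, Q x → ∃ i k, Y.ty x.1 = Y.τ i k) :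
    ∑ a ∈ Y.Om.filter P, Y.W a = ∑ x ∈ Y.Cells.filter Q, AC_cnt Y x * Y.W x.1 := by
  have e : Y.Cells.filter Q = Y.TCells.filter Q := by
    ext x
    simp only [mem_filter, AC_mem_TCells]
    exact ⟨fun hx => ⟨⟨hx.1, hQ x hx.2⟩, hx.2⟩, fun hx => ⟨hx.1.1, hx.2⟩⟩
  rw [e, sum_filter, sum_filter, h.sum_Om]
  refine sum_congr rfl fun x hx => ?_
  have hx' := (AC_mem_TCells.1 hx).1
  rw [sum_congr rfl (g := fun _ => if Q x then Y.W x.1 else 0) fun o ho => by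
    rw [h.W_pt]
    exact if_congr (by rw [hPQ, (h.cellOf_pt hx' (mem_filter.1 ho).1).1]) rfl rfl]
  rw [sum_const, nsmul_eq_mul]
  split_ifs
  · rfl
  · rw [mul_zero]

lemma AC_ty (h : Y.Ok) (a : E × Bool → ℤ) : Y.ty (Y.cellOf a).1 = Y.ty a := h.ty_agg a

lemma AC_exp_half {t : ℝ} (ht : 1 ≤ t) : Real.exp (-t) ≤ 1 / 2 := by
  have h1 := Real.add_one_le_exp t
  rw [Real.exp_neg, ← one_div]
  exact one_div_le_one_div_of_le two_pos (by linarith)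

lemma AC_half_exp {t : ℝ} (ht : t ≤ 1 / 2) : 1 / 2 ≤ Real.exp (-t) := by
  have h1 := Real.add_one_le_exp (-t)
  linarith

lemma Mass_le (h : Y.Ok) (j γ : E → ℤ) : Y.Mass j γ ≤ 2 ^ Y.s ^ 2 := by
  have h1 : Y.Mass j γ ≤ (Y.Cells.filter (fun x => Y.ty x.1 = γ)).card • (1 : ℝ) :=
    sum_le_card_nsmul _ _ _ fun x _ => (AC_wE_le_W Y j x).trans (Y.W_le_one _)
  rw [nsmul_eq_mul, mul_one] at h1
  refine h1.trans ?_
  exact_mod_cast (card_filter_le _ _).trans h.card_Cells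

/-- `exists_deep_cell`, `le_W_cell`. -/
lemma le_Mass (h : Y.Ok) {x : (E × Bool → ℤ) × (E × Bool → ℤ)} (hx : x ∈ Y.Cells) {i k : E}
    (hτ : Y.ty x.1 = Y.τ i k) {j : E → ℤ} (hj : ∀ r, j r ≤ pT Y.s * pw Y.s) :
    (1 / 2) ^ Y.s ^ 2 ≤ Y.Mass j (Y.τ i k) := by
  obtain ⟨y, hy, hty⟩ := h.exists_deep_cell hx hτ
  have hy' := AC_mem_Deep.1 hy
  have hyC := (AC_mem_TCells.1 hy'.1).1
  have h1 : Y.W y.1 ≤ Y.wE j y := AC_W_le_wE Y j y fun r => by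
    have h2 := hy'.2 r
    have h3 : (j r : ℝ) / pw Y.s ≤ pT Y.s := by
      rw [div_le_iff₀ (AC_pw_pos h)]
      exact_mod_cast hj r
    linarith
  refine (h.le_W_cell hyC).trans (h1.trans ?_)
  exact single_le_sum (f := Y.wE j) (fun x _ => (AC_wE_pos Y j x).le) (mem_filter.2 ⟨hyC, hty⟩)

open Classical in
/-- For a root `r`: `aux_lc` and `DL1.near` (`B = 2 s² + 2`, `T = pT pw`, `d = 2 pw`) give
`Mass (single r (2 pw)) ≥ (1 - 10 / s ^ 9) Mass 0`, while the shift by `2` multiplies the weight of a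
cell with `Hc r > -1` by at most `exp (- pL) ≤ 1 / 2`.  Union bound over `r`; `Hc_nonroot`. -/
theorem ac (h : Y.Ok) (i k : E) :
    ∑ x ∈ Y.Cells.filter (fun x => Y.ty x.1 = Y.τ i k ∧ x ∉ Y.Deep 1), Y.wE 0 x ≤
      1 / Y.s ^ 6 * Y.Mass 0 (Y.τ i k) := by
  have hs := AC_big h
  have hs0 : (0 : ℝ) < Y.s := by linarith [show (0 : ℝ) < 2 ^ 20 by positivity]
  have hs1 : (1 : ℝ) ≤ Y.s := by linarith [show (1 : ℝ) ≤ 2 ^ 20 by norm_num]
  have hsn : 1 ≤ Y.s := by exact_mod_cast hs1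
  have hM0 := AC_Mass_nonneg Y 0 (Y.τ i k)
  have hpw := AC_pw_pos h
  set C := Y.Cells.filter (fun x => Y.ty x.1 = Y.τ i k) with hC
  have hr : ∀ r, ∑ x ∈ C.filter (fun x => -1 < Y.Hc r (Y.pt x)), Y.wE 0 x ≤
      18 / Y.s ^ 9 * Y.Mass 0 (Y.τ i k) := by
    intro r
    rcases (C.filter (fun x => -1 < Y.Hc r (Y.pt x))).eq_empty_or_nonempty with he | ⟨x₀, hx₀⟩
    · rw [he, sum_empty]
      positivity
    rw [mem_filter, hC, mem_filter] at hx₀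
    have hroot : Y.σ.root r = r := by
      by_contra hne
      have h1 := hx₀.2
      rw [h.Hc_nonroot hne] at h1
      have h2 : (1 : ℝ) ≤ pT Y.s := by
        unfold pT
        push_cast
        exact one_le_pow₀ hs1
      linarith
    obtain ⟨ψ, hψ, hψM⟩ := h.aux_lc hroot i k
    set ε : ℝ := 1 / Y.s ^ 9 with hε
    have hε0 : 0 < ε := by positivity
    have hε1 : ε ≤ 1 / 100 := by
      refine one_div_le_one_div_of_le (by norm_num) ?_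
      calc (100 : ℝ) ≤ Y.s := by linarith [show (100 : ℝ) ≤ 2 ^ 20 by norm_num]
        _ = Y.s ^ 1 := (pow_one _).symm
        _ ≤ Y.s ^ 9 := pow_le_pow_right₀ hs1 (by norm_num)
    have e2 : (2 : ℝ) / Y.s ^ 9 = 2 * ε := by rw [hε]; ring
    rw [e2] at hψM
    have hlo : 1 - 2 * ε ≤ Real.exp (-(2 * ε)) := by linarith [Real.add_one_le_exp (-(2 * ε))]
    have hee : Real.exp (2 * ε) * Real.exp (-(2 * ε)) = 1 := by rw [← Real.exp_add]; simp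
    have hhi : Real.exp (2 * ε) ≤ 2 := by nlinarith [Real.exp_pos (2 * ε)]
    have hT : pT Y.s * pw Y.s ≤ pD Y.s := by
      unfold pT pw pD
      rw [← pow_add]
      exact Nat.pow_le_pow_right hsn (by omega)
    have hT2 : 2 ≤ pT Y.s := by
      have := h.sz.big
      calc 2 ≤ Y.s ^ 1 := by rw [pow_one]; omega
        _ ≤ pT Y.s := Nat.pow_le_pow_right hsn (by norm_num)
    have hd : 2 * pw Y.s ≤ pT Y.s * pw Y.s := Nat.mul_le_mul_right _ hT2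
    have hT0 : 0 < pT Y.s * pw Y.s := Nat.mul_pos (by omega) (by exact_mod_cast hpw)
    have a0 := hψM 0 (by simp)
    rw [Pi.single_zero] at a0
    have aT := (hψM ((pT Y.s * pw Y.s : ℕ) : ℤ) (by rw [Nat.abs_cast]; exact_mod_cast hT)).1
    have ad := (hψM ((2 * pw Y.s : ℕ) : ℤ) (by rw [Nat.abs_cast]; exact_mod_cast hd.trans hT)).2
    have bT := h.le_Mass hx₀.1.1 hx₀.1.2 (j := Pi.single r ((pT Y.s * pw Y.s : ℕ) : ℤ)) fun r' => by
      rw [Pi.single_apply]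
      split_ifs
      · push_cast
        exact le_rfl
      · exact mul_nonneg (Int.natCast_nonneg _) (Int.natCast_nonneg _)
    have b0 := h.Mass_le 0 (Y.τ i k)
    have hB : ψ 0 ≤ 2 ^ (2 * Y.s ^ 2 + 2) * ψ ((pT Y.s * pw Y.s : ℕ) : ℤ) := by
      have c1 : ψ 0 ≤ 2 * 2 ^ Y.s ^ 2 := a0.2.trans (mul_le_mul hhi b0 hM0 two_pos.le)
      have c2 : 1 / 2 * (1 / 2) ^ Y.s ^ 2 ≤ ψ ((pT Y.s * pw Y.s : ℕ) : ℤ) :=
        le_trans (mul_le_mul (by linarith) bT (by positivity) (Real.exp_pos _).le) aT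
      refine c1.trans (le_trans (le_of_eq ?_) (mul_le_mul_of_nonneg_left c2 (by positivity)))
      rw [pow_add, two_mul (Y.s ^ 2), pow_add, one_div, inv_pow]
      field_simp
    have hn := hψ.near hT0 hd hB
    have hq : ((2 * Y.s ^ 2 + 2 : ℕ) : ℝ) * ((2 * pw Y.s : ℕ) : ℝ) / ((pT Y.s * pw Y.s : ℕ) : ℝ) ≤
        5 * ε := by
      rw [div_le_iff₀ (by exact_mod_cast hT0)]
      push_cast
      have c1 : ε * pT Y.s = Y.s ^ 2 := by
        rw [hε]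
        unfold pT
        push_cast
        field_simp
      have c2 : (4 : ℝ) ≤ Y.s ^ 2 := by nlinarith [show (4 : ℝ) ≤ 2 ^ 20 by norm_num]
      calc (2 * (Y.s : ℝ) ^ 2 + 2) * (2 * pw Y.s) ≤ 5 * Y.s ^ 2 * pw Y.s := by nlinarith
        _ = 5 * ε * (pT Y.s * pw Y.s) := by rw [← c1]; ring
    have hψ0 := hψ.nonneg 0
    set Md := Y.Mass (Pi.single r ((2 * pw Y.s : ℕ) : ℤ)) (Y.τ i k) with hMd
    set M0 := Y.Mass 0 (Y.τ i k) with hM0d
    have d1 : (1 - 9 * ε) * M0 ≤ Md := by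
      have c1 : (1 - 5 * ε) * ψ 0 ≤ ψ ((2 * pw Y.s : ℕ) : ℤ) :=
        (mul_le_mul_of_nonneg_right (by linarith) hψ0).trans hn
      have c2 : (1 - 2 * ε) * M0 ≤ ψ 0 := (mul_le_mul_of_nonneg_right hlo hM0).trans a0.1
      have c3 : (1 - 5 * ε) * ((1 - 2 * ε) * M0) ≤ Real.exp (2 * ε) * Md :=
        (mul_le_mul_of_nonneg_left c2 (by linarith)).trans (c1.trans ad)
      have c4 : Real.exp (-(2 * ε)) * ((1 - 5 * ε) * ((1 - 2 * ε) * M0)) ≤ Md := by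
        refine (mul_le_mul_of_nonneg_left c3 (Real.exp_pos _).le).trans (le_of_eq ?_)
        rw [← mul_assoc, mul_comm (Real.exp _), hee, one_mul]
      have c5 : 0 ≤ (1 - 5 * ε) * ((1 - 2 * ε) * M0) :=
        mul_nonneg (by linarith) (mul_nonneg (by linarith) hM0)
      refine le_trans ?_ ((mul_le_mul_of_nonneg_right hlo c5).trans c4)
      have c6 : 1 - 9 * ε ≤ (1 - 2 * ε) * ((1 - 5 * ε) * (1 - 2 * ε)) := by
        nlinarith [mul_pos hε0 hε0]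
      calc (1 - 9 * ε) * M0 ≤ (1 - 2 * ε) * ((1 - 5 * ε) * (1 - 2 * ε)) * M0 :=
            mul_le_mul_of_nonneg_right c6 hM0
        _ = _ := by ring
    have hj : ∀ r', (0 : E → ℤ) r' ≤ (Pi.single r ((2 * pw Y.s : ℕ) : ℤ) : E → ℤ) r' := fun r' => by
      rw [Pi.single_apply, Pi.zero_apply]
      split_ifs
      · exact Int.natCast_nonneg _
      · exact le_rfl
    have d2 : Md + 1 / 2 * ∑ x ∈ C.filter (fun x => -1 < Y.Hc r (Y.pt x)), Y.wE 0 x ≤ M0 := by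
      rw [sum_filter, mul_sum, hMd, hM0d]
      unfold Sys.Mass
      rw [← hC, ← sum_add_distrib]
      refine sum_le_sum fun x _ => ?_
      split_ifs with hx
      · have hL : (1 : ℝ) ≤ pL Y.s := by
          unfold pL
          push_cast
          exact one_le_pow₀ hs1
        have c1 := AC_wE_shift Y hj x r (t := 1) (by
          have e : (((Pi.single r ((2 * pw Y.s : ℕ) : ℤ) : E → ℤ) r : ℤ) : ℝ) / pw Y.s = 2 := by
            rw [Pi.single_eq_same]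
            push_cast
            field_simp
          rw [e, Pi.zero_apply, Int.cast_zero, zero_div, add_zero]
          have c2 : 1 + max 0 (Y.Hc r (Y.pt x)) ≤ max 0 (Y.Hc r (Y.pt x) + 2) := by
            refine le_trans ?_ (le_max_right _ _)
            rcases le_total 0 (Y.Hc r (Y.pt x)) with c | c
            · rw [max_eq_right c]; linarith
            · rw [max_eq_left c]; linarith
          nlinarith [mul_le_mul_of_nonneg_left c2 (by linarith : (0 : ℝ) ≤ pL Y.s)])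
        have c3 := mul_le_mul_of_nonneg_left (AC_exp_half le_rfl) (AC_wE_pos Y 0 x).le
        linarith
      · rw [mul_zero, add_zero]
        exact AC_wE_mono Y hj x
    have e18 : (18 : ℝ) / Y.s ^ 9 = 18 * ε := by rw [hε]; ring
    rw [e18]
    linarith
  calc ∑ x ∈ Y.Cells.filter (fun x => Y.ty x.1 = Y.τ i k ∧ x ∉ Y.Deep 1), Y.wE 0 x
      ≤ ∑ x ∈ C, ∑ r, if -1 < Y.Hc r (Y.pt x) then Y.wE 0 x else 0 := by
        rw [← filter_filter, ← hC, sum_filter]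
        refine sum_le_sum fun x hx => ?_
        have hnn : ∀ r, 0 ≤ if -1 < Y.Hc r (Y.pt x) then Y.wE 0 x else 0 := fun r => by
          split_ifs
          · exact (AC_wE_pos Y 0 x).le
          · exact le_rfl
        split_ifs with hd
        · exact sum_nonneg fun r _ => hnn r
        · rw [hC, mem_filter] at hx
          rw [AC_mem_Deep, not_and, not_forall] at hd
          obtain ⟨r, hr⟩ := hd (AC_mem_TCells.2 ⟨hx.1, i, k, hx.2⟩)
          refine le_trans (le_of_eq ?_) (single_le_sum (fun r _ => hnn r) (mem_univ r))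
          rw [if_pos (not_le.1 hr)]
    _ = ∑ r, ∑ x ∈ C.filter (fun x => -1 < Y.Hc r (Y.pt x)), Y.wE 0 x := by
        rw [sum_comm]
        exact sum_congr rfl fun r _ => (sum_filter _ _).symm
    _ ≤ ∑ _r : E, 18 / Y.s ^ 9 * Y.Mass 0 (Y.τ i k) := sum_le_sum fun r _ => hr r
    _ ≤ 1 / Y.s ^ 6 * Y.Mass 0 (Y.τ i k) := by
        rw [sum_const, card_univ, nsmul_eq_mul, ← mul_assoc]
        refine mul_le_mul_of_nonneg_right ?_ hM0
        refine (mul_le_mul_of_nonneg_right (AC_card h) (by positivity)).trans ?_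
        rw [mul_div_assoc', div_le_div_iff₀ (by positivity) (by positivity)]
        have c1 : (18 : ℝ) ≤ Y.s ^ 2 := by nlinarith [show (18 : ℝ) ≤ 2 ^ 20 by norm_num]
        calc (Y.s : ℝ) * 18 * Y.s ^ 6 = 18 * (Y.s : ℝ) ^ 7 := by ring
          _ ≤ (Y.s : ℝ) ^ 2 * Y.s ^ 7 := mul_le_mul_of_nonneg_right c1 (by positivity)
          _ = 1 * (Y.s : ℝ) ^ 9 := by ring

/-- On `Deep 1` the penalty vanishes and all offsets are real (`deep_mem`, `sum_Om`). -/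
theorem Mass_le_Zlk (h : Y.Ok) (i k : E) : Y.Off.card * Y.Mass 0 (Y.τ i k) ≤ 2 * Y.Zlk (Y.τ i k) := by
  classical
  have hs := AC_big h
  have hs1 : (1 : ℝ) ≤ Y.s := by linarith [show (1 : ℝ) ≤ 2 ^ 20 by norm_num]
  have hM0 := AC_Mass_nonneg Y 0 (Y.τ i k)
  have h1 := h.ac i k
  have h2 : (1 : ℝ) / Y.s ^ 6 ≤ 1 / 2 := by
    refine one_div_le_one_div_of_le two_pos ?_
    calc (2 : ℝ) ≤ Y.s ^ 1 := by linarith [show (2 : ℝ) ≤ 2 ^ 20 by norm_num]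
      _ ≤ Y.s ^ 6 := pow_le_pow_right₀ hs1 (by norm_num)
  have h3 := sum_filter_add_sum_filter_not (Y.Cells.filter fun x => Y.ty x.1 = Y.τ i k)
    (fun x => x ∈ Y.Deep 1) (Y.wE 0)
  rw [filter_filter (fun x : (E × Bool → ℤ) × (E × Bool → ℤ) => Y.ty x.1 = Y.τ i k)
    (fun x => ¬ x ∈ Y.Deep 1)] at h3
  have h4 : Y.Mass 0 (Y.τ i k) ≤ 2 * ∑ x ∈ (Y.Cells.filter fun x => Y.ty x.1 = Y.τ i k).filter
      (fun x => x ∈ Y.Deep 1), Y.wE 0 x := by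
    have := mul_le_mul_of_nonneg_right h2 hM0
    unfold Sys.Mass at *
    linarith
  have h5 : Y.Zlk (Y.τ i k) = ∑ x ∈ Y.Cells.filter (fun x => Y.ty x.1 = Y.τ i k),
      AC_cnt Y x * Y.W x.1 :=
    AC_sum h _ _ (fun a => by rw [AC_ty h]) fun x hx => ⟨i, k, hx⟩
  refine (mul_le_mul_of_nonneg_left h4 (Nat.cast_nonneg _)).trans ?_
  rw [mul_left_comm, h5, mul_sum]
  refine mul_le_mul_of_nonneg_left ?_ two_pos.le
  refine le_trans (sum_le_sum fun x hx => ?_) (sum_le_sum_of_subset_of_nonneg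
    (filter_subset (fun x => x ∈ Y.Deep 1) _) fun x _ _ =>
      mul_nonneg (Nat.cast_nonneg _) (Y.W_pos _).le)
  rw [AC_cnt_deep h (mem_filter.1 hx).2]
  exact mul_le_mul_of_nonneg_left (AC_wE_le_W Y 0 x) (Nat.cast_nonneg _)

open Classical in
/-- `W a ≤ 2 wE 0 (cellOf a)` by `Hc_cellOf`; at most `Off.card` points per cell. -/
theorem ac_real (h : Y.Ok) (i k : E) :
    ∑ a ∈ Y.Om.filter (fun a => Y.ty a = Y.τ i k ∧ Y.cellOf a ∉ Y.Deep 1), Y.W a ≤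
      1 / Y.s ^ 5 * Y.Zlk (Y.τ i k) := by
  have hs := AC_big h
  have hs0 : (0 : ℝ) < Y.s := by linarith [show (0 : ℝ) < 2 ^ 20 by positivity]
  have hs1 : (1 : ℝ) ≤ Y.s := by linarith [show (1 : ℝ) ≤ 2 ^ 20 by norm_num]
  rw [AC_sum h _ (fun x => Y.ty x.1 = Y.τ i k ∧ x ∉ Y.Deep 1) (fun a => by rw [AC_ty h])
    fun x hx => ⟨i, k, hx.1⟩]
  have h1 : ∀ x ∈ Y.Cells, AC_cnt Y x * Y.W x.1 ≤ 2 * Y.Off.card * Y.wE 0 x := by
    intro x hx
    have hw := AC_wE_pos Y 0 x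
    by_cases hc : AC_cnt Y x = 0
    · rw [hc, Nat.cast_zero, zero_mul]
      positivity
    have h2 := AC_le_wE Y 0 x (t := 1 / 2) (by
      have h3 : ∀ r, (pL Y.s : ℝ) * max 0 (Y.Hc r (Y.pt x) + (0 : E → ℤ) r / pw Y.s) ≤
          Y.s ^ 4 * (1 / Y.s ^ 20) := fun r => by
        rw [Pi.zero_apply, Int.cast_zero, zero_div, add_zero]
        unfold pL
        push_cast
        exact mul_le_mul_of_nonneg_left (max_le (by positivity) (AC_cnt_Hc h hx hc r))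
          (by positivity)
      refine (sum_le_sum fun r _ => h3 r).trans ?_
      rw [sum_const, card_univ, nsmul_eq_mul]
      refine (mul_le_mul_of_nonneg_right (AC_card h) (by positivity)).trans ?_
      have e : (Y.s : ℝ) * (Y.s ^ 4 * (1 / Y.s ^ 20)) = 1 / Y.s ^ 15 := by field_simp
      rw [e]
      refine one_div_le_one_div_of_le two_pos ?_
      calc (2 : ℝ) ≤ Y.s ^ 1 := by linarith [show (2 : ℝ) ≤ 2 ^ 20 by norm_num]
        _ ≤ Y.s ^ 15 := pow_le_pow_right₀ hs1 (by norm_num))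
    have h4 := mul_le_mul_of_nonneg_left (AC_half_exp (le_refl (1 / 2 : ℝ))) (Y.W_pos x.1).le
    calc AC_cnt Y x * Y.W x.1 ≤ Y.Off.card * (2 * Y.wE 0 x) :=
          mul_le_mul (AC_cnt_le Y x) (by linarith) (Y.W_pos _).le (Nat.cast_nonneg _)
      _ = _ := by ring
  refine (sum_le_sum fun x hx => h1 x (mem_filter.1 hx).1).trans ?_
  rw [← mul_sum]
  refine (mul_le_mul_of_nonneg_left (h.ac i k) (by positivity)).trans ?_
  have h5 := h.Mass_le_Zlk i k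
  have h6 := Y.Zlk_nonneg (Y.τ i k)
  have h7 : (4 : ℝ) / Y.s ^ 6 ≤ 1 / Y.s ^ 5 := by
    rw [div_le_div_iff₀ (by positivity) (by positivity)]
    calc 4 * (Y.s : ℝ) ^ 5 ≤ Y.s * Y.s ^ 5 := mul_le_mul_of_nonneg_right
          (by linarith [show (4 : ℝ) ≤ 2 ^ 20 by norm_num]) (by positivity)
      _ = 1 * Y.s ^ 6 := by ring
  calc 2 * (Y.Off.card : ℝ) * (1 / Y.s ^ 6 * Y.Mass 0 (Y.τ i k))
      = 2 / Y.s ^ 6 * (Y.Off.card * Y.Mass 0 (Y.τ i k)) := by ring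
    _ ≤ 2 / Y.s ^ 6 * (2 * Y.Zlk (Y.τ i k)) := mul_le_mul_of_nonneg_left h5 (by positivity)
    _ = 4 / Y.s ^ 6 * Y.Zlk (Y.τ i k) := by ring
    _ ≤ _ := mul_le_mul_of_nonneg_right h7 h6

theorem Zlk_le_Mass (h : Y.Ok) (i k : E) :
    Y.Zlk (Y.τ i k) ≤ 2 * (Y.Off.card * Y.Mass (fun _ => pw Y.s) (Y.τ i k)) := by
  classical
  have hs := AC_big h
  have hs1 : (1 : ℝ) ≤ Y.s := by linarith [show (1 : ℝ) ≤ 2 ^ 20 by norm_num]
  have hZ := Y.Zlk_nonneg (Y.τ i k)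
  have h1 := h.ac_real i k
  have h2 : (1 : ℝ) / Y.s ^ 5 ≤ 1 / 2 := by
    refine one_div_le_one_div_of_le two_pos ?_
    calc (2 : ℝ) ≤ Y.s ^ 1 := by linarith [show (2 : ℝ) ≤ 2 ^ 20 by norm_num]
      _ ≤ Y.s ^ 5 := pow_le_pow_right₀ hs1 (by norm_num)
  have h3 := sum_filter_add_sum_filter_not (Y.Om.filter fun a => Y.ty a = Y.τ i k)
    (fun a => Y.cellOf a ∈ Y.Deep 1) Y.W
  rw [filter_filter, filter_filter] at h3
  have h4 : Y.Zlk (Y.τ i k) ≤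
      2 * ∑ a ∈ Y.Om.filter (fun a => Y.ty a = Y.τ i k ∧ Y.cellOf a ∈ Y.Deep 1), Y.W a := by
    have := mul_le_mul_of_nonneg_right h2 hZ
    unfold Sys.Zlk at *
    linarith
  refine h4.trans (mul_le_mul_of_nonneg_left ?_ two_pos.le)
  rw [AC_sum h _ (fun x => Y.ty x.1 = Y.τ i k ∧ x ∈ Y.Deep 1) (fun a => by rw [AC_ty h])
    fun x hx => ⟨i, k, hx.1⟩]
  unfold Sys.Mass
  rw [mul_sum, ← filter_filter]
  refine le_trans (sum_le_sum fun x hx => ?_) (sum_le_sum_of_subset_of_nonneg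
    (filter_subset (fun x => x ∈ Y.Deep 1) _) fun x _ _ =>
      mul_nonneg (Nat.cast_nonneg _) (AC_wE_pos Y _ x).le)
  refine mul_le_mul (AC_cnt_le Y x) (AC_W_le_wE Y _ x fun r => ?_) (Y.W_pos _).le
    (Nat.cast_nonneg _)
  have h5 := (AC_mem_Deep.1 (mem_filter.1 hx).2).2 r
  rw [Int.cast_natCast, div_self (AC_pw_pos h).ne']
  linarith

lemma Mass_shift_le (Y : Sys E) (γ : E → ℤ) : Y.Mass (fun _ => pw Y.s) γ ≤ Y.Mass 0 γ := by
  exact sum_le_sum fun x _ => AC_wE_mono Y (fun r => Int.natCast_nonneg _) x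

theorem bal_Mass (h : Y.Ok) {pot : E → ℤ} (hb : Y.Bal pot) (i k : E) :
    (2 : ℝ) ^ pot (Y.σ.root i) * Y.Mass (fun _ => pw Y.s) (Y.τ i k) ≤
      4 * Y.s * ((2 : ℝ) ^ pot (Y.σ.root k) * Y.Mass (fun _ => pw Y.s) 0) := by
  have hO : (0 : ℝ) < Y.Off.card := by exact_mod_cast Off_card_pos Y
  have h1 := (mul_le_mul_of_nonneg_left (Mass_shift_le Y (Y.τ i k)) hO.le).trans (h.Mass_le_Zlk i k)
  have h2 := h.Zlk_le_Mass i i
  rw [Y.τ_self] at h2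
  have h3 := hb i k
  have hi : (0 : ℝ) < (2 : ℝ) ^ pot (Y.σ.root i) := zpow_pos two_pos _
  have hk : (0 : ℝ) < (2 : ℝ) ^ pot (Y.σ.root k) := zpow_pos two_pos _
  refine le_of_mul_le_mul_left ?_ hO
  calc (Y.Off.card : ℝ) * (2 ^ pot (Y.σ.root i) * Y.Mass (fun _ => pw Y.s) (Y.τ i k))
      = 2 ^ pot (Y.σ.root i) * (Y.Off.card * Y.Mass (fun _ => pw Y.s) (Y.τ i k)) := by ring
    _ ≤ 2 ^ pot (Y.σ.root i) * (2 * Y.Zlk (Y.τ i k)) := mul_le_mul_of_nonneg_left h1 hi.le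
    _ = 2 * (2 ^ pot (Y.σ.root i) * Y.Zlk (Y.τ i k)) := by ring
    _ ≤ 2 * (Y.s * (2 ^ pot (Y.σ.root k) * Y.Zlk 0)) := mul_le_mul_of_nonneg_left h3 two_pos.le
    _ ≤ 2 * (Y.s * (2 ^ pot (Y.σ.root k) * (2 * (Y.Off.card * Y.Mass (fun _ => pw Y.s) 0)))) := by
        gcongr
    _ = _ := by ring

/-- Outside `Deep (1 / 2)` the shifted penalty is at least `pL / 2`; the potential factor of a type
that occurs is at most `s Zlk 0 / Zlk τ ≤ 2 s 2 ^ s² Zlk 0 / Off.card`; `card_Cells`. -/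
theorem tail (h : Y.Ok) {pot : E → ℤ} (hb : Y.Bal pot) :
    Y.Off.card * ∑ x ∈ Y.TCells \ Y.Deep (1 / 2), Y.nu pot x ≤ (1 / 2) ^ Y.s ^ 3 * Y.Zlk 0 := by
  have hs := AC_big h
  have hs0 : (0 : ℝ) < Y.s := by linarith [show (0 : ℝ) < 2 ^ 20 by positivity]
  have hZ := Y.Zlk_nonneg 0
  have hO : (0 : ℝ) ≤ Y.Off.card := Nat.cast_nonneg _
  have h1 : ∀ x ∈ Y.TCells \ Y.Deep (1 / 2), Y.Off.card * Y.nu pot x ≤
      (1 / 2) ^ (2 * Y.s ^ 3) * (2 * Y.s * 2 ^ Y.s ^ 2) * Y.Zlk 0 := by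
    intro x hx
    rw [mem_sdiff, AC_mem_Deep, not_and, not_forall] at hx
    obtain ⟨r, hr⟩ := hx.2 hx.1
    obtain ⟨hxC, i, k, hτ⟩ := AC_mem_TCells.1 hx.1
    have hi : (0 : ℝ) < (2 : ℝ) ^ pot (Y.σ.root i) := zpow_pos two_pos _
    have hk : (0 : ℝ) < (2 : ℝ) ^ pot (Y.σ.root k) := zpow_pos two_pos _
    have a1 : Y.wE (fun _ => pw Y.s) x ≤ (1 / 2) ^ (2 * Y.s ^ 3) := by
      have b1 := AC_wE_le Y (fun _ => pw Y.s) x (t := ((2 * Y.s ^ 3 : ℕ) : ℝ)) (by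
        refine le_trans ?_ (single_le_sum (f := fun r => (pL Y.s : ℝ) *
          max 0 (Y.Hc r (Y.pt x) + ((pw Y.s : ℤ) : ℝ) / pw Y.s))
          (fun r _ => mul_nonneg (Nat.cast_nonneg _) (le_max_left _ _)) (mem_univ r))
        rw [Int.cast_natCast, div_self (AC_pw_pos h).ne']
        have c1 : 1 / 2 ≤ max 0 (Y.Hc r (Y.pt x) + 1) :=
          le_trans (by linarith [not_le.1 hr]) (le_max_right _ _)
        refine le_trans ?_ (mul_le_mul_of_nonneg_left c1 (Nat.cast_nonneg _))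
        unfold pL
        push_cast
        have c2 : (4 : ℝ) ≤ Y.s := by linarith [show (4 : ℝ) ≤ 2 ^ 20 by norm_num]
        have c3 := mul_le_mul_of_nonneg_right c2 (show (0 : ℝ) ≤ Y.s ^ 3 by positivity)
        calc 2 * (Y.s : ℝ) ^ 3 = 4 * (Y.s : ℝ) ^ 3 * (1 / 2) := by ring
          _ ≤ (Y.s : ℝ) * (Y.s : ℝ) ^ 3 * (1 / 2) := by linarith
          _ = _ := by ring)
      have b2 : Real.exp (-((2 * Y.s ^ 3 : ℕ) : ℝ)) ≤ (1 / 2) ^ (2 * Y.s ^ 3) := by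
        rw [← mul_neg_one, Real.exp_nat_mul]
        exact pow_le_pow_left₀ (Real.exp_pos _).le (AC_exp_half le_rfl) _
      calc _ ≤ Y.W x.1 * Real.exp (-((2 * Y.s ^ 3 : ℕ) : ℝ)) := b1
        _ ≤ 1 * (1 / 2) ^ (2 * Y.s ^ 3) :=
          mul_le_mul (Y.W_le_one _) b2 (Real.exp_pos _).le zero_le_one
        _ = _ := one_mul _
    have a2 : (Y.Off.card : ℝ) ≤ 2 * 2 ^ Y.s ^ 2 * Y.Zlk (Y.τ i k) := by
      have b1 := h.le_Mass hxC hτ (j := 0) fun r => by rw [Pi.zero_apply]; positivity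
      have b2 := (mul_le_mul_of_nonneg_left b1 hO).trans (h.Mass_le_Zlk i k)
      rw [one_div, inv_pow, ← div_eq_mul_inv, div_le_iff₀ (by positivity)] at b2
      linarith
    have a3 : (Y.Off.card : ℝ) * (2 ^ pot (Y.σ.root i) / 2 ^ pot (Y.σ.root k)) ≤
        2 * Y.s * 2 ^ Y.s ^ 2 * Y.Zlk 0 := by
      rw [← mul_div_assoc, div_le_iff₀ hk]
      calc (Y.Off.card : ℝ) * 2 ^ pot (Y.σ.root i)
          ≤ 2 * 2 ^ Y.s ^ 2 * Y.Zlk (Y.τ i k) * 2 ^ pot (Y.σ.root i) :=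
            mul_le_mul_of_nonneg_right a2 hi.le
        _ = 2 * 2 ^ Y.s ^ 2 * (2 ^ pot (Y.σ.root i) * Y.Zlk (Y.τ i k)) := by ring
        _ ≤ 2 * 2 ^ Y.s ^ 2 * (Y.s * (2 ^ pot (Y.σ.root k) * Y.Zlk 0)) :=
            mul_le_mul_of_nonneg_left (hb i k) (by positivity)
        _ = _ := by ring
    unfold Sys.nu
    rw [h.pot_τ pot hτ, zpow_sub₀ two_ne_zero, mul_left_comm, mul_assoc]
    exact mul_le_mul a1 a3 (by positivity) (by positivity)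
  rw [mul_sum]
  refine (sum_le_card_nsmul _ _ _ h1).trans ?_
  have h2 : ((Y.TCells \ Y.Deep (1 / 2)).card : ℝ) ≤ 2 ^ Y.s ^ 2 := by
    have : (Y.TCells \ Y.Deep (1 / 2)).card ≤ Y.Cells.card :=
      card_le_card fun x hx => (AC_mem_TCells.1 (mem_sdiff.1 hx).1).1
    exact_mod_cast this.trans h.card_Cells
  rw [nsmul_eq_mul, ← mul_assoc]
  refine mul_le_mul_of_nonneg_right ?_ hZ
  refine (mul_le_mul_of_nonneg_right h2 (by positivity)).trans ?_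
  have h3 : (Y.s : ℝ) ≤ 2 ^ Y.s := by exact_mod_cast Nat.lt_two_pow_self.le
  have h4 : Y.s ^ 2 + (1 + Y.s + Y.s ^ 2) ≤ Y.s ^ 3 := by
    have := h.sz.big
    nlinarith [Nat.mul_le_mul_right (Y.s ^ 2) (show 4 ≤ Y.s by omega)]
  have h5 : (2 : ℝ) ^ Y.s ^ 2 * (2 * Y.s * 2 ^ Y.s ^ 2) ≤ 2 ^ Y.s ^ 3 := by
    refine le_trans ?_ (pow_le_pow_right₀ one_le_two h4)
    rw [pow_add, pow_add, pow_add, pow_one]
    gcongr
  calc (2 : ℝ) ^ Y.s ^ 2 * ((1 / 2) ^ (2 * Y.s ^ 3) * (2 * Y.s * 2 ^ Y.s ^ 2))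
      = (1 / 2) ^ (2 * Y.s ^ 3) * (2 ^ Y.s ^ 2 * (2 * Y.s * 2 ^ Y.s ^ 2)) := by ring
    _ ≤ (1 / 2) ^ (2 * Y.s ^ 3) * 2 ^ Y.s ^ 3 := mul_le_mul_of_nonneg_left h5 (by positivity)
    _ = (1 / 2) ^ Y.s ^ 3 := by
        rw [two_mul, pow_add, mul_assoc, ← mul_pow]
        norm_num

open Classical in
theorem ac_good (h : Y.Ok) :
    ∑ a ∈ Y.Om.filter (fun a => Y.ty a = 0 ∧ ¬ Y.Good 16 a), Y.W a ≤ 1 / Y.s ^ 5 * Y.Zlk 0 := by
  rcases isEmpty_or_nonempty E with hE | ⟨⟨i⟩⟩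
  · have e : Y.Om = ∅ := by
      refine eq_empty_of_forall_notMem fun a ha => ?_
      unfold Sys.Om at ha
      obtain ⟨i, -⟩ := (mem_filter.1 ha).2.1
      exact hE.elim i
    rw [e, filter_empty, sum_empty]
    exact mul_nonneg (by positivity) (Y.Zlk_nonneg 0)
  have h1 := h.ac_real i i
  rw [Y.τ_self] at h1
  refine le_trans (sum_le_sum_of_subset_of_nonneg (fun a ha => ?_) fun a _ _ => (Y.W_pos a).le) h1
  rw [mem_filter] at ha ⊢
  refine ⟨ha.1, ha.2.1, fun hd => ha.2.2 ?_⟩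
  have h2 := (h.deep_mem (AC_deep_half hd) (AC_off (offOf_mem Y a))).2
  rwa [h.pt_cellOf] at h2

end Sys.Ok

end Crest.Agent.R302
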