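import Crest.Agent.R302.AuxWPAux

/-!
Row 302, part A4: weak Poincaré inequality for a pair system `Θ x * G y` with rank-one potentials.
States of type `(p, k)` are the pairs `(x, uv p - uv k - x)`; nodes with a hole at `k` are the pairs
`(x, - x - uv k)`.
-/

set_option autoImplicit false
set_option linter.unusedSectionVars false

namespace Crest.Agent.R302

open Finset

variable {I : Type} [Fintype I] [DecidableEq I]

/-- integer box -/
noncomputable def bx (lo hi : I → ℤ) : Finset (I → ℤ) := Fintype.piFinset fun i => Icc (lo i) (hi i)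

lemma mem_bx {lo hi x : I → ℤ} : x ∈ bx lo hi ↔ ∀ i, lo i ≤ x i ∧ x i ≤ hi i := by
  simp [bx, Fintype.mem_piFinset]

/-- The convolution `γ ↦ ∑ x, Θ x * G (γ - x)`. -/
noncomputable def conv (Θ G : (I → ℤ) → ℝ) (lo hi : I → ℤ) (γ : I → ℤ) : ℝ :=
  ∑ x ∈ bx lo hi, Θ x * G (γ - x)

/-- The product system on `(I → ℤ) × (I → ℤ)` (`DL.mul_comap` with `fst`, `snd`). -/
theorem DL.pairSys {Θ G : (I → ℤ) → ℝ} (hΘ : DL uv univ Θ) (hG : DL uv univ G) :
    DL (Sum.elim (fun p : I => ((uv p, 0) : (I → ℤ) × (I → ℤ))) fun p : I => (0, uv p)) univ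
      fun z => Θ z.1 * G z.2 := by
  refine DL.mul_comap hΘ hG (AddMonoidHom.fst (I → ℤ) (I → ℤ))
    (AddMonoidHom.snd (I → ℤ) (I → ℤ)) fun k _ => ?_
  cases k with
  | inl p => exact Or.inl ⟨rfl, Or.inr ⟨p, mem_univ _, rfl⟩⟩
  | inr p => exact Or.inr ⟨rfl, p, mem_univ _, rfl⟩

lemma awp_boxJ_univ (lo hi : I → ℤ) : boxJ univ lo hi = bx lo hi := by
  simp [boxJ, bx]

/-- `DL.conS` for the pairs `(inl i, inr i)`, pulled back along `γ ↦ (0, γ)`. -/
theorem DL.conv {Θ G : (I → ℤ) → ℝ} (hΘ : DL uv univ Θ) (hG : DL uv univ G) {lo hi : I → ℤ}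
    (hl : ∀ i, lo i ≤ hi i) : DL uv univ (conv Θ G lo hi) := by
  have h1 := (hΘ.pairSys hG).conS (α := Sum.inl) (β := Sum.inr) (J := univ) (lo := lo) (hi := hi)
    (fun _ _ => mem_univ _) (fun _ _ => mem_univ _) fun l _ => hl l
  have h2 := h1.comap (e' := uv) (S' := univ) (AddMonoidHom.inr (I → ℤ) (I → ℤ)) 0
    fun k _ => Or.inr ⟨Sum.inr k, mem_univ _, rfl⟩
  convert h2 using 2 with γ
  rw [awp_boxJ_univ]
  refine sum_congr rfl fun a _ => ?_
  rw [awp_nd]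
  simp

/-- The energy of the pair system for the node functions `gb k`. -/
noncomputable def auxE (Θ G : (I → ℤ) → ℝ) (lo hi : I → ℤ) (t : I → ℝ) (F : (I → ℤ) → ℝ)
    (gb : I → (I → ℤ) → ℝ) : ℝ :=
  ∑ k, ∑ x ∈ bx (lo - 1) hi, ∑ p, t p / t k *
    (Θ (x + uv p) * G (-x - uv k) * (F (x + uv p) - gb k x) ^ 2 +
      Θ x * G (uv p - uv k - x) * (F x - gb k x) ^ 2)

/-- energy of one node -/
noncomputable def awpEn (Θ G : (I → ℤ) → ℝ) (t : I → ℝ) (F : (I → ℤ) → ℝ)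
    (gb : I → (I → ℤ) → ℝ) (k : I) (x : I → ℤ) : ℝ :=
  ∑ p, t p / t k * (Θ (x + uv p) * G (-x - uv k) * (F (x + uv p) - gb k x) ^ 2 +
      Θ x * G (uv p - uv k - x) * (F x - gb k x) ^ 2)

/-- weight of the hole states attached to one node -/
noncomputable def awpHo (Θ G : (I → ℤ) → ℝ) (t : I → ℝ) (k : I) (x : I → ℤ) : ℝ :=
  ∑ l, t k / t l * (Θ (x + uv k) * G (uv k - uv l - (x + uv k)))

lemma awp_auxE_eq (Θ G : (I → ℤ) → ℝ) (lo hi : I → ℤ) (t : I → ℝ) (F : (I → ℤ) → ℝ)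
    (gb : I → (I → ℤ) → ℝ) :
    auxE Θ G lo hi t F gb = ∑ k, ∑ x ∈ bx (lo - 1) hi, awpEn Θ G t F gb k x := rfl

lemma awpS_univ (lo hi : I → ℤ) (φ : (I → ℤ) → ℝ) :
    awpS univ lo hi 0 φ = ∑ x ∈ bx lo hi, φ x := by
  simp [awpS, awp_boxJ_univ]

lemma awp_shift_le {Θ : (I → ℤ) → ℝ} {lo hi : I → ℤ} (hsupp : ∀ x, Θ x ≠ 0 → x ∈ bx lo hi)
    (hΘ : ∀ x, 0 ≤ Θ x) (s : Finset (I → ℤ)) (v : I → ℤ) {g : (I → ℤ) → ℝ} (hg : ∀ x, 0 ≤ g x) :
    ∑ x ∈ s, Θ (x + v) * g (x + v) ≤ ∑ x ∈ bx lo hi, Θ x * g x := by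
  rw [← sum_image (s := s) (g := fun x => x + v) (f := fun x => Θ x * g x)
    (fun x _ y _ h => add_right_cancel h)]
  rw [← sum_filter_of_ne (p := fun x => x ∈ bx lo hi)
    (fun x _ h => hsupp x (left_ne_zero_of_mul h))]
  exact sum_le_sum_of_subset_of_nonneg (fun x hx => (mem_filter.1 hx).2)
    fun x _ _ => mul_nonneg (hΘ x) (hg x)

lemma awp_shift_eq {Θ : (I → ℤ) → ℝ} {lo hi : I → ℤ} (hsupp : ∀ x, Θ x ≠ 0 → x ∈ bx lo hi)
    (p : I) (g : (I → ℤ) → ℝ) :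
    ∑ x ∈ bx (lo - 1) hi, Θ (x + uv p) * g (x + uv p) = ∑ x ∈ bx lo hi, Θ x * g x := by
  rw [← sum_image (s := bx (lo - 1) hi) (g := fun x => x + uv p) (f := fun x => Θ x * g x)
    (fun x _ y _ h => add_right_cancel h)]
  symm
  refine sum_subset (fun x hx => mem_image.2 ⟨x - uv p, ?_, sub_add_cancel _ _⟩) fun x _ hx => ?_
  · rw [mem_bx] at hx ⊢
    intro i
    have := hx i
    simp only [Pi.sub_apply, Pi.one_apply, uv, Pi.single_apply]
    split_ifs <;> omega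
  · rw [not_not.1 fun h => hx (hsupp x h), zero_mul]

section
variable {Θ G : (I → ℤ) → ℝ} (hΘ : DL uv univ Θ) (hG : DL uv univ G)
include hΘ hG

lemma awpEn_nonneg {t : I → ℝ} (ht : ∀ i, 0 < t i) (F : (I → ℤ) → ℝ) (gb : I → (I → ℤ) → ℝ)
    (k : I) (x : I → ℤ) : 0 ≤ awpEn Θ G t F gb k x :=
  sum_nonneg fun p _ => mul_nonneg (div_nonneg (ht p).le (ht k).le) (add_nonneg
    (mul_nonneg (mul_nonneg (hΘ.nonneg _) (hG.nonneg _)) (sq_nonneg _))
    (mul_nonneg (mul_nonneg (hΘ.nonneg _) (hG.nonneg _)) (sq_nonneg _)))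

lemma awp_auxE_nonneg (lo hi : I → ℤ) {t : I → ℝ} (ht : ∀ i, 0 < t i) (F : (I → ℤ) → ℝ)
    (gb : I → (I → ℤ) → ℝ) : 0 ≤ auxE Θ G lo hi t F gb :=
  sum_nonneg fun k _ => sum_nonneg fun x _ => awpEn_nonneg hΘ hG ht F gb k x

lemma awp_conv_nonneg (lo hi γ : I → ℤ) : 0 ≤ conv Θ G lo hi γ :=
  sum_nonneg fun _ _ => mul_nonneg (hΘ.nonneg _) (hG.nonneg _)

lemma awp_qc (J : Finset I) {lo hi : I → ℤ} (hl : ∀ i, lo i ≤ hi i) (y : I → ℤ) (i : I)
    (a b c : ℤ) (hab : a ≤ b) (hbc : b ≤ c) :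
    min (awpS J lo hi (y + a • uv i) fun x => Θ x * G (-x))
      (awpS J lo hi (y + c • uv i) fun x => Θ x * G (-x)) ≤
      awpS J lo hi (y + b • uv i) fun x => Θ x * G (-x) := by
  have h1 := (hΘ.pairSys hG).conS (α := Sum.inl) (β := Sum.inr) (J := J) (lo := lo) (hi := hi)
    (fun _ _ => mem_univ _) (fun _ _ => mem_univ _) fun l _ => hl l
  have h2 := h1.root (p := Sum.inl i) (q := Sum.inr i) (mem_univ _) (mem_univ _) (y, -y)
  have e : ∀ j : ℤ, ∑ a ∈ boxJ J lo hi, (fun z : (I → ℤ) × (I → ℤ) => Θ z.1 * G z.2)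
      (nd awpE Sum.inl Sum.inr ((y, -y) + j • (awpE (Sum.inl i) - awpE (Sum.inr i))) a) =
      awpS J lo hi (y + j • uv i) fun x => Θ x * G (-x) := by
    intro j
    refine sum_congr rfl fun a _ => ?_
    simp only [awp_nd, Sum.elim_inl, Sum.elim_inr, Prod.mk_sub_mk, Prod.smul_mk, Prod.mk_add_mk,
      sub_zero, zero_sub, smul_neg]
    congr 2; abel
  have h3 := h2.qc hab hbc
  simpa only [e] using h3

lemma awp_edge_sys {J : Finset I} {i : I} (hiJ : i ∉ J) {lo hi : I → ℤ} (hl : ∀ i, lo i ≤ hi i)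
    {L M : ℝ} (hL : ∀ i, ((hi i - lo i + 1 : ℤ) : ℝ) ≤ L) (hL1 : 1 ≤ L) {t : I → ℝ}
    (ht : ∀ i, 0 < t i) (hM : 1 ≤ M) {F : (I → ℤ) → ℝ} (hF : ∀ x, 0 ≤ F x ∧ F x ≤ 1)
    (gb : I → (I → ℤ) → ℝ) (y : I → ℤ) :
    min (awpS J lo hi y fun x => Θ x * G (-x)) (awpS J lo hi (y + uv i) fun x => Θ x * G (-x)) *
      ((awpS J lo hi (y + uv i) fun x => Θ x * G (-x) * F x) /
          (awpS J lo hi (y + uv i) fun x => Θ x * G (-x)) -
        (awpS J lo hi y fun x => Θ x * G (-x) * F x) /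
          (awpS J lo hi y fun x => Θ x * G (-x))) ^ 2 ≤
      awpS J lo hi y fun x => 3 * (Fintype.card I + 2) * L ^ 2 * M * awpEn Θ G t F gb i x +
        awpHo Θ G t i x / M := by
  have hw : ∀ x y, 0 ≤ Θ x * G y := fun x y => mul_nonneg (hΘ.nonneg _) (hG.nonneg _)
  have hk := (hΘ.pairSys hG).key (α := Sum.inl) (β := Sum.inr) (J := J) (lo := lo) (hi := hi)
    (fun _ _ => mem_univ _) (fun _ _ => mem_univ _) (fun l _ => hl l) (fun l _ => hL l)
    (fun z => F z.1) (fun z => gb i z.1) (y, -y - uv i) (mem_univ (Sum.inl i))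
    (mem_univ (Sum.inr i))
  simp only [awp_kZ_inl, awp_kZ_inr, awp_kG_inl, awp_kG_inr, awp_kE_inl, awp_kE_inr,
    awp_kX_lr] at hk
  have e1 : (awpS J lo hi y fun x => Θ (x + uv i) * G (-x - uv i)) =
      awpS J lo hi (y + uv i) fun x => Θ x * G (-x) := by
    rw [awpS_shift]
    exact awpS_congr _ _ _ _ fun x => by rw [neg_add']
  have e2 : (awpS J lo hi y fun x => Θ (x + uv i) * G (-x - uv i) * F (x + uv i)) =
      awpS J lo hi (y + uv i) fun x => Θ x * G (-x) * F x := by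
    rw [awpS_shift]
    exact awpS_congr _ _ _ _ fun x => by rw [neg_add']
  have e3 : (awpS J lo hi y fun x => Θ x * G (uv i - uv i - x)) =
      awpS J lo hi y fun x => Θ x * G (-x) := by
    simp only [sub_self, zero_sub]
  have e4 : (awpS J lo hi y fun x => Θ x * G (uv i - uv i - x) * F x) =
      awpS J lo hi y fun x => Θ x * G (-x) * F x := by
    simp only [sub_self, zero_sub]
  rw [e1, e2, e3, e4] at hk
  set E : I → ℝ := fun l =>
    (awpS J lo hi y fun x => Θ (x + uv l) * G (-x - uv i) * (F (x + uv l) - gb i x) ^ 2) +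
      awpS J lo hi y fun x => Θ x * G (uv l - uv i - x) * (F x - gb i x) ^ 2 with hE
  set X : I → ℝ := fun l => awpS J lo hi y fun x => Θ (x + uv i) * G (uv i - uv l - (x + uv i))
    with hX
  have hn1 : ∀ l, 0 ≤ awpS J lo hi y
      fun x => Θ (x + uv l) * G (-x - uv i) * (F (x + uv l) - gb i x) ^ 2 := fun l =>
    awpS_nonneg _ _ _ _ fun x => mul_nonneg (hw _ _) (sq_nonneg _)
  have hn2 : ∀ l, 0 ≤ awpS J lo hi y
      fun x => Θ x * G (uv l - uv i - x) * (F x - gb i x) ^ 2 := fun l =>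
    awpS_nonneg _ _ _ _ fun x => mul_nonneg (hw _ _) (sq_nonneg _)
  have hE0 : ∀ l, 0 ≤ E l := fun l => add_nonneg (hn1 l) (hn2 l)
  have hm : ∀ y, 0 ≤ (awpS J lo hi y fun x => Θ x * G (-x) * F x) /
      (awpS J lo hi y fun x => Θ x * G (-x)) ∧ (awpS J lo hi y fun x => Θ x * G (-x) * F x) /
      (awpS J lo hi y fun x => Θ x * G (-x)) ≤ 1 := fun y =>
    awp_mean_mem (boxJ J lo hi) (fun a => Θ (y + a) * G (-(y + a))) (fun a => F (y + a))
      (fun a _ => hw _ _) fun a => hF _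
  have hZ : ∀ y, 0 ≤ awpS J lo hi y fun x => Θ x * G (-x) := fun y =>
    awpS_nonneg _ _ _ _ fun x => hw _ _
  have hX0 : ∀ l, 0 ≤ X l := fun l => awpS_nonneg _ _ _ _ fun x => hw _ _
  have hr : ∀ l, 0 < t l / t i := fun l => div_pos (ht l) (ht i)
  have hcard : (J.card : ℝ) ≤ Fintype.card I + 2 := by
    have : (J.card : ℝ) ≤ Fintype.card I := by exact_mod_cast card_le_univ J
    linarith
  have hN1 : (1 : ℝ) ≤ Fintype.card I + 2 := by
    have : (0 : ℝ) ≤ Fintype.card I := Nat.cast_nonneg _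
    linarith
  have h := awp_edge J (X := X) (E := E) (r := fun l => t l / t i) (M := M)
    (hZ (y + uv i)) (hZ y) (hn1 i) (hn2 i) hX0 hE0 hr hL1 hM hcard hN1 (hm _) (hm _) hk
  refine h.trans ?_
  have f1 : (awpS J lo hi y fun x => 3 * (Fintype.card I + 2) * L ^ 2 * M * awpEn Θ G t F gb i x +
        awpHo Θ G t i x / M) = 3 * (Fintype.card I + 2) * L ^ 2 * M * ∑ l, t l / t i * E l +
          (∑ l, X l / (t l / t i)) / M := by
    unfold awpS
    rw [sum_add_distrib, ← mul_sum, ← sum_div]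
    congr 2
    · unfold awpEn
      rw [sum_comm]
      refine sum_congr rfl fun l _ => ?_
      rw [← mul_sum, sum_add_distrib]
      rfl
    · unfold awpHo
      rw [sum_comm]
      refine sum_congr rfl fun l _ => ?_
      rw [← mul_sum, div_div_eq_mul_div, mul_div_assoc, mul_comm]
      rfl
  rw [f1]
  refine add_le_add (mul_le_mul_of_nonneg_left ?_ (by positivity))
    (div_le_div_of_nonneg_right (sum_le_sum_of_subset_of_nonneg (subset_univ _)
      fun l _ _ => div_nonneg (hX0 l) (hr l).le) (by linarith))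
  refine le_trans (le_of_eq ?_) (sum_le_sum_of_subset_of_nonneg (subset_univ (insert i J))
      fun l _ _ => mul_nonneg (hr l).le (hE0 l))
  rw [sum_insert hiJ, div_self (ht i).ne', one_mul]

lemma awp_var_ind {lo hi : I → ℤ} (hl : ∀ i, lo i ≤ hi i)
    {L M : ℝ} (hL : ∀ i, ((hi i - lo i + 1 : ℤ) : ℝ) ≤ L) (hL1 : 1 ≤ L) {t : I → ℝ}
    (ht : ∀ i, 0 < t i) (hM : 1 ≤ M) {F : (I → ℤ) → ℝ} (hF : ∀ x, 0 ≤ F x ∧ F x ≤ 1)
    (gb : I → (I → ℤ) → ℝ) (J : Finset I) (y : I → ℤ) :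
    (awpS J lo hi y fun x => Θ x * G (-x) * (F x - (awpS J lo hi y fun x => Θ x * G (-x) * F x) /
      awpS J lo hi y fun x => Θ x * G (-x)) ^ 2) ≤
      ∑ i ∈ J, L ^ 2 * awpS J lo hi y fun x =>
        3 * (Fintype.card I + 2) * L ^ 2 * M * awpEn Θ G t F gb i x + awpHo Θ G t i x / M := by
  have hw : ∀ x y, 0 ≤ Θ x * G y := fun x y => mul_nonneg (hΘ.nonneg _) (hG.nonneg _)
  induction J using Finset.induction_on generalizing y with
  | empty =>
    simp only [awpS_empty, sum_empty]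
    by_cases h0 : Θ y * G (-y) = 0
    · rw [h0, zero_mul]
    · rw [mul_div_cancel_left₀ _ h0, sub_self]; simp
  | insert i J hiJ ih =>
    obtain ⟨c, hc⟩ := awp_path (fun b => awpS J lo hi (y + b • uv i) fun x => Θ x * G (-x))
      (fun b => (awpS J lo hi (y + b • uv i) fun x => Θ x * G (-x) * F x) /
        awpS J lo hi (y + b • uv i) fun x => Θ x * G (-x))
      (fun b => awpS_nonneg _ _ _ _ fun x => hw _ _) (awp_qc hΘ hG J hl y i) (hl i) (hL i)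
    set d := (awpS J lo hi (y + c • uv i) fun x => Θ x * G (-x) * F x) /
        awpS J lo hi (y + c • uv i) fun x => Θ x * G (-x) with hd
    have split : ∀ (J : Finset I) (y : I → ℤ), (awpS J lo hi y fun x => Θ x * G (-x) * (F x - d) ^ 2) =
        (awpS J lo hi y fun x => Θ x * G (-x) *
          (F x - (awpS J lo hi y fun x => Θ x * G (-x) * F x) /
            awpS J lo hi y fun x => Θ x * G (-x)) ^ 2) +
        (awpS J lo hi y fun x => Θ x * G (-x)) *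
          ((awpS J lo hi y fun x => Θ x * G (-x) * F x) /
            (awpS J lo hi y fun x => Θ x * G (-x)) - d) ^ 2 := fun J y =>
      awp_var_split (boxJ J lo hi) (fun a => Θ (y + a) * G (-(y + a))) (fun a => F (y + a))
        (fun a _ => hw _ _) d
    have h1 := split (insert i J) y
    have h2 : 0 ≤ (awpS (insert i J) lo hi y fun x => Θ x * G (-x)) *
          ((awpS (insert i J) lo hi y fun x => Θ x * G (-x) * F x) /
            (awpS (insert i J) lo hi y fun x => Θ x * G (-x)) - d) ^ 2 :=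
      mul_nonneg (awpS_nonneg _ _ _ _ fun x => hw _ _) (sq_nonneg _)
    refine (le_add_of_nonneg_right h2).trans (h1.symm.le.trans ?_)
    rw [awpS_insert hiJ, sum_congr rfl fun b _ => split J _, sum_add_distrib, sum_insert hiJ,
      add_comm]
    refine add_le_add (hc.trans (mul_le_mul_of_nonneg_left ?_ (sq_nonneg _))) ?_
    · rw [awpS_insert hiJ]
      refine sum_le_sum fun b _ => ?_
      rw [add_smul, one_smul, ← add_assoc]
      exact awp_edge_sys hΘ hG hiJ hl hL hL1 ht hM hF gb _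
    · refine (sum_le_sum fun b _ => ih _).trans (le_of_eq ?_)
      rw [sum_comm]
      refine sum_congr rfl fun l _ => ?_
      rw [awpS_insert hiJ, mul_sum]

end

/-- Variance of the perfect states.  Order `I` (`Fintype.equivFin`), decompose the variance along the
martingale that reveals the coordinates one by one.  For a prefix `σ` and the coordinate `i` let
`Z b`, `h b` be mass and mean of `F` for `x i = b`; `Z` is quasi-concave (`DL.conS`, `DL.root`,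
`DL1.qc`), hence with `μ b = min (Z b) (Z (b + 1))`
`∑ Z b (h b - h b*)² ≤ L² ∑ μ b (h (b + 1) - h b)²` for a mode `b*`.  `DL.key` for the product system
(contract the later coordinates with windows `[lo - 1, hi]`, `p₁ = inl i`, `p₂ = inr i`, base point
`(σ, b; -σ, -b - 1)`) bounds `μ b (h (b+1) - h b)²` by `3 N L² M` times the weighted energy of the nodes
`(σ, b)` when `t i / t l * X l ≤ M μ b` for all later `l`; the other edges have total
`∑ μ ≤ N² C Z₀ / M` (Markov), and there `|h (b+1) - h b| ≤ 1`. -/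
theorem aux_var {Θ G : (I → ℤ) → ℝ} (hΘ : DL uv univ Θ) (hG : DL uv univ G) {lo hi : I → ℤ}
    (hsupp : ∀ x, Θ x ≠ 0 → x ∈ bx lo hi) {L C M : ℝ}
    (hL : ∀ i, ((hi i - lo i + 3 : ℤ) : ℝ) ≤ L) (hL1 : 1 ≤ L) {t : I → ℝ} (ht : ∀ i, 0 < t i)
    (hC0 : 0 ≤ C) (hM : 1 ≤ M)
    (hC : ∀ p k, t p * conv Θ G lo hi (uv p - uv k) ≤ C * (t k * conv Θ G lo hi 0))
    {F : (I → ℤ) → ℝ} (hF : ∀ x, 0 ≤ F x ∧ F x ≤ 1) (gb : I → (I → ℤ) → ℝ) :
    ∃ m, 0 ≤ m ∧ m ≤ 1 ∧ ∑ x ∈ bx lo hi, Θ x * G (-x) * (F x - m) ^ 2 ≤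
      3 * (Fintype.card I + 2) * L ^ 4 * M * auxE Θ G lo hi t F gb +
        L ^ 2 * (Fintype.card I) ^ 2 * C / M * conv Θ G lo hi 0 := by
  have hw : ∀ x y, 0 ≤ Θ x * G y := fun x y => mul_nonneg (hΘ.nonneg _) (hG.nonneg _)
  have hE := awp_auxE_nonneg hΘ hG lo hi ht F gb
  have hZ := awp_conv_nonneg hΘ hG lo hi 0
  have hM0 : 0 < M := by linarith
  by_cases hl : ∀ i, lo i ≤ hi i
  swap
  · refine ⟨0, le_rfl, zero_le_one, ?_⟩
    have : bx lo hi = ∅ := by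
      refine eq_empty_of_forall_notMem fun x hx => hl fun i => ?_
      exact (mem_bx.1 hx i).1.trans (mem_bx.1 hx i).2
    rw [this, sum_empty]
    positivity
  have h := awp_var_ind hΘ hG (lo := lo - 1) (hi := hi) (L := L) (M := M)
    (fun i => by have := hl i; simp only [Pi.sub_apply, Pi.one_apply]; omega)
    (fun i => le_trans (by
      simp only [Pi.sub_apply, Pi.one_apply]; exact Int.cast_le.2 (by omega)) (hL i))
    hL1 ht hM hF gb univ 0
  simp only [awpS_univ] at h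
  have hm := awp_mean_mem (bx (lo - 1) hi) (fun x => Θ x * G (-x)) F (fun a _ => hw _ _) hF
  refine ⟨_, hm.1, hm.2, le_trans (sum_le_sum_of_subset_of_nonneg (fun x hx => ?_)
    fun x _ _ => mul_nonneg (hw _ _) (sq_nonneg _)) (h.trans ?_)⟩
  · rw [mem_bx] at hx ⊢
    intro i
    have := hx i
    simp only [Pi.sub_apply, Pi.one_apply]
    omega
  have hH : ∀ i, ∑ x ∈ bx (lo - 1) hi, awpHo Θ G t i x ≤
      Fintype.card I * (C * conv Θ G lo hi 0) := by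
    intro i
    unfold awpHo
    rw [sum_comm]
    refine (sum_le_card_nsmul _ _ (C * conv Θ G lo hi 0) fun l _ => ?_).trans (by simp)
    rw [← mul_sum, awp_shift_eq hsupp i (fun x => G (uv i - uv l - x)), div_mul_eq_mul_div,
      div_le_iff₀ (ht l)]
    exact (hC i l).trans (le_of_eq (by ring))
  simp only [sum_add_distrib, ← mul_sum, ← sum_div]
  rw [← awp_auxE_eq]
  have h2 : ∑ i, ∑ x ∈ bx (lo - 1) hi, awpHo Θ G t i x ≤
      Fintype.card I * (Fintype.card I * (C * conv Θ G lo hi 0)) :=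
    (sum_le_card_nsmul _ _ _ fun i _ => hH i).trans (by simp)
  have h3 := mul_le_mul_of_nonneg_left (div_le_div_of_nonneg_right h2 hM0.le) (sq_nonneg L)
  refine le_trans (le_of_eq (mul_add _ _ _)) (add_le_add (le_of_eq (by ring))
    (h3.trans (le_of_eq (by ring))))

lemma awp_sqrt_le {a b x y : ℝ} (ha : 0 ≤ a) (hb : 0 ≤ b) (hx : 0 ≤ x) (hy : 0 ≤ y)
    (h : a ^ 2 * x ≤ b ^ 2 * y) : a * √x ≤ b * √y := by
  refine (pow_le_pow_iff_left₀ (by positivity) (by positivity) two_ne_zero).1 ?_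
  rwa [mul_pow, mul_pow, Real.sq_sqrt hx, Real.sq_sqrt hy]

lemma awp_final {Z₀ Zp A V Ep Ek E r C L δ : ℝ} {X El : I → ℝ} (hZ₀ : 0 ≤ Z₀) (hZp : 0 ≤ Zp)
    (hA : A ≤ Zp) (hV : 0 ≤ V) (hEp : 0 ≤ Ep) (hEk : 0 ≤ Ek) (hE : 0 ≤ E) (hr : 0 < r)
    (hC : 1 ≤ C) (hL : 1 ≤ L) (hδ : 0 < δ) (hX : ∀ l, 0 ≤ X l) (hEl : ∀ l, 0 ≤ El l)
    (h1 : r * Zp ≤ C * Z₀) (h2 : r * Ep ≤ 4 * E) (h3 : Ek ≤ 4 * E)
    (h4 : ∀ l, r * (X l * El l) ≤ C * Z₀ * (4 * E))
    (hk : |Z₀ * A - Zp * V| ≤ Z₀ * √(Zp * Ep) + Zp * √(Z₀ * Ek) +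
      ∑ l, L * √(Zp * Z₀ * X l * El l)) :
    r * A ≤ C * V + δ / 2 * Z₀ + 2 * (C * L * (Fintype.card I + 2)) ^ 2 / δ * E := by
  have hC0 : 0 ≤ C := by linarith
  have hL0 : 0 ≤ L := by linarith
  have hN : (0 : ℝ) ≤ Fintype.card I := Nat.cast_nonneg _
  rcases hZ₀.eq_or_lt with h0 | hpos
  · have := mul_le_mul_of_nonneg_left hA hr.le
    rw [← h0, mul_zero] at h1
    rw [← h0]
    have : 0 ≤ C * V + δ / 2 * 0 + 2 * (C * L * (Fintype.card I + 2)) ^ 2 / δ * E := by positivity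
    linarith
  have hs : 0 ≤ √(Z₀ * E) := Real.sqrt_nonneg _
  have a1 : r * √(Zp * Ep) ≤ (2 * C) * √(Z₀ * E) := by
    refine awp_sqrt_le hr.le (by positivity) (by positivity) (by positivity) ?_
    calc r ^ 2 * (Zp * Ep) = r * Zp * (r * Ep) := by ring
      _ ≤ C * Z₀ * (4 * E) := mul_le_mul h1 h2 (by positivity) (by positivity)
      _ = 1 * (C * 4 * (Z₀ * E)) := by ring
      _ ≤ C * (C * 4 * (Z₀ * E)) := mul_le_mul_of_nonneg_right hC (by positivity)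
      _ = _ := by ring
  have a2 : 1 * √(Z₀ * Ek) ≤ 2 * √(Z₀ * E) := by
    refine awp_sqrt_le zero_le_one (by positivity) (by positivity) (by positivity) ?_
    have := mul_le_mul_of_nonneg_left h3 hZ₀
    linarith
  have a3 : ∀ l, r * √(Zp * Z₀ * X l * El l) ≤ (2 * C * Z₀) * √(Z₀ * E) := by
    intro l
    have := hX l
    have := hEl l
    refine awp_sqrt_le hr.le (by positivity) (by positivity) (by positivity) ?_
    calc r ^ 2 * (Zp * Z₀ * X l * El l) = r * Zp * (r * (X l * El l)) * Z₀ := by ring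
      _ ≤ C * Z₀ * (C * Z₀ * (4 * E)) * Z₀ := mul_le_mul_of_nonneg_right
          (mul_le_mul h1 (h4 l) (by positivity) (by positivity)) hZ₀
      _ = _ := by ring
  have a4 : r * ∑ l, L * √(Zp * Z₀ * X l * El l) ≤
      Fintype.card I * (L * ((2 * C * Z₀) * √(Z₀ * E))) := by
    rw [mul_sum]
    refine (sum_le_card_nsmul _ _ (L * ((2 * C * Z₀) * √(Z₀ * E))) fun l _ => ?_).trans (by simp)
    rw [mul_left_comm]
    exact mul_le_mul_of_nonneg_left (a3 l) hL0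
  have a5 : 2 * (C * L * (Fintype.card I + 2)) * √(Z₀ * E) ≤
      δ / 2 * Z₀ + 2 * (C * L * (Fintype.card I + 2)) ^ 2 / δ * E := by
    generalize hK : C * L * (Fintype.card I + 2) = K
    have hK0 : 0 ≤ K := by rw [← hK]; positivity
    refine (pow_le_pow_iff_left₀ (by positivity) (by positivity) two_ne_zero).1 ?_
    rw [mul_pow, Real.sq_sqrt (by positivity)]
    have e : (2 * K) ^ 2 * (Z₀ * E) = 4 * (δ / 2 * Z₀) * (2 * K ^ 2 / δ * E) := by
      field_simp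
      ring
    rw [e]
    nlinarith [sq_nonneg (δ / 2 * Z₀ - 2 * K ^ 2 / δ * E)]
  have b1 := mul_le_mul_of_nonneg_left ((le_abs_self _).trans hk) hr.le
  have b2 := mul_le_mul_of_nonneg_right h1 hV
  have b3 := mul_le_mul_of_nonneg_left a1 hZ₀
  have b4 : r * Zp * √(Z₀ * Ek) ≤ C * Z₀ * (2 * √(Z₀ * E)) :=
    mul_le_mul h1 (by linarith) (Real.sqrt_nonneg _) (by positivity)
  have b5 : 1 * (4 * C * Z₀ * √(Z₀ * E)) ≤ L * (4 * C * Z₀ * √(Z₀ * E)) :=
    mul_le_mul_of_nonneg_right hL (by positivity)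
  have b6 : Z₀ * (r * A) ≤ Z₀ * (C * V + 2 * (C * L * (Fintype.card I + 2)) * √(Z₀ * E)) := by
    rw [mul_add r, mul_add r] at b1
    nlinarith
  have b7 := le_of_mul_le_mul_left b6 hpos
  linarith

lemma awp_clamp {F g : ℝ} (hF : 0 ≤ F ∧ F ≤ 1) : (F - max 0 (min 1 g)) ^ 2 ≤ (F - g) ^ 2 := by
  obtain ⟨h0, h1⟩ := hF
  rcases le_total 1 g with h | h
  · rw [min_eq_left h, max_eq_right zero_le_one]; nlinarith
  · rw [min_eq_right h]
    rcases le_total 0 g with h' | h'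
    · rw [max_eq_right h']
    · rw [max_eq_left h']; nlinarith

lemma awp_sq4 {F g m : ℝ} (hF : 0 ≤ F ∧ F ≤ 1) (hg : 0 ≤ g ∧ g ≤ 1) (hm : 0 ≤ m ∧ m ≤ 1) :
    ((F - m) ^ 2 - (g - m) ^ 2) ^ 2 ≤ 4 * (F - g) ^ 2 := by
  have h : (F + g - 2 * m) ^ 2 ≤ 4 := by nlinarith [hF.1, hF.2, hg.1, hg.2, hm.1, hm.2]
  calc ((F - m) ^ 2 - (g - m) ^ 2) ^ 2 = (F + g - 2 * m) ^ 2 * (F - g) ^ 2 := by ring
    _ ≤ _ := mul_le_mul_of_nonneg_right h (sq_nonneg _)

/-- All types.  Clamp `gb` to `[0, 1]` (this decreases `auxE`), take `m` from `aux_var` with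
`M = 2 L² (N + 1)² C² / δ`, and apply `DL.key` to `(F - m)²`, `(gb k - m)²` with all pairs contracted
(windows `[lo - 1, hi]`, base point `(0, - uv k)`), `p₁ = inl p`, `p₂ = inl k`; the hole terms are
`conv (uv p - uv l)` and `(t p / t k)² = (t p / t k) (t p / t l) (t l / t k)`. -/
theorem aux_wp {Θ G : (I → ℤ) → ℝ} (hΘ : DL uv univ Θ) (hG : DL uv univ G) {lo hi : I → ℤ}
    (hsupp : ∀ x, Θ x ≠ 0 → x ∈ bx lo hi) {L C δ : ℝ}
    (hL : ∀ i, ((hi i - lo i + 3 : ℤ) : ℝ) ≤ L) (hL1 : 1 ≤ L) {t : I → ℝ} (ht : ∀ i, 0 < t i)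
    (hC1 : 1 ≤ C) (hδ : 0 < δ) (hδ1 : δ ≤ 1)
    (hC : ∀ p k, t p * conv Θ G lo hi (uv p - uv k) ≤ C * (t k * conv Θ G lo hi 0))
    {F : (I → ℤ) → ℝ} (hF : ∀ x, 0 ≤ F x ∧ F x ≤ 1) (gb : I → (I → ℤ) → ℝ) :
    ∃ m, 0 ≤ m ∧ m ≤ 1 ∧ ∀ p k,
      t p / t k * ∑ x ∈ bx lo hi, Θ x * G (uv p - uv k - x) * (F x - m) ^ 2 ≤
        30 * (Fintype.card I + 2) ^ 3 * L ^ 6 * C ^ 3 / δ * auxE Θ G lo hi t F gb +
          δ * conv Θ G lo hi 0 := by
  have hw : ∀ x y, 0 ≤ Θ x * G y := fun x y => mul_nonneg (hΘ.nonneg _) (hG.nonneg _)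
  have hE := awp_auxE_nonneg hΘ hG lo hi ht F gb
  have hZ := awp_conv_nonneg hΘ hG lo hi
  have hN : (0 : ℝ) ≤ Fintype.card I := Nat.cast_nonneg _
  have hC0 : 0 < C := by linarith
  have hL0 : 0 < L := by linarith
  by_cases hl : ∀ i, lo i ≤ hi i
  swap
  · refine ⟨0, le_rfl, zero_le_one, fun p k => ?_⟩
    have : bx lo hi = ∅ := by
      refine eq_empty_of_forall_notMem fun x hx => hl fun i => ?_
      exact (mem_bx.1 hx i).1.trans (mem_bx.1 hx i).2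
    rw [this, sum_empty, mul_zero]
    have := hZ 0
    positivity
  obtain ⟨g, hg⟩ : ∃ g : I → (I → ℤ) → ℝ, ∀ k x, g k x = max 0 (min 1 (gb k x)) :=
    ⟨_, fun _ _ => rfl⟩
  have hg01 : ∀ k x, 0 ≤ g k x ∧ g k x ≤ 1 := fun k x => by
    rw [hg]; exact ⟨le_max_left _ _, max_le zero_le_one (min_le_left _ _)⟩
  have hM : 1 ≤ 2 * L ^ 2 * (Fintype.card I + 1) ^ 2 * C ^ 2 / δ := by
    rw [le_div_iff₀ hδ, one_mul]
    have a1 : 1 ≤ L ^ 2 := one_le_pow₀ hL1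
    have a2 : (1 : ℝ) ≤ (Fintype.card I + 1) ^ 2 := one_le_pow₀ (by linarith)
    have a3 : 1 ≤ C ^ 2 := one_le_pow₀ hC1
    have a4 := one_le_mul_of_one_le_of_one_le (one_le_mul_of_one_le_of_one_le a1 a2) a3
    linarith
  obtain ⟨m, hm0, hm1, hV⟩ := aux_var hΘ hG hsupp hL hL1 ht hC0.le hM hC hF gb
  refine ⟨m, hm0, hm1, fun p k => ?_⟩
  have hk := (hΘ.pairSys hG).key (α := Sum.inl) (β := Sum.inr) (J := univ) (lo := lo - 1) (hi := hi)
    (L := L) (fun _ _ => mem_univ _) (fun _ _ => mem_univ _)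
    (fun i _ => by have := hl i; simp only [Pi.sub_apply, Pi.one_apply]; omega)
    (fun i _ => le_trans (by
      simp only [Pi.sub_apply, Pi.one_apply]; exact Int.cast_le.2 (by omega)) (hL i))
    (fun z => (F z.1 - m) ^ 2) (fun z => (g k z.1 - m) ^ 2)
    (0, -0 - uv k) (mem_univ (Sum.inl p)) (mem_univ (Sum.inl k))
  simp only [awp_kZ_inl, awp_kX_ll, awp_kG_inl Θ G (fun x => (F x - m) ^ 2),
    awp_kE_inl Θ G (fun x => (F x - m) ^ 2) (fun x => (g k x - m) ^ 2),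
    awp_kE_inr Θ G (fun x => (F x - m) ^ 2) (fun x => (g k x - m) ^ 2), awpS_univ] at hk
  have e1 : ∀ q, ∑ x ∈ bx (lo - 1) hi, Θ (x + uv q) * G (-x - uv k) =
      conv Θ G lo hi (uv q - uv k) := fun q => by
    rw [conv, ← awp_shift_eq hsupp q]
    exact sum_congr rfl fun x _ => by congr 2; abel
  have e2 : ∀ q, ∑ x ∈ bx (lo - 1) hi, Θ (x + uv q) * G (-x - uv k) * (F (x + uv q) - m) ^ 2 =
      ∑ x ∈ bx lo hi, Θ x * G (uv q - uv k - x) * (F x - m) ^ 2 := fun q => by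
    simp only [mul_assoc]
    rw [← awp_shift_eq hsupp q]
    exact sum_congr rfl fun x _ => by congr 3; abel
  rw [e1, e1, e2, e2, sub_self] at hk
  simp only [zero_sub] at hk
  have n1 : ∀ q, 0 ≤ ∑ x ∈ bx (lo - 1) hi, Θ (x + uv q) * G (-x - uv k) *
      ((F (x + uv q) - m) ^ 2 - (g k x - m) ^ 2) ^ 2 := fun q =>
    sum_nonneg fun x _ => mul_nonneg (hw _ _) (sq_nonneg _)
  have n2 : ∀ q, 0 ≤ ∑ x ∈ bx (lo - 1) hi, Θ x * G (uv q - uv k - x) *
      ((F x - m) ^ 2 - (g k x - m) ^ 2) ^ 2 := fun q =>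
    sum_nonneg fun x _ => mul_nonneg (hw _ _) (sq_nonneg _)
  have hr : ∀ q l, 0 < t q / t l := fun q l => div_pos (ht q) (ht l)
  have n3 : ∀ q, t q / t k * (∑ x ∈ bx (lo - 1) hi, Θ (x + uv q) * G (-x - uv k) *
      ((F (x + uv q) - m) ^ 2 - (g k x - m) ^ 2) ^ 2 + ∑ x ∈ bx (lo - 1) hi,
        Θ x * G (uv q - uv k - x) * ((F x - m) ^ 2 - (g k x - m) ^ 2) ^ 2) ≤
      4 * auxE Θ G lo hi t F gb := by
    intro q
    have c1 : ∑ x ∈ bx (lo - 1) hi, awpEn Θ G t F gb k x ≤ auxE Θ G lo hi t F gb :=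
      single_le_sum (f := fun k => ∑ x ∈ bx (lo - 1) hi, awpEn Θ G t F gb k x)
        (fun k _ => sum_nonneg fun x _ => awpEn_nonneg hΘ hG ht F gb k x) (mem_univ k)
    refine le_trans ?_ (mul_le_mul_of_nonneg_left c1 (by norm_num))
    rw [← sum_add_distrib, mul_sum, mul_sum]
    refine sum_le_sum fun x _ => ?_
    have c2 : t q / t k * (Θ (x + uv q) * G (-x - uv k) * (F (x + uv q) - gb k x) ^ 2 +
        Θ x * G (uv q - uv k - x) * (F x - gb k x) ^ 2) ≤ awpEn Θ G t F gb k x :=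
      single_le_sum (f := fun q => t q / t k * (Θ (x + uv q) * G (-x - uv k) *
        (F (x + uv q) - gb k x) ^ 2 + Θ x * G (uv q - uv k - x) * (F x - gb k x) ^ 2))
        (fun q _ => mul_nonneg (hr q k).le (add_nonneg (mul_nonneg (hw _ _) (sq_nonneg _))
          (mul_nonneg (hw _ _) (sq_nonneg _)))) (mem_univ q)
    refine le_trans ?_ (mul_le_mul_of_nonneg_left c2 (by norm_num))
    rw [mul_left_comm]
    refine mul_le_mul_of_nonneg_left ?_ (hr q k).le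
    have c3 : ∀ y, ((F y - m) ^ 2 - (g k x - m) ^ 2) ^ 2 ≤ 4 * (F y - gb k x) ^ 2 := fun y =>
      (awp_sq4 (hF y) (hg01 k x) ⟨hm0, hm1⟩).trans
        (mul_le_mul_of_nonneg_left (by rw [hg]; exact awp_clamp (hF y)) (by norm_num))
    have c4 := mul_le_mul_of_nonneg_left (c3 (x + uv q)) (hw (x + uv q) (-x - uv k))
    have c5 := mul_le_mul_of_nonneg_left (c3 x) (hw x (uv q - uv k - x))
    linarith
  have hC' : ∀ l, t p / t l * conv Θ G lo hi (uv p - uv l) ≤ C * conv Θ G lo hi 0 := fun l => by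
    rw [div_mul_eq_mul_div, div_le_iff₀ (ht l)]
    exact (hC p l).trans (le_of_eq (by ring))
  have hfin := awp_final (r := t p / t k) (C := C) (δ := δ) (E := auxE Θ G lo hi t F gb) (hZ 0)
    (hZ _) (sum_le_sum fun x _ => mul_le_of_le_one_right (hw _ _)
      (by nlinarith [(hF x).1, (hF x).2]))
    (sum_nonneg fun x _ => mul_nonneg (hw _ _) (sq_nonneg _)) (n1 p) (n1 k) hE (hr p k) hC1 hL1 hδ
    (fun l => sum_nonneg fun x _ => hw _ _) (fun l => add_nonneg (n1 l) (n2 l)) (hC' k)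
    (le_trans (mul_le_mul_of_nonneg_left (le_add_of_nonneg_right (n2 p)) (hr p k).le) (n3 p))
    (by have := n3 k; rw [div_self (ht k).ne', one_mul] at this; linarith [n2 k])
    (fun l => by
      have d1 := awp_shift_le hsupp hΘ.nonneg (bx (lo - 1) hi) (uv p + uv k)
        (g := fun x => G (uv p - uv l - x)) fun x => hG.nonneg _
      have d2 := (mul_le_mul_of_nonneg_left d1 (hr p l).le).trans (hC' l)
      refine le_trans (le_of_eq ?_) (mul_le_mul d2 (n3 l)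
        (mul_nonneg (hr l k).le (add_nonneg (n1 l) (n2 l))) (mul_nonneg hC0.le (hZ 0)))
      rw [mul_mul_mul_comm, div_mul_div_cancel₀ (ht l).ne']) hk
  refine hfin.trans ?_
  have hV' := mul_le_mul_of_nonneg_left hV hC0.le
  generalize auxE Θ G lo hi t F gb = E at *
  have hZ0 := hZ 0
  generalize conv Θ G lo hi 0 = Z at *
  generalize (Fintype.card I : ℝ) = N at *
  have g1 : C * (L ^ 2 * N ^ 2 * C / (2 * L ^ 2 * (N + 1) ^ 2 * C ^ 2 / δ)) ≤ δ / 2 := by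
    rw [← mul_div_assoc, div_le_iff₀ (by linarith)]
    have : δ / 2 * (2 * L ^ 2 * (N + 1) ^ 2 * C ^ 2 / δ) = L ^ 2 * C ^ 2 * (N + 1) ^ 2 := by
      field_simp
    rw [this]
    have : L ^ 2 * C ^ 2 * N ^ 2 ≤ L ^ 2 * C ^ 2 * (N + 1) ^ 2 := by gcongr; linarith
    linarith
  have g2 : C * (3 * (N + 2) * L ^ 4 * (2 * L ^ 2 * (N + 1) ^ 2 * C ^ 2 / δ)) +
      2 * (C * L * (N + 2)) ^ 2 / δ ≤ 30 * (N + 2) ^ 3 * L ^ 6 * C ^ 3 / δ := by
    have e : C * (3 * (N + 2) * L ^ 4 * (2 * L ^ 2 * (N + 1) ^ 2 * C ^ 2 / δ)) +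
        2 * (C * L * (N + 2)) ^ 2 / δ = (6 * ((N + 2) * (N + 1) ^ 2 * L ^ 6 * C ^ 3) +
          2 * ((N + 2) ^ 2 * L ^ 2 * C ^ 2)) / δ := by ring
    rw [e]
    refine div_le_div_of_nonneg_right ?_ hδ.le
    have k1 : (N + 2) * (N + 1) ^ 2 * L ^ 6 * C ^ 3 ≤ (N + 2) * (N + 2) ^ 2 * L ^ 6 * C ^ 3 := by
      gcongr; linarith
    have k2 : (N + 2) ^ 2 * L ^ 2 * C ^ 2 ≤ (N + 2) ^ 3 * L ^ 6 * C ^ 3 := by
      gcongr <;> linarith
    have k3 : 0 ≤ (N + 2) ^ 3 * L ^ 6 * C ^ 3 := by positivity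
    nlinarith
  have g3 := mul_le_mul_of_nonneg_right g1 hZ0
  have g4 := mul_le_mul_of_nonneg_right g2 hE
  nlinarith

end Crest.Agent.R302
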