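import Crest.Agent.R302.StrDef
import Crest.Agent.R302.AuxWP

/-!
Row 302, part D (definitions): weighted base polytopes on `P = E × Bool`, the leaky state space, cells,
and the penalty.
-/

set_option autoImplicit false
set_option linter.unusedSectionVars false

namespace Crest.Agent.R302

open Finset

variable {E : Type} [Fintype E] [DecidableEq E]

/-! ### parameters -/

/-- depth of the penalty -/
def pT (s : ℕ) : ℕ := s ^ 11
/-- slope of the penalty -/
def pL (s : ℕ) : ℕ := s ^ 4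
/-- size of the leak -/
def pw (s : ℕ) : ℕ := s ^ 330
/-- the scale of level `j` -/
def pθ (s j : ℕ) : ℕ := s ^ 345 * 2 ^ j
/-- the level with `pθ s (jK s) = s ^ 366` (for `s` a power of two) -/
def jK (s : ℕ) : ℕ := 21 * Nat.log 2 s
/-- range of the margins of level `0` -/
def pD1 (s : ℕ) : ℕ := s ^ 350
/-- radius of the box of cells -/
def pD (s : ℕ) : ℕ := s ^ 371

/-! ### instances -/

/-- A submodular function and convex exponents for the weights. -/
structure Inst (E : Type) where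
  /-- the submodular function -/
  F : Finset (E × Bool) → ℤ
  /-- the weight of `a` is `2 ^ (- ∑ φ p (a p))` -/
  φ : E × Bool → ℤ → ℕ

namespace Inst

variable (I : Inst E)

/-- The instance is well formed and of size at most `s`. -/
structure Sz (s : ℕ) : Prop where
  sub : Submod I.F
  empty : I.F ∅ = 0
  total : I.F univ = 0
  card : Fintype.card (E × Bool) < s
  pow : ∃ k, 20 ≤ k ∧ s = 2 ^ k
  bound : ∀ a, InB I.F a → ∀ p, |a p| ≤ 2 ^ s
  conv : ∀ p j, 2 * I.φ p (j + 1) ≤ I.φ p j + I.φ p (j + 2)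
  wt_le : ∀ a, InB I.F a → ∀ p, I.φ p (a p) ≤ s
  range : ∀ p, (∀ j, I.φ p j = 0) ∨ ∀ a a', InB I.F a → InB I.F a' → a p - a' p ≤ s

open Classical in
/-- the integer bases -/
noncomputable def N : Finset (E × Bool → ℤ) :=
  (bx (fun p => I.F univ - I.F {p}ᶜ) fun p => I.F {p}).filter (InB I.F)

/-- exponent of the weight -/
def wx (a : E × Bool → ℤ) : ℕ := ∑ p, I.φ p (a p)

/-- the weight -/
noncomputable def W (a : E × Bool → ℤ) : ℝ := (1 / 2) ^ I.wx a

/-- total weight of the bases with leak `γ` -/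
noncomputable def Z (γ : E → ℤ) : ℝ := ∑ a ∈ I.N.filter (fun a => ell a = γ), I.W a

/-- the same with the coordinates `(e, true)` restricted to a box -/
noncomputable def Zb (lo hi γ : E → ℤ) : ℝ :=
  ∑ a ∈ I.N.filter (fun a => ell a = γ ∧ ∀ e, lo e ≤ a (e, true) ∧ a (e, true) ≤ hi e), I.W a

lemma mem_N {a : E × Bool → ℤ} : a ∈ I.N ↔ InB I.F a := by
  classical
  simp only [N, mem_filter, mem_bx, and_iff_right_iff_imp]
  intro h p
  have h1 := h.1 {p}
  have h2 := h.1 {p}ᶜ
  have h3 := Finset.sum_add_sum_compl {p} a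
  have h4 := h.2
  simp only [sum_singleton] at h1 h3
  constructor <;> omega

lemma W_pos (a : E × Bool → ℤ) : 0 < I.W a := by unfold W; positivity

lemma W_le_one (a : E × Bool → ℤ) : I.W a ≤ 1 := pow_le_one₀ (by norm_num) (by norm_num)

lemma Z_nonneg (γ : E → ℤ) : 0 ≤ I.Z γ := sum_nonneg fun a _ => (I.W_pos a).le

end Inst

/-- An instance with a size parameter, a centre and a structure. -/
structure Sys (E : Type) extends Inst E where
  /-- size parameter -/
  s : ℕ
  /-- centre -/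
  c : E × Bool → ℝ
  /-- structure -/
  σ : Str E

namespace Sys

variable (Y : Sys E)

/-- two-way capacity at level `j` -/
def R (j : ℕ) (p q : E × Bool) : Prop := Cap2 Y.F Y.c (pθ Y.s j) p q

/-- The standing hypotheses. -/
structure Ok : Prop where
  sz : Y.toInst.Sz Y.s
  mem : InBR Y.F Y.c
  perf : ell Y.c = 0
  dr : ∀ a, InBR Y.F a → ell a = 0 → ∀ S, slack Y.F S a ≤ Y.s * (slack Y.F S Y.c + Y.s)
  valid : Y.σ.Valid Y.R

/-- component sums of the leak -/
def ty (a : E × Bool → ℤ) : E → ℤ := agg Y.σ.root (ell a)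

/-- the type vectors -/
def τ (i k : E) : E → ℤ := Pi.single (Y.σ.root i) 1 - Pi.single (Y.σ.root k) 1

/-- the leak is small -/
def Leak (a : E × Bool → ℤ) : Prop :=
  ∀ g ∈ Y.σ.tree, -(pw Y.s : ℤ) ≤ Y.σ.coef g a ∧ Y.σ.coef g a < pw Y.s

open Classical in
/-- the state space of the chain -/
noncomputable def Om : Finset (E × Bool → ℤ) :=
  Y.N.filter fun a => (∃ i k, Y.ty a = Y.τ i k) ∧ Y.Leak a

/-- total weight of the states of a type -/
noncomputable def Zlk (γ : E → ℤ) : ℝ := ∑ a ∈ Y.Om.filter (fun a => Y.ty a = γ), Y.W a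

/-- the stationary weight for the potentials `pot` -/
noncomputable def mu (pot : E → ℤ) (a : E × Bool → ℤ) : ℝ :=
  Y.W a * (2 : ℝ) ^ (∑ e, pot (Y.σ.root e) * ell a e)

/-- energy of the move `d` -/
noncomputable def Ed (pot : E → ℤ) (f : (E × Bool → ℤ) → ℝ) (d : E × Bool → ℤ) : ℝ :=
  ∑ a ∈ Y.Om.filter (fun a => a + d ∈ Y.Om),
    min (Y.mu pot a) (Y.mu pot (a + d)) * (f (a + d) - f a) ^ 2

/-- energy of all moves -/
noncomputable def En (pot : E → ℤ) (f : (E × Bool → ℤ) → ℝ) : ℝ :=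
  ∑ p, ∑ q, Y.Ed pot f (uv p - uv q) +
    ∑ g ∈ Y.σ.act, ∑ j ∈ range (Y.s + 2), Y.Ed pot f ((2 : ℤ) ^ j • Y.σ.v g)

/-- the potentials balance the types -/
def Bal (pot : E → ℤ) : Prop := ∀ i k,
  (2 : ℝ) ^ pot (Y.σ.root i) * Y.Zlk (Y.τ i k) ≤ Y.s * ((2 : ℝ) ^ pot (Y.σ.root k) * Y.Zlk 0)

/-- the thick constraints have slack at least `θ / (κ T)` -/
def Good (κ : ℝ) (a : E × Bool → ℤ) : Prop :=
  ∀ S j, jK Y.s ≤ j → ¬ Cls (Y.R j) S → (pθ Y.s j : ℝ) / (κ * pT Y.s) ≤ slack Y.F S (toR a)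

/-- the coefficient vectors of the leak -/
noncomputable def lbox : Finset (E × Bool → ℤ) :=
  boxJ Y.σ.tree (fun _ => -(pw Y.s : ℤ)) fun _ => (pw Y.s : ℤ) - 1

/-- the vector with the given coefficients on the tree indices -/
def tv (φ : E × Bool → ℤ) : E × Bool → ℤ := ∑ g ∈ Y.σ.tree, φ g • Y.σ.v g

/-- all lifts of `z` are bases -/
def Liftable (z : E × Bool → ℤ) : Prop := ∀ φ ∈ Y.lbox, InB Y.F (z + Y.tv φ)

/-! ### cells -/

/-- a representative of the class at level `jK` -/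
noncomputable def lab (p : E × Bool) : E × Bool :=
  @Classical.epsilon _ ⟨p⟩ fun q => Y.R (jK Y.s) q p

/-- the order of the classes at level `0` -/
noncomputable def key : E × Bool → ℕ := Classical.choose (exists_key Y.F Y.c (pθ Y.s 0))

/-- the indices of high level -/
def H : Finset (E × Bool) := Y.σ.act.filter fun g => jK Y.s ≤ Y.σ.lv g

/-- logarithm of the mesh -/
def dl (g : E × Bool) : ℕ := if g ∈ Y.σ.tree then 0 else 15 * Nat.log 2 Y.s + Y.σ.lv g

/-- the mesh (`pθ (lv g) / pw` for the cycles) -/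
def Δ (g : E × Bool) : ℤ := 2 ^ Y.dl g

/-- the vector with the given coefficients on `H` -/
def ov (r : E × Bool → ℤ) : E × Bool → ℤ := ∑ g ∈ Y.H, r g • Y.σ.v g

/-- remove the components along `H` -/
def canon (γ : E × Bool → ℤ) : E × Bool → ℤ := γ - Y.ov fun g => Y.σ.coef g γ

/-- the corner of the cell with margins `x.1` and coarse coordinates `x.2` -/
def pt (x : (E × Bool → ℤ) × (E × Bool → ℤ)) : E × Bool → ℤ :=
  Y.canon x.1 + Y.ov fun g => Y.Δ g * x.2 g

/-- the offsets inside a cell -/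
noncomputable def Off : Finset (E × Bool → ℤ) := boxJ Y.H (fun _ => 0) fun g => Y.Δ g - 1

/-- the cell of a point -/
noncomputable def cellOf (a : E × Bool → ℤ) : (E × Bool → ℤ) × (E × Bool → ℤ) :=
  (agg Y.lab a, fun g => if g ∈ Y.H then Y.σ.coef g a / Y.Δ g else 0)

/-- the offset of a point -/
def offOf (a : E × Bool → ℤ) : E × Bool → ℤ :=
  fun g => if g ∈ Y.H then Y.σ.coef g a % Y.Δ g else 0

/-- the aggregated function -/
noncomputable def Flab (A : Finset (E × Bool)) : ℤ := Y.F (pre Y.lab A)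

open Classical in
/-- an integer base without leak close to the centre -/
noncomputable def ctr : E × Bool → ℤ :=
  Classical.epsilon fun a => InB Y.F a ∧ ell a = 0 ∧ ∀ p, |(a p : ℝ) - Y.c p| ≤ 1

open Classical in
/-- the cells -/
noncomputable def Cells : Finset ((E × Bool → ℤ) × (E × Bool → ℤ)) :=
  (bx ((Y.cellOf Y.ctr).1 - fun _ => (pD Y.s : ℤ)) ((Y.cellOf Y.ctr).1 + fun _ => (pD Y.s : ℤ)) ×ˢ
    bx ((Y.cellOf Y.ctr).2 - fun _ => (pD Y.s : ℤ)) ((Y.cellOf Y.ctr).2 + fun _ => (pD Y.s : ℤ))).filter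
      fun x => InB Y.Flab x.1 ∧ ∀ g ∉ Y.H, x.2 g = 0

/-! ### the penalty -/

/-- the largest level at which `S` splits a class -/
noncomputable def pl (S : Finset (E × Bool)) : ℕ := sSup {j | ¬ Cls (Y.R j) S}

/-- the union of the classes of level `0` below `j` -/
noncomputable def pred (j : ℕ) : Finset (E × Bool) := univ.filter fun p => Y.key p < j

/-- the class of `p` at level `0` -/
noncomputable def kcl (p : E × Bool) : Finset (E × Bool) := univ.filter fun q => Y.key q = Y.key p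

/-- a sign -/
def sg (b : Bool) : ℝ := if b then 1 else -1

open Classical in
/-- The normalised constraints of the component `r`: thick constraints inside one class of level
`0`, the leak, the margins of the classes of level `0`. -/
noncomputable def val (r : E) :
    Finset (E × Bool) ⊕ ((E × Bool) × Bool) ⊕ ((E × Bool) × Bool) → (E × Bool → ℤ) → ℝ
  | .inl S, a =>
    if (∀ p ∈ S, Y.key p = S.sup Y.key ∧ Y.σ.root p.1 = r) ∧ ¬ Cls (Y.R (jK Y.s)) S then
      -((Y.F (Y.pred (S.sup Y.key) ∪ S) : ℝ) - ∑ p ∈ Y.pred (S.sup Y.key), Y.c p -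
        ∑ p ∈ S, (a p : ℝ) + pD1 Y.s) / (pθ Y.s (Y.pl S) / (2 * pT Y.s))
    else -(2 * pT Y.s)
  | .inr (.inl (g, b)), a =>
    if g ∈ Y.σ.tree ∧ Y.σ.root g.1 = r then
      (sg b * (Y.σ.coef g a : ℝ) - pw Y.s) / (pw Y.s / (2 * pT Y.s))
    else -(2 * pT Y.s)
  | .inr (.inr (p, b)), a =>
    if Y.σ.root p.1 = r then
      (sg b * (∑ q ∈ Y.kcl p, (a q : ℝ) - ∑ q ∈ Y.kcl p, Y.c q) - pD1 Y.s) /
        (pD1 Y.s / (2 * pT Y.s))
    else -(2 * pT Y.s)

/-- the worst constraint of the component `r` -/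
noncomputable def Hc (r : E) (a : E × Bool → ℤ) : ℝ :=
  univ.sup' ⟨.inl ∅, mem_univ _⟩ fun i => Y.val r i a

/-- weight of a cell for the shifts `j` of the penalty -/
noncomputable def wE (j : E → ℤ) (x : (E × Bool → ℤ) × (E × Bool → ℤ)) : ℝ :=
  Y.W x.1 * Real.exp (-∑ r, pL Y.s * max 0 (Y.Hc r (Y.pt x) + j r / pw Y.s))

/-- total weight of the cells of a type -/
noncomputable def Mass (j : E → ℤ) (γ : E → ℤ) : ℝ :=
  ∑ x ∈ Y.Cells.filter (fun x => Y.ty x.1 = γ), Y.wE j x

open Classical in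
/-- cells of valid type -/
noncomputable def TCells : Finset ((E × Bool → ℤ) × (E × Bool → ℤ)) :=
  Y.Cells.filter fun x => ∃ i k, Y.ty x.1 = Y.τ i k

open Classical in
/-- cells of valid type all of whose constraints are below `-h` -/
noncomputable def Deep (h : ℝ) : Finset ((E × Bool → ℤ) × (E × Bool → ℤ)) :=
  Y.TCells.filter fun x => ∀ r, Y.Hc r (Y.pt x) ≤ -h

/-- energy of the move `d` between deep cells -/
noncomputable def cEd (pot : E → ℤ) (F : (E × Bool → ℤ) × (E × Bool → ℤ) → ℝ)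
    (d : (E × Bool → ℤ) × (E × Bool → ℤ)) : ℝ :=
  ∑ x ∈ (Y.Deep (1 / 2)).filter (fun x => x + d ∈ Y.Deep (1 / 2)),
    min (Y.mu pot x.1) (Y.mu pot (x + d).1) * (F (x + d) - F x) ^ 2

/-- energy of all moves between deep cells -/
noncomputable def cEn (pot : E → ℤ) (F : (E × Bool → ℤ) × (E × Bool → ℤ) → ℝ) : ℝ :=
  ∑ p, ∑ q, Y.cEd pot F (uv p - uv q, 0) + ∑ g, Y.cEd pot F (0, uv g)

/-- weight of a cell with the potentials, penalty shifted by one -/
noncomputable def nu (pot : E → ℤ) (x : (E × Bool → ℤ) × (E × Bool → ℤ)) : ℝ :=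
  Y.wE (fun _ => pw Y.s) x * (2 : ℝ) ^ (∑ e, pot (Y.σ.root e) * ell x.1 e)

/-- average over a cell -/
noncomputable def cavg (f : (E × Bool → ℤ) → ℝ) (x : (E × Bool → ℤ) × (E × Bool → ℤ)) : ℝ :=
  (∑ o ∈ Y.Off, f (Y.pt x + Y.ov o)) / Y.Off.card

end Sys

end Crest.Agent.R302
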