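import Crest.Agent.R302.Metro
import Crest.Agent.R302.Defs

/-!
Row 302, part E2: the annealing algorithm for an abstract family of instances, written on lists.
-/

set_option autoImplicit false

namespace Crest.Agent.R302

open Finset Crest.Agent.Lib.PT Crest.Agent.R309

/-- stage, structure, potentials -/
abbrev Th : Type := ℕ × StrL × List ℤ

/-- size parameter of the chain -/
def q2 (S : ℕ) : ℕ := (S ^ 20) ^ 200
/-- acceptance bits -/
def nA (S : ℕ) : ℕ := S ^ 50
/-- bits for the move -/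
def r0 (S : ℕ) : ℕ := 3 * Nat.log 2 (q2 S) + 2
/-- bits per step -/
def r1 (S : ℕ) : ℕ := 2 + r0 S + nA S
/-- number of steps -/
def nT (S : ℕ) : ℕ := q2 S ^ 2320
/-- bits per coordinate of the leak -/
def rw (S : ℕ) : ℕ := 330 * Nat.log 2 (q2 S) + 1
/-- number of trials -/
def nR (S : ℕ) : ℕ := S ^ 6
/-- number of probes -/
def nP (S : ℕ) : ℕ := S ^ 32

/-- The data of the algorithm: number of elements, size parameter, number of stages, bits and
result of the initial sampler, the initial partition function, membership test, exponent of the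
weight, construction of the structure. -/
structure Alg where
  /-- number of elements -/
  m : ℕ
  /-- size parameter -/
  S : ℕ
  /-- number of stages -/
  Tn : ℕ
  /-- bits of the initial sampler -/
  rI : ℕ
  /-- initial partition function -/
  tot : ℕ
  /-- membership test -/
  mem : ℕ → List ℤ → Bool
  /-- exponent of the weight -/
  wex : ℕ → List ℤ → ℕ
  /-- construction of the structure -/
  build : ℕ × List (List (List Bool)) → StrL
  /-- initial sampler -/
  init : List Bool → List ℤ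

/-- the leak at `e` -/
def ellL (a : List ℤ) (e : ℕ) : ℤ := a.getD (2 * e) 0 + a.getD (2 * e + 1) 0
/-- the root of `e` -/
def rootL (L : StrL) (e : ℕ) : ℕ := L.2.2.2.2.getD e 0
/-- an entry of `v g` -/
def vL (L : StrL) (g x : ℕ) : ℤ := (L.2.2.1.getD g []).getD x 0
/-- Kronecker symbol -/
def kr (x y : ℕ) : ℤ := if x = y then 1 else 0

namespace Alg

variable (A : Alg)

/-- bits of the lift -/
def rL : ℕ := 2 * A.m * rw A.S
/-- bits of lift and run -/
def rLR : ℕ := A.rL + nT A.S * r1 A.S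
/-- bits of a trial -/
def rTrial : ℕ := A.rLR + nA A.S
/-- bits of a transition -/
def rTrans : ℕ := nR A.S * A.rTrial
/-- bits of a sample -/
def rS : ℕ := A.rI + A.Tn * A.rTrans
/-- bits of a probe -/
def rProbe : ℕ := A.rS + A.rLR
/-- bits of a stage -/
def rStage : ℕ := A.rS + nP A.S * A.rProbe
/-- bits of the algorithm -/
def rTot : ℕ := A.Tn * A.rStage

/-- component sum of the leak -/
def tyL (L : StrL) (a : List ℤ) (r : ℕ) : ℤ :=
  ∑ e ∈ range A.m, if rootL L e = r then ellL a e else 0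
/-- the type is `τ i k` -/
def isTy (L : StrL) (a : List ℤ) (i k : ℕ) : Bool :=
  decide (∀ r < A.m, A.tyL L a r = kr (rootL L i) r - kr (rootL L k) r)
/-- coefficient of a tree index -/
def coefL (L : StrL) (g : ℕ) (a : List ℤ) : ℤ :=
  ∑ e ∈ range A.m, if (L.2.2.2.1.getD g []).getD e false = true then ellL a e else 0
/-- membership in the state space -/
def valid (θ : Th) (a : List ℤ) : Bool :=
  A.mem θ.1 a && decide (∃ i < A.m, ∃ k < A.m, A.isTy θ.2.1 a i k = true) &&
    decide (∀ g < 2 * A.m, θ.2.1.2.1.getD g false = true →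
      -(pw (q2 A.S) : ℤ) ≤ A.coefL θ.2.1 g a ∧ A.coefL θ.2.1 g a < pw (q2 A.S))
/-- binary logarithm of the stationary weight -/
def lw (θ : Th) (a : List ℤ) : ℤ :=
  ∑ e ∈ range A.m, θ.2.2.getD (rootL θ.2.1 e) 0 * ellL a e - (A.wex θ.1 a : ℤ)
/-- Coordinate `x` of the move number `i = p + q s + j s²`: `e_p - e_q` for `j = 0`, and
`2 ^ (j - 1) v p` otherwise. -/
def mv (L : StrL) (i x : ℕ) : ℤ :=
  if i / q2 A.S ^ 2 = 0 then kr x (i % q2 A.S) - kr x (i / q2 A.S % q2 A.S)
  else if L.1.getD (i % q2 A.S) false = true then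
    2 ^ min (i / q2 A.S ^ 2 - 1) (q2 A.S + 1) * vL L (i % q2 A.S) x
  else 0
/-- the proposal -/
def prop (L : StrL) (i : ℕ) (b : Bool) (a : List ℤ) : List ℤ :=
  (List.range (2 * A.m)).map fun x => a.getD x 0 + (if b = true then 1 else -1) * A.mv L i x
/-- one step -/
def step (θ : Th) : List ℤ → List Bool → List ℤ :=
  metro (r0 A.S) (nA A.S) (A.prop θ.2.1) (A.valid θ) (A.lw θ)
/-- `nT` steps -/
def run (θ : Th) (a : List ℤ) (ω : List Bool) : List ℤ :=
  (chunks (nT A.S) (r1 A.S) ω).foldl (A.step θ) a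
/-- add a combination of the tree vectors -/
def addT (L : StrL) (z φ : List ℤ) : List ℤ :=
  (List.range (2 * A.m)).map fun x => z.getD x 0 +
    ∑ g ∈ range (2 * A.m), if L.2.1.getD g false = true then φ.getD g 0 * vL L g x else 0
/-- random coefficients in `[-w, w)` -/
def phi (ω : List Bool) : List ℤ :=
  (chunks (2 * A.m) (rw A.S) ω).map fun u => (ofBits u : ℤ) - pw (q2 A.S)
/-- add a random leak if possible -/
def lift (θ : Th) (z : List ℤ) (ω : List Bool) : List ℤ :=
  if A.valid θ (A.addT θ.2.1 z (A.phi ω)) = true then A.addT θ.2.1 z (A.phi ω) else z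
/-- lift and run -/
def lr (θ : Th) (z : List ℤ) (ω : List Bool) : List ℤ :=
  A.run θ (A.lift θ z (ω.take A.rL)) (ω.drop A.rL)
/-- remove the leak -/
def absorb (L : StrL) (a : List ℤ) : List ℤ :=
  A.addT L a ((List.range (2 * A.m)).map fun g => -A.coefL L g a)
/-- no leak -/
def perf (z : List ℤ) : Bool := decide (∀ e < A.m, ellL z e = 0)
/-- absorb and accept with the weight ratio of the next stage -/
def fin (θ : Th) (a : List ℤ) (ω : List Bool) : Option (List ℤ) :=
  if A.perf (A.absorb θ.2.1 a) && A.mem (θ.1 + 1) (A.absorb θ.2.1 a) &&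
      ((ω.take (nA A.S)).take
        (A.wex (θ.1 + 1) (A.absorb θ.2.1 a) - A.wex θ.1 (A.absorb θ.2.1 a))).all (fun b => !b)
  then some (A.absorb θ.2.1 a) else none
/-- one trial -/
def trial (θ : Th) (z : List ℤ) (ω : List Bool) : Option (List ℤ) :=
  A.fin θ (A.lr θ z (ω.take A.rLR)) (ω.drop A.rLR)
/-- from one stage to the next -/
def trans (θ : Th) : List ℤ → List Bool → List ℤ := retry (nR A.S) A.rTrial (A.trial θ)
/-- a sample: run all transitions one after the other -/
def sample (θs : List Th) (ω : List Bool) : List ℤ :=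
  (θs.zip (chunks θs.length A.rTrans (ω.drop A.rI))).foldl (fun z x => A.trans x.1 z x.2)
    (A.init (ω.take A.rI))
/-- `z + θ (e_p - e_q)` -/
def shift (z : List ℤ) (θ p q : ℕ) : List ℤ :=
  (List.range (2 * A.m)).map fun x => z.getD x 0 + (θ : ℤ) * (kr x p - kr x q)
/-- the table of two-way capacities -/
def table (t : ℕ) (z : List ℤ) : List (List (List Bool)) :=
  (List.range (q2 A.S + 2)).map fun j => (List.range (2 * A.m)).map fun p =>
    (List.range (2 * A.m)).map fun q =>
      A.mem t (A.shift z (pθ (q2 A.S) j) p q) && A.mem t (A.shift z (pθ (q2 A.S) j) q p)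
/-- `2 ^ nA` times the weight ratio of the next stage -/
def yv (t : ℕ) (z : List ℤ) : ℕ :=
  if A.perf z && A.mem (t + 1) z then 2 ^ (nA A.S - (A.wex (t + 1) z - A.wex t z)) else 0
/-- one probe -/
def probe (θs : List Th) (θ : Th) (ω : List Bool) : ℕ × List ℤ :=
  (A.yv θ.1 (A.sample θs (ω.take A.rS)), A.lr θ (A.sample θs (ω.take A.rS)) (ω.drop A.rS))
/-- number of states of a type -/
def cnt (L : StrL) (as : List (List ℤ)) (i k : ℕ) : ℕ := as.countP fun a => A.isTy L a i k
/-- some type with an excess in the component of `i` is too frequent -/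
def flag (L : StrL) (as : List (List ℤ)) (i : ℕ) : Bool :=
  decide (∃ k < A.m, 2 ^ 10 * A.cnt L as 0 0 < A.cnt L as i k)
/-- the new potentials -/
def newPot (L : StrL) (pot : List ℤ) (as : List (List ℤ)) : List ℤ :=
  (List.range A.m).map fun i => pot.getD (rootL L i) 0 - if A.flag L as i = true then 3 else 0
/-- the parameters of the current stage -/
def newTh (θs : List Th) (pot : List ℤ) (ω : List Bool) : Th :=
  (θs.length, A.build (A.m, A.table θs.length (A.sample θs ω)), pot)
/-- the probes of a stage -/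
def probes (θs : List Th) (θ : Th) (ω : List Bool) : List (ℕ × List ℤ) :=
  (chunks (nP A.S) A.rProbe ω).map (A.probe θs θ)
/-- estimate of the ratio -/
def ratio (ps : List (ℕ × List ℤ)) : ℚ := ((ps.map Prod.fst).sum : ℕ) / ((nP A.S * 2 ^ nA A.S : ℕ) : ℚ)
/-- one stage -/
def stage (st : List Th × List ℤ × ℚ) (ω : List Bool) : List Th × List ℤ × ℚ :=
  (st.1 ++ [A.newTh st.1 st.2.1 (ω.take A.rS)],
    A.newPot (A.newTh st.1 st.2.1 (ω.take A.rS)).2.1 st.2.1
      ((A.probes st.1 (A.newTh st.1 st.2.1 (ω.take A.rS)) (ω.drop A.rS)).map Prod.snd),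
    st.2.2 * A.ratio (A.probes st.1 (A.newTh st.1 st.2.1 (ω.take A.rS)) (ω.drop A.rS)))
/-- the estimate -/
def est (ω : List Bool) : ℚ :=
  ((chunks A.Tn A.rStage ω).foldl A.stage ([], [], (A.tot : ℚ))).2.2

/-! ### the mathematical objects behind the lists -/

variable (I : ℕ → Inst (Fin A.m))

/-- the bases without leak -/
noncomputable def PL (t : ℕ) : Finset (List ℤ) := ((I t).N.filter fun a => ell a = 0).image lst
/-- their weights -/
noncomputable def piL (t : ℕ) (l : List ℤ) : ℝ := (I t).W (vec A.m l)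
/-- potentials as a function -/
def potF (pot : List ℤ) : Fin A.m → ℤ := fun e => pot.getD e 0
/-- the system of a stage -/
def sys (t : ℕ) (c : Fin A.m × Bool → ℝ) (σ : Str (Fin A.m)) : Sys (Fin A.m) := ⟨I t, q2 A.S, c, σ⟩
/-- the state space -/
noncomputable def OmL (t : ℕ) (c : Fin A.m × Bool → ℝ) (σ : Str (Fin A.m)) : Finset (List ℤ) :=
  (A.sys I t c σ).Om.image lst
/-- the stationary weight -/
noncomputable def muL (θ : Th) (l : List ℤ) : ℝ := (2 : ℝ) ^ A.lw θ l

/-- The data of the algorithm describe the family `I`. -/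
structure Spec : Prop where
  pow : ∃ k, 20 ≤ k ∧ A.S = 2 ^ k
  m_pos : 0 < A.m
  m_le : A.m ≤ A.S
  Tn_le : A.Tn ≤ A.S ^ 8
  sz : ∀ t ≤ A.Tn, (I t).Sz (A.S ^ 20)
  mem : ∀ t ≤ A.Tn, ∀ l, A.mem t l = true ↔ l.length = 2 * A.m ∧ InB (I t).F (vec A.m l)
  wex : ∀ t ≤ A.Tn, ∀ l, A.wex t l = (I t).wx (vec A.m l)
  mono : ∀ t < A.Tn, ∀ a, InB (I (t + 1)).F a → InB (I t).F a ∧ (I t).wx a ≤ (I (t + 1)).wx a
  ratio : ∀ t < A.Tn, (I t).Z 0 ≤ 4 * (I (t + 1)).Z 0
  pos : ∀ t ≤ A.Tn, 0 < (I t).Z 0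
  bal : ∀ i k, (I 0).Z (uv i - uv k) ≤ (I 0).Z 0
  tot : (A.tot : ℝ) = (I 0).Z 0
  init : ∀ φ : List ℤ → ℝ, Ex A.rI (fun ω => φ (A.init ω)) = avg (A.PL I 0) (A.piL I 0) φ
  build : ∀ (tab : List (List (List Bool))) (R : ℕ → Fin A.m × Bool → Fin A.m × Bool → Prop),
    (∀ j, Equivalence (R j)) → (∀ j p q, R (j + 1) p q → R j p q) →
    (∀ j < tab.length, ∀ p q, R j p q ↔ ((tab.getD j []).getD (ix p) []).getD (ix q) false = true) →
    (∀ p q, R tab.length p q → p = q) →
    ∃ σ : Str (Fin A.m), σ.Valid R ∧ σ.Rep (A.build (A.m, tab))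

/-- the potentials balance the types of stage `t` -/
structure GoodPot (t : ℕ) (pot : List ℤ) : Prop where
  bal : ∀ i k : Fin A.m, (2 : ℝ) ^ A.potF pot i * (I t).Z (uv i - uv k) ≤
    2 ^ 16 * ((2 : ℝ) ^ A.potF pot k * (I t).Z 0)
  bd : ∀ i, |pot.getD i 0| ≤ 3 * t

open Classical in
/-- the lists `L` represent a good structure of stage `t` -/
structure GS (t : ℕ) (c : Fin A.m × Bool → ℝ) (σ : Str (Fin A.m)) (L : StrL) : Prop where
  ok : (A.sys I t c σ).Ok
  rep : σ.Rep L
  lift : ∑ z ∈ (I t).N.filter (fun z => ell z = 0 ∧ ¬ (A.sys I t c σ).Liftable z), (I t).W z ≤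
    1 / A.S ^ 60 * (I t).Z 0

/-- good parameters of stage `t` -/
def GoodTh (t : ℕ) (θ : Th) : Prop :=
  θ.1 = t ∧ A.GoodPot I t θ.2.2 ∧ ∃ c σ, A.GS I t c σ θ.2.1

/-- good parameters of the stages so far -/
def GoodThs (θs : List Th) : Prop := ∀ t (h : t < θs.length), A.GoodTh I t θs[t]

end Alg

end Crest.Agent.R302
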