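import Crest.Agent.Lib.PT.Exp
import Crest.Agent.Lib.PT.Mat

/-!
Row 302, part G1: polynomial-time computations with an oracle.

`OC f`: there is a `PT` function `m` that is run with a finite table of answers and returns either
the result or a query that is missing from the table; only polynomially many queries can be asked.
-/

set_option autoImplicit false

namespace Crest.Agent.R302

open Crest.Agent.Lib.PT

/-- a query: which oracle, and the indicator string of a set -/
abbrev Qy : Type := Bool × List Bool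
/-- an oracle -/
abbrev Orc : Type := Qy → ℕ
/-- a table of answers -/
abbrev Tab : Type := List (Qy × ℕ)

/-- The table agrees with the oracle. -/
def Cons (O : Orc) (T : Tab) : Prop := ∀ q v, T.lookup q = some v → O q = v

/-- Polynomial-time computable with oracle access, uniformly in the oracle. -/
def OC {α β : Type} [Enc α] [Enc β] (f : Orc → α → β) : Prop :=
  ∃ (m : α × Tab → β ⊕ Qy) (n : α → ℕ), PT m ∧ PB n ∧ ∀ O a, sz (f O a) ≤ n a ∧
    ∃ Qs : List Qy, sz Qs ≤ n a ∧ ∀ T, Cons O T →
      m (a, T) = .inl (f O a) ∨ ∃ q ∈ Qs, T.lookup q = none ∧ m (a, T) = .inr q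

variable {α β γ σ τ : Type} [Enc α] [Enc β] [Enc γ] [Enc σ] [Enc τ]

lemma cons_tab (T : Tab) : Cons (fun q => (T.lookup q).getD 0) T := fun q v h => by simp [h]

theorem OC.congr {f g : Orc → α → β} (h : OC g) (hfg : ∀ O a, f O a = g O a) : OC f := by
  have : f = g := funext fun O => funext (hfg O)
  rwa [this]

theorem OC.exists_pb {f : Orc → α → β} (h : OC f) : ∃ n : α → ℕ, PB n ∧ ∀ O a, sz (f O a) ≤ n a := by
  obtain ⟨_, n, -, hn, h⟩ := h
  exact ⟨n, hn, fun O a => (h O a).1⟩

theorem OC.pure {g : α → β} (hg : PT g) : OC fun _ a => g a := by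
  refine ⟨fun p => .inl (g p.1), fun a => sz (g a) + 1, by fun_prop, by fun_prop, fun O a =>
    ⟨by simp, [], by simp, fun T _ => Or.inl rfl⟩⟩

/-- One query; the answer is clamped so that it has polynomial size for every oracle. -/
theorem OC.query {q : α → Qy} {B : α → ℕ} (hq : PT q) (hB : PT B) :
    OC fun O a => min (O (q a)) (B a) := by
  refine ⟨fun p => (p.2.lookup (q p.1)).elim (.inr (q p.1)) (fun v => .inl (min v (B p.1))),
    fun a => sz (B a) + sz (q a) + 2, by fun_prop, by fun_prop, fun O a =>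
    ⟨?_, [q a], by simp, fun T hT => ?_⟩⟩
  · have := sz_nat_mono (min_le_right (O (q a)) (B a))
    simp only; omega
  · cases h : T.lookup (q a) with
    | none => exact Or.inr ⟨q a, by simp, h, by simp [h]⟩
    | some v => exact Or.inl (by simp [h, hT _ _ h])

theorem OC.comp {g : Orc → β → γ} {f : Orc → α → β} (hg : OC g) (hf : OC f) :
    OC fun O a => g O (f O a) := by
  obtain ⟨mg, ng, hmg, hng, hg⟩ := hg
  obtain ⟨mf, nf, hmf, hnf, hf⟩ := hf
  obtain ⟨c, k, hng⟩ := hng.exists_bound
  have h1 : PT fun p : (α × Tab) × β => mg (p.2, p.1.2) :=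
    hmg.comp (f := fun p : (α × Tab) × β => (p.2, p.1.2)) (by fun_prop)
  refine ⟨fun p => Sum.elim (fun b => mg (b, p.2)) (fun q => .inr q) (mf p),
    fun a => nf a + c * nf a ^ k, hmf.sumElim h1 (by fun_prop), by fun_prop, fun O a => ?_⟩
  obtain ⟨hf1, Qf, hQf, hf2⟩ := hf O a
  obtain ⟨hg1, Qg, hQg, hg2⟩ := hg O (f O a)
  have hb := hng _ _ hf1
  refine ⟨by simp only; omega, Qf ++ Qg, by have := sz_append_le Qf Qg; simp only; omega,
    fun T hT => ?_⟩
  rcases hf2 T hT with h | ⟨q, hq, hq1, h⟩
  · rcases hg2 T hT with h' | ⟨q, hq, hq1, h'⟩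
    · exact Or.inl (by simp [h, h'])
    · exact Or.inr ⟨q, by simp [hq], hq1, by simp [h, h']⟩
  · exact Or.inr ⟨q, by simp [hq], hq1, by simp [h]⟩

theorem OC.pair {f : Orc → α → β} {g : Orc → α → γ} (hf : OC f) (hg : OC g) :
    OC fun O a => (f O a, g O a) := by
  obtain ⟨mg, ng, hmg, hng, hg⟩ := hg
  obtain ⟨mf, nf, hmf, hnf, hf⟩ := hf
  have h0 : PT fun p : (α × Tab) × β => mg p.1 := hmg.comp (by fun_prop)
  have h1 : PT fun p : (α × Tab) × β =>
      Sum.elim (fun c => (.inl (p.2, c) : (β × γ) ⊕ Qy)) (fun q => .inr q) (mg p.1) :=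
    h0.sumElim (by fun_prop) (by fun_prop)
  refine ⟨fun p => Sum.elim (fun b => Sum.elim (fun c => (.inl (b, c) : (β × γ) ⊕ Qy))
      (fun q => .inr q) (mg p)) (fun q => .inr q) (mf p),
    fun a => nf a + ng a + 1, hmf.sumElim h1 (by fun_prop), by fun_prop, fun O a => ?_⟩
  obtain ⟨hf1, Qf, hQf, hf2⟩ := hf O a
  obtain ⟨hg1, Qg, hQg, hg2⟩ := hg O a
  refine ⟨by simp only [sz_pair]; omega, Qf ++ Qg,
    by have := sz_append_le Qf Qg; simp only; omega, fun T hT => ?_⟩
  rcases hf2 T hT with h | ⟨q, hq, hq1, h⟩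
  · rcases hg2 T hT with h' | ⟨q, hq, hq1, h'⟩
    · exact Or.inl (by simp [h, h'])
    · exact Or.inr ⟨q, by simp [hq], hq1, by simp [h, h']⟩
  · exact Or.inr ⟨q, by simp [hq], hq1, by simp [h]⟩

theorem OC.id : OC fun _ (a : α) => a := OC.pure PT.id

theorem OC.pt {g : β → γ} {f : Orc → α → β} (hg : PT g) (hf : OC f) : OC fun O a => g (f O a) :=
  (OC.pure hg).comp hf

theorem OC.precomp {g : Orc → β → γ} {f : α → β} (hg : OC g) (hf : PT f) :
    OC fun O a => g O (f a) := hg.comp (OC.pure hf)

/-- A `PT` function of the input and of an oracle result. -/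
theorem OC.pt₂ {g : α → β → γ} {f : Orc → α → β} (hg : PT fun p : α × β => g p.1 p.2) (hf : OC f) :
    OC fun O a => g a (f O a) := OC.pt hg (OC.id.pair hf)

theorem OC.bind {g : Orc → α → β → γ} {f : Orc → α → β} (hg : OC fun O (p : α × β) => g O p.1 p.2)
    (hf : OC f) : OC fun O a => g O a (f O a) := hg.comp (OC.id.pair hf)

theorem OC.cond {c : Orc → α → Bool} {f g : Orc → α → β} (hc : OC c) (hf : OC f) (hg : OC g) :
    OC fun O a => if c O a = true then f O a else g O a :=
  OC.pt (g := fun p : Bool × β × β => if p.1 = true then p.2.1 else p.2.2) (by fun_prop)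
    (hc.pair (hf.pair hg))

/-- one round of a loop on states in `σ ⊕ Qy` -/
def ocStep (m : (α × σ × τ) × Tab → σ ⊕ Qy) (p : α × Tab) (st : σ ⊕ Qy) (x : τ) : σ ⊕ Qy :=
  Sum.elim (fun s => m ((p.1, s, x), p.2)) (fun q => .inr q) st

omit [Enc α] [Enc σ] [Enc τ] in
lemma ocStep_inr (m : (α × σ × τ) × Tab → σ ⊕ Qy) (p : α × Tab) (L : List τ) (q : Qy) :
    L.foldl (ocStep m p) (.inr q) = .inr q := by
  induction L with
  | nil => rfl
  | cons x L ih => simpa [ocStep] using ih

omit [Enc α] [Enc σ] [Enc τ] in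
lemma oc_fold_key (m : (α × σ × τ) × Tab → σ ⊕ Qy) (O : Orc) (a : α) (f : σ → τ → σ) (M : ℕ)
    (L : List τ) (s : σ)
    (h : ∀ i, ∀ x ∈ L, ∃ Qs : List Qy, sz Qs ≤ M ∧ ∀ T, Cons O T →
      m ((a, (L.take i).foldl f s, x), T) = .inl (f ((L.take i).foldl f s) x) ∨
        ∃ q ∈ Qs, T.lookup q = none ∧ m ((a, (L.take i).foldl f s, x), T) = .inr q) :
    ∃ Qs : List Qy, sz Qs ≤ L.length * M + 1 ∧ ∀ T, Cons O T →
      L.foldl (ocStep m (a, T)) (.inl s) = .inl (L.foldl f s) ∨
        ∃ q ∈ Qs, T.lookup q = none ∧ L.foldl (ocStep m (a, T)) (.inl s) = .inr q := by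
  induction L generalizing s with
  | nil => exact ⟨[], by simp, fun T _ => Or.inl rfl⟩
  | cons x L ih =>
    obtain ⟨Q1, hQ1, h1⟩ := h 0 x (by simp)
    obtain ⟨Q2, hQ2, h2⟩ := ih (f s x) fun i y hy => by
      simpa using h (i + 1) y (by simp [hy])
    refine ⟨Q1 ++ Q2, ?_, fun T hT => ?_⟩
    · have := sz_append_le Q1 Q2
      simp only [List.length_cons]
      nlinarith
    · simp only [List.take_zero, List.foldl_nil] at h1
      rcases h1 T hT with h | ⟨q, hq, hq1, h⟩
      · have e : ocStep m (a, T) (.inl s) x = .inl (f s x) := by simp [ocStep, h]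
        simp only [List.foldl_cons, e]
        rcases h2 T hT with h' | ⟨q, hq, hq1, h'⟩
        · exact Or.inl h'
        · exact Or.inr ⟨q, by simp [hq], hq1, h'⟩
      · have e : ocStep m (a, T) (.inl s) x = .inr q := by simp [ocStep, h]
        simp only [List.foldl_cons, e, ocStep_inr]
        exact Or.inr ⟨q, by simp [hq], hq1, rfl⟩

/-- Loops.  Fold `m` over states in `σ ⊕ Qy`; a table `T` is consistent with its own oracle
(`cons_tab`), so the `inl` states are the states of the true loop for that oracle. -/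
theorem OC.foldl {f : Orc → α → σ → τ → σ} {l : Orc → α → List τ} {ini : Orc → α → σ} (B : α → ℕ)
    (hf : OC fun O (p : α × σ × τ) => f O p.1 p.2.1 p.2.2) (hl : OC l) (hi : OC ini) (hB : PB B)
    (hsz : ∀ O a i, sz (((l O a).take i).foldl (f O a) (ini O a)) ≤ B a) :
    OC fun O a => (l O a).foldl (f O a) (ini O a) := by
  obtain ⟨mf, nf, hmf, hnf, hf⟩ := hf
  obtain ⟨ml, nl, hml, hnl, hl⟩ := hl
  obtain ⟨mi, ni, hmi, hni, hi⟩ := hi
  obtain ⟨c, k, hnf⟩ := hnf.exists_bound
  let L : α × Tab → List τ := fun p => (ml p).getLeft?.getD []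
  let I : α × Tab → σ ⊕ Qy := fun p => Sum.elim (fun _ => mi p) (fun q => .inr q) (ml p)
  let M : α → ℕ := fun a => c * (sz a + B a + nl a + 2) ^ k
  let n : α → ℕ := fun a => B a + nl a + ni a + (nl a * M a + 1)
  have hn : PB n := by simp only [n, M]; fun_prop
  have key : ∀ O a j, ∃ Qs : List Qy, sz Qs + B a ≤ n a ∧ ∀ T, Cons O T →
      ((L (a, T)).take j).foldl (ocStep mf (a, T)) (I (a, T)) =
          .inl (((l O a).take j).foldl (f O a) (ini O a)) ∨
        ∃ q ∈ Qs, T.lookup q = none ∧
          ((L (a, T)).take j).foldl (ocStep mf (a, T)) (I (a, T)) = .inr q := by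
    intro O a j
    obtain ⟨hl1, Ql, hQl, hl2⟩ := hl O a
    obtain ⟨-, Qi, hQi, hi2⟩ := hi O a
    obtain ⟨Qf, hQf, hf2⟩ := oc_fold_key mf O a (f O a) (M a) ((l O a).take j) (ini O a)
      fun i x hx => by
        obtain ⟨-, Q, hQ, h⟩ := hf O (a, (((l O a).take j).take i).foldl (f O a) (ini O a), x)
        refine ⟨Q, hQ.trans (hnf _ _ ?_), h⟩
        have h1 := sz_le_of_mem (List.mem_of_mem_take hx)
        have h2 := hsz O a (min i j)
        rw [List.take_take]
        simp only [sz_pair]
        omega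
    refine ⟨Ql ++ Qi ++ Qf, ?_, fun T hT => ?_⟩
    · have h1 := sz_append_le (Ql ++ Qi) Qf
      have h2 := sz_append_le Ql Qi
      have h3 : ((l O a).take j).length ≤ nl a :=
        (List.length_take_le' _ _).trans ((length_le_sz _).trans hl1)
      have h4 := Nat.mul_le_mul_right (M a) h3
      simp only [n]
      omega
    · rcases hl2 T hT with h | ⟨q, hq, hq1, h⟩
      · rcases hi2 T hT with h' | ⟨q, hq, hq1, h'⟩
        · simp only [L, I, h, h', Sum.getLeft?_inl, Option.getD_some, Sum.elim_inl]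
          rcases hf2 T hT with h'' | ⟨q, hq, hq1, h''⟩
          · exact Or.inl h''
          · exact Or.inr ⟨q, by simp [hq], hq1, h''⟩
        · exact Or.inr ⟨q, by simp [hq], hq1, by simp [L, I, h, h', ocStep_inr]⟩
      · exact Or.inr ⟨q, by simp [hq], hq1, by simp [L, I, h]⟩
  have hL : PT L := by simp only [L]; fun_prop
  have hI : PT I := hml.sumElim (hmi.comp (f := fun p : (α × Tab) × List τ => p.1) (by fun_prop))
    (by fun_prop)
  have hstep : PT fun p : (α × Tab) × (σ ⊕ Qy) × τ => ocStep mf p.1 p.2.1 p.2.2 := by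
    have h1 : PT fun p : ((α × Tab) × (σ ⊕ Qy) × τ) × σ =>
        mf ((p.1.1.1, p.2, p.1.2.2), p.1.1.2) :=
      hmf.comp (f := fun p : ((α × Tab) × (σ ⊕ Qy) × τ) × σ =>
        ((p.1.1.1, p.2, p.1.2.2), p.1.1.2)) (by fun_prop)
    exact PT.sumElim (s := fun p : (α × Tab) × (σ ⊕ Qy) × τ => p.2.1) (by fun_prop) h1
      (by fun_prop)
  refine ⟨fun p => (L p).foldl (ocStep mf p) (I p), n,
    PT.foldl (fun p => n p.1 + 4) hstep hL hI (by fun_prop) ?_, hn, fun O a => ⟨?_, ?_⟩⟩
  · rintro ⟨a, T⟩ j
    obtain ⟨Q, hQ, h⟩ := key _ a j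
    rcases h T (cons_tab T) with h | ⟨q, hq, -, h⟩
    · rw [h, sz_inl]
      have := hsz (fun q => (T.lookup q).getD 0) a j
      simp only; omega
    · rw [h, sz_inr]
      have := sz_le_of_mem hq
      simp only; omega
  · have := hsz O a (l O a).length
    rw [List.take_length] at this
    simp only [n]; omega
  · obtain ⟨Q, hQ, h⟩ := key O a (l O a).length
    refine ⟨Q, by omega, fun T hT => ?_⟩
    have e : (L (a, T)).take (l O a).length = L (a, T) := by
      obtain ⟨-, Ql, -, hl2⟩ := hl O a
      rcases hl2 T hT with h | ⟨q, -, -, h⟩ <;> simp [L, h]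
    have := h T hT
    rwa [e, List.take_length] at this

theorem OC.foldl_inv {f : Orc → α → σ → τ → σ} {l : Orc → α → List τ} {ini : Orc → α → σ}
    (Inv : Orc → α → σ → Prop) (B : α → ℕ)
    (hf : OC fun O (p : α × σ × τ) => f O p.1 p.2.1 p.2.2) (hl : OC l) (hi : OC ini) (hB : PB B)
    (h0 : ∀ O a, Inv O a (ini O a)) (hs : ∀ O a s, ∀ x ∈ l O a, Inv O a s → Inv O a (f O a s x))
    (hsz : ∀ O a s, Inv O a s → sz s ≤ B a) : OC fun O a => (l O a).foldl (f O a) (ini O a) := by
  refine OC.foldl B hf hl hi hB fun O a i => hsz O a _ ?_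
  have : ∀ (m : List τ) (acc : σ), (∀ x ∈ m, x ∈ l O a) → Inv O a acc →
      Inv O a (m.foldl (f O a) acc) := by
    intro m
    induction m with
    | nil => intro acc _ h; exact h
    | cons x m ih =>
      intro acc hm h
      exact ih _ (fun y hy => hm y (by simp [hy])) (hs O a acc x (hm x (by simp)) h)
  exact this _ _ (fun x hx => List.mem_of_mem_take hx) (h0 O a)

/-- Loops whose state grows additively. -/
theorem OC.foldl_add {f : Orc → α → σ → τ → σ} {l : Orc → α → List τ} {ini : Orc → α → σ}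
    (B : α × τ → ℕ) (hf : OC fun O (p : α × σ × τ) => f O p.1 p.2.1 p.2.2) (hl : OC l) (hi : OC ini)
    (hB : PB B) (hsz : ∀ O a s x, sz (f O a s x) ≤ sz s + B (a, x)) :
    OC fun O a => (l O a).foldl (f O a) (ini O a) := by
  obtain ⟨c, k, hG⟩ := hB.exists_bound
  obtain ⟨nl, hnl, hl1⟩ := hl.exists_pb
  obtain ⟨ni, hni, hi1⟩ := hi.exists_pb
  refine OC.foldl (fun a => ni a + nl a * (c * (sz a + nl a + 1) ^ k))
    hf hl hi (by fun_prop) fun O a i => ?_
  have : ∀ (m : List τ) (acc : σ), (∀ x ∈ m, x ∈ l O a) →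
      sz (m.foldl (f O a) acc) ≤ sz acc + m.length * (c * (sz a + nl a + 1) ^ k) := by
    intro m
    induction m with
    | nil => intro acc _; simp
    | cons x m ih =>
      intro acc hm
      have h1 := ih (f O a acc x) (fun y hy => hm y (by simp [hy]))
      have hx := hm x (by simp)
      have h2 := hsz O a acc x
      have h3 := hG (a, x) (sz a + nl a + 1) (by
        have := sz_le_of_mem hx
        have := hl1 O a
        simp; omega)
      simp only [List.foldl_cons, List.length_cons]
      nlinarith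
  refine (this _ _ (fun x hx => List.mem_of_mem_take hx)).trans ?_
  have h3 : ((l O a).take i).length ≤ nl a :=
    (List.length_take_le' _ _).trans ((length_le_sz _).trans (hl1 O a))
  have := Nat.mul_le_mul_right (c * (sz a + nl a + 1) ^ k) h3
  have := hi1 O a
  omega

theorem OC.map {f : Orc → α → τ → β} {l : Orc → α → List τ}
    (hf : OC fun O (p : α × τ) => f O p.1 p.2) (hl : OC l) : OC fun O a => (l O a).map (f O a) := by
  obtain ⟨nf, hnf, hf1⟩ := hf.exists_pb
  have h1 : OC fun O (p : α × List β × τ) => f O p.1 p.2.2 :=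
    hf.precomp (f := fun p : α × List β × τ => (p.1, p.2.2)) (by fun_prop)
  have h2 : OC fun O (p : α × List β × τ) => p.2.1 ++ [f O p.1 p.2.2] :=
    OC.pt₂ (g := fun (p : α × List β × τ) (b : β) => p.2.1 ++ [b]) (by fun_prop) h1
  refine (OC.foldl_add (f := fun O a (s : List β) x => s ++ [f O a x]) (ini := fun _ _ => [])
    (fun p => nf p + 2) h2 hl (OC.pure (PT.const _)) (by fun_prop) fun O a s x => ?_).congr
    fun O a => ?_
  · have h3 := sz_append_le s [f O a x]
    have h4 := hf1 O (a, x)
    simp only [sz_cons, sz_nil] at h3 h4 ⊢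
    omega
  · have : ∀ (m : List τ) (s : List β),
        m.foldl (fun s x => s ++ [f O a x]) s = s ++ m.map (f O a) := by
      intro m
      induction m with
      | nil => simp
      | cons x m ih => intro s; simp [ih]
    rw [this]; simp

theorem OC.iterate_inv {f : Orc → α → σ → σ} {k : α → ℕ} {ini : Orc → α → σ}
    (Inv : Orc → α → σ → Prop) (B : α → ℕ) (hf : OC fun O (p : α × σ) => f O p.1 p.2) (hk : PT k)
    (hk' : PB k) (hi : OC ini) (hB : PB B) (h0 : ∀ O a, Inv O a (ini O a))
    (hs : ∀ O a s, Inv O a s → Inv O a (f O a s)) (hsz : ∀ O a s, Inv O a s → sz s ≤ B a) :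
    OC fun O a => (f O a)^[k a] (ini O a) := by
  have h1 : OC fun O (p : α × σ × ℕ) => f O p.1 p.2.1 :=
    hf.precomp (f := fun p : α × σ × ℕ => (p.1, p.2.1)) (by fun_prop)
  have key : ∀ O a (l : List ℕ) (x : σ),
      l.foldl (fun acc _ => f O a acc) x = (f O a)^[l.length] x := by
    intro O a l
    induction l with
    | nil => simp
    | cons y l ih => intro x; simp [ih]
  refine (OC.foldl_inv (f := fun O a (acc : σ) (_ : ℕ) => f O a acc)
    (l := fun _ a => List.range (k a)) Inv B h1 (OC.pure (hk.range hk')) hi hB h0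
    (fun O a s _ _ h => hs O a s h) hsz).congr fun O a => ?_
  rw [key]; simp

/-- Answering the queries by a subroutine: replay `m` for `n a + 1` rounds, extending the table by
the answer of `r` in each round (an `OC.foldl` whose state is the table). -/
theorem OC.subst {f : Orc → α → β} {r : Orc → Qy → ℕ} (hf : OC f) (hr : OC r) :
    OC fun O a => f (r O) a := by
  classical
  obtain ⟨mf, nf, hmf, hnf, hf⟩ := hf
  obtain ⟨nr, hnr, hr1⟩ := hr.exists_pb
  obtain ⟨c, k, hnf⟩ := hnf
  obtain ⟨c', k', hnr⟩ := hnr.exists_bound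
  choose hf1 Qs hQs hf2 using hf
  by_cases hne : Nonempty α
  swap
  · exact ⟨fun _ => .inr (true, []), fun _ => 0, PT.const _, PB.const _,
      fun _ a => (hne ⟨a⟩).elim⟩
  obtain ⟨a₀⟩ := hne
  let K : α → ℕ := fun a => c * sz a ^ k
  have hK : PT K := by simp only [K]; fun_prop
  have hK' : PB K := by simp only [K]; fun_prop
  let qy : α × Tab → Qy := fun p => (mf p).getRight?.getD (true, [])
  have hqy : PT qy := by simp only [qy]; fun_prop
  let step : Orc → α → Tab → Tab := fun O a T =>
    if (mf (a, T)).isLeft = true then T else (qy (a, T), r O (qy (a, T))) :: T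
  have hstep : OC fun O (p : α × Tab) => step O p.1 p.2 :=
    OC.pt₂ (g := fun (p : α × Tab) (v : ℕ) =>
      if (mf p).isLeft = true then p.2 else (qy p, v) :: p.2) (by fun_prop) (hr.precomp hqy)
  let Inv : Orc → α → Tab → Prop := fun O a T => Cons (r O) T ∧ (T.map Prod.fst).Nodup ∧
    ∀ e ∈ T, e.1 ∈ Qs (r O) a ∧ e.2 = r O e.1
  have hlen : ∀ O a T, Inv O a T → T.length < K a := by
    rintro O a T ⟨-, h2, h3⟩
    have h4 : (T.map Prod.fst).length ≤ (Qs (r O) a).length := by
      refine (h2.subperm fun q hq => ?_).length_le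
      obtain ⟨e, he, rfl⟩ := List.mem_map.1 hq
      exact (h3 e he).1
    have h5 := length_lt_sz (Qs (r O) a)
    have h6 := hQs (r O) a
    have h7 := hnf a
    simp only [List.length_map] at h4
    simp only [K]; omega
  have hinv : ∀ O a T, Inv O a T → Inv O a (step O a T) ∧
      ((mf (a, T) = .inl (f (r O) a) ∧ step O a T = T) ∨ (step O a T).length = T.length + 1) := by
    rintro O a T ⟨h1, h2, h3⟩
    rcases hf2 (r O) a T h1 with h | ⟨q, hq, hq1, h⟩
    · have e : step O a T = T := by simp [step, h]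
      rw [e]
      exact ⟨⟨h1, h2, h3⟩, Or.inl ⟨h, rfl⟩⟩
    · have e : step O a T = (q, r O q) :: T := by simp [step, qy, h]
      rw [e]
      refine ⟨⟨fun q' v hv => ?_, ?_, ?_⟩, Or.inr rfl⟩
      · rw [List.lookup_cons] at hv
        by_cases hqq : q' = q
        · subst hqq; simpa using hv
        · have : (q' == q) = false := by simpa using hqq
          rw [this] at hv
          exact h1 _ _ hv
      · rw [List.map_cons, List.nodup_cons]
        refine ⟨fun hmem => ?_, h2⟩
        obtain ⟨e, he, he'⟩ := List.mem_map.1 hmem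
        have := List.lookup_eq_none_iff.1 hq1 e he
        simp [he'] at this
      · intro e he
        rcases List.mem_cons.1 he with rfl | he
        · exact ⟨hq, rfl⟩
        · exact h3 e he
  have hinv0 : ∀ O a, Inv O a [] := fun O a => ⟨fun q v h => by simp at h, by simp, by simp⟩
  have hloop : OC fun O a => (step O a)^[K a] [] := by
    refine OC.iterate_inv (ini := fun _ _ => []) Inv
      (fun a => K a * (K a + c' * K a ^ k' + 2) + 1) hstep hK hK' (OC.pure (PT.const _))
      (by fun_prop) hinv0 (fun O a T h => (hinv O a T h).1) fun O a T h => ?_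
    have h1 := hlen O a T h
    have h2 := sz_list_le T (K a + c' * K a ^ k' + 1) fun e he => by
      obtain ⟨h3, h4⟩ := h.2.2 e he
      have h5 : sz e.1 ≤ K a := (sz_le_of_mem h3).trans ((hQs _ _).trans (hnf a))
      have h6 := (hr1 O e.1).trans (hnr _ _ h5)
      rw [sz_prod, h4]; omega
    have h3 := Nat.mul_le_mul_left (K a + c' * K a ^ k' + 1 + 1) h1.le
    rw [mul_comm (K a)]
    exact h2.trans (Nat.add_le_add_right h3 1)
  have hfin : ∀ O a i, Inv O a ((step O a)^[i] []) ∧
      (mf (a, (step O a)^[i] []) = .inl (f (r O) a) ∨ i ≤ ((step O a)^[i] []).length) := by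
    intro O a i
    induction i with
    | zero => exact ⟨hinv0 O a, Or.inr (Nat.zero_le _)⟩
    | succ i ih =>
      rw [Function.iterate_succ_apply']
      obtain ⟨h1, h2⟩ := hinv O a _ ih.1
      refine ⟨h1, ?_⟩
      rcases h2 with ⟨h2, h3⟩ | h2
      · rw [h3]; exact Or.inl h2
      · rcases ih.2 with h4 | h4
        · have e : step O a ((step O a)^[i] []) = (step O a)^[i] [] := by simp [step, h4]
          rw [e]; exact Or.inl h4
        · exact Or.inr (by omega)
  refine (OC.pt₂ (g := fun (a : α) (T : Tab) => (mf (a, T)).getLeft?.getD (f (fun _ => 0) a₀))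
    (by fun_prop) hloop).congr fun O a => ?_
  obtain ⟨h1, h2 | h2⟩ := hfin O a (K a)
  · simp [h2]
  · exact absurd (hlen O a _ h1) (by omega)

theorem OC.filter {c : Orc → α → τ → Bool} {l : Orc → α → List τ}
    (hc : OC fun O (p : α × τ) => c O p.1 p.2) (hl : OC l) :
    OC fun O a => (l O a).filter (c O a) := by
  have h1 : OC fun O (p : α × τ) => (p.2, c O p.1 p.2) := (OC.pure (by fun_prop)).pair hc
  refine (OC.pt (g := fun m : List (τ × Bool) => (m.filter fun e => e.2).map fun e => e.1)
    (by fun_prop) (OC.map (f := fun O a x => (x, c O a x)) h1 hl)).congr fun O a => ?_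
  simp [List.filter_map, Function.comp_def]

theorem OC.all {c : Orc → α → τ → Bool} {l : Orc → α → List τ}
    (hc : OC fun O (p : α × τ) => c O p.1 p.2) (hl : OC l) :
    OC fun O a => (l O a).all (c O a) :=
  (OC.pt (g := fun m : List Bool => m.all fun e => e) (by fun_prop) (OC.map hc hl)).congr
    fun O a => by simp [List.all_map, Function.comp_def]

theorem OC.any {c : Orc → α → τ → Bool} {l : Orc → α → List τ}
    (hc : OC fun O (p : α × τ) => c O p.1 p.2) (hl : OC l) :
    OC fun O a => (l O a).any (c O a) :=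
  (OC.pt (g := fun m : List Bool => m.any fun e => e) (by fun_prop) (OC.map hc hl)).congr
    fun O a => by simp [List.any_map, Function.comp_def]

theorem OC.find? {c : Orc → α → τ → Bool} {l : Orc → α → List τ}
    (hc : OC fun O (p : α × τ) => c O p.1 p.2) (hl : OC l) :
    OC fun O a => (l O a).find? (c O a) :=
  (OC.pt (g := fun m : List τ => m.head?) (by fun_prop) (OC.filter hc hl)).congr
    fun O a => by simp

theorem OC.countP {c : Orc → α → τ → Bool} {l : Orc → α → List τ}
    (hc : OC fun O (p : α × τ) => c O p.1 p.2) (hl : OC l) :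
    OC fun O a => (l O a).countP (c O a) :=
  (OC.pt (g := fun m : List τ => m.length) (by fun_prop) (OC.filter hc hl)).congr
    fun O a => by simp [List.countP_eq_length_filter]

theorem OC.filterMap {g : Orc → α → τ → Option β} {l : Orc → α → List τ}
    (hg : OC fun O (p : α × τ) => g O p.1 p.2) (hl : OC l) :
    OC fun O a => (l O a).filterMap (g O a) :=
  (OC.pt (g := fun m : List (Option β) => m.filterMap fun e => e) (by fun_prop)
    (OC.map hg hl)).congr fun O a => by simp [List.filterMap_map, Function.comp_def]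

theorem OC.findSome? {g : Orc → α → τ → Option β} {l : Orc → α → List τ}
    (hg : OC fun O (p : α × τ) => g O p.1 p.2) (hl : OC l) :
    OC fun O a => (l O a).findSome? (g O a) :=
  (OC.pt (g := fun m : List (Option β) => m.findSome? fun e => e) (by fun_prop)
    (OC.map hg hl)).congr fun O a => by simp [List.findSome?_map, Function.comp_def]

theorem OC.flatMap {g : Orc → α → τ → List β} {l : Orc → α → List τ}
    (hg : OC fun O (p : α × τ) => g O p.1 p.2) (hl : OC l) :
    OC fun O a => (l O a).flatMap (g O a) :=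
  (OC.pt (g := fun m : List (List β) => m.flatten) (by fun_prop)
    (OC.map hg hl)).congr fun O a => by simp [List.flatMap]

end Crest.Agent.R302
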