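import Crest.Agent.R302.Alg
import Crest.Agent.R302.OC

/-!
Row 302, part E7 (auxiliary): the oracle-free parts of the annealing algorithm are polynomial time.
-/

set_option autoImplicit false

namespace Crest.Agent.R302

open Finset Crest.Agent.Lib.PT Crest.Agent.R309

section Params
variable {α : Type} [Enc α] {S j : α → ℕ}

@[fun_prop] theorem algoc_pt_q2 (hs : PT S) : PT fun a => q2 (S a) := by unfold q2; fun_prop
@[fun_prop] theorem algoc_pb_q2 (hb : PB S) : PB fun a => q2 (S a) := by unfold q2; fun_prop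
@[fun_prop] theorem algoc_pt_nA (hs : PT S) : PT fun a => nA (S a) := by unfold nA; fun_prop
@[fun_prop] theorem algoc_pb_nA (hb : PB S) : PB fun a => nA (S a) := by unfold nA; fun_prop
@[fun_prop] theorem algoc_pt_r0 (hs : PT S) : PT fun a => r0 (S a) := by unfold r0; fun_prop
@[fun_prop] theorem algoc_pt_r1 (hs : PT S) : PT fun a => r1 (S a) := by unfold r1; fun_prop
@[fun_prop] theorem algoc_pt_nT (hs : PT S) : PT fun a => nT (S a) := by unfold nT; fun_prop
@[fun_prop] theorem algoc_pb_nT (hb : PB S) : PB fun a => nT (S a) := by unfold nT; fun_prop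
@[fun_prop] theorem algoc_pt_rw (hs : PT S) : PT fun a => rw (S a) := by unfold rw; fun_prop
@[fun_prop] theorem algoc_pt_nR (hs : PT S) : PT fun a => nR (S a) := by unfold nR; fun_prop
@[fun_prop] theorem algoc_pb_nR (hb : PB S) : PB fun a => nR (S a) := by unfold nR; fun_prop
@[fun_prop] theorem algoc_pt_nP (hs : PT S) : PT fun a => nP (S a) := by unfold nP; fun_prop
@[fun_prop] theorem algoc_pb_nP (hb : PB S) : PB fun a => nP (S a) := by unfold nP; fun_prop
@[fun_prop] theorem algoc_pt_pw (hs : PT S) : PT fun a => pw (S a) := by unfold pw; fun_prop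

theorem algoc_pt_scales (hs : PT S) (hb : PB S) :
    PT fun a => (List.range (q2 (S a) + 2)).map (pθ (q2 (S a))) := by
  have h1 : PB fun p : α × ℕ => min p.2 (q2 (S p.1) + 2) := PB.min_right _ (by fun_prop)
  have h2 : PT fun a => (List.range (q2 (S a) + 2)).map fun j =>
      q2 (S a) ^ 345 * 2 ^ min j (q2 (S a) + 2) := by fun_prop
  refine h2.congr fun a => List.map_congr_left fun j hj => ?_
  rw [min_eq_left (List.mem_range.1 hj).le, pθ]

end Params

/-- only the sizes -/
def algocSk (m S : ℕ) : Alg :=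
  ⟨m, S, 0, 0, 0, fun _ _ => false, fun _ _ => 0, fun _ => ([], [], [], [], []), fun _ => []⟩

theorem algocSk_m (m S : ℕ) : (algocSk m S).m = m := rfl
theorem algocSk_S (m S : ℕ) : (algocSk m S).S = S := rfl

section Pure
variable {α : Type} [Enc α] {m S e g x y i k r : α → ℕ} {L : α → StrL} {z φ pot : α → List ℤ}
  {ω : α → List Bool} {as : α → List (List ℤ)} {b : α → Bool}

@[fun_prop] theorem algoc_pt_ellL (hz : PT z) (he : PT e) : PT fun a => ellL (z a) (e a) := by
  unfold ellL; fun_prop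
@[fun_prop] theorem algoc_pt_rootL (hL : PT L) (he : PT e) : PT fun a => rootL (L a) (e a) := by
  unfold rootL; fun_prop
@[fun_prop] theorem algoc_pt_vL (hL : PT L) (hg : PT g) (hx : PT x) :
    PT fun a => vL (L a) (g a) (x a) := by unfold vL; fun_prop
@[fun_prop] theorem algoc_pt_kr (hx : PT x) (hy : PT y) : PT fun a => kr (x a) (y a) := by
  unfold kr; fun_prop
@[fun_prop] theorem algoc_pt_rL (hm : PT m) (hs : PT S) : PT fun a => (algocSk (m a) (S a)).rL := by
  simp only [Alg.rL, algocSk_m, algocSk_S]; fun_prop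
@[fun_prop] theorem algoc_pt_rLR (hm : PT m) (hs : PT S) :
    PT fun a => (algocSk (m a) (S a)).rLR := by
  simp only [Alg.rLR, algocSk_S]; fun_prop
@[fun_prop] theorem algoc_pt_rTrial (hm : PT m) (hs : PT S) :
    PT fun a => (algocSk (m a) (S a)).rTrial := by
  simp only [Alg.rTrial, algocSk_S]; fun_prop
@[fun_prop] theorem algoc_pt_rTrans (hm : PT m) (hs : PT S) :
    PT fun a => (algocSk (m a) (S a)).rTrans := by
  simp only [Alg.rTrans, algocSk_S]; fun_prop
@[fun_prop] theorem algoc_pt_tyL (hm : PT m) (hm' : PB m) (hL : PT L) (hz : PT z) (hr : PT r) :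
    PT fun a => (algocSk (m a) (S a)).tyL (L a) (z a) (r a) := by
  simp only [Alg.tyL, algocSk_m]; fun_prop
@[fun_prop] theorem algoc_pt_isTy (hm : PT m) (hm' : PB m) (hL : PT L) (hz : PT z) (hi : PT i)
    (hk : PT k) : PT fun a => (algocSk (m a) (S a)).isTy (L a) (z a) (i a) (k a) := by
  simp only [Alg.isTy, algocSk_m]; fun_prop
@[fun_prop] theorem algoc_pt_coefL (hm : PT m) (hm' : PB m) (hL : PT L) (hg : PT g) (hz : PT z) :
    PT fun a => (algocSk (m a) (S a)).coefL (L a) (g a) (z a) := by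
  simp only [Alg.coefL, algocSk_m]; fun_prop
@[fun_prop] theorem algoc_pt_mv (hs : PT S) (hb : PB S) (hL : PT L) (hi : PT i) (hx : PT x) :
    PT fun a => (algocSk (m a) (S a)).mv (L a) (i a) (x a) := by
  have h1 : PB fun a => min (i a / q2 (S a) ^ 2 - 1) (q2 (S a) + 1) := PB.min_right _ (by fun_prop)
  simp only [Alg.mv, algocSk_S]; fun_prop
@[fun_prop] theorem algoc_pt_prop (hm : PT m) (hm' : PB m) (hs : PT S) (hb : PB S) (hL : PT L)
    (hi : PT i) (hb' : PT b) (hz : PT z) :
    PT fun a => (algocSk (m a) (S a)).prop (L a) (i a) (b a) (z a) := by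
  simp only [Alg.prop, algocSk_m]; fun_prop
@[fun_prop] theorem algoc_pt_addT (hm : PT m) (hm' : PB m) (hL : PT L) (hz : PT z) (hφ : PT φ) :
    PT fun a => (algocSk (m a) (S a)).addT (L a) (z a) (φ a) := by
  simp only [Alg.addT, algocSk_m]; fun_prop
@[fun_prop] theorem algoc_pt_phi (hm : PT m) (hm' : PB m) (hs : PT S) (hω : PT ω) :
    PT fun a => (algocSk (m a) (S a)).phi (ω a) := by
  simp only [Alg.phi, algocSk_m, algocSk_S]; fun_prop
@[fun_prop] theorem algoc_pt_absorb (hm : PT m) (hm' : PB m) (hL : PT L) (hz : PT z) :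
    PT fun a => (algocSk (m a) (S a)).absorb (L a) (z a) := by
  simp only [Alg.absorb, algocSk_m]; fun_prop
@[fun_prop] theorem algoc_pt_perf (hm : PT m) (hm' : PB m) (hz : PT z) :
    PT fun a => (algocSk (m a) (S a)).perf (z a) := by
  simp only [Alg.perf, algocSk_m]; fun_prop
@[fun_prop] theorem algoc_pt_shift (hm : PT m) (hm' : PB m) (hz : PT z) (hr : PT r) (hx : PT x)
    (hy : PT y) : PT fun a => (algocSk (m a) (S a)).shift (z a) (r a) (x a) (y a) := by
  simp only [Alg.shift, algocSk_m]; fun_prop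
@[fun_prop] theorem algoc_pt_cnt (hm : PT m) (hm' : PB m) (hL : PT L) (has : PT as) (hi : PT i)
    (hk : PT k) : PT fun a => (algocSk (m a) (S a)).cnt (L a) (as a) (i a) (k a) := by
  simp only [Alg.cnt]; fun_prop
@[fun_prop] theorem algoc_pt_flag (hm : PT m) (hm' : PB m) (hL : PT L) (has : PT as) (hi : PT i) :
    PT fun a => (algocSk (m a) (S a)).flag (L a) (as a) (i a) := by
  simp only [Alg.flag, algocSk_m]; fun_prop
@[fun_prop] theorem algoc_pt_newPot (hm : PT m) (hm' : PB m) (hL : PT L) (hp : PT pot)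
    (has : PT as) : PT fun a => (algocSk (m a) (S a)).newPot (L a) (pot a) (as a) := by
  simp only [Alg.newPot, algocSk_m]; fun_prop
@[fun_prop] theorem algoc_pt_ratio {ps : α → List (ℕ × List ℤ)} (hs : PT S) (hb : PB S)
    (hp : PT ps) : PT fun a => (algocSk (m a) (S a)).ratio (ps a) := by
  simp only [Alg.ratio, algocSk_S]; fun_prop

end Pure

end Crest.Agent.R302
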