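import Crest.Agent.R302.Alg
import Crest.Agent.R302.OC
import Crest.Agent.R302.AlgOCAux

/-!
Row 302, part E7: the annealing algorithm is oracle polynomial time.
-/

set_option autoImplicit false

namespace Crest.Agent.R302

open Finset Crest.Agent.Lib.PT Crest.Agent.R309

section cases
variable (A : Alg)

theorem algoc_step_cases (θ : Th) (x : List ℤ) (ω : List Bool) :
    A.step θ x ω = x ∨ A.mem θ.1 (A.step θ x ω) = true := by
  unfold Alg.step metro
  split_ifs with h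
  · right
    simp only [Alg.valid, Bool.and_eq_true] at h
    exact h.1.2.1.1
  · exact Or.inl rfl

theorem algoc_trans_cases (θ : Th) (z : List ℤ) (ω : List Bool) :
    A.trans θ z ω = z ∨ A.mem (θ.1 + 1) (A.trans θ z ω) = true := by
  unfold Alg.trans retry
  cases h : (chunks (nR A.S) A.rTrial ω).findSome? (A.trial θ z) with
  | none => exact Or.inl rfl
  | some y =>
    right
    obtain ⟨u, -, hu⟩ := List.exists_of_findSome?_eq_some h
    unfold Alg.trial Alg.fin at hu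
    split_ifs at hu with h1
    simp only [Bool.and_eq_true] at h1
    obtain rfl := Option.some.inj hu
    exact h1.1.2

theorem algoc_sz_table (t : ℕ) (z : List ℤ) :
    sz (A.table t z) ≤ ((6 * (2 * A.m) + 2) * (2 * A.m) + 2) * (q2 A.S + 2) + 1 := by
  refine (sz_list_le _ ((6 * (2 * A.m) + 2) * (2 * A.m) + 1) fun u hu => ?_).trans
    (by simp [Alg.table])
  obtain ⟨j, -, rfl⟩ := List.mem_map.1 hu
  refine (sz_list_le _ (6 * (2 * A.m) + 1) fun v hv => ?_).trans (by simp)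
  obtain ⟨p, -, rfl⟩ := List.mem_map.1 hv
  simp [sz_boolList]

theorem algoc_ht_nat {n k : ℕ} (h : n < 2 ^ k) : ht (n : ℚ) ≤ k + 1 := by
  have := Nat.size_le.2 h
  simp only [ht, Rat.num_natCast, Int.natAbs_natCast, Rat.den_natCast, Nat.size_one]
  omega

theorem algoc_ht_ratio (θs : List Th) (θ : Th) (ω : List Bool) :
    ht (A.ratio (A.probes θs θ ω)) ≤ 2 * (nP A.S + nA A.S + 2) := by
  have h0 : nP A.S * 2 ^ nA A.S < 2 ^ (nP A.S + nA A.S) := by
    rw [pow_add]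
    exact Nat.mul_lt_mul_of_pos_right Nat.lt_two_pow_self (by positivity)
  have h1 : ((A.probes θs θ ω).map Prod.fst).sum ≤ nP A.S * 2 ^ nA A.S := by
    refine (List.sum_le_card_nsmul _ (2 ^ nA A.S) fun x hx => ?_).trans
      (by simp [Alg.probes, length_chunks])
    simp only [Alg.probes, List.map_map, List.mem_map] at hx
    obtain ⟨u, -, rfl⟩ := hx
    simp only [Function.comp, Alg.probe, Alg.yv]
    split_ifs
    · exact Nat.pow_le_pow_right (by norm_num) (Nat.sub_le _ _)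
    · exact Nat.zero_le _
  have h2 := algoc_ht_nat (h1.trans_lt h0)
  have h3 := algoc_ht_nat h0
  have h4 := ht_div_le ((((A.probes θs θ ω).map Prod.fst).sum : ℕ) : ℚ)
    ((nP A.S * 2 ^ nA A.S : ℕ) : ℚ)
  unfold Alg.ratio
  omega

/-- bounded potentials -/
def algocPot (m t : ℕ) (pot : List ℤ) : Prop := pot.length ≤ m ∧ ∀ x ∈ pot, |x| ≤ (3 * t : ℕ)

theorem algocPot.mono {m t t' : ℕ} {pot : List ℤ} (h : algocPot m t pot) (ht : t ≤ t') :
    algocPot m t' pot :=
  ⟨h.1, fun x hx => (h.2 x hx).trans (by exact_mod_cast Nat.mul_le_mul_left 3 ht)⟩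

theorem algocPot.sz_le {m t : ℕ} {pot : List ℤ} (h : algocPot m t pot) :
    sz pot ≤ (18 * t + 8) * m + 1 := by
  refine (sz_list_le _ (18 * t + 7) fun x hx => ?_).trans
    (Nat.add_le_add_right (Nat.mul_le_mul_left _ h.1) 1)
  have h3 := sz_int_le_of_abs_le (h.2 x hx)
  have h4 := sz_nat_le_self (3 * t)
  omega

theorem algocPot.newPot {t : ℕ} {pot : List ℤ} (h : algocPot A.m t pot) (L : StrL)
    (as : List (List ℤ)) : algocPot A.m (t + 1) (A.newPot L pot as) := by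
  refine ⟨by simp [Alg.newPot], fun x hx => ?_⟩
  obtain ⟨i, -, rfl⟩ := List.mem_map.1 hx
  have h1 : |pot.getD (rootL L i) 0| ≤ (3 * t : ℕ) := by
    rcases lt_or_ge (rootL L i) pot.length with hi | hi
    · rw [List.getD_eq_getElem _ _ hi]
      exact h.2 _ (List.getElem_mem _)
    · rw [List.getD_eq_default _ _ hi, abs_zero]
      exact Int.natCast_nonneg _
  rw [abs_le] at h1 ⊢
  split_ifs <;> omega

/-- the invariant of the main loop -/
def algocInv (Bb H t : ℕ) (st : List Th × List ℤ × ℚ) : Prop :=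
  st.1.length = t ∧ (∀ θ ∈ st.1, θ.1 ≤ t ∧ sz θ.2.1 ≤ Bb ∧ algocPot A.m t θ.2.2) ∧
    algocPot A.m t st.2.1 ∧ ht st.2.2 ≤ H + t * (2 * (nP A.S + nA A.S + 2))

theorem algoc_stage_inv {Bb H t : ℕ} (hB : ∀ s z, sz (A.build (A.m, A.table s z)) ≤ Bb)
    {st : List Th × List ℤ × ℚ} (h : algocInv A Bb H t st) (ω : List Bool) :
    algocInv A Bb H (t + 1) (A.stage st ω) := by
  obtain ⟨h1, h2, h3, h4⟩ := h
  refine ⟨by simp [Alg.stage, h1], fun θ hθ => ?_, h3.newPot A _ _, ?_⟩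
  · simp only [Alg.stage, List.mem_append, List.mem_singleton] at hθ
    rcases hθ with hθ | rfl
    · obtain ⟨a1, a2, a3⟩ := h2 θ hθ
      exact ⟨a1.trans (Nat.le_succ _), a2, a3.mono (Nat.le_succ _)⟩
    · exact ⟨h1.le.trans (Nat.le_succ _), hB _ _, h3.mono (Nat.le_succ _)⟩
  · have a1 := algoc_ht_ratio A st.1 (A.newTh st.1 st.2.1 (ω.take A.rS)) (ω.drop A.rS)
    have a2 := ht_mul_le st.2.2
      (A.ratio (A.probes st.1 (A.newTh st.1 st.2.1 (ω.take A.rS)) (ω.drop A.rS)))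
    change ht (st.2.2 * _) ≤ _
    rw [add_mul, one_mul]
    omega

theorem algoc_foldl_inv {Bb H : ℕ} (hB : ∀ s z, sz (A.build (A.m, A.table s z)) ≤ Bb)
    (l : List (List Bool)) {t : ℕ} {st : List Th × List ℤ × ℚ} (h : algocInv A Bb H t st) :
    algocInv A Bb H (t + l.length) (l.foldl A.stage st) := by
  induction l generalizing st t with
  | nil => exact h
  | cons x l ih =>
    have := ih (algoc_stage_inv A hB h x)
    rwa [List.length_cons, ← add_assoc, add_right_comm]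

theorem algocInv.sz_le {Bb H t T : ℕ} {st : List Th × List ℤ × ℚ} (h : algocInv A Bb H t st)
    (hT : t ≤ T) : sz st ≤ (6 * T + Bb + (18 * T + 8) * A.m + 5) * T + (18 * T + 8) * A.m +
      12 * (H + T * (2 * (nP A.S + nA A.S + 2))) + 16 := by
  obtain ⟨h1, h2, h3, h4⟩ := h
  have a1 : sz st.1 ≤ (6 * T + Bb + (18 * T + 8) * A.m + 5) * T + 1 := by
    refine (sz_list_le _ (6 * T + Bb + (18 * T + 8) * A.m + 4) fun θ hθ => ?_).trans
      (Nat.add_le_add_right (Nat.mul_le_mul_left _ (h1.le.trans hT)) 1)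
    obtain ⟨b1, b2, b3⟩ := h2 θ hθ
    have b4 := (b3.mono hT).sz_le
    have b5 := sz_nat_le_self θ.1
    rw [sz_prod θ, sz_prod θ.2]
    omega
  have a2 := (h3.mono hT).sz_le
  have a3 := sz_le_ht st.2.2
  have a4 := Nat.mul_le_mul_right (2 * (nP A.S + nA A.S + 2)) hT
  rw [sz_prod st, sz_prod st.2]
  omega

end cases

/-- A family of algorithms. -/
structure AlgocFam (α : Type) where
  /-- number of elements -/
  m : α → ℕ
  /-- size parameter -/
  S : α → ℕ
  /-- number of stages -/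
  Tn : α → ℕ
  /-- bits of the initial sampler -/
  rI : α → ℕ
  /-- initial partition function -/
  tot : α → ℕ
  /-- size bound -/
  B : α → ℕ
  /-- membership test -/
  mem : Orc → α → ℕ → List ℤ → Bool
  /-- exponent of the weight -/
  wex : α → ℕ → List ℤ → ℕ
  /-- construction of the structure -/
  build : ℕ × List (List (List Bool)) → StrL
  /-- initial sampler -/
  init : α → List Bool → List ℤ

namespace AlgocFam
variable {α : Type} [Enc α] (F : AlgocFam α)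

/-- The member of the family. -/
def A (O : Orc) (a : α) : Alg :=
  ⟨F.m a, F.S a, F.Tn a, F.rI a, F.tot a, F.mem O a, F.wex a, F.build, F.init a⟩

/-- The sizes. -/
abbrev K (a : α) : Alg := algocSk (F.m a) (F.S a)

/-- The hypotheses. -/
structure OK : Prop where
  hm : PT F.m
  hm' : PB F.m
  hS : PT F.S
  hS' : PB F.S
  hT : PT F.Tn
  hT' : PB F.Tn
  hr : PT F.rI
  ht : PT F.tot
  hmem : OC fun O (p : α × ℕ × List ℤ) => F.mem O p.1 p.2.1 p.2.2
  hwex : PT fun p : α × ℕ × List ℤ => F.wex p.1 p.2.1 p.2.2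
  hbuild : PT fun p : List Unit × List (List (List Bool)) => F.build (p.1.length, p.2)
  hinit : PT fun p : α × List Bool => F.init p.1 p.2
  hB : PB F.B
  hsz : ∀ O a t l, F.mem O a t l = true → sz l ≤ F.B a

variable {F} (H : F.OK)
include H

theorem oc_valid : OC fun O (p : α × Th × List ℤ) => (F.A O p.1).valid p.2.1 p.2.2 := by
  obtain ⟨hm, hm', hS, hS', -, -, -, -, hmem, -⟩ := H
  exact OC.pt₂ (g := fun (p : α × Th × List ℤ) (b : Bool) => b &&
    decide (∃ i < F.m p.1, ∃ k < F.m p.1, (F.K p.1).isTy p.2.1.2.1 p.2.2 i k = true) &&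
    decide (∀ g < 2 * F.m p.1, p.2.1.2.1.2.1.getD g false = true →
      -(pw (q2 (F.S p.1)) : ℤ) ≤ (F.K p.1).coefL p.2.1.2.1 g p.2.2 ∧
        (F.K p.1).coefL p.2.1.2.1 g p.2.2 < pw (q2 (F.S p.1)))) (by fun_prop)
    (hmem.precomp (f := fun p : α × Th × List ℤ => (p.1, p.2.1.1, p.2.2)) (by fun_prop))

theorem pt_lw (O : Orc) : PT fun p : α × Th × List ℤ => (F.A O p.1).lw p.2.1 p.2.2 := by
  obtain ⟨hm, hm', -, -, -, -, -, -, -, hwex, -⟩ := H
  have h1 : PT fun p : α × Th × List ℤ => F.wex p.1 p.2.1.1 p.2.2 :=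
    hwex.comp (f := fun p : α × Th × List ℤ => (p.1, p.2.1.1, p.2.2)) (by fun_prop)
  change PT fun p : α × Th × List ℤ => ∑ e ∈ range (F.m p.1),
    p.2.1.2.2.getD (rootL p.2.1.2.1 e) 0 * ellL p.2.2 e - (F.wex p.1 p.2.1.1 p.2.2 : ℤ)
  exact PT.intSub (by fun_prop) h1.intNatCast

theorem oc_step : OC fun O (p : α × Th × List ℤ × List Bool) =>
    (F.A O p.1).step p.2.1 p.2.2.1 p.2.2.2 := by
  have hv := oc_valid H
  have hl := pt_lw H fun _ => 0
  obtain ⟨hm, hm', hS, hS', -⟩ := H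
  obtain ⟨y, hy, ey⟩ : ∃ y : α × Th × List ℤ × List Bool → List ℤ, PT y ∧ y = fun p =>
      (F.K p.1).prop p.2.1.2.1 (ofBits ((p.2.2.2.drop 2).take (r0 (F.S p.1))))
        (p.2.2.2.getD 1 false) p.2.2.1 := ⟨_, by fun_prop, rfl⟩
  have l1 : PT fun p : α × Th × List ℤ × List Bool => (F.A (fun _ => 0) p.1).lw p.2.1 p.2.2.1 :=
    hl.comp (f := fun p : α × Th × List ℤ × List Bool => (p.1, p.2.1, p.2.2.1)) (by fun_prop)
  have l2 : PT fun p : α × Th × List ℤ × List Bool => (F.A (fun _ => 0) p.1).lw p.2.1 (y p) :=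
    hl.comp (f := fun p : α × Th × List ℤ × List Bool => (p.1, p.2.1, y p)) (by fun_prop)
  obtain ⟨d, hd, ed⟩ : ∃ d : α × Th × List ℤ × List Bool → ℤ, PT d ∧ d = fun p =>
      (F.A (fun _ => 0) p.1).lw p.2.1 p.2.2.1 - (F.A (fun _ => 0) p.1).lw p.2.1 (y p) :=
    ⟨_, l1.intSub l2, rfl⟩
  refine (OC.pt₂ (g := fun (p : α × Th × List ℤ × List Bool) (v : Bool × Bool) =>
    if (p.2.2.2.getD 0 false && v.1 && v.2 &&
      (((p.2.2.2.drop (2 + r0 (F.S p.1))).take (nA (F.S p.1))).take (d p).toNat).all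
        (fun b => !b)) = true then y p else p.2.2.1) (by fun_prop)
    ((hv.precomp (f := fun p : α × Th × List ℤ × List Bool => (p.1, p.2.1, p.2.2.1))
      (by fun_prop)).pair (hv.precomp
      (f := fun p : α × Th × List ℤ × List Bool => (p.1, p.2.1, y p)) (by fun_prop)))).congr
    fun O p => ?_
  subst ed ey
  rfl

theorem oc_run : OC fun O (p : α × Th × List ℤ × List Bool) =>
    (F.A O p.1).run p.2.1 p.2.2.1 p.2.2.2 := by
  have hs := oc_step H
  obtain ⟨hm, hm', hS, hS', -, -, -, -, -, -, -, -, hB, hsz⟩ := H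
  refine OC.foldl_inv (f := fun O (p : α × Th × List ℤ × List Bool) => (F.A O p.1).step p.2.1)
    (l := fun _ p => chunks (nT (F.S p.1)) (r1 (F.S p.1)) p.2.2.2) (ini := fun _ p => p.2.2.1)
    (fun O p s => sz s ≤ sz p.2.2.1 + F.B p.1) (fun p => sz p.2.2.1 + F.B p.1)
    (hs.precomp (f := fun q : (α × Th × List ℤ × List Bool) × List ℤ × List Bool =>
      (q.1.1, q.1.2.1, q.2)) (by fun_prop)) (OC.pure (by fun_prop)) (OC.pure (by fun_prop))
    (by fun_prop) (fun _ _ => Nat.le_add_right _ _) (fun O p s x _ h => ?_) fun _ _ _ h => h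
  rcases algoc_step_cases (F.A O p.1) p.2.1 s x with h' | h'
  · rwa [h']
  · exact (hsz _ _ _ _ h').trans (Nat.le_add_left _ _)

theorem oc_lift : OC fun O (p : α × Th × List ℤ × List Bool) =>
    (F.A O p.1).lift p.2.1 p.2.2.1 p.2.2.2 := by
  have hv := oc_valid H
  obtain ⟨hm, hm', hS, hS', -⟩ := H
  have hy : PT fun p : α × Th × List ℤ × List Bool =>
      (F.K p.1).addT p.2.1.2.1 p.2.2.1 ((F.K p.1).phi p.2.2.2) := by fun_prop
  exact OC.cond (hv.precomp (f := fun p : α × Th × List ℤ × List Bool =>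
    (p.1, p.2.1, (F.K p.1).addT p.2.1.2.1 p.2.2.1 ((F.K p.1).phi p.2.2.2))) (by fun_prop))
    (OC.pure hy) (OC.pure (by fun_prop))

theorem oc_lr : OC fun O (p : α × Th × List ℤ × List Bool) =>
    (F.A O p.1).lr p.2.1 p.2.2.1 p.2.2.2 := by
  have h1 := oc_lift H
  have h2 := oc_run H
  obtain ⟨hm, hm', hS, hS', -⟩ := H
  exact OC.bind (g := fun O (p : α × Th × List ℤ × List Bool) z =>
      (F.A O p.1).run p.2.1 z (p.2.2.2.drop (F.K p.1).rL))
    (h2.precomp (f := fun q : (α × Th × List ℤ × List Bool) × List ℤ =>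
      (q.1.1, q.1.2.1, q.2, q.1.2.2.2.drop (F.K q.1.1).rL)) (by fun_prop))
    (h1.precomp (f := fun p : α × Th × List ℤ × List Bool =>
      (p.1, p.2.1, p.2.2.1, p.2.2.2.take (F.K p.1).rL)) (by fun_prop))

theorem oc_fin : OC fun O (p : α × Th × List ℤ × List Bool) =>
    (F.A O p.1).fin p.2.1 p.2.2.1 p.2.2.2 := by
  obtain ⟨hm, hm', hS, hS', -, -, -, -, hmem, hwex, -⟩ := H
  obtain ⟨y, hy, ey⟩ : ∃ y : α × Th × List ℤ × List Bool → List ℤ, PT y ∧ y = fun p =>
      (F.K p.1).absorb p.2.1.2.1 p.2.2.1 := ⟨_, by fun_prop, rfl⟩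
  obtain ⟨d, hd, ed⟩ : ∃ d : α × Th × List ℤ × List Bool → ℕ, PT d ∧ d = fun p =>
      F.wex p.1 (p.2.1.1 + 1) (y p) - F.wex p.1 p.2.1.1 (y p) :=
    ⟨_, (hwex.comp (f := fun p : α × Th × List ℤ × List Bool => (p.1, p.2.1.1 + 1, y p))
      (by fun_prop)).sub (hwex.comp
      (f := fun p : α × Th × List ℤ × List Bool => (p.1, p.2.1.1, y p)) (by fun_prop)), rfl⟩
  refine (OC.pt₂ (g := fun (p : α × Th × List ℤ × List Bool) (v : Bool) =>
    if ((F.K p.1).perf (y p) && v &&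
      ((p.2.2.2.take (nA (F.S p.1))).take (d p)).all (fun b => !b)) = true then some (y p)
    else none) (by fun_prop)
    (hmem.precomp (f := fun p : α × Th × List ℤ × List Bool => (p.1, p.2.1.1 + 1, y p))
      (by fun_prop))).congr fun O p => ?_
  subst ed ey
  rfl

theorem oc_trial : OC fun O (p : α × Th × List ℤ × List Bool) =>
    (F.A O p.1).trial p.2.1 p.2.2.1 p.2.2.2 := by
  have h1 := oc_lr H
  have h2 := oc_fin H
  obtain ⟨hm, hm', hS, hS', -⟩ := H
  exact OC.bind (g := fun O (p : α × Th × List ℤ × List Bool) z =>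
      (F.A O p.1).fin p.2.1 z (p.2.2.2.drop (F.K p.1).rLR))
    (h2.precomp (f := fun q : (α × Th × List ℤ × List Bool) × List ℤ =>
      (q.1.1, q.1.2.1, q.2, q.1.2.2.2.drop (F.K q.1.1).rLR)) (by fun_prop))
    (h1.precomp (f := fun p : α × Th × List ℤ × List Bool =>
      (p.1, p.2.1, p.2.2.1, p.2.2.2.take (F.K p.1).rLR)) (by fun_prop))

theorem oc_trans : OC fun O (p : α × Th × List ℤ × List Bool) =>
    (F.A O p.1).trans p.2.1 p.2.2.1 p.2.2.2 := by
  have h1 := oc_trial H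
  obtain ⟨hm, hm', hS, hS', -⟩ := H
  exact OC.pt₂ (g := fun (p : α × Th × List ℤ × List Bool) (o : Option (List ℤ)) => o.getD p.2.2.1)
    (by fun_prop) (OC.findSome?
      (g := fun O (p : α × Th × List ℤ × List Bool) => (F.A O p.1).trial p.2.1 p.2.2.1)
      (l := fun _ p => chunks (nR (F.S p.1)) (F.K p.1).rTrial p.2.2.2)
      (h1.precomp (f := fun q : (α × Th × List ℤ × List Bool) × List Bool =>
        (q.1.1, q.1.2.1, q.1.2.2.1, q.2)) (by fun_prop)) (OC.pure (by fun_prop)))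

theorem oc_sample : OC fun O (p : α × List Th × List Bool) => (F.A O p.1).sample p.2.1 p.2.2 := by
  have h1 := oc_trans H
  obtain ⟨hm, hm', hS, hS', -, -, hr, -, -, -, -, hinit, hB, hsz⟩ := H
  have h2 : PT fun p : α × List Th × List Bool => F.init p.1 (p.2.2.take (F.rI p.1)) :=
    hinit.comp (f := fun p : α × List Th × List Bool => (p.1, p.2.2.take (F.rI p.1))) (by fun_prop)
  refine OC.foldl_inv (f := fun O (p : α × List Th × List Bool) z (x : Th × List Bool) =>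
      (F.A O p.1).trans x.1 z x.2)
    (l := fun _ p => p.2.1.zip (chunks p.2.1.length (F.K p.1).rTrans (p.2.2.drop (F.rI p.1))))
    (ini := fun _ p => F.init p.1 (p.2.2.take (F.rI p.1)))
    (fun O p s => sz s ≤ sz (F.init p.1 (p.2.2.take (F.rI p.1))) + F.B p.1)
    (fun p => sz (F.init p.1 (p.2.2.take (F.rI p.1))) + F.B p.1)
    (h1.precomp (f := fun q : (α × List Th × List Bool) × List ℤ × Th × List Bool =>
      (q.1.1, q.2.2.1, q.2.1, q.2.2.2)) (by fun_prop)) (OC.pure (by fun_prop)) (OC.pure h2)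
    ((PB.sz h2).add (by fun_prop)) (fun _ _ => Nat.le_add_right _ _) (fun O p s x _ h => ?_)
    fun _ _ _ h => h
  rcases algoc_trans_cases (F.A O p.1) x.1 s x.2 with h' | h'
  · rwa [h']
  · exact (hsz _ _ _ _ h').trans (Nat.le_add_left _ _)

theorem oc_table : OC fun O (p : α × ℕ × List ℤ) => (F.A O p.1).table p.2.1 p.2.2 := by
  obtain ⟨hm, hm', hS, hS', -, -, -, -, hmem, -⟩ := H
  have h0 : OC fun O (q : (((α × ℕ × List ℤ) × ℕ) × ℕ) × ℕ) =>
      F.mem O q.1.1.1.1 q.1.1.1.2.1 ((F.K q.1.1.1.1).shift q.1.1.1.2.2 q.1.1.2 q.1.2 q.2) &&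
      F.mem O q.1.1.1.1 q.1.1.1.2.1 ((F.K q.1.1.1.1).shift q.1.1.1.2.2 q.1.1.2 q.2 q.1.2) :=
    OC.pt (g := fun v : Bool × Bool => v.1 && v.2) (by fun_prop)
      ((hmem.precomp (f := fun q : (((α × ℕ × List ℤ) × ℕ) × ℕ) × ℕ => (q.1.1.1.1, q.1.1.1.2.1,
        (F.K q.1.1.1.1).shift q.1.1.1.2.2 q.1.1.2 q.1.2 q.2)) (by fun_prop)).pair
      (hmem.precomp (f := fun q : (((α × ℕ × List ℤ) × ℕ) × ℕ) × ℕ => (q.1.1.1.1, q.1.1.1.2.1,
        (F.K q.1.1.1.1).shift q.1.1.1.2.2 q.1.1.2 q.2 q.1.2)) (by fun_prop)))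
  have h1 := OC.map (f := fun O (q : ((α × ℕ × List ℤ) × ℕ) × ℕ) (k : ℕ) =>
      F.mem O q.1.1.1 q.1.1.2.1 ((F.K q.1.1.1).shift q.1.1.2.2 q.1.2 q.2 k) &&
      F.mem O q.1.1.1 q.1.1.2.1 ((F.K q.1.1.1).shift q.1.1.2.2 q.1.2 k q.2))
    (l := fun _ q => List.range (2 * F.m q.1.1.1)) h0 (OC.pure (by fun_prop))
  have h2 := OC.map (f := fun O (q : (α × ℕ × List ℤ) × ℕ) (i : ℕ) =>
      (List.range (2 * F.m q.1.1)).map fun k =>
        F.mem O q.1.1 q.1.2.1 ((F.K q.1.1).shift q.1.2.2 q.2 i k) &&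
        F.mem O q.1.1 q.1.2.1 ((F.K q.1.1).shift q.1.2.2 q.2 k i))
    (l := fun _ q => List.range (2 * F.m q.1.1)) h1 (OC.pure (by fun_prop))
  have h3 := OC.map (f := fun O (q : α × ℕ × List ℤ) (θ : ℕ) =>
      (List.range (2 * F.m q.1)).map fun i => (List.range (2 * F.m q.1)).map fun k =>
        F.mem O q.1 q.2.1 ((F.K q.1).shift q.2.2 θ i k) &&
        F.mem O q.1 q.2.1 ((F.K q.1).shift q.2.2 θ k i))
    (l := fun _ q => (List.range (q2 (F.S q.1) + 2)).map (pθ (q2 (F.S q.1)))) h2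
    (OC.pure (algoc_pt_scales (by fun_prop) (by fun_prop)))
  refine h3.congr fun O p => ?_
  rw [List.map_map]
  rfl

theorem oc_yv : OC fun O (p : α × ℕ × List ℤ) => (F.A O p.1).yv p.2.1 p.2.2 := by
  obtain ⟨hm, hm', hS, hS', -, -, -, -, hmem, hwex, -⟩ := H
  obtain ⟨d, hd, ed⟩ : ∃ d : α × ℕ × List ℤ → ℕ, PT d ∧ d = fun p =>
      F.wex p.1 (p.2.1 + 1) p.2.2 - F.wex p.1 p.2.1 p.2.2 :=
    ⟨_, (hwex.comp (f := fun p : α × ℕ × List ℤ => (p.1, p.2.1 + 1, p.2.2))
      (by fun_prop)).sub hwex, rfl⟩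
  refine (OC.pt₂ (g := fun (p : α × ℕ × List ℤ) (v : Bool) =>
    if ((F.K p.1).perf p.2.2 && v) = true then 2 ^ (nA (F.S p.1) - d p) else 0) (by fun_prop)
    (hmem.precomp (f := fun p : α × ℕ × List ℤ => (p.1, p.2.1 + 1, p.2.2))
      (by fun_prop))).congr fun O p => ?_
  subst ed
  rfl

theorem pt_rS (O : Orc) : PT fun a => (F.A O a).rS := by
  obtain ⟨hm, hm', hS, hS', hT, -, hr, -⟩ := H
  change PT fun a => F.rI a + F.Tn a * (F.K a).rTrans
  fun_prop

theorem pt_rProbe (O : Orc) : PT fun a => (F.A O a).rProbe := by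
  have h1 := pt_rS H O
  obtain ⟨hm, hm', hS, hS', -⟩ := H
  exact h1.add (show PT fun a => (F.K a).rLR by fun_prop)

theorem pt_rStage (O : Orc) : PT fun a => (F.A O a).rStage :=
  (pt_rS H O).add ((algoc_pt_nP H.hS).mul (pt_rProbe H O))

theorem oc_probe : OC fun O (p : α × List Th × Th × List Bool) =>
    (F.A O p.1).probe p.2.1 p.2.2.1 p.2.2.2 := by
  obtain ⟨r, hr, er⟩ : ∃ r : α → ℕ, PT r ∧ r = fun a => (F.A (fun _ => 0) a).rS :=
    ⟨_, pt_rS H _, rfl⟩
  refine (OC.bind (g := fun O (p : α × List Th × Th × List Bool) z =>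
      ((F.A O p.1).yv p.2.2.1.1 z, (F.A O p.1).lr p.2.2.1 z (p.2.2.2.drop (r p.1))))
    (((oc_yv H).precomp (f := fun q : (α × List Th × Th × List Bool) × List ℤ =>
      (q.1.1, q.1.2.2.1.1, q.2)) (by fun_prop)).pair
      ((oc_lr H).precomp (f := fun q : (α × List Th × Th × List Bool) × List ℤ =>
        (q.1.1, q.1.2.2.1, q.2, q.1.2.2.2.drop (r q.1.1))) (by fun_prop)))
    ((oc_sample H).precomp (f := fun p : α × List Th × Th × List Bool =>
      (p.1, p.2.1, p.2.2.2.take (r p.1))) (by fun_prop))).congr fun O p => ?_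
  subst er
  rfl

theorem oc_probes : OC fun O (p : α × List Th × Th × List Bool) =>
    (F.A O p.1).probes p.2.1 p.2.2.1 p.2.2.2 := by
  obtain ⟨r, hr, er⟩ : ∃ r : α → ℕ, PT r ∧ r = fun a => (F.A (fun _ => 0) a).rProbe :=
    ⟨_, pt_rProbe H _, rfl⟩
  have hS := H.hS
  have hS' := H.hS'
  refine (OC.map (f := fun O (p : α × List Th × Th × List Bool) => (F.A O p.1).probe p.2.1 p.2.2.1)
    (l := fun _ p => chunks (nP (F.S p.1)) (r p.1) p.2.2.2)
    ((oc_probe H).precomp (f := fun q : (α × List Th × Th × List Bool) × List Bool =>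
      (q.1.1, q.1.2.1, q.1.2.2.1, q.2)) (by fun_prop)) (OC.pure (by fun_prop))).congr
    fun O p => ?_
  subst er
  rfl

theorem oc_newTh : OC fun O (p : α × List Th × List ℤ × List Bool) =>
    (F.A O p.1).newTh p.2.1 p.2.2.1 p.2.2.2 := by
  have hm := H.hm
  have hm' := H.hm'
  have h1 : OC fun O (p : α × List Th × List ℤ × List Bool) =>
      (F.A O p.1).table p.2.1.length ((F.A O p.1).sample p.2.1 p.2.2.2) :=
    OC.bind (g := fun O (p : α × List Th × List ℤ × List Bool) z =>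
        (F.A O p.1).table p.2.1.length z)
      ((oc_table H).precomp (f := fun q : (α × List Th × List ℤ × List Bool) × List ℤ =>
        (q.1.1, q.1.2.1.length, q.2)) (by fun_prop))
      ((oc_sample H).precomp (f := fun p : α × List Th × List ℤ × List Bool =>
        (p.1, p.2.1, p.2.2.2)) (by fun_prop))
  have h2 : PT fun q : (α × List Th × List ℤ × List Bool) × List (List (List Bool)) =>
      F.build (F.m q.1.1, q.2) :=
    (H.hbuild.comp (f := fun q : (α × List Th × List ℤ × List Bool) × List (List (List Bool)) =>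
      (List.replicate (F.m q.1.1) (), q.2)) (by fun_prop)).congr fun q => by simp
  exact OC.pt₂ (g := fun (p : α × List Th × List ℤ × List Bool) (T : List (List (List Bool))) =>
    ((p.2.1.length, F.build (F.m p.1, T), p.2.2.1) : Th))
    (PT.pair (by fun_prop) (h2.pair (by fun_prop))) h1

theorem oc_stage : OC fun O (p : α × (List Th × List ℤ × ℚ) × List Bool) =>
    (F.A O p.1).stage p.2.1 p.2.2 := by
  obtain ⟨r, hr, er⟩ : ∃ r : α → ℕ, PT r ∧ r = fun a => (F.A (fun _ => 0) a).rS :=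
    ⟨_, pt_rS H _, rfl⟩
  have h1 := oc_probes H
  have h2 := oc_newTh H
  obtain ⟨hm, hm', hS, hS', -⟩ := H
  refine (OC.bind (g := fun O (p : α × (List Th × List ℤ × ℚ) × List Bool) (θ : Th) =>
      (p.2.1.1 ++ [θ], (F.K p.1).newPot θ.2.1 p.2.1.2.1
        (((F.A O p.1).probes p.2.1.1 θ (p.2.2.drop (r p.1))).map Prod.snd),
        p.2.1.2.2 * (F.K p.1).ratio ((F.A O p.1).probes p.2.1.1 θ (p.2.2.drop (r p.1)))))
    (OC.pt₂ (g := fun (q : (α × (List Th × List ℤ × ℚ) × List Bool) × Th)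
        (ps : List (ℕ × List ℤ)) => (q.1.2.1.1 ++ [q.2],
          (F.K q.1.1).newPot q.2.2.1 q.1.2.1.2.1 (ps.map Prod.snd),
          q.1.2.1.2.2 * (F.K q.1.1).ratio ps)) (by fun_prop)
      (h1.precomp (f := fun q : (α × (List Th × List ℤ × ℚ) × List Bool) × Th =>
        (q.1.1, q.1.2.1.1, q.2, q.1.2.2.drop (r q.1.1))) (by fun_prop)))
    (h2.precomp (f := fun p : α × (List Th × List ℤ × ℚ) × List Bool =>
      (p.1, p.2.1.1, p.2.1.2.1, p.2.2.take (r p.1))) (by fun_prop))).congr fun O p => ?_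
  subst er
  rfl

theorem oc_est {ω : α → List Bool} (hω : PT ω) : OC fun O a => (F.A O a).est (ω a) := by
  obtain ⟨r, hr, er⟩ : ∃ r : α → ℕ, PT r ∧ r = fun a => (F.A (fun _ => 0) a).rStage :=
    ⟨_, pt_rStage H _, rfl⟩
  have h1 := oc_stage H
  obtain ⟨hm, hm', hS, hS', hT, hT', -, ht, -, -, hbuild, -⟩ := H
  obtain ⟨c, k, hc⟩ := (PB.sz hbuild).exists_bound
  obtain ⟨Bb, hBb, eB⟩ : ∃ Bb : α → ℕ, PB Bb ∧ Bb = fun a => c * (2 * F.m a +
      ((6 * (2 * F.m a) + 2) * (2 * F.m a) + 2) * (q2 (F.S a) + 2) + 3) ^ k :=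
    ⟨_, by fun_prop, rfl⟩
  have hB : ∀ O a s z, sz ((F.A O a).build ((F.A O a).m, (F.A O a).table s z)) ≤ Bb a := by
    intro O a s z
    have h2 := algoc_sz_table (F.A O a) s z
    have h3 := hc (List.replicate (F.m a) (), (F.A O a).table s z) (2 * F.m a +
      ((6 * (2 * F.m a) + 2) * (2 * F.m a) + 2) * (q2 (F.S a) + 2) + 3) (by
        rw [sz_prod, sz_unitList, List.length_replicate]
        change _ ≤ ((6 * (2 * F.m a) + 2) * (2 * F.m a) + 2) * (q2 (F.S a) + 2) + 1 at h2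
        dsimp only
        omega)
    rw [List.length_replicate] at h3
    rw [eB]
    exact h3
  refine (OC.pt (g := fun st : List Th × List ℤ × ℚ => st.2.2) (by fun_prop)
    (OC.foldl (f := fun O a => (F.A O a).stage) (l := fun _ a => chunks (F.Tn a) (r a) (ω a))
      (ini := fun _ a => ([], [], (F.tot a : ℚ)))
      (fun a => (6 * F.Tn a + Bb a + (18 * F.Tn a + 8) * F.m a + 5) * F.Tn a +
        (18 * F.Tn a + 8) * F.m a +
        12 * (Lib.PT.ht (F.tot a : ℚ) + F.Tn a * (2 * (nP (F.S a) + nA (F.S a) + 2))) + 16)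
      h1 (OC.pure (by fun_prop)) (OC.pure (by fun_prop)) (by fun_prop) fun O a i => ?_)).congr
    fun O a => ?_
  · refine algocInv.sz_le (F.A O a) (algoc_foldl_inv (F.A O a) (hB O a) _ (t := 0)
      ⟨rfl, by simp, ⟨Nat.zero_le _, by simp⟩, Nat.le_add_right _ _⟩) ?_
    rw [zero_add, List.length_take, length_chunks]
    exact min_le_right _ _
  · subst er
    rfl

end AlgocFam

/-- Prove `OC` for `valid`, `step`, `run`, `lift`, `lr`, `fin`, `trial`, `trans`, `sample`, `table`, `yv`,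
`probe`, `stage` one after the other.  Sizes: a state of the chain is the initial state or passes
`mem`; a sample is `init _` or passes `mem`; the state of `stage` grows additively
(`|pot| ≤ 3 t`). -/
theorem oc_est {α : Type} [Enc α] {m S Tn rI tot B : α → ℕ} {mem : Orc → α → ℕ → List ℤ → Bool}
    {wex : α → ℕ → List ℤ → ℕ} {build : ℕ × List (List (List Bool)) → StrL}
    {init : α → List Bool → List ℤ} {ω : α → List Bool}
    (hm : PT m) (hm' : PB m) (hS : PT S) (hS' : PB S) (hT : PT Tn) (hT' : PB Tn) (hr : PT rI)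
    (hr' : PB rI) (ht : PT tot)
    (hmem : OC fun O (p : α × ℕ × List ℤ) => mem O p.1 p.2.1 p.2.2)
    (hwex : PT fun p : α × ℕ × List ℤ => wex p.1 p.2.1 p.2.2)
    (hbuild : PT fun p : List Unit × List (List (List Bool)) => build (p.1.length, p.2))
    (hinit : PT fun p : α × List Bool => init p.1 p.2) (hB : PB B)
    (hsz : ∀ O a t l, mem O a t l = true → sz l ≤ B a) (hω : PT ω) :
    OC fun O a => Alg.est ⟨m a, S a, Tn a, rI a, tot a, mem O a, wex a, build, init a⟩ (ω a) :=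
  have _ := hr'
  AlgocFam.oc_est (F := ⟨m, S, Tn, rI, tot, B, mem, wex, build, init⟩)
    ⟨hm, hm', hS, hS', hT, hT', hr, ht, hmem, hwex, hbuild, hinit, hB, hsz⟩ hω

theorem pt_rTot {α : Type} [Enc α] {A : α → Alg} (hm : PT fun a => (A a).m) (hS : PT fun a => (A a).S)
    (hT : PT fun a => (A a).Tn) (hr : PT fun a => (A a).rI) : PT fun a => (A a).rTot := by
  have h1 : PT fun a => (A a).rS := hr.add (hT.mul (algoc_pt_rTrans hm hS))
  have h2 : PT fun a => (A a).rProbe := h1.add (algoc_pt_rLR hm hS)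
  exact hT.mul (h1.add ((algoc_pt_nP hS).mul h2))

theorem algoc_add {S x y : ℕ} (hS : 2 ≤ S) {i j : ℕ} (k : ℕ) (hx : x ≤ S ^ i) (hy : y ≤ S ^ j)
    (hi : i < k) (hj : j < k) : x + y ≤ S ^ k := by
  obtain ⟨k, rfl⟩ : ∃ k', k = k' + 1 := ⟨k - 1, by omega⟩
  have h1 : S ^ i ≤ S ^ k := Nat.pow_le_pow_right (by omega) (by omega)
  have h2 : S ^ j ≤ S ^ k := Nat.pow_le_pow_right (by omega) (by omega)
  have h3 : S ^ k * 2 ≤ S ^ k * S := Nat.mul_le_mul_left _ hS
  rw [pow_succ]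
  omega

theorem algoc_mul {S x y : ℕ} {i j : ℕ} (k : ℕ) (hx : x ≤ S ^ i) (hy : y ≤ S ^ j)
    (hk : i + j = k) : x * y ≤ S ^ k := by
  rw [← hk, pow_add]
  exact Nat.mul_le_mul hx hy

theorem rTot_le {A : Alg} (hS : 2 ≤ A.S) (hm : A.m ≤ A.S) (hT : A.Tn ≤ A.S ^ 8)
    (hr : A.rI ≤ A.S ^ 3) : A.rTot ≤ A.S ^ 10 ^ 7 := by
  have c : ∀ x k : ℕ, x ≤ 2 ^ k → x ≤ A.S ^ k := fun x k h => h.trans (Nat.pow_le_pow_left hS k)
  have hq : q2 A.S = A.S ^ 4000 := by rw [q2, ← pow_mul]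
  have hl : Nat.log 2 (q2 A.S) ≤ A.S ^ 4000 := (Nat.log_le_self 2 _).trans hq.le
  have h0 : r0 A.S ≤ A.S ^ 4003 :=
    algoc_add hS _ (algoc_mul 4002 (c 3 2 (by norm_num)) hl rfl) (c 2 1 (by norm_num))
      (by norm_num) (by norm_num)
  have hA : nA A.S ≤ A.S ^ 50 := le_rfl
  have h1 : r1 A.S ≤ A.S ^ 4005 :=
    algoc_add hS _ (algoc_add hS 4004 (c 2 1 (by norm_num)) h0 (by norm_num) (by norm_num)) hA
      (by norm_num) (by norm_num)
  have h2 : nT A.S ≤ A.S ^ 9280000 := by rw [nT, hq, ← pow_mul]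
  have h3 : rw A.S ≤ A.S ^ 4010 :=
    algoc_add hS _ (algoc_mul 4009 (c 330 9 (by norm_num)) hl rfl) (c 1 0 (by norm_num))
      (by norm_num) (by norm_num)
  have h4 : A.rL ≤ A.S ^ 4012 :=
    algoc_mul _ (algoc_mul 2 (c 2 1 (by norm_num)) (hm.trans (pow_one _).ge) rfl) h3 rfl
  have h5 : A.rLR ≤ A.S ^ 9284006 :=
    algoc_add hS _ h4 (algoc_mul 9284005 h2 h1 (by norm_num)) (by norm_num) (by norm_num)
  have h6 : A.rTrial ≤ A.S ^ 9284007 := algoc_add hS _ h5 hA (by norm_num) (by norm_num)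
  have h7 : A.rTrans ≤ A.S ^ 9284013 := algoc_mul (i := 6) _ le_rfl h6 (by norm_num)
  have h8 : A.rS ≤ A.S ^ 9284022 :=
    algoc_add hS _ hr (algoc_mul 9284021 hT h7 (by norm_num)) (by norm_num) (by norm_num)
  have h9 : A.rProbe ≤ A.S ^ 9284023 := algoc_add hS _ h8 h5 (by norm_num) (by norm_num)
  have h10 : A.rStage ≤ A.S ^ 9284056 :=
    algoc_add hS _ h8 (algoc_mul (i := 32) 9284055 le_rfl h9 (by norm_num)) (by norm_num)
      (by norm_num)
  exact (algoc_mul 9284064 hT h10 (by norm_num)).trans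
    (Nat.pow_le_pow_right (by omega) (by norm_num))

theorem le_rTot {A : Alg} (hS : 1 ≤ A.S) (hT : 1 ≤ A.Tn) : A.S ≤ A.rTot := by
  have h1 : A.S ≤ A.rTrial := (Nat.le_self_pow (by norm_num) _).trans (Nat.le_add_left _ _)
  have h2 : A.S ≤ A.rTrans := h1.trans (Nat.le_mul_of_pos_left _ (pow_pos hS 6))
  have h3 : A.S ≤ A.rS := (h2.trans (Nat.le_mul_of_pos_left _ hT)).trans (Nat.le_add_left _ _)
  exact (h3.trans (Nat.le_add_right _ _)).trans (Nat.le_mul_of_pos_left _ hT)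

end Crest.Agent.R302
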