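import Crest.Agent.R302.Stage

/-!
Row 302, part E6: the estimate of the annealing algorithm.
-/

set_option autoImplicit false

namespace Crest.Agent.R302

open Finset Crest.Agent.Lib.PT Crest.Agent.R309

namespace Alg

variable {A : Alg} {I : ℕ → Inst (Fin A.m)}

lemma length_stage (A : Alg) (st : List Th × List ℤ × ℚ) (ω : List Bool) :
    (A.stage st ω).1.length = st.1.length + 1 := by simp [stage]

lemma anneal_ratio_nonneg (A : Alg) (ps : List (ℕ × List ℤ)) : 0 ≤ A.ratio ps := by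
  unfold ratio
  positivity

lemma anneal_fold_nonneg (A : Alg) (L : List (List Bool)) (st : List Th × List ℤ × ℚ)
    (h : 0 ≤ st.2.2) : 0 ≤ (L.foldl A.stage st).2.2 := by
  induction L generalizing st with
  | nil => exact h
  | cons u L ih => exact ih _ (mul_nonneg h (A.anneal_ratio_nonneg _))

lemma anneal_fold_length (A : Alg) (L : List (List Bool)) (st : List Th × List ℤ × ℚ) :
    (L.foldl A.stage st).1.length = st.1.length + L.length := by
  induction L generalizing st with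
  | nil => rfl
  | cons u L ih =>
    rw [List.foldl_cons, ih, length_stage, List.length_cons]
    omega

theorem est_nonneg (A : Alg) (ω : List Bool) : 0 ≤ A.est ω :=
  A.anneal_fold_nonneg _ _ (Nat.cast_nonneg _)

/-- The last ratio vanishes (`chunks_succ'`). -/
theorem est_zero (A : Alg) (hT : 0 < A.Tn) (h : ∀ z, (A.perf z && A.mem A.Tn z) = false)
    (ω : List Bool) : A.est ω = 0 := by
  obtain ⟨n, hn⟩ : ∃ n, A.Tn = n + 1 := ⟨A.Tn - 1, by omega⟩
  have h0 : ∀ z, A.yv n z = 0 := fun z => by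
    unfold yv
    rw [← hn, h z]
    simp
  unfold est
  rw [hn, chunks_succ', List.foldl_append, List.foldl_cons, List.foldl_nil]
  have hl := A.anneal_fold_length (chunks n A.rStage ω) ([], [], (A.tot : ℚ))
  rw [length_chunks, List.length_nil, zero_add] at hl
  generalize (chunks n A.rStage ω).foldl A.stage ([], [], (A.tot : ℚ)) = st at hl
  have h1 : ∀ (θ : Th) (v : List Bool), θ.1 = n → A.ratio (A.probes st.1 θ v) = 0 := by
    intro θ v hθ
    have h2 : ((A.probes st.1 θ v).map Prod.fst).sum = 0 := by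
      refine List.sum_eq_zero fun x hx => ?_
      simp only [probes, List.map_map, List.mem_map, Function.comp_apply, probe, hθ, h0] at hx
      obtain ⟨_, -, rfl⟩ := hx
      rfl
    unfold ratio
    rw [h2]
    simp
  change st.2.2 * A.ratio _ = 0
  rw [h1 _ _ hl, mul_zero]

lemma anneal_big (hA : A.Spec I) : (2 : ℝ) ^ 20 ≤ A.S := by
  obtain ⟨k, hk, hS⟩ := hA.pow
  rw [hS]
  push_cast
  exact pow_le_pow_right₀ (by norm_num) hk

/-- the invariant of the annealing -/
def annealInv (A : Alg) (I : ℕ → Inst (Fin A.m)) (t : ℕ) (st : List Th × List ℤ × ℚ) : Prop :=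
  A.GoodThs I st.1 ∧ st.1.length = t ∧ A.GoodPot I t st.2.1 ∧
    (1 - 8 / (A.S : ℝ) ^ 10) ^ t * (I t).Z 0 ≤ st.2.2 ∧
      (st.2.2 : ℝ) ≤ (1 + 8 / (A.S : ℝ) ^ 10) ^ t * (I t).Z 0

lemma anneal_arith {ε Z Z' e ρ : ℝ} {t : ℕ} (hε0 : 0 ≤ ε) (hε : ε ≤ 1) (hZ : 0 < Z)
    (hr : Z ≤ 4 * Z') (h4 : (1 - ε) ^ t * Z ≤ e) (h5 : e ≤ (1 + ε) ^ t * Z)
    (g4 : |ρ - Z' / Z| ≤ ε / 4) :
    (1 - ε) ^ (t + 1) * Z' ≤ e * ρ ∧ e * ρ ≤ (1 + ε) ^ (t + 1) * Z' := by
  have hq : 1 / 4 ≤ Z' / Z := by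
    rw [le_div_iff₀ hZ]
    linarith
  have hZZ : Z * (Z' / Z) = Z' := by field_simp
  obtain ⟨g5, g6⟩ := abs_le.1 g4
  generalize Z' / Z = q at *
  have g7 : (1 - ε) * q ≤ ρ := by nlinarith
  have g8 : ρ ≤ (1 + ε) * q := by nlinarith
  have g9 : 0 ≤ (1 - ε) * q := mul_nonneg (by linarith) (by linarith)
  have g10 : 0 ≤ (1 - ε) ^ t * Z := mul_nonneg (pow_nonneg (by linarith) _) hZ.le
  subst hZZ
  constructor
  · calc (1 - ε) ^ (t + 1) * (Z * q) = (1 - ε) ^ t * Z * ((1 - ε) * q) := by ring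
      _ ≤ _ := mul_le_mul h4 g7 g9 (g10.trans h4)
  · calc e * ρ ≤ (1 + ε) ^ t * Z * ((1 + ε) * q) :=
          mul_le_mul h5 g8 (g9.trans g7) ((g10.trans h4).trans h5)
      _ = _ := by ring

lemma anneal_eps (hA : A.Spec I) : 8 / (A.S : ℝ) ^ 10 ≤ 1 := by
  have hS := anneal_big hA
  rw [div_le_one (by positivity)]
  calc (8 : ℝ) ≤ A.S := by linarith
    _ ≤ _ := le_self_pow₀ (by linarith) (by norm_num)

lemma anneal_step (hA : A.Spec I) {t : ℕ} (ht : t < A.Tn) {st : List Th × List ℤ × ℚ}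
    (h : A.annealInv I t st) :
    Pr A.rStage (fun v => ¬ A.annealInv I (t + 1) (A.stage st v)) ≤ 1 / A.S ^ 9 := by
  obtain ⟨h1, rfl, h3, h4, h5⟩ := h
  refine le_trans (Pr_mono ?_) (stage_good hA h1 h3 ht)
  intro v _ hv hg
  refine hv ?_
  obtain ⟨g1, g2, ρ, g3, g4⟩ := hg
  have e : 2 / (A.S : ℝ) ^ 10 = 8 / (A.S : ℝ) ^ 10 / 4 := by ring
  rw [e] at g4
  have key := anneal_arith (by positivity) (anneal_eps hA) (hA.pos _ ht.le) (hA.ratio _ ht) h4 h5 g4
  refine ⟨g1, A.length_stage st v, g2, ?_⟩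
  rw [g3, Rat.cast_mul]
  exact key

lemma anneal_ind (hA : A.Spec I) (t : ℕ) (ht : t ≤ A.Tn) :
    Pr (t * A.rStage) (fun ω => ¬ A.annealInv I t
      ((chunks t A.rStage ω).foldl A.stage ([], [], (A.tot : ℚ)))) ≤ t / A.S ^ 9 := by
  induction t with
  | zero =>
    have h : A.annealInv I 0 ([], [], (A.tot : ℚ)) := by
      have hZ := hA.pos 0 ht
      refine ⟨fun t h => absurd h (by simp), rfl, ⟨fun i k => ?_, fun i => by simp⟩, ?_, ?_⟩
      · have := hA.bal i k
        simp only [potF, List.getD_nil, zpow_zero, one_mul]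
        linarith
      · simp [hA.tot]
      · simp [hA.tot]
    refine le_trans (Pr_mono (Q := fun _ => False) fun l _ hl => hl ?_) (by simp [Pr_false])
    simpa [chunks] using h
  | succ t ih =>
    have ih' := ih (Nat.le_of_succ_le ht)
    rw [tape_Pr, Ex_chunks_succ' t A.rStage fun L => tapeInd (¬ A.annealInv I (t + 1)
      (L.foldl A.stage ([], [], (A.tot : ℚ))))]
    have hS : (0 : ℝ) ≤ 1 / A.S ^ 9 := by positivity
    calc _ ≤ Ex (t * A.rStage) fun u => tapeInd (¬ A.annealInv I t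
            ((chunks t A.rStage u).foldl A.stage ([], [], (A.tot : ℚ)))) + 1 / A.S ^ 9 := by
          refine Ex_mono fun u _ => ?_
          simp only [List.foldl_append, List.foldl_cons, List.foldl_nil]
          generalize (chunks t A.rStage u).foldl A.stage ([], [], (A.tot : ℚ)) = st
          by_cases h : A.annealInv I t st
          · have h1 := anneal_step hA (Nat.lt_of_succ_le ht) h
            have h2 := tapeInd_nonneg (¬ A.annealInv I t st)
            rw [tape_Pr] at h1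
            linarith
          · have h1 := Pr_le_one A.rStage fun v => ¬ A.annealInv I (t + 1) (A.stage st v)
            have h2 : tapeInd (¬ A.annealInv I t st) = 1 := by simp [tapeInd, h]
            rw [tape_Pr] at h1
            linarith
      _ ≤ _ := by
          rw [Ex_add, Ex_const, ← tape_Pr]
          push_cast
          rw [add_div]
          linarith

/-- Induction on the number `t` of stages (`Ex_chunks_succ'`, `stage_good`): outside probability
`t / S ^ 9` the parameters are good and the estimate lies between `(1 ∓ 8 / S ^ 10) ^ t * Z_t`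
(the true ratios are at least `1 / 4`). -/
theorem est_good (hA : A.Spec I) :
    Pr A.rTot (fun ω => ¬ ((1 - 1 / (A.S : ℝ)) * (I A.Tn).Z 0 ≤ A.est ω ∧
      (A.est ω : ℝ) ≤ (1 + 1 / (A.S : ℝ)) * (I A.Tn).Z 0)) ≤ 1 / 16 := by
  have hS := anneal_big hA
  have hS0 : (0 : ℝ) < A.S := by linarith
  have hT : (A.Tn : ℝ) ≤ (A.S : ℝ) ^ 8 := by exact_mod_cast hA.Tn_le
  have hZ := hA.pos _ le_rfl
  have hε := anneal_eps hA
  have hε0 : 0 ≤ 8 / (A.S : ℝ) ^ 10 := by positivity
  have hx : A.Tn * (8 / (A.S : ℝ) ^ 10) ≤ 1 / (2 * A.S) := by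
    calc (A.Tn : ℝ) * (8 / (A.S : ℝ) ^ 10) ≤ (A.S : ℝ) ^ 8 * (8 / (A.S : ℝ) ^ 10) := by gcongr
      _ = 8 / (A.S : ℝ) * (1 / (A.S : ℝ)) := by field_simp
      _ ≤ 1 / 2 * (1 / (A.S : ℝ)) := by
          gcongr ?_ * _
          rw [div_le_div_iff₀ hS0 two_pos]
          linarith
      _ = _ := by field_simp
  have hS1 : 1 / (2 * (A.S : ℝ)) ≤ 1 / 2 := by
    rw [div_le_div_iff₀ (by positivity) two_pos]
    linarith
  have e2 : 1 / (A.S : ℝ) = 2 * (1 / (2 * A.S)) := by field_simp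
  have h1 : 1 - 1 / (A.S : ℝ) ≤ (1 - 8 / (A.S : ℝ) ^ 10) ^ A.Tn := by
    have := one_add_mul_le_pow (a := -(8 / (A.S : ℝ) ^ 10)) (by linarith) A.Tn
    have h0 : 0 ≤ 1 / (2 * (A.S : ℝ)) := by positivity
    rw [← sub_eq_add_neg] at this
    linarith
  have h2 : (1 + 8 / (A.S : ℝ) ^ 10) ^ A.Tn ≤ 1 + 1 / (A.S : ℝ) := by
    have hx0 : 0 ≤ A.Tn * (8 / (A.S : ℝ) ^ 10) := by positivity
    have k1 : (1 + 8 / (A.S : ℝ) ^ 10) ^ A.Tn ≤ Real.exp (A.Tn * (8 / (A.S : ℝ) ^ 10)) := by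
      rw [Real.exp_nat_mul]
      exact pow_le_pow_left₀ (by linarith) (by linarith [Real.add_one_le_exp (8 / (A.S : ℝ) ^ 10)]) _
    have k2 := Real.abs_exp_sub_one_le (x := A.Tn * (8 / (A.S : ℝ) ^ 10))
      (by rw [abs_of_nonneg hx0]; linarith)
    rw [abs_of_nonneg hx0] at k2
    have k3 := (abs_le.1 k2).2
    linarith
  refine le_trans (Pr_mono ?_) ((anneal_ind hA A.Tn le_rfl).trans ?_)
  · intro ω _ hω hg
    obtain ⟨-, -, -, g1, g2⟩ := hg
    exact hω ⟨(mul_le_mul_of_nonneg_right h1 hZ.le).trans g1,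
      g2.trans (mul_le_mul_of_nonneg_right h2 hZ.le)⟩
  · rw [div_le_div_iff₀ (by positivity) (by norm_num)]
    calc (A.Tn : ℝ) * 16 ≤ (A.S : ℝ) ^ 8 * A.S := by
          gcongr
          linarith
      _ = _ := by ring

end Alg

end Crest.Agent.R302
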