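import Crest.Agent.R302.AuxSys

/-!
Row 302, part D4': the weak Poincaré inequality on cells.
-/

set_option autoImplicit false
set_option linter.unusedSectionVars false

namespace Crest.Agent.R302

open Finset

variable {E : Type} [Fintype E] [DecidableEq E]

namespace Sys.Ok

variable {Y : Sys E}

lemma auxcell_th {j : E → ℤ} {y : (E × Bool) × Fin 5 → ℤ} (hy : Y.Th j y ≠ 0) :
    prj y ∈ Y.Cells ∧ y = emb j (prj y) ∧ Y.Th j y = Y.W (prj y).1 := by
  unfold Th at hy ⊢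
  split_ifs at hy ⊢ with hc
  · exact ⟨hc.1, hc.2, rfl⟩
  · exact absurd rfl hy

lemma auxcell_sum (h : Y.Ok) {j : E → ℤ} {y : (E × Bool) × Fin 5 → ℤ} (hy : Y.Th j y ≠ 0) :
    ∑ i, y i = 0 := by
  classical
  obtain ⟨h1, h2, -⟩ := auxcell_th hy
  have h3 : ∑ p, (prj y).1 p = Y.Flab univ := (mem_filter.1 h1).2.1.2
  have h4 : Y.Flab univ = 0 := by
    have : pre Y.lab univ = univ := by simp [pre]
    rw [Flab, this, h.sz.total]
  rw [h2, Fintype.sum_prod_type, ← h4, ← h3]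
  refine Finset.sum_congr rfl fun p _ => ?_
  simp [emb, Fin.sum_univ_five]

lemma auxcell_inj (j : E → ℤ) (q : (E × Bool) × Fin 5) (B : Finset ((E × Bool) × Fin 5 → ℤ))
    (S : Finset ((E × Bool → ℤ) × (E × Bool → ℤ))) {φ : (E × Bool → ℤ) × (E × Bool → ℤ) → ℝ}
    (hφ : ∀ x, 0 ≤ φ x) :
    ∑ y ∈ B, (if Y.Th j (y + uv q) ≠ 0 ∧ prj (y + uv q) ∈ S then φ (prj (y + uv q)) else 0) ≤
      ∑ x ∈ S, φ x := by
  rw [← Finset.sum_filter, ← Finset.sum_image (g := fun y => prj (y + uv q)) (f := φ)]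
  · refine Finset.sum_le_sum_of_subset_of_nonneg (fun x hx => ?_) fun x _ _ => hφ x
    obtain ⟨y, hy, rfl⟩ := mem_image.1 hx
    exact (mem_filter.1 hy).2.2
  · intro y hy y' hy' e
    have h1 := (auxcell_th (mem_filter.1 hy).2.1).2.1
    have h2 := (auxcell_th (mem_filter.1 hy').2.1).2.1
    have e' : prj (y + uv q) = prj (y' + uv q) := e
    rw [e', ← h2] at h1
    exact add_right_cancel h1

lemma auxcell_cEd_nonneg (Y : Sys E) (pot : E → ℤ) (F : (E × Bool → ℤ) × (E × Bool → ℤ) → ℝ)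
    (d : (E × Bool → ℤ) × (E × Bool → ℤ)) : 0 ≤ Y.cEd pot F d :=
  sum_nonneg fun _ _ => mul_nonneg (le_min (Y.mu_pos _ _).le (Y.mu_pos _ _).le) (sq_nonneg _)

lemma auxcell_cEd_neg (Y : Sys E) (pot : E → ℤ) (F : (E × Bool → ℤ) × (E × Bool → ℤ) → ℝ)
    (d : (E × Bool → ℤ) × (E × Bool → ℤ)) : Y.cEd pot F (-d) = Y.cEd pot F d := by
  unfold cEd
  refine Finset.sum_bij' (fun x _ => x + -d) (fun x _ => x + d) ?_ ?_ ?_ ?_ ?_
  · intro x hx
    rw [mem_filter] at hx ⊢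
    exact ⟨hx.2, by simpa using hx.1⟩
  · intro x hx
    rw [mem_filter] at hx ⊢
    exact ⟨hx.2, by simpa using hx.1⟩
  · intro x _
    simp
  · intro x _
    simp
  · intro x _
    rw [neg_add_cancel_right, min_comm, ← neg_sub, neg_sq]

lemma auxcell_cEn_nonneg (Y : Sys E) (pot : E → ℤ) (F : (E × Bool → ℤ) × (E × Bool → ℤ) → ℝ) :
    0 ≤ Y.cEn pot F :=
  add_nonneg (sum_nonneg fun _ _ => sum_nonneg fun _ _ => auxcell_cEd_nonneg Y pot F _)
    (sum_nonneg fun _ _ => auxcell_cEd_nonneg Y pot F _)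

lemma auxcell_move (pot : E → ℤ) (F : (E × Bool → ℤ) × (E × Bool → ℤ) → ℝ) {j : E → ℤ}
    {y : (E × Bool) × Fin 5 → ℤ} {p q : (E × Bool) × Fin 5} (hp : Y.Th j (y + uv p) ≠ 0)
    (hq : Y.Th j (y + uv q) ≠ 0) : Y.cEd pot F (prj (uv p - uv q)) ≤ Y.cEn pot F := by
  have h1 : ∀ a b, Y.cEd pot F (uv a - uv b, 0) ≤ Y.cEn pot F := fun a b =>
    le_add_of_le_of_nonneg ((Finset.single_le_sum (f := fun b => Y.cEd pot F (uv a - uv b, 0))
      (fun _ _ => auxcell_cEd_nonneg Y pot F _) (mem_univ b)).trans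
      (Finset.single_le_sum (f := fun a => ∑ b, Y.cEd pot F (uv a - uv b, 0))
        (fun _ _ => sum_nonneg fun _ _ => auxcell_cEd_nonneg Y pot F _) (mem_univ a)))
      (sum_nonneg fun _ _ => auxcell_cEd_nonneg Y pot F _)
  have h2 : ∀ g, Y.cEd pot F (0, uv g) ≤ Y.cEn pot F := fun g =>
    le_add_of_nonneg_of_le (sum_nonneg fun _ _ => sum_nonneg fun _ _ => auxcell_cEd_nonneg Y pot F _)
      (Finset.single_le_sum (f := fun g => Y.cEd pot F (0, uv g))
        (fun _ _ => auxcell_cEd_nonneg Y pot F _) (mem_univ g))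
  have h3 : ∀ g, Y.cEd pot F (0, -uv g) ≤ Y.cEn pot F := fun g => by
    have := auxcell_cEd_neg Y pot F (0, uv g)
    rw [Prod.neg_mk, neg_zero] at this
    rw [this]
    exact h2 g
  by_cases hpq : p = q
  · subst hpq
    have : prj (uv p - uv p) = (uv p.1 - uv p.1, 0) := by
      rw [sub_self, sub_self]
      rfl
    rw [this]
    exact h1 _ _
  have e1 := (auxcell_th hp).2.1
  have e2 := (auxcell_th hq).2.1
  have k : ∀ g, (uv p (g, 2) - uv q (g, 2) = -(uv p (g, 1) - uv q (g, 1))) ∧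
      uv p (g, 3) = uv q (g, 3) ∧ uv p (g, 4) = uv q (g, 4) := fun g => by
    have a2 := congrFun e1 (g, 2)
    have a3 := congrFun e1 (g, 3)
    have a4 := congrFun e1 (g, 4)
    have b2 := congrFun e2 (g, 2)
    have b3 := congrFun e2 (g, 3)
    have b4 := congrFun e2 (g, 4)
    simp only [emb, prj, Pi.add_apply, Matrix.cons_val] at a2 a3 a4 b2 b3 b4
    omega
  obtain ⟨a, i⟩ := p
  obtain ⟨b, l⟩ := q
  have ka := k a
  have kb := k b
  by_cases hab : a = b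
  · subst hab
    have hil : i ≠ l := fun e => hpq (by rw [e])
    fin_cases i <;> fin_cases l <;> simp [uv] at ka hil
    · have : prj (uv ((a, 1) : (E × Bool) × Fin 5) - uv (a, 2)) = (0, uv a) := by
        refine Prod.ext (funext fun g => ?_) (funext fun g => ?_) <;> simp [prj, uv, Pi.single_apply]
      exact this ▸ h2 a
    · have : prj (uv ((a, 2) : (E × Bool) × Fin 5) - uv (a, 1)) = (0, -uv a) := by
        refine Prod.ext (funext fun g => ?_) (funext fun g => ?_) <;> simp [prj, uv, Pi.single_apply]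
      exact this ▸ h3 a
  · have hba : ¬ b = a := fun e => hab e.symm
    fin_cases i <;> fin_cases l <;> simp [uv, hab, hba] at ka kb
    have : prj (uv ((a, 0) : (E × Bool) × Fin 5) - uv (b, 0)) = (uv a - uv b, 0) := by
      refine Prod.ext (funext fun g => ?_) (funext fun g => ?_) <;> simp [prj, uv, Pi.single_apply]
    exact this ▸ h1 a b

lemma auxcell_wE_pos (Y : Sys E) (j : E → ℤ) (x : (E × Bool → ℤ) × (E × Bool → ℤ)) :
    0 < Y.wE j x := mul_pos (Y.W_pos _) (Real.exp_pos _)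

lemma auxcell_nu_pos (Y : Sys E) (pot : E → ℤ) (x : (E × Bool → ℤ) × (E × Bool → ℤ)) :
    0 < Y.nu pot x := mul_pos (auxcell_wE_pos Y _ x) (zpow_pos two_pos _)

lemma auxcell_nu_le (Y : Sys E) (pot : E → ℤ) (x : (E × Bool → ℤ) × (E × Bool → ℤ)) :
    Y.nu pot x ≤ Y.mu pot x.1 := by
  refine mul_le_mul_of_nonneg_right ?_ (zpow_pos two_pos _).le
  refine mul_le_of_le_one_right (Y.W_pos _).le (Real.exp_le_one_iff.2 (neg_nonpos.2 ?_))
  exact sum_nonneg fun r _ => mul_nonneg (Nat.cast_nonneg _) (le_max_left _ _)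

lemma auxcell_exp (h : Y.Ok) : Real.exp (2 / Y.s ^ 9) * Real.exp (2 / Y.s ^ 9) ≤ 2 := by
  have hs : (2 : ℝ) ^ 20 ≤ Y.s := by exact_mod_cast h.sz.big
  have h1 : (Y.s : ℝ) ≤ Y.s ^ 9 := le_self_pow₀ (by linarith) (by norm_num)
  have h2 : (2 : ℝ) / Y.s ^ 9 ≤ 1 / 4 := by
    rw [div_le_div_iff₀ (by linarith) (by norm_num)]
    linarith
  rw [← Real.exp_add]
  have h3 := Real.exp_bound_div_one_sub_of_interval (x := 1 / 2) (by norm_num) (by norm_num)
  exact (Real.exp_le_exp.2 (by linarith)).trans (h3.trans (by norm_num))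

/-- the comparison between the pair system and the weights of the cells -/
lemma auxcell_approx (h : Y.Ok) (pot : E → ℤ) {G : ((E × Bool) × Fin 5 → ℤ) → ℝ} (hG : Y.IsG G)
    {x : (E × Bool → ℤ) × (E × Bool → ℤ)} (hx : x ∈ Y.Cells) {p k : (E × Bool) × Fin 5}
    (hτ : Y.ty x.1 = Y.τ p.1.1 k.1.1) :
    (Y.wE (fun _ => pw Y.s) x ≤ Real.exp (2 / Y.s ^ 9) *
        (Y.W x.1 * G (uv p - uv k - emb (fun _ => pw Y.s) x)) ∧
      Y.W x.1 * G (uv p - uv k - emb (fun _ => pw Y.s) x) ≤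
        Real.exp (2 / Y.s ^ 9) * Y.wE (fun _ => pw Y.s) x) ∧
      Y.nu pot x = (2 : ℝ) ^ pot (Y.σ.root p.1.1) / (2 : ℝ) ^ pot (Y.σ.root k.1.1) *
        Y.wE (fun _ => pw Y.s) x := by
  have hs : 1 ≤ Y.s := le_trans (by norm_num) h.sz.big
  obtain ⟨h1, h2⟩ := hG.approx x hx (fun _ => pw Y.s) (fun _ => by
    rw [Nat.abs_cast]
    exact_mod_cast Nat.pow_le_pow_right hs (by norm_num)) (fun _ _ => le_rfl) p k hτ
  refine ⟨⟨?_, h2⟩, ?_⟩
  · have := mul_le_mul_of_nonneg_left h1 (Real.exp_pos (2 / Y.s ^ 9)).le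
    rwa [← mul_assoc, ← Real.exp_add, add_neg_cancel, Real.exp_zero, one_mul] at this
  · rw [nu, h.pot_τ pot hτ, zpow_sub₀ two_ne_zero, mul_comm]

lemma auxcell_conv (h : Y.Ok) {G : ((E × Bool) × Fin 5 → ℤ) → ℝ} (hG : Y.IsG G)
    (p k : (E × Bool) × Fin 5) :
    Y.Mass (fun _ => pw Y.s) (Y.τ p.1.1 k.1.1) ≤ Real.exp (2 / Y.s ^ 9) *
        conv (Y.Th fun _ => pw Y.s) G (Y.alo fun _ => pw Y.s) (Y.ahi fun _ => pw Y.s) (uv p - uv k) ∧
      conv (Y.Th fun _ => pw Y.s) G (Y.alo fun _ => pw Y.s) (Y.ahi fun _ => pw Y.s) (uv p - uv k) ≤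
        Real.exp (2 / Y.s ^ 9) * Y.Mass (fun _ => pw Y.s) (Y.τ p.1.1 k.1.1) := by
  have e : conv (Y.Th fun _ => pw Y.s) G (Y.alo fun _ => pw Y.s) (Y.ahi fun _ => pw Y.s)
      (uv p - uv k) = ∑ x ∈ Y.Cells.filter (fun x => Y.ty x.1 = Y.τ p.1.1 k.1.1),
        Y.W x.1 * G (uv p - uv k - emb (fun _ => pw Y.s) x) := by
    rw [conv, sum_Th (fun _ => pw Y.s) fun y => G (uv p - uv k - y), Finset.sum_filter]
    refine Finset.sum_congr rfl fun x hx => ?_
    split_ifs with hτ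
    · rfl
    · rw [hG.zero x hx _ p k hτ, mul_zero]
  rw [e, Mass, Finset.mul_sum, Finset.mul_sum]
  exact ⟨Finset.sum_le_sum fun x hx =>
      (auxcell_approx h 0 hG (mem_filter.1 hx).1 (mem_filter.1 hx).2).1.1,
    Finset.sum_le_sum fun x hx =>
      (auxcell_approx h 0 hG (mem_filter.1 hx).1 (mem_filter.1 hx).2).1.2⟩

/-- the node functions -/
lemma auxcell_node (h : Y.Ok) (pot : E → ℤ) {G : ((E × Bool) × Fin 5 → ℤ) → ℝ} (hG : Y.IsG G)
    {F : (E × Bool → ℤ) × (E × Bool → ℤ) → ℝ} (hF : ∀ x, 0 ≤ F x ∧ F x ≤ 1)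
    (k : (E × Bool) × Fin 5) (y : (E × Bool) × Fin 5 → ℤ) : ∃ b : ℝ, ∀ p : (E × Bool) × Fin 5,
    (2 : ℝ) ^ pot (Y.σ.root p.1.1) / (2 : ℝ) ^ pot (Y.σ.root k.1.1) *
      (Y.Th (fun _ => pw Y.s) (y + uv p) * G (-y - uv k) * (F (prj (y + uv p)) - b) ^ 2 +
        Y.Th (fun _ => pw Y.s) y * G (uv p - uv k - y) * (F (prj y) - b) ^ 2) ≤
      2 * (if Y.Th (fun _ => pw Y.s) (y + uv p) ≠ 0 ∧ prj (y + uv p) ∈ Y.TCells \ Y.Deep (1 / 2) then
          Y.nu pot (prj (y + uv p)) else 0) +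
        2 * ∑ q, if Y.cEd pot F (prj (uv p - uv q)) ≤ Y.cEn pot F then
          (if Y.Th (fun _ => pw Y.s) (y + uv q) ≠ 0 ∧ prj (y + uv q) ∈ (Y.Deep (1 / 2)).filter
              (fun x => x + prj (uv p - uv q) ∈ Y.Deep (1 / 2)) then
            min (Y.mu pot (prj (y + uv q)).1) (Y.mu pot (prj (y + uv q) + prj (uv p - uv q)).1) *
              (F (prj (y + uv q) + prj (uv p - uv q)) - F (prj (y + uv q))) ^ 2 else 0) else 0 := by
  classical
  have n1 : ∀ p : (E × Bool) × Fin 5, 0 ≤ (if Y.Th (fun _ => pw Y.s) (y + uv p) ≠ 0 ∧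
      prj (y + uv p) ∈ Y.TCells \ Y.Deep (1 / 2) then Y.nu pot (prj (y + uv p)) else 0) := fun p => by
    split_ifs
    · exact (auxcell_nu_pos Y _ _).le
    · exact le_rfl
  have n2 : ∀ p q : (E × Bool) × Fin 5, 0 ≤ if Y.cEd pot F (prj (uv p - uv q)) ≤ Y.cEn pot F then
      (if Y.Th (fun _ => pw Y.s) (y + uv q) ≠ 0 ∧ prj (y + uv q) ∈ (Y.Deep (1 / 2)).filter
          (fun x => x + prj (uv p - uv q) ∈ Y.Deep (1 / 2)) then
        min (Y.mu pot (prj (y + uv q)).1) (Y.mu pot (prj (y + uv q) + prj (uv p - uv q)).1) *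
          (F (prj (y + uv q) + prj (uv p - uv q)) - F (prj (y + uv q))) ^ 2 else 0) else 0 :=
    fun p q => by
      split_ifs
      · exact mul_nonneg (le_min (Y.mu_pos _ _).le (Y.mu_pos _ _).le) (sq_nonneg _)
      · exact le_rfl
      · exact le_rfl
  by_cases hy : Y.Th (fun _ => pw Y.s) y ≠ 0
  · refine ⟨F (prj y), fun p => ?_⟩
    have h0 : Y.Th (fun _ => pw Y.s) (y + uv p) = 0 := by
      by_contra hc
      have h1 := auxcell_sum h hc
      have h2 := auxcell_sum h hy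
      simp only [Pi.add_apply, Finset.sum_add_distrib, h2, uv, Finset.sum_pi_single', mem_univ,
        if_true] at h1
      omega
    have h3 := n1 p
    have h4 := Finset.sum_nonneg fun q (_ : q ∈ univ) => n2 p q
    refine le_trans (le_of_eq ?_) (add_nonneg (mul_nonneg zero_le_two h3) (mul_nonneg zero_le_two h4))
    rw [h0, sub_self]
    ring
  push Not at hy
  have hex : ∃ b : ℝ, (0 ≤ b ∧ b ≤ 1) ∧ ∀ p, Y.Th (fun _ => pw Y.s) (y + uv p) ≠ 0 →
      prj (y + uv p) ∈ Y.Deep (1 / 2) → ∃ q, Y.Th (fun _ => pw Y.s) (y + uv q) ≠ 0 ∧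
        prj (y + uv q) ∈ Y.Deep (1 / 2) ∧ b = F (prj (y + uv q)) ∧
          Y.mu pot (prj (y + uv p)).1 ≤ Y.mu pot (prj (y + uv q)).1 := by
    rcases (univ.filter fun p => Y.Th (fun _ => pw Y.s) (y + uv p) ≠ 0 ∧
      prj (y + uv p) ∈ Y.Deep (1 / 2)).eq_empty_or_nonempty with he | hne
    · refine ⟨0, ⟨le_rfl, zero_le_one⟩, fun p h1 h2 => ?_⟩
      exact absurd (he ▸ mem_filter.2 ⟨mem_univ p, h1, h2⟩) (notMem_empty p)
    · obtain ⟨q, hq, hmax⟩ := Finset.exists_max_image _ (fun p => Y.mu pot (prj (y + uv p)).1) hne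
      exact ⟨_, hF _, fun p h1 h2 => ⟨q, (mem_filter.1 hq).2.1, (mem_filter.1 hq).2.2, rfl,
        hmax p (mem_filter.2 ⟨mem_univ p, h1, h2⟩)⟩⟩
  obtain ⟨b, hb, hbq⟩ := hex
  refine ⟨b, fun p => ?_⟩
  have h3 := n1 p
  have h4 := Finset.sum_nonneg fun q (_ : q ∈ univ) => n2 p q
  rw [hy, zero_mul, zero_mul, add_zero]
  by_cases hp : Y.Th (fun _ => pw Y.s) (y + uv p) = 0
  · rw [hp, zero_mul, zero_mul, mul_zero]
    rw [hp] at h3
    positivity
  obtain ⟨hc, he, hW⟩ := auxcell_th hp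
  have e1 : -y - uv k = uv p - uv k - emb (fun _ => pw Y.s) (prj (y + uv p)) := by
    rw [← he]
    abel
  rw [e1, hW]
  by_cases hτ : Y.ty (prj (y + uv p)).1 = Y.τ p.1.1 k.1.1
  swap
  · rw [hG.zero _ hc _ p k hτ, mul_zero, zero_mul, mul_zero]
    rw [hW] at h3
    positivity
  obtain ⟨⟨-, h5⟩, h6⟩ := auxcell_approx h pot hG hc hτ
  have h7 : Real.exp (2 / Y.s ^ 9) ≤ 2 := by
    have h8 := auxcell_exp h
    have h9 : 1 ≤ Real.exp (2 / Y.s ^ 9) := Real.one_le_exp (by positivity)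
    nlinarith
  have h8 : (2 : ℝ) ^ pot (Y.σ.root p.1.1) / (2 : ℝ) ^ pot (Y.σ.root k.1.1) *
      (Y.W (prj (y + uv p)).1 * G (uv p - uv k - emb (fun _ => pw Y.s) (prj (y + uv p))) *
        (F (prj (y + uv p)) - b) ^ 2) ≤ 2 * (Y.nu pot (prj (y + uv p)) * (F (prj (y + uv p)) - b) ^ 2) := by
    rw [h6, ← mul_assoc, ← mul_assoc 2, mul_left_comm 2]
    refine mul_le_mul_of_nonneg_right (mul_le_mul_of_nonneg_left (h5.trans ?_) (by positivity))
      (sq_nonneg _)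
    exact mul_le_mul_of_nonneg_right h7 (auxcell_wE_pos Y _ _).le
  refine h8.trans ?_
  rw [← hW]
  by_cases hd : prj (y + uv p) ∈ Y.Deep (1 / 2)
  · obtain ⟨q, hq1, hq2, hq3, hq4⟩ := hbq p hp hd
    have e2 : prj (y + uv q) + prj (uv p - uv q) = prj (y + uv p) := by
      refine Prod.ext (funext fun g => ?_) (funext fun g => ?_) <;> simp [prj]
    refine le_add_of_nonneg_of_le (mul_nonneg zero_le_two h3)
      (mul_le_mul_of_nonneg_left (le_trans ?_ (Finset.single_le_sum (fun q _ => n2 p q) (mem_univ q)))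
        zero_le_two)
    rw [if_pos (auxcell_move pot F hp hq1), if_pos ⟨hq1, mem_filter.2 ⟨hq2, e2 ▸ hd⟩⟩, e2,
      min_eq_right hq4, hq3]
    exact mul_le_mul_of_nonneg_right (auxcell_nu_le Y pot _) (sq_nonneg _)
  · refine le_add_of_le_of_nonneg (mul_le_mul_of_nonneg_left ?_ zero_le_two)
      (mul_nonneg zero_le_two h4)
    rw [if_pos ⟨hp, mem_sdiff.2 ⟨mem_filter.2 ⟨hc, _, _, hτ⟩, hd⟩⟩]
    refine mul_le_of_le_one_right (auxcell_nu_pos Y _ _).le ?_
    have := hF (prj (y + uv p))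
    nlinarith [hb.1, hb.2]

lemma auxcell_energy (h : Y.Ok) (pot : E → ℤ) {G : ((E × Bool) × Fin 5 → ℤ) → ℝ} (hG : Y.IsG G)
    {F : (E × Bool → ℤ) × (E × Bool → ℤ) → ℝ} (hF : ∀ x, 0 ≤ F x ∧ F x ≤ 1) :
    ∃ gb, auxE (Y.Th fun _ => pw Y.s) G (Y.alo fun _ => pw Y.s) (Y.ahi fun _ => pw Y.s)
      (fun p => (2 : ℝ) ^ pot (Y.σ.root p.1.1)) (fun y => F (prj y)) gb ≤
        250 * Y.s ^ 3 * (Y.cEn pot F + ∑ x ∈ Y.TCells \ Y.Deep (1 / 2), Y.nu pot x) := by
  choose gb hgb using auxcell_node h pot hG hF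
  refine ⟨gb, ?_⟩
  set B := ∑ x ∈ Y.TCells \ Y.Deep (1 / 2), Y.nu pot x with hB
  have hB0 : 0 ≤ B := sum_nonneg fun x _ => (auxcell_nu_pos Y pot x).le
  have hE0 := auxcell_cEn_nonneg Y pot F
  have hN : (Fintype.card ((E × Bool) × Fin 5) : ℝ) ≤ 5 * Y.s := by
    have := h.sz.card
    rw [Fintype.card_prod, Fintype.card_fin]
    exact_mod_cast (by omega : Fintype.card (E × Bool) * 5 ≤ 5 * Y.s)
  have hs : (2 : ℝ) ^ 20 ≤ Y.s := by exact_mod_cast h.sz.big
  have h1 : auxE (Y.Th fun _ => pw Y.s) G (Y.alo fun _ => pw Y.s) (Y.ahi fun _ => pw Y.s)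
      (fun p => (2 : ℝ) ^ pot (Y.σ.root p.1.1)) (fun y => F (prj y)) gb ≤
      ∑ _k : (E × Bool) × Fin 5, ∑ _p : (E × Bool) × Fin 5,
        (2 * B + 2 * ∑ _q : (E × Bool) × Fin 5, Y.cEn pot F) := by
    refine Finset.sum_le_sum fun k _ => ?_
    rw [Finset.sum_comm]
    refine Finset.sum_le_sum fun p _ => (Finset.sum_le_sum fun y _ => hgb k y p).trans ?_
    rw [Finset.sum_add_distrib, ← Finset.mul_sum, ← Finset.mul_sum, Finset.sum_comm]
    refine add_le_add (mul_le_mul_of_nonneg_left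
      (auxcell_inj _ p _ _ fun x => (auxcell_nu_pos Y pot x).le) zero_le_two)
      (mul_le_mul_of_nonneg_left (Finset.sum_le_sum fun q _ => ?_) zero_le_two)
    split_ifs with hc
    · exact (auxcell_inj (φ := fun x => min (Y.mu pot x.1) (Y.mu pot (x + prj (uv p - uv q)).1) *
        (F (x + prj (uv p - uv q)) - F x) ^ 2) _ q _ _ fun x =>
          mul_nonneg (le_min (Y.mu_pos _ _).le (Y.mu_pos _ _).le) (sq_nonneg _)).trans hc
    · simpa using hE0
  refine h1.trans ?_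
  simp only [Finset.sum_const, card_univ, nsmul_eq_mul]
  set N : ℝ := (Fintype.card ((E × Bool) × Fin 5) : ℝ)
  have hN0 : 0 ≤ N := Nat.cast_nonneg _
  calc N * (N * (2 * B + 2 * (N * Y.cEn pot F)))
      ≤ (5 * Y.s) * ((5 * Y.s) * (2 * ((5 * Y.s) * B) + 2 * ((5 * Y.s) * Y.cEn pot F))) := by
        gcongr
        exact le_mul_of_one_le_left hB0 (by linarith)
    _ = _ := by ring

/-- `aux_wp` for `Θ = Th (fun _ => pw)`, `G` from `exists_G`, `t (p, i) = 2 ^ pot (root p.1)`,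
`C = 8 s`, `δ = 1 / s ^ 6`, `L = s ^ 372`, the function `F ∘ prj`; sum over the types.
Node functions: the coordinates of a point in the support of `Θ` sum to zero, so for a node `y`
either `y` itself is in the support (take `gb k y = F (prj y)`, the energy of the node vanishes), or its
states are the points `y + uv p`; take the value of `F` at the deep state (of the type
`τ p k`) with the largest `mu`.  Two such states differ by `(uv p - uv q, 0)` or `± (0, uv g)`;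
a deep state `x₁` has weight at most `2 nu x₁ ≤ 2 mu x₁.1 = 2 min (mu x₁.1) (mu x₀.1)`; the other
states contribute at most their weight. -/
theorem aux_cell_wp (h : Y.Ok) (pot : E → ℤ)
    (hb : ∀ i k, (2 : ℝ) ^ pot (Y.σ.root i) * Y.Mass (fun _ => pw Y.s) (Y.τ i k) ≤
      4 * Y.s * ((2 : ℝ) ^ pot (Y.σ.root k) * Y.Mass (fun _ => pw Y.s) 0))
    {F : (E × Bool → ℤ) × (E × Bool → ℤ) → ℝ} (hF : ∀ x, 0 ≤ F x ∧ F x ≤ 1) :
    ∃ m, 0 ≤ m ∧ m ≤ 1 ∧ ∑ x ∈ Y.TCells, Y.nu pot x * (F x - m) ^ 2 ≤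
      (Y.s : ℝ) ^ 2260 * (Y.cEn pot F + ∑ x ∈ Y.TCells \ Y.Deep (1 / 2), Y.nu pot x) +
        1 / Y.s ^ 3 * Y.Mass (fun _ => pw Y.s) 0 := by
  classical
  obtain ⟨G, hG⟩ := h.exists_G
  obtain ⟨gb, hgb⟩ := auxcell_energy h pot hG hF
  have hs : (2 : ℝ) ^ 20 ≤ Y.s := by exact_mod_cast h.sz.big
  have hs1 : (1 : ℝ) ≤ Y.s := by linarith
  have he := auxcell_exp h
  have he1 : 1 ≤ Real.exp (2 / Y.s ^ 9) := Real.one_le_exp (by positivity)
  set a := Real.exp (2 / Y.s ^ 9) with ha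
  have ha2 : a ≤ 2 := by nlinarith
  have hM0 : 0 ≤ Y.Mass (fun _ => pw Y.s) 0 := sum_nonneg fun x _ => (auxcell_wE_pos Y _ x).le
  have hc0 : ∀ k : (E × Bool) × Fin 5, Y.Mass (fun _ => pw Y.s) 0 ≤ a *
      conv (Y.Th fun _ => pw Y.s) G (Y.alo fun _ => pw Y.s) (Y.ahi fun _ => pw Y.s) 0 ∧
      conv (Y.Th fun _ => pw Y.s) G (Y.alo fun _ => pw Y.s) (Y.ahi fun _ => pw Y.s) 0 ≤
        a * Y.Mass (fun _ => pw Y.s) 0 := fun k => by
    simpa only [sub_self, τ_self] using auxcell_conv h hG k k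
  obtain ⟨m, hm0, hm1, hm⟩ := aux_wp (h.Th_dl fun _ => pw Y.s) hG.dl
    (fun y hy => Th_supp (fun _ => pw Y.s) hy) (L := (Y.s : ℝ) ^ 372) (C := 8 * Y.s)
    (δ := 1 / (Y.s : ℝ) ^ 6) (fun i => by
      have h1 : (1 : ℝ) ≤ (Y.s : ℝ) ^ 371 := one_le_pow₀ hs1
      simp only [ahi, alo, Pi.add_apply, Pi.sub_apply, pD]
      push_cast
      rw [pow_succ (Y.s : ℝ) 371]
      nlinarith) (one_le_pow₀ hs1) (t := fun p => (2 : ℝ) ^ pot (Y.σ.root p.1.1))
    (fun _ => zpow_pos two_pos _) (by linarith) (by positivity)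
    (by rw [div_le_one (by positivity)]; exact one_le_pow₀ hs1) (fun p k => by
      have h1 := (auxcell_conv h hG p k).2
      have h2 := (hc0 k).1
      have h3 := hb p.1.1 k.1.1
      have h4 : (0 : ℝ) < (2 : ℝ) ^ pot (Y.σ.root p.1.1) := zpow_pos two_pos _
      have h5 : (0 : ℝ) < (2 : ℝ) ^ pot (Y.σ.root k.1.1) := zpow_pos two_pos _
      set c0 := conv (Y.Th fun _ => pw Y.s) G (Y.alo fun _ => pw Y.s) (Y.ahi fun _ => pw Y.s) 0
      have h6 : 0 ≤ c0 := by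
        by_contra hc
        push Not at hc
        nlinarith
      calc _ ≤ (2 : ℝ) ^ pot (Y.σ.root p.1.1) * (a * Y.Mass (fun _ => pw Y.s) (Y.τ p.1.1 k.1.1)) :=
            mul_le_mul_of_nonneg_left h1 h4.le
        _ = a * ((2 : ℝ) ^ pot (Y.σ.root p.1.1) * Y.Mass (fun _ => pw Y.s) (Y.τ p.1.1 k.1.1)) := by
            ring
        _ ≤ a * (4 * Y.s * ((2 : ℝ) ^ pot (Y.σ.root k.1.1) * (a * c0))) := by
            refine mul_le_mul_of_nonneg_left (h3.trans ?_) (by linarith)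
            gcongr
        _ = (a * a) * (4 * Y.s * ((2 : ℝ) ^ pot (Y.σ.root k.1.1) * c0)) := by ring
        _ ≤ 2 * (4 * Y.s * ((2 : ℝ) ^ pot (Y.σ.root k.1.1) * c0)) := by gcongr
        _ = _ := by ring) (F := fun y => F (prj y)) (fun y => hF _) gb
  refine ⟨m, hm0, hm1, ?_⟩
  set B := Y.cEn pot F + ∑ x ∈ Y.TCells \ Y.Deep (1 / 2), Y.nu pot x with hB
  have hB0 : 0 ≤ B :=
    add_nonneg (auxcell_cEn_nonneg Y pot F) (sum_nonneg fun x _ => (auxcell_nu_pos Y pot x).le)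
  have hN : (Fintype.card ((E × Bool) × Fin 5) : ℝ) + 2 ≤ 6 * Y.s := by
    have := h.sz.card
    have h2 := h.sz.big
    rw [Fintype.card_prod, Fintype.card_fin]
    exact_mod_cast (by omega : Fintype.card (E × Bool) * 5 + 2 ≤ 6 * Y.s)
  have hE : (Fintype.card E : ℝ) ≤ Y.s := by
    have := h.sz.card
    rw [Fintype.card_prod, Fintype.card_bool] at this
    exact_mod_cast (by omega : Fintype.card E ≤ Y.s)
  have hn : ∀ x, 0 ≤ Y.nu pot x * (F x - m) ^ 2 := fun x =>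
    mul_nonneg (auxcell_nu_pos Y pot x).le (sq_nonneg _)
  have h1 : ∀ i k, ∑ x ∈ Y.Cells.filter (fun x => Y.ty x.1 = Y.τ i k), Y.nu pot x * (F x - m) ^ 2 ≤
      (Y.s : ℝ) ^ 2258 * B + 1 / Y.s ^ 5 * Y.Mass (fun _ => pw Y.s) 0 := fun i k => by
    have h2 := hm ((i, false), 0) ((k, false), 0)
    simp only [mul_assoc (Y.Th _ _)] at h2
    rw [sum_Th (fun _ => pw Y.s) fun y => G (uv ((i, false), 0) - uv ((k, false), 0) - y) *
      (F (prj y) - m) ^ 2, Finset.mul_sum] at h2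
    have h3 : ∑ x ∈ Y.Cells.filter (fun x => Y.ty x.1 = Y.τ i k), Y.nu pot x * (F x - m) ^ 2 ≤
        2 * ∑ x ∈ Y.Cells, (2 : ℝ) ^ pot (Y.σ.root i) / (2 : ℝ) ^ pot (Y.σ.root k) *
          (Y.W x.1 * (G (uv ((i, false), 0) - uv ((k, false), 0) - emb (fun _ => pw Y.s) x) *
            (F x - m) ^ 2)) := by
      rw [Finset.mul_sum, Finset.sum_filter]
      refine Finset.sum_le_sum fun x hx => ?_
      have h4 := hG.dl.nonneg (uv ((i, false), 0) - uv ((k, false), 0) - emb (fun _ => pw Y.s) x)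
      have h5 := (Y.W_pos x.1).le
      split_ifs with hτ
      · obtain ⟨⟨h6, -⟩, h7⟩ := auxcell_approx h pot hG hx (p := ((i, false), 0))
          (k := ((k, false), 0)) hτ
        rw [h7, mul_left_comm 2, mul_assoc, ← mul_assoc (Y.W _), ← mul_assoc 2]
        refine mul_le_mul_of_nonneg_left (mul_le_mul_of_nonneg_right (h6.trans ?_) (sq_nonneg _))
          (by positivity)
        exact mul_le_mul_of_nonneg_right ha2 (mul_nonneg h5 h4)
      · positivity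
    refine h3.trans ((mul_le_mul_of_nonneg_left h2 zero_le_two).trans ?_)
    rw [mul_add]
    refine add_le_add ?_ ?_
    · calc _ ≤ 2 * (30 * (6 * Y.s) ^ 3 * ((Y.s : ℝ) ^ 372) ^ 6 * (8 * Y.s) ^ 3 / (1 / Y.s ^ 6) *
            (250 * Y.s ^ 3 * B)) := by
            refine mul_le_mul_of_nonneg_left ((mul_le_mul_of_nonneg_left hgb (by positivity)).trans
              ?_) zero_le_two
            gcongr
        _ = 1658880000 * (Y.s : ℝ) ^ 2247 * B := by
            field_simp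
            ring
        _ ≤ Y.s ^ 11 * (Y.s : ℝ) ^ 2247 * B := by
            gcongr
            exact le_trans (by norm_num) (pow_le_pow_left₀ (by norm_num) hs 11)
        _ = _ := by ring
    · calc _ ≤ 2 * (1 / (Y.s : ℝ) ^ 6 * (2 * Y.Mass (fun _ => pw Y.s) 0)) := by
            gcongr
            exact (hc0 ((i, false), 0)).2.trans (mul_le_mul_of_nonneg_right ha2 hM0)
        _ = 4 * (1 / (Y.s : ℝ) ^ 6 * Y.Mass (fun _ => pw Y.s) 0) := by ring
        _ ≤ Y.s * (1 / (Y.s : ℝ) ^ 6 * Y.Mass (fun _ => pw Y.s) 0) := by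
            gcongr
            linarith
        _ = _ := by field_simp
  calc _ ≤ ∑ x ∈ Y.Cells, ∑ i, ∑ k,
        if Y.ty x.1 = Y.τ i k then Y.nu pot x * (F x - m) ^ 2 else 0 := by
        rw [TCells, Finset.sum_filter]
        have h2 : ∀ (x : (E × Bool → ℤ) × (E × Bool → ℤ)) i k,
            0 ≤ if Y.ty x.1 = Y.τ i k then Y.nu pot x * (F x - m) ^ 2 else 0 := fun x i k => by
          split_ifs
          · exact hn x
          · exact le_rfl
        refine Finset.sum_le_sum fun x _ => ?_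
        split_ifs with hx
        · obtain ⟨i, k, hik⟩ := hx
          refine le_trans ?_ (Finset.single_le_sum (fun i _ => sum_nonneg fun k _ => h2 x i k)
            (mem_univ i))
          refine le_trans ?_ (Finset.single_le_sum (fun k _ => h2 x i k) (mem_univ k))
          rw [if_pos hik]
        · exact sum_nonneg fun i _ => sum_nonneg fun k _ => h2 x i k
    _ ≤ ∑ _i : E, ∑ _k : E, ((Y.s : ℝ) ^ 2258 * B + 1 / Y.s ^ 5 * Y.Mass (fun _ => pw Y.s) 0) := by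
        rw [Finset.sum_comm]
        refine Finset.sum_le_sum fun i _ => ?_
        rw [Finset.sum_comm]
        refine Finset.sum_le_sum fun k _ => ?_
        rw [← Finset.sum_filter]
        exact h1 i k
    _ ≤ Y.s * (Y.s * ((Y.s : ℝ) ^ 2258 * B + 1 / Y.s ^ 5 * Y.Mass (fun _ => pw Y.s) 0)) := by
        simp only [Finset.sum_const, card_univ, nsmul_eq_mul]
        gcongr
    _ = _ := by field_simp

end Sys.Ok

end Crest.Agent.R302
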