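import Mathlib

/-!
Row 302, part B1: submodular functions, base polytopes, the sandwich theorem, proximity.
-/

set_option autoImplicit false
set_option linter.unusedSectionVars false

namespace Crest.Agent.R302

open Finset

variable {P C : Type} [Fintype P] [DecidableEq P]

/-- Submodular set functions. -/
def Submod (F : Finset P → ℤ) : Prop := ∀ A B, F (A ∪ B) + F (A ∩ B) ≤ F A + F B

/-- Integer points of the base polytope. -/
def InB (F : Finset P → ℤ) (a : P → ℤ) : Prop := (∀ A, ∑ p ∈ A, a p ≤ F A) ∧ ∑ p, a p = F univ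

/-- Real points of the base polytope. -/
def InBR (F : Finset P → ℤ) (c : P → ℝ) : Prop :=
  (∀ A, ∑ p ∈ A, c p ≤ F A) ∧ ∑ p, c p = F univ

/-- An integer vector as a real vector. -/
def toR (a : P → ℤ) : P → ℝ := fun p => a p

/-- Slack of the constraint `S` at `c`. -/
def slack (F : Finset P → ℤ) (S : Finset P) (c : P → ℝ) : ℝ := F S - ∑ p ∈ S, c p

/-- Sums over the classes of `cl`. -/
def agg [DecidableEq C] {R : Type} [AddCommMonoid R] (cl : P → C) (a : P → R) (j : C) : R :=
  ∑ p ∈ univ.filter (fun p => cl p = j), a p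

/-- Preimage of a set of classes. -/
def pre [DecidableEq C] (cl : P → C) (A : Finset C) : Finset P := univ.filter fun p => cl p ∈ A

lemma inBR_toR {F : Finset P → ℤ} {a : P → ℤ} : InBR F (toR a) ↔ InB F a := by
  unfold InBR InB toR
  constructor
  · rintro ⟨h1, h2⟩
    exact ⟨fun A => by exact_mod_cast h1 A, by exact_mod_cast h2⟩
  · rintro ⟨h1, h2⟩
    exact ⟨fun A => by exact_mod_cast h1 A, by exact_mod_cast h2⟩

lemma InBR.slack_nonneg {F : Finset P → ℤ} {c : P → ℝ} (h : InBR F c) (S : Finset P) :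
    0 ≤ slack F S c := sub_nonneg.2 (h.1 S)

lemma sum_agg [Fintype C] [DecidableEq C] {R : Type} [AddCommMonoid R] (cl : P → C) (a : P → R)
    (A : Finset C) : ∑ j ∈ A, agg cl a j = ∑ p ∈ pre cl A, a p := by
  unfold agg pre
  exact Finset.sum_fiberwise_eq_sum_filter univ A cl a

lemma Submod.pre [DecidableEq C] {F : Finset P → ℤ} (h : Submod F) (cl : P → C) :
    Submod fun A : Finset C => F (pre cl A) := by
  intro A B
  have h1 : R302.pre cl (A ∪ B) = R302.pre cl A ∪ R302.pre cl B := by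
    ext p; simp [R302.pre]
  have h2 : R302.pre cl (A ∩ B) = R302.pre cl A ∩ R302.pre cl B := by
    ext p; simp [R302.pre]
  simp only [h1, h2]
  exact h _ _

lemma sub_min {V : Finset P} {e : P} (he : e ∉ V) {f : Finset P → ℤ}
    (hf : ∀ A ⊆ insert e V, ∀ B ⊆ insert e V, f (A ∪ B) + f (A ∩ B) ≤ f A + f B) (t : ℤ) :
    ∀ A ⊆ V, ∀ B ⊆ V, min (f (A ∪ B)) (f (insert e (A ∪ B)) - t) +
      min (f (A ∩ B)) (f (insert e (A ∩ B)) - t) ≤
        min (f A) (f (insert e A) - t) + min (f B) (f (insert e B) - t) := by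
  intro A hA B hB
  have hA1 : A ⊆ insert e V := hA.trans (subset_insert _ _)
  have hB1 : B ⊆ insert e V := hB.trans (subset_insert _ _)
  have hA2 : insert e A ⊆ insert e V := insert_subset_insert _ hA
  have hB2 : insert e B ⊆ insert e V := insert_subset_insert _ hB
  have h1 := hf A hA1 B hB1
  have h2 := hf _ hA2 B hB1
  have h3 := hf A hA1 _ hB2
  have h4 := hf _ hA2 _ hB2
  rw [insert_union, insert_inter_of_notMem fun h => he (hB h)] at h2
  rw [union_insert, inter_insert_of_notMem fun h => he (hA h)] at h3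
  rw [← insert_union_distrib, ← insert_inter_distrib] at h4
  omega

lemma sub_sandwich (V : Finset P) : ∀ f g : Finset P → ℤ,
    (∀ A ⊆ V, ∀ B ⊆ V, f (A ∪ B) + f (A ∩ B) ≤ f A + f B) →
    (∀ A ⊆ V, ∀ B ⊆ V, g (A ∪ B) + g (A ∩ B) ≤ g A + g B) → f ∅ = 0 → g ∅ = 0 →
    (∀ A ⊆ V, 0 ≤ f A + g A) →
    ∃ x : P → ℤ, ∀ A ⊆ V, ∑ p ∈ A, x p ≤ f A ∧ -∑ p ∈ A, x p ≤ g A := by
  induction V using Finset.induction_on with
  | empty =>
    intro f g _ _ hf0 hg0 _
    refine ⟨0, fun A hA => ?_⟩
    rw [subset_empty.1 hA]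
    simp [hf0, hg0]
  | insert e V he ih =>
    intro f g hf hg hf0 hg0 h
    obtain ⟨B₀, hB₀, hmin⟩ := Finset.exists_min_image V.powerset (fun B => f (insert e B) + g B)
      ⟨∅, empty_mem_powerset V⟩
    rw [mem_powerset] at hB₀
    set t := f (insert e B₀) + g B₀ with ht
    have ht1 : ∀ B ⊆ V, t ≤ f (insert e B) + g B := fun B hB => hmin B (mem_powerset.2 hB)
    have ht2 : ∀ A ⊆ V, -t ≤ g (insert e A) + f A := fun A hA => by
      have hA1 : A ⊆ insert e V := hA.trans (subset_insert _ _)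
      have hB1 : B₀ ⊆ insert e V := hB₀.trans (subset_insert _ _)
      have h1 := hf A hA1 _ (insert_subset_insert e hB₀)
      have h2 := hg _ (insert_subset_insert e hA) _ hB1
      rw [union_insert, inter_insert_of_notMem fun h => he (hA h)] at h1
      rw [insert_union, insert_inter_of_notMem fun h => he (hB₀ h)] at h2
      have h3 := h _ (insert_subset_insert e (union_subset hA hB₀))
      have h4 := h (A ∩ B₀) (inter_subset_left.trans hA1)
      omega
    obtain ⟨x, hx⟩ := ih (fun A => min (f A) (f (insert e A) - t))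
      (fun A => min (g A) (g (insert e A) - -t)) (sub_min he hf t) (sub_min he hg (-t))
      (by have := ht1 ∅ (empty_subset _); omega)
      (by have := ht2 ∅ (empty_subset _); omega)
      (fun A hA => by
        have h1 := ht1 A hA
        have h2 := ht2 A hA
        have h3 := h A (hA.trans (subset_insert _ _))
        have h4 := h _ (insert_subset_insert e hA)
        omega)
    have hs : ∀ A ⊆ V, ∑ p ∈ A, Function.update x e t p = ∑ p ∈ A, x p := fun A hA =>
      Finset.sum_congr rfl fun p hp => Function.update_of_ne (ne_of_mem_of_not_mem (hA hp) he) _ _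
    refine ⟨Function.update x e t, fun A hA => ?_⟩
    by_cases heA : e ∈ A
    · have hA' : A.erase e ⊆ V := subset_insert_iff.1 hA
      have h1 := hx _ hA'
      rw [insert_erase heA] at h1
      rw [← Finset.add_sum_erase A _ heA, hs _ hA', Function.update_self]
      omega
    · have hA' : A ⊆ V := (subset_insert_iff_of_notMem heA).1 hA
      have h1 := hx _ hA'
      rw [hs _ hA']
      omega

/-- Frank's discrete sandwich theorem.  Induction on a ground set `V`: for `e ∉ V` choose an integer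
`t` between `max_A (g (A + e) - f A)` and `min_B (f (B + e) - g B)` and replace `f`, `g` by
`min (f A) (f (A + e) - t)` and `max (g A) (g (A + e) - t)` on the subsets of `V`. -/
theorem sandwich {f g : Finset P → ℤ} (hf : Submod f) (hg : Submod fun A => -g A) (hf0 : f ∅ = 0)
    (hg0 : g ∅ = 0) (h : ∀ A, g A ≤ f A) :
    ∃ x : P → ℤ, ∀ A, g A ≤ ∑ p ∈ A, x p ∧ ∑ p ∈ A, x p ≤ f A := by
  obtain ⟨x, hx⟩ := sub_sandwich univ f (fun A => -g A) (fun A _ B _ => hf A B)
    (fun A _ B _ => hg A B) hf0 (by simp [hg0]) (fun A _ => by have := h A; omega)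
  exact ⟨x, fun A => ⟨by have := (hx A (subset_univ _)).2; omega, (hx A (subset_univ _)).1⟩⟩

lemma sub_exists_base {F : Finset P → ℤ} (hF : Submod F) (h0 : F ∅ = 0) : ∃ a, InB F a := by
  obtain ⟨x, hx⟩ := sandwich (g := fun A => F univ - F Aᶜ) hF (fun A B => by
      have := hF Aᶜ Bᶜ
      simp only [compl_union, compl_inter]
      omega) h0 (by simp) (fun A => by
      have := hF A Aᶜ
      rw [union_compl, inter_compl, h0] at this
      omega)
  exact ⟨x, fun A => (hx A).2, le_antisymm (hx univ).2 (by simpa [h0] using (hx univ).1)⟩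

/-- A base that is tight on `S` (greedy along an order that starts with `S`, or `sandwich`). -/
theorem exists_tight {F : Finset P → ℤ} (hF : Submod F) (h0 : F ∅ = 0) (S : Finset P) :
    ∃ a, InB F a ∧ ∑ p ∈ S, a p = F S := by
  have hsub : Submod fun A => F (A ∩ S) + F (A ∪ S) - F S := by
    intro A B
    have h1 := hF (A ∩ S) (B ∩ S)
    have h2 := hF (A ∪ S) (B ∪ S)
    rw [← union_inter_distrib_right, ← inter_inter_distrib_right] at h1
    rw [← union_union_distrib_right, ← inter_union_distrib_right] at h2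
    simp only
    omega
  obtain ⟨a, ha, ha'⟩ := sub_exists_base hsub (by simp [h0])
  simp only [univ_inter, (union_eq_left.2 (subset_univ S) : univ ∪ S = univ), add_sub_cancel_left] at ha'
  have hle : ∀ A, ∑ p ∈ A, a p ≤ F A := fun A => by
    have h1 := ha A
    have h2 := hF A S
    simp only at h1
    omega
  refine ⟨a, ⟨hle, ha'⟩, le_antisymm (hle S) ?_⟩
  have h1 := ha Sᶜ
  have h2 := Finset.sum_add_sum_compl S a
  have e1 : Sᶜ ∩ S = ∅ := by ext p; simp
  have e2 : Sᶜ ∪ S = univ := by ext p; simp [em']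
  simp only [e1, e2, h0] at h1
  omega

/-- Proximity.  `sandwich` with `lo = ⌊c⌋ - M`, `hi = ⌈c⌉ + M` and
`g A = ∑ j, max (lo (A ∩ C_j)) (γ j - hi (C_j \ A))`, `C_j` the classes of `cl`. -/
theorem prox [Fintype C] [DecidableEq C] {F : Finset P → ℤ} (hF : Submod F) (h0 : F ∅ = 0)
    (cl : P → C) {c : P → ℝ} (hc : InBR F c) {γ : C → ℤ}
    (hγ : InB (fun A => F (pre cl A)) γ) {M : ℤ} (hM : ∑ j, |(γ j : ℝ) - agg cl c j| ≤ M) :
    ∃ a, InB F a ∧ agg cl a = γ ∧ ∀ p, ⌊c p⌋ - M ≤ a p ∧ a p ≤ ⌈c p⌉ + M := by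
  have hM0 : (0 : ℝ) ≤ M := (Finset.sum_nonneg fun j _ => abs_nonneg _).trans hM
  have hM0' : 0 ≤ M := by exact_mod_cast hM0
  set lo : P → ℤ := fun p => ⌊c p⌋ - M with hlo
  set hi : P → ℤ := fun p => ⌈c p⌉ + M with hhi
  have hlh : ∀ p, lo p ≤ hi p := fun p => by
    have := Int.floor_le_ceil (c p)
    simp only [hlo, hhi]
    omega
  let w : Finset C → Finset P → ℤ := fun J A =>
    ∑ p ∈ A \ pre cl J, lo p + ∑ j ∈ J, γ j - ∑ p ∈ pre cl J \ A, hi p
  let g : Finset P → ℤ := fun A => univ.sup' univ_nonempty fun J => w J A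
  have hwg : ∀ J A, w J A ≤ g A := fun J A => Finset.le_sup' (fun J => w J A) (mem_univ J)
  have hgw : ∀ A, ∃ J, g A = w J A := fun A => by
    obtain ⟨J, -, hJ⟩ := Finset.exists_mem_eq_sup' univ_nonempty fun J => w J A
    exact ⟨J, hJ⟩
  have hwF : ∀ J A, w J A ≤ F A := fun J A => by
    by_cases hA : A = pre cl J
    · subst hA
      simpa [w] using hγ.1 J
    · have hcard : (1 : ℝ) ≤ (A \ pre cl J).card + (pre cl J \ A).card := by
        have : 0 < (A \ pre cl J).card + (pre cl J \ A).card := by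
          by_contra hc
          have h1 : (A \ pre cl J).card = 0 := by omega
          have h2 : (pre cl J \ A).card = 0 := by omega
          rw [card_eq_zero, sdiff_eq_empty_iff_subset] at h1 h2
          exact hA (subset_antisymm h1 h2)
        exact_mod_cast this
      have h1 : ∑ p ∈ A \ pre cl J, (lo p : ℝ) ≤
          ∑ p ∈ A \ pre cl J, c p - (A \ pre cl J).card * M := by
        rw [← nsmul_eq_mul, ← Finset.sum_const, ← Finset.sum_sub_distrib]
        refine Finset.sum_le_sum fun p _ => ?_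
        have := Int.floor_le (c p)
        simp only [hlo]
        push_cast
        linarith
      have h2 : ∑ p ∈ pre cl J \ A, c p + (pre cl J \ A).card * M ≤
          ∑ p ∈ pre cl J \ A, (hi p : ℝ) := by
        rw [← nsmul_eq_mul, ← Finset.sum_const, ← Finset.sum_add_distrib]
        refine Finset.sum_le_sum fun p _ => ?_
        have := Int.le_ceil (c p)
        simp only [hhi]
        push_cast
        linarith
      have h3 : ∑ j ∈ J, (γ j : ℝ) - ∑ p ∈ pre cl J, c p ≤ M := by
        rw [← sum_agg, ← Finset.sum_sub_distrib]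
        exact (Finset.sum_le_sum fun j _ => le_abs_self _).trans
          ((Finset.sum_le_sum_of_subset_of_nonneg (subset_univ J) fun j _ _ => abs_nonneg _).trans hM)
      have h4 := hc.1 A
      have h5 := Finset.sum_inter_add_sum_sdiff A (pre cl J) c
      have h6 := Finset.sum_inter_add_sum_sdiff (pre cl J) A c
      rw [inter_comm] at h6
      have h7 : ((w J A : ℤ) : ℝ) ≤ F A := by
        simp only [w]
        push_cast
        nlinarith
      exact_mod_cast h7
  have hgF : ∀ A, g A ≤ F A := fun A => by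
    obtain ⟨J, hJ⟩ := hgw A
    rw [hJ]
    exact hwF J A
  have hpe : pre cl (∅ : Finset C) = ∅ := by simp [pre]
  have hpu : pre cl (univ : Finset C) = univ := by simp [pre]
  have hg0 : g ∅ = 0 := le_antisymm ((hgF ∅).trans h0.le) (by simpa [w, hpe] using hwg ∅ ∅)
  have hgs : Submod fun A => -g A := by
    intro A B
    obtain ⟨J, hJ⟩ := hgw A
    obtain ⟨K, hK⟩ := hgw B
    have h1 := hwg (J ∪ K) (A ∪ B)
    have h2 := hwg (J ∩ K) (A ∩ B)
    have h3 : w J A + w K B ≤ w (J ∪ K) (A ∪ B) + w (J ∩ K) (A ∩ B) := by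
      have e : ∀ (S : Finset P) (f : P → ℤ), ∑ p ∈ S, f p = ∑ p, if p ∈ S then f p else 0 :=
        fun S f => by simp
      have h4 := Finset.sum_union_inter (s₁ := J) (s₂ := K) (f := γ)
      have h5 : ∑ p ∈ A \ pre cl J, lo p - ∑ p ∈ pre cl J \ A, hi p +
          (∑ p ∈ B \ pre cl K, lo p - ∑ p ∈ pre cl K \ B, hi p) ≤
          ∑ p ∈ (A ∪ B) \ pre cl (J ∪ K), lo p - ∑ p ∈ pre cl (J ∪ K) \ (A ∪ B), hi p +
          (∑ p ∈ (A ∩ B) \ pre cl (J ∩ K), lo p - ∑ p ∈ pre cl (J ∩ K) \ (A ∩ B), hi p) := by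
        simp only [e (_ \ _), ← Finset.sum_sub_distrib, ← Finset.sum_add_distrib]
        refine Finset.sum_le_sum fun p _ => ?_
        have := hlh p
        by_cases h1 : p ∈ A <;> by_cases h2 : p ∈ B <;> by_cases h3 : cl p ∈ J <;>
          by_cases h4 : cl p ∈ K <;> simp [pre, h1, h2, h3, h4] <;> omega
      simp only [w]
      omega
    simp only
    omega
  obtain ⟨x, hx⟩ := sandwich hF hgs h0 hg0 hgF
  have hxw : ∀ J A, w J A ≤ ∑ p ∈ A, x p := fun J A => (hwg J A).trans (hx A).1
  have hγu : ∑ j, γ j = F univ := by simpa [hpu] using hγ.2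
  have hxu : ∑ p, x p = F univ := le_antisymm (hx univ).2 (by simpa [w, hpu, hγu] using hxw univ univ)
  have hagg1 : ∀ j, agg cl x j = ∑ p ∈ pre cl {j}, x p := fun j => by
    rw [← sum_agg, Finset.sum_singleton]
  have hle : ∀ j, γ j ≤ agg cl x j := fun j => by
    rw [hagg1]
    simpa [w] using hxw {j} (pre cl {j})
  have hagg : ∀ j, γ j = agg cl x j := fun j =>
    (Finset.sum_eq_sum_iff_of_le fun j _ => hle j).1 (by rw [sum_agg, hpu, hxu, hγu]) j (mem_univ j)
  refine ⟨x, ⟨fun A => (hx A).2, hxu⟩, funext fun j => (hagg j).symm, fun p => ⟨?_, ?_⟩⟩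
  · simpa only [w, hpe, sdiff_empty, empty_sdiff, Finset.sum_empty, Finset.sum_singleton, add_zero,
      sub_zero] using hxw ∅ {p}
  · have hp : p ∈ pre cl {cl p} := by simp [pre]
    have h1 := hxw {cl p} ((pre cl {cl p}).erase p)
    have e1 : (pre cl {cl p}).erase p \ pre cl {cl p} = ∅ :=
      sdiff_eq_empty_iff_subset.2 (erase_subset _ _)
    have e2 : pre cl {cl p} \ (pre cl {cl p}).erase p = {p} := sdiff_erase_self hp
    have h2 := Finset.add_sum_erase _ x hp
    have h3 := hagg (cl p)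
    rw [hagg1] at h3
    simp only [w, e1, e2, Finset.sum_empty, Finset.sum_singleton, hhi] at h1
    omega

lemma InB.agg [Fintype C] [DecidableEq C] {F : Finset P → ℤ} {a : P → ℤ} (h : InB F a) (cl : P → C) :
    InB (fun A => F (pre cl A)) (agg cl a) := by
  refine ⟨fun A => ?_, ?_⟩
  · rw [sum_agg]
    exact h.1 _
  · have hpu : pre cl (univ : Finset C) = univ := by simp [pre]
    rw [sum_agg]
    simp only [hpu]
    exact h.2

/-- Restriction to an upper box: `F' A = min_{S ⊆ A} (F S + ub (A \ S))`. -/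
theorem exists_ub {F : Finset P → ℤ} (hF : Submod F) (h0 : F ∅ = 0) (ub : P → ℤ)
    (hne : ∃ a, InB F a ∧ ∀ p, a p ≤ ub p) :
    ∃ F' : Finset P → ℤ, Submod F' ∧ F' ∅ = 0 ∧ F' univ = F univ ∧
      ∀ a, InB F' a ↔ InB F a ∧ ∀ p, a p ≤ ub p := by
  let F' : Finset P → ℤ := fun A =>
    A.powerset.inf' ⟨∅, empty_mem_powerset A⟩ fun S => F S + ∑ p ∈ A \ S, ub p
  have hle : ∀ A S, S ⊆ A → F' A ≤ F S + ∑ p ∈ A \ S, ub p := fun A S hS =>
    Finset.inf'_le (fun S => F S + ∑ p ∈ A \ S, ub p) (mem_powerset.2 hS)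
  have hex : ∀ A, ∃ S, S ⊆ A ∧ F' A = F S + ∑ p ∈ A \ S, ub p := fun A => by
    obtain ⟨S, hS, e⟩ := Finset.exists_mem_eq_inf' (s := A.powerset) ⟨∅, empty_mem_powerset A⟩
      fun S => F S + ∑ p ∈ A \ S, ub p
    exact ⟨S, mem_powerset.1 hS, e⟩
  have hF' : ∀ A, F' A ≤ F A := fun A => by simpa using hle A A subset_rfl
  have hge : ∀ a : P → ℤ, (∀ A, ∑ p ∈ A, a p ≤ F A) → (∀ p, a p ≤ ub p) →
      ∀ A, ∑ p ∈ A, a p ≤ F' A := fun a h1 h2 A => by
    obtain ⟨S, hS, e⟩ := hex A
    have h3 := Finset.sum_sdiff (f := a) hS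
    have h4 : ∑ p ∈ A \ S, a p ≤ ∑ p ∈ A \ S, ub p := Finset.sum_le_sum fun p _ => h2 p
    have h5 := h1 S
    omega
  have hu : F' univ = F univ := by
    obtain ⟨a, ha, ha'⟩ := hne
    exact le_antisymm (hF' _) (ha.2 ▸ hge a ha.1 ha' univ)
  refine ⟨F', fun A B => ?_, ?_, hu, fun a => ⟨fun h => ⟨⟨fun A => (h.1 A).trans (hF' A), hu ▸ h.2⟩,
    fun p => ?_⟩, fun h => ⟨hge a h.1.1 h.2, hu ▸ h.1.2⟩⟩⟩
  · obtain ⟨S, hS, e⟩ := hex A
    obtain ⟨T, hT, e'⟩ := hex B
    have h1 := hle (A ∪ B) (S ∪ T) (union_subset_union hS hT)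
    have h2 := hle (A ∩ B) (S ∩ T) (inter_subset_inter hS hT)
    have h3 := hF S T
    have h4 : ∑ p ∈ (A ∪ B) \ (S ∪ T), ub p + ∑ p ∈ (A ∩ B) \ (S ∩ T), ub p =
        ∑ p ∈ A \ S, ub p + ∑ p ∈ B \ T, ub p := by
      have e : ∀ (S : Finset P) (f : P → ℤ), ∑ p ∈ S, f p = ∑ p, if p ∈ S then f p else 0 :=
        fun S f => by simp
      simp only [e (_ \ _), ← Finset.sum_add_distrib]
      refine Finset.sum_congr rfl fun p _ => ?_
      have h5 : p ∈ S → p ∈ A := fun h => hS h
      have h6 : p ∈ T → p ∈ B := fun h => hT h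
      by_cases h1 : p ∈ A <;> by_cases h2 : p ∈ B <;> by_cases h3 : p ∈ S <;>
        by_cases h4 : p ∈ T <;> simp_all
    omega
  · obtain ⟨S, hS, e⟩ := hex ∅
    rw [subset_empty.1 hS] at e
    simpa [h0] using e
  · have h1 := h.1 {p}
    have h2 := hle {p} ∅ (empty_subset _)
    simp only [h0, sdiff_empty, Finset.sum_singleton] at h1 h2
    omega

/-- The polytope `B G₁ × (- B G₂)`:
`F A = G₁ {e | (e, false) ∈ A} + G₂ {e | (e, true) ∉ A} - G₂ univ`. -/
theorem exists_pair {E : Type} [Fintype E] [DecidableEq E] {G₁ G₂ : Finset E → ℤ} (h₁ : Submod G₁)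
    (h₂ : Submod G₂) (h10 : G₁ ∅ = 0) (h20 : G₂ ∅ = 0) (h : G₁ univ = G₂ univ) :
    ∃ F : Finset (E × Bool) → ℤ, Submod F ∧ F ∅ = 0 ∧ F univ = 0 ∧
      ∀ a, InB F a ↔ InB G₁ (fun e => a (e, false)) ∧ InB G₂ (fun e => -a (e, true)) := by
  have hsum : ∀ (A : Finset (E × Bool)) (a : E × Bool → ℤ), ∑ p ∈ A, a p =
      ∑ e ∈ univ.filter (fun e => (e, false) ∈ A), a (e, false) +
        ∑ e ∈ (univ.filter (fun e => (e, true) ∉ A))ᶜ, a (e, true) := fun A a => by
    have e : ∑ p ∈ A, a p = ∑ p, if p ∈ A then a p else 0 := by simp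
    have e2 : (univ.filter (fun e => (e, true) ∉ A))ᶜ = univ.filter (fun e => (e, true) ∈ A) := by
      ext e; simp
    rw [e, e2, Fintype.sum_prod_type, Finset.sum_filter, Finset.sum_filter, ← Finset.sum_add_distrib]
    refine Finset.sum_congr rfl fun e _ => ?_
    rw [Fintype.sum_bool, add_comm]
  refine ⟨fun A => G₁ (univ.filter fun e => (e, false) ∈ A) +
    G₂ (univ.filter fun e => (e, true) ∉ A) - G₂ univ, fun A B => ?_, by simp [h10], by simp [h20, h],
    fun a => ?_⟩
  · have e1 := h₁ (univ.filter fun e => (e, false) ∈ A) (univ.filter fun e => (e, false) ∈ B)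
    have e2 := h₂ (univ.filter fun e => (e, true) ∉ A) (univ.filter fun e => (e, true) ∉ B)
    rw [← filter_or, ← filter_and] at e1 e2
    simp only [mem_union, mem_inter, not_or, not_and_or]
    omega
  have hu := hsum univ a
  simp only [mem_univ, filter_true, not_true, filter_false, compl_empty] at hu
  constructor
  · rintro ⟨h1, h2⟩
    simp only [mem_univ, filter_true, not_true, filter_false, h20, h] at h2
    have k1 : ∀ B : Finset E, ∑ e ∈ B, a (e, false) ≤ G₁ B := fun B => by
      have := h1 (B ×ˢ {false})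
      rw [hsum] at this
      simpa using this
    have k2 : ∀ B : Finset E, ∑ e ∈ Bᶜ, a (e, true) ≤ G₂ B - G₂ univ := fun B => by
      have := h1 (Bᶜ ×ˢ {true})
      rw [hsum] at this
      simpa [h10] using this
    have k3 := k1 univ
    have k4 := k2 ∅
    rw [compl_empty, h20] at k4
    refine ⟨⟨k1, by simp only; omega⟩, fun B => ?_, ?_⟩
    · have k5 := k2 B
      have k6 := Finset.sum_add_sum_compl B fun e => a (e, true)
      rw [Finset.sum_neg_distrib]
      omega
    · rw [Finset.sum_neg_distrib]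
      omega
  · rintro ⟨⟨h1, h2⟩, h3, h4⟩
    rw [Finset.sum_neg_distrib] at h4
    refine ⟨fun A => ?_, ?_⟩
    · rw [hsum]
      have k1 := h1 (univ.filter fun e => (e, false) ∈ A)
      have k2 := h3 (univ.filter fun e => (e, true) ∉ A)
      have k3 := Finset.sum_add_sum_compl (univ.filter fun e => (e, true) ∉ A) fun e => a (e, true)
      rw [Finset.sum_neg_distrib] at k2
      simp only at k1 ⊢
      omega
    · simp only [mem_univ, filter_true, not_true, filter_false, h20]
      simp only at h2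
      omega

end Crest.Agent.R302
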