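import Crest.Agent.R302.DL
import Crest.Agent.R302.Sub

/-!
Row 302, part A5: the indicator of an integral base polytope is `DL`.
-/

set_option autoImplicit false
set_option linter.unusedSectionVars false

namespace Crest.Agent.R302

open Finset

variable {P : Type} [Fintype P] [DecidableEq P]

/-- `min_A (F A + x Aᶜ)` -/
def baseRho (F : Finset P → ℤ) (x : P → ℤ) : ℤ :=
  univ.inf' univ_nonempty fun A : Finset P => F A + ∑ p ∈ Aᶜ, x p

lemma baseRho_le (F : Finset P → ℤ) (x : P → ℤ) (A : Finset P) :
    baseRho F x ≤ F A + ∑ p ∈ Aᶜ, x p :=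
  Finset.inf'_le (fun A : Finset P => F A + ∑ p ∈ Aᶜ, x p) (mem_univ A)

lemma baseRho_eq (F : Finset P → ℤ) (x : P → ℤ) : ∃ A, baseRho F x = F A + ∑ p ∈ Aᶜ, x p := by
  obtain ⟨A, -, h⟩ := Finset.exists_mem_eq_inf' univ_nonempty
    fun A : Finset P => F A + ∑ p ∈ Aᶜ, x p
  exact ⟨A, h⟩

lemma base_sum_uv (x : P → ℤ) (p : P) (S : Finset P) :
    ∑ i ∈ S, (x + uv p) i = ∑ i ∈ S, x i + if p ∈ S then 1 else 0 := by
  simp only [Pi.add_apply, Finset.sum_add_distrib, uv, Finset.sum_pi_single']

lemma baseRho_mono (F : Finset P → ℤ) (x : P → ℤ) (p : P) : baseRho F x ≤ baseRho F (x + uv p) := by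
  obtain ⟨A, h⟩ := baseRho_eq F (x + uv p)
  have := baseRho_le F x A
  rw [base_sum_uv] at h
  split_ifs at h <;> omega

lemma baseRho_lip (F : Finset P → ℤ) (x : P → ℤ) (p : P) :
    baseRho F (x + uv p) ≤ baseRho F x + 1 := by
  obtain ⟨A, h⟩ := baseRho_eq F x
  have := baseRho_le F (x + uv p) A
  rw [base_sum_uv] at this
  split_ifs at this <;> omega

lemma baseRho_dr {F : Finset P → ℤ} (hF : Submod F) (y : P → ℤ) (p r : P) :
    baseRho F (y + uv p + uv r) + baseRho F y ≤ baseRho F (y + uv p) + baseRho F (y + uv r) := by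
  obtain ⟨A, hA⟩ := baseRho_eq F (y + uv p)
  obtain ⟨B, hB⟩ := baseRho_eq F (y + uv r)
  have h1 := baseRho_le F (y + uv p + uv r) (A ∪ B)
  have h2 := baseRho_le F y (A ∩ B)
  have h3 := hF A B
  have h4 := Finset.sum_union_inter (s₁ := Aᶜ) (s₂ := Bᶜ) (f := y)
  simp only [base_sum_uv, compl_union, compl_inter, mem_inter] at hA hB h1 h2
  split_ifs at hA hB h1 <;> first | omega | tauto

lemma base_psd (R : P → P → Prop) [DecidableRel R] (hs : ∀ p q, R p q → R q p)
    (ht : ∀ p q r, R p q → R q r → R p r) (v : P → ℝ) :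
    0 ≤ ∑ p, ∑ q, if R p q then v p * v q else 0 := by
  let w : Finset P → P → ℝ := fun c p => if R p p ∧ univ.filter (R p) = c then v p else 0
  have h : ∀ p q, (if R p q then v p * v q else 0) = ∑ c, w c p * w c q := fun p q => by
    rw [Finset.sum_eq_single (univ.filter (R p))]
    · by_cases hpq : R p q
      · have e : univ.filter (R q) = univ.filter (R p) := by
          ext r
          simp only [mem_filter, mem_univ, true_and]
          exact ⟨ht p q r hpq, ht q p r (hs p q hpq)⟩
        simp [w, hpq, e, ht p q p hpq (hs p q hpq), ht q p q (hs p q hpq) hpq]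
      · have e : ¬(R q q ∧ univ.filter (R q) = univ.filter (R p)) := by
          rintro ⟨h1, h2⟩
          have : q ∈ univ.filter (R p) := h2 ▸ (by simpa using h1)
          exact hpq (by simpa using this)
        simp only [w, if_neg hpq, if_neg e, mul_zero]
    · intro c _ hc
      simp only [w, if_neg fun h : R p p ∧ univ.filter (R p) = c => hc h.2.symm, zero_mul]
    · simp
  simp only [h]
  have e : ∑ p, ∑ q, ∑ c, w c p * w c q = ∑ c, (∑ p, w c p) * ∑ q, w c q := by
    simp only [Finset.sum_mul_sum]
    rw [Finset.sum_comm (s := (univ : Finset (Finset P)))]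
    exact Finset.sum_congr rfl fun p _ => Finset.sum_comm
  rw [e]
  exact Finset.sum_nonneg fun c _ => mul_self_nonneg _

lemma base_sn {F : Finset P → ℤ} (hF : Submod F) {t : ℝ} (ht : 0 ≤ t) :
    SN uv univ fun x : P → ℤ =>
      Real.exp (-(t * ((∑ p, x p + F univ - 2 * baseRho F x : ℤ) : ℝ))) := by
  classical
  refine ⟨fun x => Real.exp_pos _, fun x u => ?_⟩
  set f : (P → ℤ) → ℝ := fun x =>
    Real.exp (-(t * ((∑ p, x p + F univ - 2 * baseRho F x : ℤ) : ℝ))) with hf
  let R : P → P → Prop := fun p q => baseRho F (x + uv p) = baseRho F x + 1 ∧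
    baseRho F (x + uv q) = baseRho F x + 1 ∧ baseRho F (x + uv p + uv q) = baseRho F x + 1
  have hs : ∀ p q, R p q → R q p := fun p q h => ⟨h.2.1, h.1, by rw [add_right_comm]; exact h.2.2⟩
  have htr : ∀ p q r, R p q → R q r → R p r := fun p q r h h' => by
    refine ⟨h.1, h'.2.1, ?_⟩
    have h1 := baseRho_dr hF (x + uv q) p r
    have h2 := baseRho_mono F (x + uv p + uv r) q
    have h3 := baseRho_mono F (x + uv p) r
    have e1 : x + uv p + uv r + uv q = x + uv q + uv p + uv r := by abel
    have h4 := h.2.2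
    rw [add_right_comm] at h4
    rw [e1] at h2
    have h5 := h'.2.2
    have h6 := h.1
    have h7 := h'.1
    omega
  have key : ∀ p q, f x * f (x + uv p + uv q) = f (x + uv p) * f (x + uv q) -
      (1 - Real.exp (-(2 * t))) * if R p q then f (x + uv p) * f (x + uv q) else 0 := fun p q => by
    have h1 := baseRho_dr hF x p q
    have h2 := baseRho_mono F x p
    have h3 := baseRho_mono F x q
    have h4 := baseRho_lip F x p
    have h5 := baseRho_lip F x q
    have h6 := baseRho_mono F (x + uv p) q
    have h7 := baseRho_mono F (x + uv q) p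
    rw [add_right_comm] at h7
    split_ifs with hR
    · obtain ⟨e1, e2, e3⟩ := hR
      have : f x * f (x + uv p + uv q) = f (x + uv p) * f (x + uv q) * Real.exp (-(2 * t)) := by
        simp only [hf, ← Real.exp_add, base_sum_uv, mem_univ, if_true, e1, e2, e3]
        congr 1
        push_cast
        ring
      rw [this]
      ring
    · have e : baseRho F (x + uv p + uv q) =
          baseRho F (x + uv p) + baseRho F (x + uv q) - baseRho F x := by
        simp only [R, not_and_or] at hR
        omega
      rw [mul_zero, sub_zero]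
      simp only [hf, ← Real.exp_add, base_sum_uv, mem_univ, if_true, e]
      congr 1
      push_cast
      ring
  have h1 := base_psd R hs htr fun p => u p * f (x + uv p)
  have h2 : 0 ≤ 1 - Real.exp (-(2 * t)) := sub_nonneg.2 (Real.exp_le_one_iff.2 (by linarith))
  have h3 : f x * ∑ p, ∑ q, u p * u q * f (x + uv p + uv q) = (∑ p, u p * f (x + uv p)) ^ 2 -
      (1 - Real.exp (-(2 * t))) * ∑ p, ∑ q,
        if R p q then u p * f (x + uv p) * (u q * f (x + uv q)) else 0 := by
    rw [sq, Finset.sum_mul_sum]
    simp only [Finset.mul_sum, ← Finset.sum_sub_distrib]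
    refine Finset.sum_congr rfl fun p _ => Finset.sum_congr rfl fun q _ => ?_
    have := key p q
    split_ifs at this ⊢ <;> linear_combination u p * u q * this
  change f x * ∑ p, ∑ q, u p * u q * f (x + uv p + uv q) ≤ (∑ p, u p * f (x + uv p)) ^ 2
  rw [h3]
  exact sub_le_self _ (mul_nonneg h2 h1)

open Classical in
/-- Let `ρ x = min_A (F A + x Aᶜ)`.  It is DR-submodular, `ρ (y + p + r) + ρ y ≤ ρ (y + p) + ρ (y + r)`
(use `A ∪ B`, `A ∩ B`), with increments in `{0, 1}`.  So `ρ (x + p + q) - ρ (x + p) - ρ (x + q) + ρ x`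
is `-1` if `p ∥ q` (both increments are `1`, the joint increment is `1`) and `0` otherwise, and `∥` is a
partial equivalence relation; hence `lam ^ ρ` is `SN` for `lam ≥ 1` (the matrix `(1 - 1 / lam) [p ∥ q]` is
positive semidefinite, compare `SN.of_psd`), also after multiplication by an exponential of the total
sum.  `ε ^ (∑ x + F univ - 2 ρ x)` tends to the indicator. -/
theorem DL.base {F : Finset P → ℤ} (hF : Submod F) (h0 : F ∅ = 0) :
    DL uv univ fun x : P → ℤ => if InB F x then (1 : ℝ) else 0 := by
  refine DL.of_tendsto (fun n : ℕ => (base_sn hF (Nat.cast_nonneg n)).dl) fun x => ?_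
  have h1 := baseRho_le F x ∅
  have h2 := baseRho_le F x univ
  simp only [compl_empty, compl_univ, Finset.sum_empty, h0] at h1 h2
  split_ifs with h
  · have e : ∑ p, x p + F univ - 2 * baseRho F x = 0 := by
      obtain ⟨A, hA⟩ := baseRho_eq F x
      have h3 := h.1 A
      have h4 := h.2
      have h5 := Finset.sum_add_sum_compl A x
      omega
    simp [e]
  · have e : 0 < ∑ p, x p + F univ - 2 * baseRho F x := by
      by_contra hc
      refine h ⟨fun A => ?_, by omega⟩
      have h3 := baseRho_le F x A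
      have h5 := Finset.sum_add_sum_compl A x
      omega
    have e' : (0 : ℝ) < ((∑ p, x p + F univ - 2 * baseRho F x : ℤ) : ℝ) := by exact_mod_cast e
    exact Real.tendsto_exp_atBot.comp (Filter.tendsto_neg_atTop_atBot.comp
      (tendsto_natCast_atTop_atTop.atTop_mul_const e'))

end Crest.Agent.R302
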