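import Crest.Agent.R302.SmoothAux

/-!
Row 302, part A6: slowly varying convex potentials are approximately `SN`.
-/

set_option autoImplicit false
set_option linter.unusedSectionVars false

namespace Crest.Agent.R302

open Finset

variable {I : Type} [Fintype I] [DecidableEq I]

/-- If the matrix `1 - exp (- Δ_p Δ_q Ψ)` is positive semidefinite then `exp (- Ψ)` is `SN`
(substitute `v p = u p * exp (Ψ x - Ψ (x + e p))`). -/
theorem SN.of_psd {X ι : Type} [AddCommGroup X] {e : ι → X} {S : Finset ι} {Ψ : X → ℝ}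
    (h : ∀ (x : X) (v : ι → ℝ), 0 ≤ ∑ p ∈ S, ∑ q ∈ S, v p * v q *
      (1 - Real.exp (-(Ψ (x + e p + e q) - Ψ (x + e p) - Ψ (x + e q) + Ψ x)))) :
    SN e S fun x => Real.exp (-Ψ x) := by
  refine ⟨fun x => Real.exp_pos _, fun x u => ?_⟩
  have h1 := h x fun p => u p * Real.exp (-Ψ (x + e p))
  have e1 : (∑ p ∈ S, u p * Real.exp (-Ψ (x + e p))) ^ 2 -
      Real.exp (-Ψ x) * ∑ p ∈ S, ∑ q ∈ S, u p * u q * Real.exp (-Ψ (x + e p + e q)) =
      ∑ p ∈ S, ∑ q ∈ S, u p * Real.exp (-Ψ (x + e p)) * (u q * Real.exp (-Ψ (x + e q))) *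
        (1 - Real.exp (-(Ψ (x + e p + e q) - Ψ (x + e p) - Ψ (x + e q) + Ψ x))) := by
    rw [sq, Finset.sum_mul_sum, Finset.mul_sum, ← Finset.sum_sub_distrib]
    refine Finset.sum_congr rfl fun p _ => ?_
    rw [Finset.mul_sum, ← Finset.sum_sub_distrib]
    refine Finset.sum_congr rfl fun q _ => ?_
    have e2 : Real.exp (-Ψ x) * Real.exp (-Ψ (x + e p + e q)) =
        Real.exp (-Ψ (x + e p)) * Real.exp (-Ψ (x + e q)) *
          Real.exp (-(Ψ (x + e p + e q) - Ψ (x + e p) - Ψ (x + e q) + Ψ x)) := by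
      rw [← Real.exp_add, ← Real.exp_add, ← Real.exp_add]
      congr 1
      ring
    linear_combination (-(u p * u q)) * e2
  linarith

/-- Rounding a real vector to an integer vector. -/
lemma smooth_quad (S : Finset I) (H : I → I → ℝ) {M₂ M₃ : ℝ} {N h : ℕ} (hN : S.card ≤ N)
    (hh : 0 < h) (hM₂ : 0 ≤ M₂) (hM₃ : 0 ≤ M₃) (hH : ∀ p q, |H p q| ≤ M₂)
    (hq : ∀ a : I → ℤ, -(2 * M₃ * (smoothN a : ℝ) ^ 3) ≤ ∑ p, ∑ q, (a p : ℝ) * (a q : ℝ) * H p q)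
    (w : I → ℝ) (hw : ∀ p ∈ S, |w p| ≤ 1) :
    -(2 * M₃ * (N * h) ^ 3 + N ^ 2 * (3 * h * M₂)) ≤
      (h : ℝ) ^ 2 * ∑ p ∈ S, ∑ q ∈ S, w p * w q * H p q := by
  have hh' : (1 : ℝ) ≤ h := by exact_mod_cast hh
  have hN' : (S.card : ℝ) ≤ N := by exact_mod_cast hN
  set a : I → ℤ := fun p => if p ∈ S then ⌊(h : ℝ) * w p⌋ else 0 with ha
  have ha1 : ∀ p ∈ S, |(a p : ℝ)| ≤ h := by
    intro p hp
    have h1 := abs_le.1 (hw p hp)
    have h2 : (a p : ℝ) ≤ h * w p := by simp only [ha, if_pos hp]; exact Int.floor_le _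
    have h3 : -(h : ℤ) ≤ a p := by
      simp only [ha, if_pos hp]
      rw [Int.le_floor]
      push_cast
      nlinarith
    have h4 : -(h : ℝ) ≤ a p := by exact_mod_cast h3
    rw [abs_le]
    constructor
    · exact h4
    · nlinarith
  have ha2 : ∀ p ∈ S, |h * w p - (a p : ℝ)| ≤ 1 := by
    intro p hp
    simp only [ha, if_pos hp]
    have h1 := Int.floor_le ((h : ℝ) * w p)
    have h2 := Int.lt_floor_add_one ((h : ℝ) * w p)
    rw [abs_le]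
    constructor <;> linarith
  have ha3 : (smoothN a : ℝ) ≤ N * h := by
    have e : (smoothN a : ℝ) = ∑ p ∈ S, |(a p : ℝ)| := by
      simp only [smoothN, Nat.cast_sum, Nat.cast_natAbs, Int.cast_abs]
      symm
      refine Finset.sum_subset (subset_univ _) fun p _ hp => ?_
      simp [ha, hp]
    rw [e]
    calc _ ≤ ∑ _p ∈ S, (h : ℝ) := Finset.sum_le_sum ha1
      _ = S.card * h := by simp
      _ ≤ N * h := mul_le_mul_of_nonneg_right hN' (by linarith)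
  have e1 : ∑ p, ∑ q, (a p : ℝ) * (a q : ℝ) * H p q =
      ∑ p ∈ S, ∑ q ∈ S, (a p : ℝ) * (a q : ℝ) * H p q := by
    symm
    rw [Finset.sum_subset (subset_univ S) fun p _ hp => by simp [ha, hp]]
    refine Finset.sum_congr rfl fun p _ => ?_
    exact Finset.sum_subset (subset_univ S) fun q _ hq => by simp [ha, hq]
  have h1 := hq a
  rw [e1] at h1
  have h2 : |(h : ℝ) ^ 2 * ∑ p ∈ S, ∑ q ∈ S, w p * w q * H p q -
      ∑ p ∈ S, ∑ q ∈ S, (a p : ℝ) * (a q : ℝ) * H p q| ≤ N ^ 2 * (3 * h * M₂) := by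
    rw [Finset.mul_sum, ← Finset.sum_sub_distrib]
    calc _ ≤ _ := Finset.abs_sum_le_sum_abs _ _
      _ ≤ ∑ _p ∈ S, ∑ _q ∈ S, 3 * h * M₂ := Finset.sum_le_sum fun p hp => by
          rw [Finset.mul_sum, ← Finset.sum_sub_distrib]
          refine (Finset.abs_sum_le_sum_abs _ _).trans (Finset.sum_le_sum fun q hq => ?_)
          have e : (h : ℝ) ^ 2 * (w p * w q * H p q) - (a p : ℝ) * (a q : ℝ) * H p q =
              ((h * w p - a p) * (h * w q - a q) + (h * w p - a p) * a q +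
                a p * (h * w q - a q)) * H p q := by ring
          rw [e, abs_mul]
          refine mul_le_mul ?_ (hH p q) (abs_nonneg _) (by positivity)
          have k1 : |(h * w p - a p) * (h * w q - a q)| ≤ 1 * 1 := by
            rw [abs_mul]
            exact mul_le_mul (ha2 p hp) (ha2 q hq) (abs_nonneg _) zero_le_one
          have k2 : |(h * w p - a p) * a q| ≤ 1 * h := by
            rw [abs_mul]
            exact mul_le_mul (ha2 p hp) (ha1 q hq) (abs_nonneg _) zero_le_one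
          have k3 : |a p * (h * w q - a q)| ≤ h * 1 := by
            rw [abs_mul]
            exact mul_le_mul (ha1 p hp) (ha2 q hq) (abs_nonneg _) (by positivity)
          have k4 := abs_add_three ((h * w p - a p) * (h * w q - a q)) ((h * w p - a p) * a q)
            (a p * (h * w q - a q))
          linarith
      _ = S.card ^ 2 * (3 * h * M₂) := by simp; ring
      _ ≤ N ^ 2 * (3 * h * M₂) := by gcongr
  have h3 := (abs_le.1 h2).1
  have h4 : (smoothN a : ℝ) ^ 3 ≤ (N * h) ^ 3 := by gcongr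
  nlinarith [mul_le_mul_of_nonneg_left h4 hM₃]

/-- Homogeneous version. -/
lemma smooth_quad' (S : Finset I) (H : I → I → ℝ) {κ : ℝ}
    (hq : ∀ w : I → ℝ, (∀ p ∈ S, |w p| ≤ 1) → -κ ≤ ∑ p ∈ S, ∑ q ∈ S, w p * w q * H p q)
    (v : I → ℝ) : -(κ * ∑ p ∈ S, v p ^ 2) ≤ ∑ p ∈ S, ∑ q ∈ S, v p * v q * H p q := by
  have h0 : 0 ≤ ∑ p ∈ S, v p ^ 2 := Finset.sum_nonneg fun p _ => sq_nonneg _
  rcases h0.eq_or_lt with h1 | h1
  · have h2 : ∀ p ∈ S, v p = 0 := fun p hp => by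
      have := (Finset.sum_eq_zero_iff_of_nonneg fun p _ => sq_nonneg (v p)).1 h1.symm p hp
      simpa using this
    rw [← h1, Finset.sum_eq_zero fun p hp => by simp [h2 p hp]]
    simp
  · set s := Real.sqrt (∑ p ∈ S, v p ^ 2) with hs
    have hs0 : 0 < s := Real.sqrt_pos.2 h1
    have hs2 : s ^ 2 = ∑ p ∈ S, v p ^ 2 := Real.sq_sqrt h0
    have h2 := hq (fun p => v p / s) fun p hp => by
      rw [abs_div, abs_of_pos hs0, div_le_one hs0]
      exact Real.abs_le_sqrt (Finset.single_le_sum (f := fun p => v p ^ 2)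
        (fun p _ => sq_nonneg _) hp)
    have e : ∑ p ∈ S, ∑ q ∈ S, v p * v q * H p q =
        s ^ 2 * ∑ p ∈ S, ∑ q ∈ S, v p / s * (v q / s) * H p q := by
      rw [Finset.mul_sum]
      refine Finset.sum_congr rfl fun p _ => ?_
      rw [Finset.mul_sum]
      refine Finset.sum_congr rfl fun q _ => ?_
      field_simp
    rw [e, ← hs2]
    nlinarith [mul_le_mul_of_nonneg_left h2 (sq_nonneg s)]

lemma smooth_exp_psd (S : Finset I) (H : I → I → ℝ) {M κ : ℝ} {N : ℕ} (hN : S.card ≤ N)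
    (hκ : 0 ≤ κ) (hH : ∀ p q, |H p q| ≤ M) (h1 : M + 2 * κ ≤ 1)
    (h2 : N * (M + 2 * κ) ^ 2 ≤ κ) (v : I → ℝ)
    (hv : -(κ * ∑ p ∈ S, v p ^ 2) ≤ ∑ p ∈ S, ∑ q ∈ S, v p * v q * H p q) :
    0 ≤ ∑ p ∈ S, ∑ q ∈ S, v p * v q *
      (1 - Real.exp (-(H p q + if p = q then 2 * κ else 0))) := by
  have hN' : (S.card : ℝ) ≤ N := by exact_mod_cast hN
  have k1 : ∀ p q, v p * v q * H p q + (if p = q then 2 * κ * v p ^ 2 else 0) -
      (v p ^ 2 + v q ^ 2) / 2 * (M + 2 * κ) ^ 2 ≤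
      v p * v q * (1 - Real.exp (-(H p q + if p = q then 2 * κ else 0))) := by
    intro p q
    set t := H p q + if p = q then 2 * κ else 0 with ht
    have t1 : |t| ≤ M + 2 * κ := by
      refine (abs_add_le _ _).trans (add_le_add (hH p q) ?_)
      split_ifs
      · rw [abs_of_nonneg (by positivity)]
      · simp [hκ]
    have t2 : |Real.exp (-t) - 1 - -t| ≤ (-t) ^ 2 :=
      Real.abs_exp_sub_one_sub_id_le (by rw [abs_neg]; linarith)
    have t3 : (-t) ^ 2 ≤ (M + 2 * κ) ^ 2 := by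
      rw [neg_sq, ← sq_abs]
      exact pow_le_pow_left₀ (abs_nonneg _) t1 2
    have e : v p * v q * H p q + (if p = q then 2 * κ * v p ^ 2 else 0) = v p * v q * t := by
      rw [ht]
      split_ifs with hpq
      · subst hpq; ring
      · ring
    rw [e]
    have t4 : |v p * v q| ≤ (v p ^ 2 + v q ^ 2) / 2 := by
      rw [abs_le]
      constructor <;> nlinarith [sq_nonneg (v p + v q), sq_nonneg (v p - v q)]
    have t5 : |v p * v q * (Real.exp (-t) - 1 - -t)| ≤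
        (v p ^ 2 + v q ^ 2) / 2 * (M + 2 * κ) ^ 2 := by
      rw [abs_mul]
      exact mul_le_mul t4 (t2.trans t3) (abs_nonneg _) (by positivity)
    have t6 := (abs_le.1 t5).2
    linarith
  refine le_trans ?_ (Finset.sum_le_sum fun p _ => Finset.sum_le_sum fun q _ => k1 p q)
  have e1 : ∑ p ∈ S, ∑ q ∈ S, (if p = q then 2 * κ * v p ^ 2 else 0) =
      2 * κ * ∑ p ∈ S, v p ^ 2 := by
    rw [Finset.mul_sum]
    refine Finset.sum_congr rfl fun p hp => ?_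
    rw [Finset.sum_ite_eq, if_pos hp]
  have e2 : ∑ p ∈ S, ∑ q ∈ S, (v p ^ 2 + v q ^ 2) / 2 * (M + 2 * κ) ^ 2 =
      S.card * (M + 2 * κ) ^ 2 * ∑ p ∈ S, v p ^ 2 := by
    simp only [← Finset.sum_mul, ← Finset.sum_div, Finset.sum_add_distrib, Finset.sum_const,
      nsmul_eq_mul, ← Finset.mul_sum]
    ring
  simp only [Finset.sum_sub_distrib, Finset.sum_add_distrib, e1, e2]
  have h0 : 0 ≤ ∑ p ∈ S, v p ^ 2 := Finset.sum_nonneg fun p _ => sq_nonneg _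
  have h3 : S.card * (M + 2 * κ) ^ 2 ≤ κ :=
    (mul_le_mul_of_nonneg_right hN' (sq_nonneg _)).trans h2
  nlinarith [mul_le_mul_of_nonneg_right h3 h0]

lemma smooth_sq_second (S : Finset I) (x₀ x : I → ℤ) {p q : I} (hp : p ∈ S) :
    ∑ r ∈ S, (((x + uv p + uv q) r - x₀ r : ℤ) : ℝ) ^ 2 -
      ∑ r ∈ S, (((x + uv p) r - x₀ r : ℤ) : ℝ) ^ 2 -
      ∑ r ∈ S, (((x + uv q) r - x₀ r : ℤ) : ℝ) ^ 2 + ∑ r ∈ S, ((x r - x₀ r : ℤ) : ℝ) ^ 2 =
      if p = q then 2 else 0 := by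
  rw [← Finset.sum_sub_distrib, ← Finset.sum_sub_distrib, ← Finset.sum_add_distrib,
    Finset.sum_eq_single p]
  · split_ifs with hpq
    · subst hpq
      simp only [uv, Pi.add_apply, Pi.single_eq_same]
      push_cast
      ring
    · simp only [uv, Pi.add_apply, Pi.single_eq_same, Pi.single_eq_of_ne hpq]
      push_cast
      ring
  · intro r _ hr
    simp only [uv, Pi.add_apply, Pi.single_eq_of_ne hr]
    push_cast
    ring
  · intro h
    exact absurd hp h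

/-- Let `A` be the average over translations by the box `[0, h²)^S`, `Φ' = A (A Φ)` (still
midpoint convex, invariant, within `2 N h² Λ ≤ ε / 2` of `Φ`), `κ = ε / (2 N D²)`,
`Ψ x = Φ' x + κ ∑_{p ∈ S} (x p - x₀ p)²`, `f = exp (- Ψ)`.
* `Δ_p A g` is `1 / h²` times an average of `g (y + h² uv p) - g y`, hence second differences of `Φ'`
  are at most `M₂ = 2 Λ / h²` and third differences at most `M₃ = 4 Λ / h⁴` in absolute value.
* Discrete Taylor: `Φ' (x + a) + Φ' (x - a) - 2 Φ' x = aᵀ H a ± 3 M₃ ‖a‖₁³` with `H p q = Δ_p Δ_q Φ' x`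
  (write the shift by `a` as a path of unit steps).  For `‖v‖_∞ = 1` take `a = ⌊h v⌋`:
  `vᵀ H v ≥ - κ ≥ - κ |v|²`.
* `|1 - exp (-t) - t| ≤ t²` for `|t| ≤ 1`, and `N (M₂ + 2 κ)² ≤ κ`; `SN.of_psd`. -/
theorem smooth (S : Finset I) (Φ : (I → ℤ) → ℝ) (x₀ : I → ℤ) {Λ ε : ℝ} {N D h : ℕ}
    (hN : S.card ≤ N) (hN1 : 1 ≤ N) (hlip : ∀ x p, |Φ (x + uv p) - Φ x| ≤ Λ)
    (hcv : ∀ x y, 2 * Φ x ≤ Φ (x + y) + Φ (x - y))
    (hinv : ∀ x, ∀ p ∉ S, Φ (x + uv p) = Φ x) (hD : 3 ≤ D) (h1 : 10 ^ 4 * N ^ 4 * D ^ 2 ≤ h ^ 5)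
    (h2 : 4 * N * h ^ 2 * Λ ≤ ε) (hε : 0 < ε) (hε1 : ε ≤ 1) :
    ∃ f : (I → ℤ) → ℝ, SN uv S f ∧ (∀ x, ∀ p ∉ S, f (x + uv p) = f x) ∧
      ∀ x, (∀ p ∈ S, |x p - x₀ p| ≤ D) →
        Real.exp (-ε) * Real.exp (-Φ x) ≤ f x ∧ f x ≤ Real.exp ε * Real.exp (-Φ x) := by
  rcases S.eq_empty_or_nonempty with rfl | ⟨p₀, -⟩
  · refine ⟨fun x => Real.exp (-Φ x), ⟨fun x => Real.exp_pos _, fun x u => by simp⟩,
      fun x p hp => by simp only [hinv x p hp], fun x _ => ⟨?_, ?_⟩⟩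
    · exact mul_le_of_le_one_left (Real.exp_pos _).le (Real.exp_le_one_iff.2 (by linarith))
    · exact le_mul_of_one_le_left (Real.exp_pos _).le (Real.one_le_exp hε.le)
  have hΛ : 0 ≤ Λ := (abs_nonneg _).trans (hlip 0 p₀)
  have hN' : (S.card : ℝ) ≤ N := by exact_mod_cast hN
  have hN1' : (1 : ℝ) ≤ N := by exact_mod_cast hN1
  have hD' : (3 : ℝ) ≤ D := by exact_mod_cast hD
  have h1' : (10 : ℝ) ^ 4 * N ^ 4 * D ^ 2 ≤ h ^ 5 := by exact_mod_cast h1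
  have hh : 0 < h := by
    rcases Nat.eq_zero_or_pos h with rfl | hh
    · exfalso
      have : (0 : ℝ) < 10 ^ 4 * N ^ 4 * D ^ 2 := by positivity
      norm_num at h1' this
      linarith
    · exact hh
  have hh' : (1 : ℝ) ≤ h := by exact_mod_cast hh
  obtain ⟨g, hg, hc, hM₂, hM₃⟩ := smooth_two_rounds (S := S) hΛ ⟨hlip, hcv, hinv⟩
    (L := h ^ 2) (by positivity)
  push_cast at hc hM₂ hM₃
  set κ : ℝ := ε / (2 * N * D ^ 2) with hκ
  have hκ0 : 0 < κ := by positivity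
  have hκ1 : κ * (2 * N * D ^ 2) = ε := by rw [hκ]; field_simp
  have hD2 : (9 : ℝ) ≤ D ^ 2 := by nlinarith
  have hκ2 : 18 * (N * κ) ≤ ε := by
    have : 0 ≤ N * κ := by positivity
    nlinarith
  have hκ3 : κ ≤ N * κ := le_mul_of_one_le_left hκ0.le hN1'
  set M₂ : ℝ := 2 * Λ / h ^ 2 with hM₂d
  have hM₂0 : 0 ≤ M₂ := by positivity
  have hM₂1 : M₂ * h ^ 2 = 2 * Λ := by rw [hM₂d]; field_simp
  have hM₂2 : 2 * N * h ^ 4 * M₂ ≤ ε := by
    calc 2 * N * h ^ 4 * M₂ = 2 * N * h ^ 2 * (M₂ * h ^ 2) := by ring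
      _ = 4 * N * h ^ 2 * Λ := by rw [hM₂1]; ring
      _ ≤ ε := h2
  have hN4 : (1 : ℝ) ≤ N ^ 4 := one_le_pow₀ hN1'
  have hh8 : (10 : ℝ) ^ 4 * D ^ 2 ≤ h ^ 8 := by
    calc (10 : ℝ) ^ 4 * (D : ℝ) ^ 2 = 10 ^ 4 * 1 * (D : ℝ) ^ 2 := by ring
      _ ≤ 10 ^ 4 * (N : ℝ) ^ 4 * (D : ℝ) ^ 2 := by gcongr
      _ ≤ (h : ℝ) ^ 5 := h1'
      _ ≤ (h : ℝ) ^ 8 := pow_le_pow_right₀ hh' (by norm_num)
  have hM₂3 : M₂ ≤ 1 / 2 := by
    have k : (1 : ℝ) ≤ N * h ^ 4 := one_le_mul_of_one_le_of_one_le hN1' (one_le_pow₀ hh')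
    nlinarith
  have hM₂4 : 100 * (N * M₂ ^ 2) ≤ κ := by
    have k1 : (2 * N * h ^ 4 * M₂) ^ 2 ≤ ε := by
      have : 0 ≤ 2 * N * h ^ 4 * M₂ := by positivity
      nlinarith
    have k2 : 4 * N ^ 2 * M₂ ^ 2 * (10 ^ 4 * D ^ 2) ≤ κ * (2 * N * D ^ 2) := by
      calc 4 * N ^ 2 * M₂ ^ 2 * (10 ^ 4 * D ^ 2) ≤ 4 * N ^ 2 * M₂ ^ 2 * h ^ 8 := by gcongr
        _ = (2 * N * h ^ 4 * M₂) ^ 2 := by ring
        _ ≤ _ := by rw [hκ1]; exact k1
    have k3 : (0 : ℝ) < 2 * N * D ^ 2 := by positivity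
    refine le_of_mul_le_mul_right (le_trans ?_ k2) k3
    have : 0 ≤ (N : ℝ) ^ 2 * M₂ ^ 2 * D ^ 2 := by positivity
    nlinarith
  have hpsd : (N : ℝ) * (M₂ + 2 * κ) ^ 2 ≤ κ := by
    have k1 : (M₂ + 2 * κ) ^ 2 ≤ 2 * M₂ ^ 2 + 8 * κ ^ 2 := by nlinarith [sq_nonneg (M₂ - 2 * κ)]
    have k2 : (N : ℝ) * (M₂ + 2 * κ) ^ 2 ≤ N * (2 * M₂ ^ 2 + 8 * κ ^ 2) := by gcongr
    have k3 : 18 * (N * κ) * κ ≤ 1 * κ := mul_le_mul_of_nonneg_right (hκ2.trans hε1) hκ0.le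
    nlinarith
  have hquad : 2 * (2 * M₂ / h ^ 2) * (N * h) ^ 3 + N ^ 2 * (3 * h * M₂) ≤ h ^ 2 * κ := by
    have e : 2 * (2 * M₂ / h ^ 2) * ((N : ℝ) * h) ^ 3 = 4 * N ^ 3 * h * M₂ := by
      field_simp
      ring
    rw [e]
    have k0 : (N : ℝ) ^ 2 ≤ N ^ 3 := pow_le_pow_right₀ hN1' (by norm_num)
    have k1 : (N : ℝ) ^ 2 * (3 * h * M₂) ≤ N ^ 3 * (3 * h * M₂) := by gcongr
    have k3 : (0 : ℝ) < 2 * N * D ^ 2 * h ^ 4 := by positivity
    refine le_trans (b := 7 * N ^ 3 * h * M₂) (by linarith) (le_of_mul_le_mul_right ?_ k3)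
    calc 7 * (N : ℝ) ^ 3 * h * M₂ * (2 * N * D ^ 2 * h ^ 4)
        = 7 * N ^ 3 * D ^ 2 * h * (2 * N * h ^ 4 * M₂) := by ring
      _ ≤ 7 * N ^ 3 * D ^ 2 * h * ε := by gcongr
      _ ≤ h ^ 5 * h * ε := by
          gcongr
          refine le_trans ?_ h1'
          have k4 : (N : ℝ) ^ 3 ≤ N ^ 4 := pow_le_pow_right₀ hN1' (by norm_num)
          have k5 : (0 : ℝ) ≤ N ^ 3 := by positivity
          gcongr ?_ * D ^ 2
          linarith
      _ = h ^ 2 * κ * (2 * N * D ^ 2 * h ^ 4) := by rw [← hκ1]; ring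
  refine ⟨fun x => Real.exp (-(g x + κ * ∑ r ∈ S, ((x r - x₀ r : ℤ) : ℝ) ^ 2)), ?_, ?_, ?_⟩
  · refine SN.of_psd fun x v => ?_
    have key := smooth_exp_psd S (fun p q => smoothD (uv p) (smoothD (uv q) g) x) hN hκ0.le
      (fun p q => hM₂ p q x) (by linarith) hpsd v
      (smooth_quad' S _ (fun w hw => by
        have := smooth_quad S (fun p q => smoothD (uv p) (smoothD (uv q) g) x) hN hh hM₂0
          (M₃ := 2 * M₂ / h ^ 2) (by positivity) (fun p q => hM₂ p q x)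
          (smooth_hessian (by positivity) hg.2.1 hM₃ x) w hw
        have k : (0 : ℝ) < h ^ 2 := by positivity
        refine le_of_mul_le_mul_left (le_trans ?_ this) k
        linarith) v)
    refine key.trans_eq (Finset.sum_congr rfl fun p hp => Finset.sum_congr rfl fun q _ => ?_)
    congr 4
    have e := smooth_sq_second S x₀ x (q := q) hp
    have e2 : (if p = q then 2 * κ else 0) = κ * (if p = q then 2 else 0) := by
      split_ifs <;> ring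
    rw [e2, ← e]
    simp only [smoothD]
    ring
  · intro x p hp
    simp only [hg.2.2 x p hp]
    congr 4
    refine Finset.sum_congr rfl fun r hr => ?_
    have : r ≠ p := fun h => hp (h ▸ hr)
    simp [uv, Pi.single_eq_of_ne this]
  · intro x hx
    have k1 := abs_le.1 (hc x)
    have k2 : 2 * (S.card * ((h : ℝ) ^ 2 * Λ)) ≤ ε / 2 := by
      have : S.card * ((h : ℝ) ^ 2 * Λ) ≤ N * ((h : ℝ) ^ 2 * Λ) := by gcongr
      linarith
    have k3 : 0 ≤ κ * ∑ r ∈ S, ((x r - x₀ r : ℤ) : ℝ) ^ 2 :=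
      mul_nonneg hκ0.le (Finset.sum_nonneg fun _ _ => sq_nonneg _)
    have k4 : ∑ r ∈ S, ((x r - x₀ r : ℤ) : ℝ) ^ 2 ≤ N * D ^ 2 := by
      calc ∑ r ∈ S, ((x r - x₀ r : ℤ) : ℝ) ^ 2 ≤ ∑ _r ∈ S, (D : ℝ) ^ 2 :=
            Finset.sum_le_sum fun r hr => by
              have : |((x r - x₀ r : ℤ) : ℝ)| ≤ D := by exact_mod_cast hx r hr
              rw [← sq_abs]
              exact pow_le_pow_left₀ (abs_nonneg _) this 2
        _ = S.card * D ^ 2 := by simp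
        _ ≤ N * D ^ 2 := by gcongr
    have k5 : κ * ∑ r ∈ S, ((x r - x₀ r : ℤ) : ℝ) ^ 2 ≤ ε / 2 := by
      have := mul_le_mul_of_nonneg_left k4 hκ0.le
      linarith
    rw [← Real.exp_add, ← Real.exp_add]
    constructor <;> apply Real.exp_le_exp.2 <;> linarith

end Crest.Agent.R302
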