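import Crest.Agent.R302.Pen
import Crest.Agent.R302.Smooth
import Crest.Agent.R302.Base

/-!
Row 302, part D4: the auxiliary pair system on `I = (E × Bool) × Fin 5`.  The coordinates are the margins
`β` (0), the coarse coordinates `k` (1), their companions `-k` (2), the shifts `j` of the penalty (3)
and their companions (4).
-/

set_option autoImplicit false
set_option linter.unusedSectionVars false

namespace Crest.Agent.R302

open Finset

variable {E : Type} [Fintype E] [DecidableEq E]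

namespace Sys

variable (Y : Sys E)

/-- shifts as a vector on `E × Bool` -/
def sh (j : E → ℤ) (p : E × Bool) : ℤ := if p.2 then 0 else j p.1

/-- a cell and shifts as a point of the auxiliary lattice -/
def emb (j : E → ℤ) (x : (E × Bool → ℤ) × (E × Bool → ℤ)) (i : (E × Bool) × Fin 5) : ℤ :=
  ![x.1 i.1, x.2 i.1, -x.2 i.1, sh j i.1, -sh j i.1] i.2

/-- the cell of a point of the auxiliary lattice -/
def prj (y : (E × Bool) × Fin 5 → ℤ) : (E × Bool → ℤ) × (E × Bool → ℤ) :=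
  (fun p => y (p, 0), fun p => y (p, 1))

open Classical in
/-- the thin side -/
noncomputable def Th (j : E → ℤ) (y : (E × Bool) × Fin 5 → ℤ) : ℝ :=
  if prj y ∈ Y.Cells ∧ y = emb j (prj y) then Y.W (prj y).1 else 0

/-- a box that contains the support of the thin side -/
noncomputable def alo (j : E → ℤ) : (E × Bool) × Fin 5 → ℤ :=
  emb j (Y.cellOf Y.ctr) - fun _ => (pD Y.s : ℤ)

/-- a box that contains the support of the thin side -/
noncomputable def ahi (j : E → ℤ) : (E × Bool) × Fin 5 → ℤ :=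
  emb j (Y.cellOf Y.ctr) + fun _ => (pD Y.s : ℤ)

/-- The smooth side `G` is `DL` and approximates the penalty. -/
structure IsG (G : ((E × Bool) × Fin 5 → ℤ) → ℝ) : Prop where
  dl : DL uv univ G
  zero : ∀ x ∈ Y.Cells, ∀ (j : E → ℤ) (p k : (E × Bool) × Fin 5),
    Y.ty x.1 ≠ Y.τ p.1.1 k.1.1 → G (uv p - uv k - emb j x) = 0
  approx : ∀ x ∈ Y.Cells, ∀ j : E → ℤ, (∀ r, |j r| ≤ pD Y.s) →
    (∀ r, Y.σ.root r ≠ r → j r ≤ pw Y.s) → ∀ p k : (E × Bool) × Fin 5,
      Y.ty x.1 = Y.τ p.1.1 k.1.1 →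
        Real.exp (-(2 / Y.s ^ 9)) * Y.wE j x ≤ Y.W x.1 * G (uv p - uv k - emb j x) ∧
          Y.W x.1 * G (uv p - uv k - emb j x) ≤ Real.exp (2 / Y.s ^ 9) * Y.wE j x

namespace Ok

variable {Y}

lemma prj_emb (j : E → ℤ) (x : (E × Bool → ℤ) × (E × Bool → ℤ)) : prj (emb j x) = x := rfl

/-- restriction of coordinates -/
def auxSysRes {A B : Type} (ι : A → B) : (B → ℤ) →+ (A → ℤ) where
  toFun y := fun a => y (ι a)
  map_zero' := rfl
  map_add' _ _ := rfl

lemma auxSysRes_uv {A B : Type} [DecidableEq A] [DecidableEq B] {ι : A → B}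
    (hι : Function.Injective ι) (a : A) : auxSysRes ι (uv (ι a)) = uv a := by
  funext b
  simp [auxSysRes, uv, Pi.single_apply, hι.eq_iff]

lemma auxSysRes_zero {A B : Type} [DecidableEq B] {ι : A → B} {k : B} (hk : ∀ a, ι a ≠ k) :
    auxSysRes ι (uv k) = 0 := by
  funext b
  simp [auxSysRes, uv, hk b]

lemma auxSys_sn_one {X ι : Type} [AddCommGroup X] (e : ι → X) (S : Finset ι) :
    SN e S fun _ => (1 : ℝ) := by
  refine ⟨fun _ => one_pos, fun x u => le_of_eq ?_⟩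
  simp only [mul_one, one_mul]
  rw [sq, Finset.sum_mul_sum]

lemma auxSys_gadget (P : Type) [Fintype P] [DecidableEq P] :
    DL uv univ fun x : P × Bool → ℤ =>
      ∏ c : P, if x (c, false) + x (c, true) = 0 then (1 : ℝ) else 0 := by
  refine DL.gadget (e := uv) (S := univ) univ Prod.fst
    (fun c => Pi.evalAddMonoidHom (fun _ : P × Bool => ℤ) (c, false) +
      Pi.evalAddMonoidHom (fun _ : P × Bool => ℤ) (c, true)) (fun _ _ => 1) ?_
    (fun c _ => auxSys_sn_one _ _) fun _ _ _ _ _ _ => rfl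
  rintro c - ⟨p, b⟩ -
  by_cases hp : p = c
  · subst hp
    cases b <;> simp [uv]
  · simp [uv, Ne.symm hp, hp]

lemma auxSys_mem_Cells {x : (E × Bool → ℤ) × (E × Bool → ℤ)} : x ∈ Y.Cells ↔
    ((∀ p, (Y.cellOf Y.ctr).1 p - pD Y.s ≤ x.1 p ∧ x.1 p ≤ (Y.cellOf Y.ctr).1 p + pD Y.s) ∧
      ∀ p, (Y.cellOf Y.ctr).2 p - pD Y.s ≤ x.2 p ∧ x.2 p ≤ (Y.cellOf Y.ctr).2 p + pD Y.s) ∧
        InB Y.Flab x.1 ∧ ∀ g ∉ Y.H, x.2 g = 0 := by
  simp only [Cells, mem_filter, mem_product, mem_bx, Pi.sub_apply, Pi.add_apply]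

lemma auxSys_eq_emb {j : E → ℤ} {y : (E × Bool) × Fin 5 → ℤ} : y = emb j (prj y) ↔
    ∀ p, y (p, 1) + y (p, 2) = 0 ∧ y (p, 3) = sh j p ∧ y (p, 4) = -sh j p := by
  constructor
  · intro h p
    have h2 := congrFun h (p, 2)
    have h3 := congrFun h (p, 3)
    have h4 := congrFun h (p, 4)
    simp only [emb, prj, Matrix.cons_val] at h2 h3 h4
    exact ⟨by omega, h3, h4⟩
  · intro h
    funext ⟨p, i⟩
    obtain ⟨h2, h3, h4⟩ := h p
    fin_cases i <;> simp [emb, prj] <;> omega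

/-- `DL.base` for `Flab` in the coordinates `(p, 0)` times the gadget `y (g, 1) + y (g, 2) = 0`
(`DL.gadget` with constant factors, `DL.mul_comap`), times coordinate weights (`DL.mul_prod`:
`DL1.half_pow`, `DL1.icc`). -/
theorem Th_dl (h : Y.Ok) (j : E → ℤ) : DL uv univ (Y.Th j) := by
  classical
  have h0 : Y.Flab ∅ = 0 := by
    have : pre Y.lab (∅ : Finset (E × Bool)) = ∅ := by simp [pre]
    rw [Flab, this, h.sz.empty]
  have h1 := DL.base (F := Y.Flab) (h.sz.sub.pre Y.lab) h0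
  have h2 := auxSys_gadget (E × Bool)
  let ι₁ : E × Bool → (E × Bool) × Fin 5 := fun p => (p, 0)
  let ι₂ : (E × Bool) × Bool → (E × Bool) × Fin 5 := fun p => (p.1, if p.2 then 2 else 1)
  have hι₁ : Function.Injective ι₁ := fun p q hpq => (Prod.mk.inj hpq).1
  have hι₂ : Function.Injective ι₂ := by
    rintro ⟨p, b⟩ ⟨q, c⟩ hpq
    obtain ⟨e1, e2⟩ := Prod.mk.inj hpq
    cases b <;> cases c <;> simp_all
  have h3 := h1.mul_comap h2 (e := uv) (S := univ) (auxSysRes ι₁) (auxSysRes ι₂) (by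
    rintro ⟨p, i⟩ -
    fin_cases i
    · exact Or.inl ⟨auxSysRes_zero fun ⟨q, b⟩ => by cases b <;> simp [ι₂],
        Or.inr ⟨p, mem_univ _, auxSysRes_uv hι₁ p⟩⟩
    · exact Or.inr ⟨auxSysRes_zero fun q => by simp [ι₁],
        (p, false), mem_univ _, auxSysRes_uv hι₂ (p, false)⟩
    · exact Or.inr ⟨auxSysRes_zero fun q => by simp [ι₁],
        (p, true), mem_univ _, auxSysRes_uv hι₂ (p, true)⟩
    · exact Or.inl ⟨auxSysRes_zero fun ⟨q, b⟩ => by cases b <;> simp [ι₂],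
        Or.inl (auxSysRes_zero fun q => by simp [ι₁])⟩
    · exact Or.inl ⟨auxSysRes_zero fun ⟨q, b⟩ => by cases b <;> simp [ι₂],
        Or.inl (auxSysRes_zero fun q => by simp [ι₁])⟩)
  let ind : ℤ → ℤ → ℤ → ℝ := fun lo hi t => if lo ≤ t ∧ t ≤ hi then 1 else 0
  let ψ : (E × Bool) × Fin 5 → ℤ → ℝ := fun i =>
    ![fun t => (1 / 2 : ℝ) ^ Y.φ i.1 t *
        ind ((Y.cellOf Y.ctr).1 i.1 - pD Y.s) ((Y.cellOf Y.ctr).1 i.1 + pD Y.s) t,
      fun t => ind ((Y.cellOf Y.ctr).2 i.1 - pD Y.s) ((Y.cellOf Y.ctr).2 i.1 + pD Y.s) t *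
        (if i.1 ∈ Y.H then 1 else ind 0 0 t),
      fun _ => 1, ind (sh j i.1) (sh j i.1), ind (-sh j i.1) (-sh j i.1)] i.2
  have hψ : ∀ i, DL1 (ψ i) := by
    rintro ⟨p, i⟩
    fin_cases i
    · exact (DL1.half_pow (h.sz.conv p)).mul (DL1.icc _ _)
    · refine (DL1.icc _ _).mul ?_
      by_cases hp : p ∈ Y.H
      · simpa only [hp, if_true] using DL1.one
      · simpa only [hp, if_false] using DL1.icc 0 0
    · exact DL1.one
    · exact DL1.icc _ _
    · exact DL1.icc _ _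
  convert h3.mul_prod hψ using 2 with y
  rw [Fintype.prod_prod_type (f := fun i => ψ i (y i))]
  simp only [Fin.prod_univ_five, ψ, Matrix.cons_val, auxSysRes,
    AddMonoidHom.coe_mk, ZeroHom.coe_mk, ι₁, ι₂, if_true, Bool.false_eq_true, if_false]
  unfold Th
  split_ifs with hy hB hB
  · obtain ⟨hc, he⟩ := hy
    rw [auxSys_mem_Cells] at hc
    rw [auxSys_eq_emb] at he
    rw [one_mul, Finset.prod_eq_one fun p _ => if_pos (he p).1, one_mul, Inst.W, Inst.wx,
      ← Finset.prod_pow_eq_pow_sum]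
    refine Finset.prod_congr rfl fun p _ => ?_
    have a1 := hc.1.1 p
    have a2 := hc.1.2 p
    have a3 := hc.2.2 p
    have a4 := he p
    simp only [prj] at a1 a2 a3
    by_cases hp : p ∈ Y.H
    · simp [ind, prj, a1, a2, a4, hp]
    · have a5 := a3 hp
      rw [a5] at a2
      simp [ind, prj, a1, a2, a4, hp, a5]
  · exact absurd (auxSys_mem_Cells.1 hy.1).2.1 hB
  · rw [one_mul, ← Finset.prod_mul_distrib, eq_comm]
    by_contra hne
    have hne' := Finset.prod_ne_zero_iff.1 hne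
    refine hy ⟨auxSys_mem_Cells.2 ⟨⟨fun p => ?_, fun p => ?_⟩, hB, fun p hp => ?_⟩,
      auxSys_eq_emb.2 fun p => ?_⟩
    all_goals
      have := hne' p (mem_univ _)
      simp only [ind, ne_eq, mul_eq_zero, ite_eq_right_iff, one_ne_zero, imp_false, not_or,
        not_not] at this
    · exact this.2.1.1.1.1.2
    · exact this.2.1.1.1.2.1
    · have h5 := this.2.1.1.1.2.2
      simp only [hp, if_false, ite_eq_right_iff, one_ne_zero, imp_false, not_not] at h5
      exact le_antisymm h5.2 h5.1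
    · exact ⟨this.1, le_antisymm this.2.1.2.2 this.2.1.2.1, le_antisymm this.2.2.2 this.2.2.1⟩
  · simp

lemma Th_supp (j : E → ℤ) {y : (E × Bool) × Fin 5 → ℤ} (hy : Y.Th j y ≠ 0) :
    y ∈ bx (Y.alo j) (Y.ahi j) := by
  unfold Th at hy
  split_ifs at hy with h
  · obtain ⟨hc, he⟩ := h
    rw [auxSys_mem_Cells] at hc
    rw [he, mem_bx]
    rintro ⟨p, i⟩
    have a1 := hc.1.1 p
    have a2 := hc.1.2 p
    fin_cases i <;> simp [alo, ahi, emb] <;> omega
  · exact absurd rfl hy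

lemma sum_Th (j : E → ℤ) (g : ((E × Bool) × Fin 5 → ℤ) → ℝ) :
    ∑ y ∈ bx (Y.alo j) (Y.ahi j), Y.Th j y * g y = ∑ x ∈ Y.Cells, Y.W x.1 * g (emb j x) := by
  classical
  have hTh : ∀ x ∈ Y.Cells, Y.Th j (emb j x) = Y.W x.1 := fun x hx => by
    rw [Th, prj_emb, if_pos ⟨hx, rfl⟩]
  have hinj : Set.InjOn (emb j) (Y.Cells : Set ((E × Bool → ℤ) × (E × Bool → ℤ))) :=
    fun x _ x' _ hx => by rw [← prj_emb j x, hx, prj_emb]
  rw [← Finset.sum_subset (s₁ := Y.Cells.image (emb j)), Finset.sum_image hinj]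
  · exact Finset.sum_congr rfl fun x hx => by rw [hTh x hx]
  · intro y hy
    obtain ⟨x, hx, rfl⟩ := mem_image.1 hy
    exact Th_supp j (by rw [hTh x hx]; exact (Y.W_pos _).ne')
  · intro y _ hy
    rw [Th, if_neg, zero_mul]
    rintro ⟨hc, he⟩
    exact hy (mem_image.2 ⟨_, hc, he.symm⟩)

/-- the corner of the cell of a point, as an additive map -/
noncomputable def auxSysA (Y : Sys E) : ((E × Bool) × Fin 5 → ℤ) →+ (E × Bool → ℤ) :=
  AddMonoidHom.mk' (fun y => Y.pt (prj y)) fun y z => pt_add Y (prj y) (prj z)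

lemma auxSys_ov_zero (Y : Sys E) : Y.ov (fun _ => 0) = 0 := by simp [ov]

lemma auxSys_canon_zero (Y : Sys E) : Y.canon 0 = 0 := by
  have : (fun g => Y.σ.coef g 0) = fun _ => 0 := by
    funext g
    have := coef_add Y g 0 0
    rw [add_zero] at this
    omega
  rw [canon, this, auxSys_ov_zero, sub_zero]

lemma auxSysA_uv (Y : Sys E) (i : (E × Bool) × Fin 5) :
    auxSysA Y (uv i) = Y.canon (uv i.1) ∨ (i.1 ∈ Y.H ∧ auxSysA Y (uv i) = Y.Δ i.1 • Y.σ.v i.1) ∨
      auxSysA Y (uv i) = 0 := by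
  obtain ⟨p, l⟩ := i
  have hz : ∀ l : Fin 5, l ≠ 0 → l ≠ 1 → auxSysA Y (uv (p, l)) = 0 := fun l h0 h1 => by
    have : prj (uv (p, l)) = prj (0 : (E × Bool) × Fin 5 → ℤ) := by
      refine Prod.ext (funext fun q => ?_) (funext fun q => ?_) <;>
        simp [prj, uv, h0.symm, h1.symm]
    change Y.pt (prj (uv (p, l))) = 0
    rw [this]
    exact map_zero (auxSysA Y)
  by_cases h0 : l = 0
  · subst h0
    left
    have : prj (uv (p, (0 : Fin 5))) = (uv p, fun _ => 0) := by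
      refine Prod.ext (funext fun q => ?_) (funext fun q => ?_) <;> simp [prj, uv, Pi.single_apply]
    change Y.pt (prj (uv (p, 0))) = _
    rw [this, pt]
    simp only [mul_zero, auxSys_ov_zero, add_zero]
  by_cases h1 : l = 1
  · subst h1
    right
    have : prj (uv (p, (1 : Fin 5))) = (0, uv p) := by
      refine Prod.ext (funext fun q => ?_) (funext fun q => ?_) <;> simp [prj, uv, Pi.single_apply]
    have e : auxSysA Y (uv (p, 1)) = if p ∈ Y.H then Y.Δ p • Y.σ.v p else 0 := by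
      change Y.pt (prj (uv (p, 1))) = _
      rw [this, pt]
      simp only [auxSys_canon_zero, zero_add, ov, uv, Pi.single_apply, mul_ite, mul_one, mul_zero,
        ite_smul, zero_smul, Finset.sum_ite_eq']
    by_cases hp : p ∈ Y.H
    · exact Or.inl ⟨hp, by rw [e, if_pos hp]⟩
    · exact Or.inr (by rw [e, if_neg hp])
  · exact Or.inr (Or.inr (hz l h0 h1))

lemma auxSys_lip (h : Y.Ok) (r : E) (a : E × Bool → ℤ) (i : (E × Bool) × Fin 5) :
    |Y.Hc r (a + auxSysA Y (uv i)) - Y.Hc r a| ≤ 6 * Y.s ^ 2 * pT Y.s / pw Y.s := by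
  rcases auxSysA_uv Y i with e | ⟨hi, e⟩ | e
  · rw [e]
    exact h.Hc_canon r a i.1
  · rw [e]
    exact h.Hc_v r a hi (abs_of_pos (Δ_pos Y _)).le
  · rw [e, add_zero, sub_self, abs_zero]
    positivity

lemma auxSys_inv (h : Y.Ok) (r : E) (a : E × Bool → ℤ) {i : (E × Bool) × Fin 5}
    (hi : Y.σ.root i.1.1 ≠ r) : Y.Hc r (a + auxSysA Y (uv i)) = Y.Hc r a := by
  refine h.Hc_loc r fun q hq => ?_
  rw [Pi.add_apply, add_eq_left]
  by_contra hne
  rcases auxSysA_uv Y i with e | ⟨hH, e⟩ | e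
  · rw [e] at hne
    exact hi ((h.canon_supp hne).symm.trans hq)
  · rw [e, Pi.smul_apply, smul_eq_mul] at hne
    exact hi ((h.valid.v_sub _ (H_sub Y hH) q (right_ne_zero_of_mul hne)).symm.trans hq)
  · rw [e] at hne
    exact hne rfl

/-- the penalty of the component `r` on the auxiliary lattice -/
noncomputable def auxSysΦ (Y : Sys E) (r : E) (y : (E × Bool) × Fin 5 → ℤ) : ℝ :=
  pL Y.s * max 0 (Y.Hc r (-auxSysA Y y) -
    (if Y.σ.root r = r then (y ((r, false), 3) : ℝ) else 0) / pw Y.s)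

lemma auxSys_pw_pos (h : Y.Ok) : (0 : ℝ) < pw Y.s := by
  have : 0 < Y.s := lt_of_lt_of_le (by norm_num) h.sz.big
  unfold pw
  positivity

lemma auxSysΦ_lip (h : Y.Ok) (r : E) (y : (E × Bool) × Fin 5 → ℤ) (i : (E × Bool) × Fin 5) :
    |auxSysΦ Y r (y + uv i) - auxSysΦ Y r y| ≤
      pL Y.s * (6 * Y.s ^ 2 * pT Y.s / pw Y.s + 1 / pw Y.s) := by
  have hw := auxSys_pw_pos h
  rw [auxSysΦ, auxSysΦ, ← mul_sub, abs_mul, abs_of_nonneg (Nat.cast_nonneg _)]
  refine mul_le_mul_of_nonneg_left ?_ (Nat.cast_nonneg _)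
  rw [max_comm 0, max_comm 0]
  refine (abs_max_sub_max_le_abs _ _ _).trans ?_
  have h1 := auxSys_lip h r (-auxSysA Y (y + uv i)) i
  rw [map_add, neg_add, neg_add_cancel_right, abs_sub_comm, ← neg_add, ← map_add] at h1
  have h2 : |(if Y.σ.root r = r then ((y + uv i) ((r, false), 3) : ℝ) else 0) / pw Y.s -
      (if Y.σ.root r = r then (y ((r, false), 3) : ℝ) else 0) / pw Y.s| ≤ 1 / pw Y.s := by
    rw [← sub_div, abs_div, abs_of_pos hw]
    refine div_le_div_of_nonneg_right ?_ hw.le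
    split_ifs
    · simp only [Pi.add_apply, uv, Pi.single_apply]
      split_ifs <;> simp
    · simp
  rw [abs_le] at h1 h2 ⊢
  constructor <;> linarith [h1.1, h1.2, h2.1, h2.2]

lemma auxSysΦ_inv (h : Y.Ok) (r : E) (y : (E × Bool) × Fin 5 → ℤ) {i : (E × Bool) × Fin 5}
    (hi : Y.σ.root i.1.1 ≠ r) : auxSysΦ Y r (y + uv i) = auxSysΦ Y r y := by
  have h1 := auxSys_inv h r (-auxSysA Y (y + uv i)) hi
  rw [map_add, neg_add, neg_add_cancel_right, ← neg_add, ← map_add] at h1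
  rw [auxSysΦ, auxSysΦ, h1]
  split_ifs with hr
  · have : ((r, false), (3 : Fin 5)) ≠ i := fun e => hi (by rw [← e]; exact hr)
    simp only [Pi.add_apply, uv, Pi.single_eq_of_ne this, add_zero]
  · rfl

lemma auxSysΦ_convex (Y : Sys E) (r : E) (y z : (E × Bool) × Fin 5 → ℤ) :
    2 * auxSysΦ Y r y ≤ auxSysΦ Y r (y + z) + auxSysΦ Y r (y - z) := by
  have h1 := Hc_convex Y r (-auxSysA Y y) (-auxSysA Y z)
  rw [← neg_add, ← map_add, neg_sub_neg, ← neg_sub, ← map_sub] at h1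
  rw [auxSysΦ, auxSysΦ, auxSysΦ, ← mul_add, mul_left_comm]
  refine mul_le_mul_of_nonneg_left ?_ (Nat.cast_nonneg _)
  have h2 : (if Y.σ.root r = r then ((y + z) ((r, false), 3) : ℝ) else 0) / pw Y.s +
      (if Y.σ.root r = r then ((y - z) ((r, false), 3) : ℝ) else 0) / pw Y.s =
      2 * ((if Y.σ.root r = r then (y ((r, false), 3) : ℝ) else 0) / pw Y.s) := by
    split_ifs
    · simp only [Pi.add_apply, Pi.sub_apply]
      push_cast
      ring
    · simp
  generalize (if Y.σ.root r = r then ((y + z) ((r, false), 3) : ℝ) else 0) / pw Y.s = a at *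
  generalize (if Y.σ.root r = r then ((y - z) ((r, false), 3) : ℝ) else 0) / pw Y.s = b at *
  generalize (if Y.σ.root r = r then (y ((r, false), 3) : ℝ) else 0) / pw Y.s = c at *
  have k1 := le_max_left 0 (Y.Hc r (-auxSysA Y (y + z)) - a)
  have k2 := le_max_right 0 (Y.Hc r (-auxSysA Y (y + z)) - a)
  have k3 := le_max_left 0 (Y.Hc r (-auxSysA Y (y - z)) - b)
  have k4 := le_max_right 0 (Y.Hc r (-auxSysA Y (y - z)) - b)
  rcases le_total 0 (Y.Hc r (-auxSysA Y y) - c) with h0 | h0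
  · rw [max_eq_right h0]
    linarith
  · rw [max_eq_left h0]
    linarith

lemma auxSysΦ_emb (h : Y.Ok) (r : E) (x : (E × Bool → ℤ) × (E × Bool → ℤ)) {j : E → ℤ}
    (hj : Y.σ.root r ≠ r → j r ≤ pw Y.s) :
    auxSysΦ Y r (-emb j x) = pL Y.s * max 0 (Y.Hc r (Y.pt x) + j r / pw Y.s) := by
  have hw := auxSys_pw_pos h
  have e1 : -auxSysA Y (-emb j x) = Y.pt x := by
    rw [map_neg, neg_neg]
    rfl
  rw [auxSysΦ, e1]
  split_ifs with hr
  · have : (-emb j x) ((r, false), 3) = -j r := rfl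
    rw [this]
    push_cast
    rw [neg_div, sub_neg_eq_add]
  · have h1 : (j r : ℝ) / pw Y.s ≤ 1 := by
      rw [div_le_one hw]
      exact_mod_cast hj hr
    have h2 : (1 : ℝ) ≤ pT Y.s := by
      have : 1 ≤ Y.s := le_trans (by norm_num) h.sz.big
      exact_mod_cast Nat.one_le_pow _ _ this
    rw [h.Hc_nonroot hr, max_eq_left (by simp only [zero_div]; linarith),
      max_eq_left (by linarith)]

/-- the sum of the coordinates of the component `r` -/
def auxSysχ (Y : Sys E) (r : E) : ((E × Bool) × Fin 5 → ℤ) →+ ℤ where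
  toFun y := ∑ i ∈ univ.filter (fun i : (E × Bool) × Fin 5 => Y.σ.root i.1.1 = r), y i
  map_zero' := by simp
  map_add' y z := by simp [Finset.sum_add_distrib]

lemma auxSysχ_uv (Y : Sys E) (r : E) (i : (E × Bool) × Fin 5) :
    auxSysχ Y r (uv i) = if Y.σ.root i.1.1 = r then 1 else 0 := by
  simp [auxSysχ, uv, Finset.sum_pi_single']

lemma auxSysχ_emb (Y : Sys E) (r : E) (j : E → ℤ) (x : (E × Bool → ℤ) × (E × Bool → ℤ)) :
    auxSysχ Y r (emb j x) = Y.ty x.1 r := by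
  simp only [auxSysχ, AddMonoidHom.coe_mk, ZeroHom.coe_mk, ty, agg, ell_apply, Finset.sum_filter,
    Fintype.sum_prod_type, Fin.sum_univ_five, emb, Matrix.cons_val, Fintype.sum_bool]
  refine Finset.sum_congr rfl fun e _ => ?_
  split_ifs
  · ring
  · ring

lemma auxSysχ_eq (Y : Sys E) (j : E → ℤ) (x : (E × Bool → ℤ) × (E × Bool → ℤ))
    (p k : (E × Bool) × Fin 5) (r : E) :
    auxSysχ Y r (uv p - uv k - emb j x) = Y.τ p.1.1 k.1.1 r - Y.ty x.1 r := by
  rw [map_sub, map_sub, auxSysχ_uv, auxSysχ_uv, auxSysχ_emb]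
  simp only [τ, Pi.sub_apply, Pi.single_apply, eq_comm]

lemma auxSys_num1 {s : ℕ} (hs : 2 ^ 20 ≤ s) :
    10 ^ 4 * (5 * s) ^ 4 * (2 * pD s) ^ 2 ≤ (s ^ 150) ^ 5 := by
  have h1 : 25000000 ≤ s ^ 4 := le_trans (by norm_num) (Nat.pow_le_pow_left hs 4)
  calc 10 ^ 4 * (5 * s) ^ 4 * (2 * pD s) ^ 2 = 25000000 * s ^ 746 := by unfold pD; ring
    _ ≤ s ^ 4 * s ^ 746 := Nat.mul_le_mul_right _ h1
    _ = (s ^ 150) ^ 5 := by ring

lemma auxSys_num2 {s : ℕ} (hs : 2 ^ 20 ≤ s) :
    4 * ((5 * s : ℕ) : ℝ) * ((s ^ 150 : ℕ) : ℝ) ^ 2 *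
      (pL s * (6 * s ^ 2 * pT s / pw s + 1 / pw s)) ≤ 1 / s ^ 10 := by
  have h0 : (2 : ℝ) ^ 20 ≤ s := by exact_mod_cast hs
  have h1 : (1 : ℝ) ≤ s := le_trans (by norm_num) h0
  have hp : (0 : ℝ) < s := by linarith
  have h2 : (1 : ℝ) ≤ s ^ 13 := one_le_pow₀ h1
  have h3 : (140 : ℝ) ≤ s ^ 2 := by nlinarith
  have e : 4 * ((5 * s : ℕ) : ℝ) * ((s ^ 150 : ℕ) : ℝ) ^ 2 *
      (pL s * (6 * s ^ 2 * pT s / pw s + 1 / pw s)) = 20 * (6 * s ^ 13 + 1) / s ^ 25 := by
    unfold pL pT pw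
    push_cast
    field_simp
    ring
  rw [e, div_le_div_iff₀ (by positivity) (by positivity)]
  calc 20 * (6 * (s : ℝ) ^ 13 + 1) * (s : ℝ) ^ 10 ≤ (140 * (s : ℝ) ^ 13) * (s : ℝ) ^ 10 :=
        mul_le_mul_of_nonneg_right (by linarith) (by positivity)
    _ ≤ ((s : ℝ) ^ 2 * (s : ℝ) ^ 13) * (s : ℝ) ^ 10 := by gcongr
    _ = 1 * (s : ℝ) ^ 25 := by ring

/-- For a root `r` let `Φ r y = pL * max 0 (Hc r (pt (prj (-y))) - y ((r, false), 3) / pw)`.  It is
midpoint convex (`Hc_convex`, `pt_add`), Lipschitz with `Λ = 6 s² pL pT / pw` (`Hc_canon`, `Hc_v`),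
and depends only on the coordinates `(p, i)` with `root p.1 = r` (`Hc_loc`, `canon_supp`, `v_sub`).
`smooth` with `N = 5 s`, radius `2 pD`, `h = s ^ 150`, `ε = 1 / s ^ 10`, centre `- emb 0 (cellOf ctr)`;
`DL.gadget` over the roots with `χ r y` the sum of the coordinates of the component `r`;
`Hc_nonroot` for the other `r`. -/
theorem exists_G (h : Y.Ok) : ∃ G, Y.IsG G := by
  classical
  have hs := h.sz.big
  have hs1 : 1 ≤ Y.s := le_trans (by norm_num) hs
  have hsR : (1 : ℝ) ≤ Y.s := by exact_mod_cast hs1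
  have hD : Y.s ≤ pD Y.s := by
    unfold pD
    exact Nat.le_self_pow (by omega) _
  set Λ : ℝ := pL Y.s * (6 * Y.s ^ 2 * pT Y.s / pw Y.s + 1 / pw Y.s) with hΛ
  set ε : ℝ := 1 / Y.s ^ 10 with hε
  have hΛ0 : 0 ≤ Λ := by
    have := auxSys_pw_pos h
    exact mul_nonneg (Nat.cast_nonneg _) (add_nonneg (div_nonneg (mul_nonneg (mul_nonneg
      (by norm_num) (sq_nonneg _)) (Nat.cast_nonneg _)) this.le) (div_nonneg zero_le_one this.le))
  have hnum : 4 * ((5 * Y.s : ℕ) : ℝ) * ((Y.s ^ 150 : ℕ) : ℝ) ^ 2 * Λ ≤ ε := auxSys_num2 hs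
  have hΛε : 2 * Λ ≤ ε := by
    refine le_trans (mul_le_mul_of_nonneg_right ?_ hΛ0) hnum
    have a1 : (1 : ℝ) ≤ ((5 * Y.s : ℕ) : ℝ) := by exact_mod_cast (by omega : 1 ≤ 5 * Y.s)
    have a2 : (1 : ℝ) ≤ ((Y.s ^ 150 : ℕ) : ℝ) ^ 2 :=
      one_le_pow₀ (by exact_mod_cast Nat.one_le_pow _ _ hs1)
    calc (2 : ℝ) ≤ 4 * 1 * 1 := by norm_num
      _ ≤ _ := by gcongr
  have key : ∀ r : E, ∃ f : ((E × Bool) × Fin 5 → ℤ) → ℝ,
      SN uv (univ.filter fun i : (E × Bool) × Fin 5 => Y.σ.root i.1.1 = r) f ∧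
      (∀ x, ∀ p ∉ (univ.filter fun i : (E × Bool) × Fin 5 => Y.σ.root i.1.1 = r),
        f (x + uv p) = f x) ∧
      ∀ x, (∀ p ∈ (univ.filter fun i : (E × Bool) × Fin 5 => Y.σ.root i.1.1 = r),
          |x p - (-emb 0 (Y.cellOf Y.ctr)) p| ≤ (2 * pD Y.s : ℕ)) →
        Real.exp (-ε) * Real.exp (-auxSysΦ Y r x) ≤ f x ∧
          f x ≤ Real.exp ε * Real.exp (-auxSysΦ Y r x) := fun r => by
    refine smooth _ (auxSysΦ Y r) _ (N := 5 * Y.s) (h := Y.s ^ 150) ?_ (by omega)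
      (auxSysΦ_lip h r) (auxSysΦ_convex Y r)
      (fun x p hp => auxSysΦ_inv h r x (by simpa using hp)) (by omega) (auxSys_num1 hs) hnum
      (by positivity) ?_
    · refine (card_le_univ _).trans ?_
      have := h.sz.card
      rw [Fintype.card_prod _ (Fin 5), Fintype.card_fin]
      omega
    · rw [hε, div_le_one (by positivity)]
      exact one_le_pow₀ hsR
  choose f hf1 hf2 hf3 using key
  refine ⟨fun y => ∏ r, if auxSysχ Y r y = 0 then f r y else 0,
    DL.gadget univ (fun i : (E × Bool) × Fin 5 => Y.σ.root i.1.1) (auxSysχ Y) f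
      (fun r _ i _ => auxSysχ_uv Y r i) (fun r _ => hf1 r)
      fun r _ i _ hi y => hf2 r y i (by simpa using hi), fun x _ j p k hne => ?_,
    fun x hx j hj1 hj2 p k hτ => ?_⟩
  · obtain ⟨r, hr⟩ := Function.ne_iff.1 hne
    refine Finset.prod_eq_zero (mem_univ r) (if_neg ?_)
    rw [auxSysχ_eq]
    omega
  · have e1 : (∏ r, if auxSysχ Y r (uv p - uv k - emb j x) = 0 then
        f r (uv p - uv k - emb j x) else 0) = ∏ r, f r (uv p - uv k - emb j x) :=
      Finset.prod_congr rfl fun r _ => if_pos (by rw [auxSysχ_eq, hτ, sub_self])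
    have hbox : ∀ i, |(uv p - uv k - emb j x) i - (-emb 0 (Y.cellOf Y.ctr)) i|
        ≤ ((2 * pD Y.s : ℕ) : ℤ) := by
      rintro ⟨q, l⟩
      have a1 := (auxSys_mem_Cells.1 hx).1.1 q
      have a2 := (auxSys_mem_Cells.1 hx).1.2 q
      have a3 : |sh j q| ≤ pD Y.s := by
        unfold sh
        split_ifs
        · simp
        · exact hj1 _
      have a4 : sh 0 q = 0 := by simp [sh]
      have a5 : 0 ≤ uv p (q, l) ∧ uv p (q, l) ≤ 1 := by
        simp only [uv, Pi.single_apply]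
        split_ifs <;> simp
      have a6 : 0 ≤ uv k (q, l) ∧ uv k (q, l) ≤ 1 := by
        simp only [uv, Pi.single_apply]
        split_ifs <;> simp
      rw [abs_le] at a3 ⊢
      simp only [Pi.sub_apply, Pi.neg_apply]
      generalize uv p (q, l) = u1 at *
      generalize uv k (q, l) = u2 at *
      fin_cases l <;> simp [emb, a4] <;> omega
    have hΦ : ∀ r, |auxSysΦ Y r (uv p - uv k - emb j x) -
        pL Y.s * max 0 (Y.Hc r (Y.pt x) + j r / pw Y.s)| ≤ ε := fun r => by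
      have b1 := auxSysΦ_lip h r (-emb j x) p
      have b2 := auxSysΦ_lip h r (uv p - uv k - emb j x) k
      rw [show uv p - uv k - emb j x + uv k = -emb j x + uv p by abel] at b2
      rw [auxSysΦ_emb h r x (hj2 r)] at b1
      rw [abs_le] at b1 b2 ⊢
      constructor <;> linarith [b1.1, b1.2, b2.1, b2.2]
    have hcard : (Fintype.card E : ℝ) * (2 * ε) ≤ 2 / Y.s ^ 9 := by
      have c1 := h.sz.card
      rw [Fintype.card_prod, Fintype.card_bool] at c1
      have c2 : (Fintype.card E : ℝ) ≤ Y.s := by exact_mod_cast (by omega : Fintype.card E ≤ Y.s)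
      refine (mul_le_mul_of_nonneg_right c2 (by positivity)).trans (le_of_eq ?_)
      rw [hε]
      field_simp
    simp only [e1]
    rw [wE, mul_left_comm, mul_left_comm (Real.exp _), ← Real.exp_add, ← Real.exp_add]
    set T : E → ℝ := fun r => pL Y.s * max 0 (Y.Hc r (Y.pt x) + j r / pw Y.s) with hT
    constructor
    · refine mul_le_mul_of_nonneg_left ?_ (Y.W_pos _).le
      calc Real.exp (-(2 / Y.s ^ 9) + -∑ r, T r) ≤ Real.exp (∑ r, (-(2 * ε) + -T r)) := by
            rw [Real.exp_le_exp, Finset.sum_add_distrib, Finset.sum_neg_distrib,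
              Finset.sum_neg_distrib, Finset.sum_const, card_univ, nsmul_eq_mul]
            linarith
        _ ≤ _ := by
            rw [Real.exp_sum]
            refine Finset.prod_le_prod (fun r _ => (Real.exp_pos _).le) fun r _ => ?_
            refine le_trans ?_ (hf3 r _ fun i _ => hbox i).1
            rw [← Real.exp_add, Real.exp_le_exp]
            linarith [(abs_le.1 (hΦ r)).2]
    · refine mul_le_mul_of_nonneg_left ?_ (Y.W_pos _).le
      calc ∏ r, f r (uv p - uv k - emb j x) ≤ Real.exp (∑ r, (2 * ε + -T r)) := by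
            rw [Real.exp_sum]
            refine Finset.prod_le_prod (fun r _ => ((hf1 r).1 _).le) fun r _ => ?_
            refine (hf3 r _ fun i _ => hbox i).2.trans ?_
            rw [← Real.exp_add, Real.exp_le_exp]
            linarith [(abs_le.1 (hΦ r)).1]
        _ ≤ _ := by
            rw [Real.exp_le_exp, Finset.sum_add_distrib, Finset.sum_neg_distrib,
              Finset.sum_const, card_univ, nsmul_eq_mul]
            linarith

/-- `ψ j = conv (Th 0) G (uv p - uv k + j • (uv ((r, false), 4) - uv ((r, false), 3)))` with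
`p = ((i, false), 0)`, `k = ((k, false), 0)`; `DL.conv`, `DL.root`. -/
theorem aux_lc (h : Y.Ok) {r : E} (hr : Y.σ.root r = r) (i k : E) : ∃ ψ : ℤ → ℝ, DL1 ψ ∧
    ∀ j : ℤ, |j| ≤ pD Y.s →
      Real.exp (-(2 / Y.s ^ 9)) * Y.Mass (Pi.single r j) (Y.τ i k) ≤ ψ j ∧
        ψ j ≤ Real.exp (2 / Y.s ^ 9) * Y.Mass (Pi.single r j) (Y.τ i k) := by
  classical
  obtain ⟨G, hG⟩ := h.exists_G
  have hl : ∀ l, Y.alo 0 l ≤ Y.ahi 0 l := fun l => by
    simp only [alo, ahi, Pi.sub_apply, Pi.add_apply]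
    omega
  refine ⟨_, ((h.Th_dl 0).conv hG.dl hl).root (mem_univ ((r, false), 4)) (mem_univ ((r, false), 3))
    (uv ((i, false), 0) - uv ((k, false), 0)), fun j hj => ?_⟩
  have e1 : ∀ x : (E × Bool → ℤ) × (E × Bool → ℤ),
      uv ((i, false), (0 : Fin 5)) - uv ((k, false), (0 : Fin 5)) +
        j • (uv ((r, false), (4 : Fin 5)) - uv ((r, false), (3 : Fin 5))) - emb 0 x =
      uv ((i, false), 0) - uv ((k, false), 0) - emb (Pi.single r j) x := fun x => by
    have : emb (Pi.single r j) x = emb 0 x +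
        j • (uv ((r, false), (3 : Fin 5)) - uv ((r, false), (4 : Fin 5))) := by
      funext ⟨⟨e, b⟩, l⟩
      by_cases he : e = r
      · subst he
        fin_cases l <;> cases b <;> simp [emb, sh, uv]
      · fin_cases l <;> cases b <;> simp [emb, sh, uv, he]
    rw [this]
    module
  have hj1 : ∀ e, |(Pi.single r j : E → ℤ) e| ≤ pD Y.s := fun e => by
    by_cases he : e = r
    · subst he
      simpa using hj
    · simp [he]
  have hj2 : ∀ e, Y.σ.root e ≠ e → (Pi.single r j : E → ℤ) e ≤ pw Y.s := fun e he => by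
    have : e ≠ r := fun h' => he (by rw [h', hr])
    simp [this]
  rw [conv, sum_Th 0 fun y => G (_ - y)]
  simp only [e1]
  rw [← Finset.sum_filter_of_ne (p := fun x => Y.ty x.1 = Y.τ i k) fun x hx hne => by
    by_contra hc
    exact hne (by rw [hG.zero x hx _ ((i, false), 0) ((k, false), 0) hc, mul_zero])]
  simp only [Mass, Finset.mul_sum]
  exact ⟨Finset.sum_le_sum fun x hx => (hG.approx x (mem_filter.1 hx).1 _ hj1 hj2
      ((i, false), 0) ((k, false), 0) (mem_filter.1 hx).2).1,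
    Finset.sum_le_sum fun x hx => (hG.approx x (mem_filter.1 hx).1 _ hj1 hj2
      ((i, false), 0) ((k, false), 0) (mem_filter.1 hx).2).2⟩

end Ok

end Sys

end Crest.Agent.R302
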