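import Crest.Agent.R302.Key

/-!
Row 302, part A4, auxiliary lemmas: real inequalities and the pair system.
-/

set_option autoImplicit false
set_option linter.unusedSectionVars false

namespace Crest.Agent.R302

open Finset

/-! ### real inequalities -/

lemma awp_var_split {α : Type} (s : Finset α) (w F : α → ℝ) (hw : ∀ a ∈ s, 0 ≤ w a) (c : ℝ) :
    ∑ a ∈ s, w a * (F a - c) ^ 2 =
      ∑ a ∈ s, w a * (F a - (∑ a ∈ s, w a * F a) / ∑ a ∈ s, w a) ^ 2 +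
        (∑ a ∈ s, w a) * ((∑ a ∈ s, w a * F a) / (∑ a ∈ s, w a) - c) ^ 2 := by
  have key : ∀ d : ℝ, ∑ a ∈ s, w a * (F a - d) ^ 2 =
      ∑ a ∈ s, w a * F a ^ 2 - 2 * d * ∑ a ∈ s, w a * F a + d ^ 2 * ∑ a ∈ s, w a := by
    intro d
    rw [mul_sum, mul_sum, ← sum_sub_distrib, ← sum_add_distrib]
    exact sum_congr rfl fun a _ => by ring
  by_cases hZ : ∑ a ∈ s, w a = 0
  · have h0 := (sum_eq_zero_iff_of_nonneg hw).1 hZ
    rw [hZ, zero_mul, add_zero]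
    exact sum_congr rfl fun a ha => by rw [h0 a ha, zero_mul, zero_mul]
  · rw [key, key]
    field_simp
    ring

lemma awp_mean_mem {α : Type} (s : Finset α) (w F : α → ℝ) (hw : ∀ a ∈ s, 0 ≤ w a)
    (hF : ∀ a, 0 ≤ F a ∧ F a ≤ 1) :
    0 ≤ (∑ a ∈ s, w a * F a) / ∑ a ∈ s, w a ∧ (∑ a ∈ s, w a * F a) / ∑ a ∈ s, w a ≤ 1 := by
  have h0 : 0 ≤ ∑ a ∈ s, w a := sum_nonneg hw
  refine ⟨div_nonneg (sum_nonneg fun a ha => mul_nonneg (hw a ha) (hF a).1) h0,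
    div_le_one_of_le₀ (sum_le_sum fun a ha => mul_le_of_le_one_right (hw a ha) (hF a).2) h0⟩

lemma awp_tele (h : ℤ → ℝ) {u v : ℤ} (huv : u ≤ v) :
    h v - h u = ∑ j ∈ Ico u v, (h (j + 1) - h j) := by
  induction v, huv using Int.leInduction with
  | base => simp
  | succ v hv ih =>
    rw [← Finset.insert_Ico_right_eq_Ico_add_one hv, sum_insert (by simp), ← ih]
    ring

lemma awp_path1 (μ h : ℤ → ℝ) (hμ : ∀ j, 0 ≤ μ j) {lo hi u v : ℤ} (h1 : lo ≤ u) (huv : u ≤ v)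
    (h2 : v ≤ hi) {L z : ℝ} (hL : ((hi - lo + 1 : ℤ) : ℝ) ≤ L) (hz0 : 0 ≤ z)
    (hz : ∀ j, u ≤ j → j < v → z ≤ μ j) :
    z * (h v - h u) ^ 2 ≤ L * ∑ j ∈ Icc lo hi, μ j * (h (j + 1) - h j) ^ 2 := by
  rw [awp_tele h huv]
  have hc : ((Ico u v).card : ℝ) ≤ L := by
    refine le_trans ?_ hL
    rw [Int.card_Ico]
    have : (((v - u).toNat : ℕ) : ℤ) ≤ hi - lo + 1 := by omega
    exact_mod_cast this
  have hL0 : 0 ≤ L := (Nat.cast_nonneg _).trans hc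
  calc z * (∑ j ∈ Ico u v, (h (j + 1) - h j)) ^ 2
      ≤ z * ((Ico u v).card * ∑ j ∈ Ico u v, (h (j + 1) - h j) ^ 2) :=
        mul_le_mul_of_nonneg_left sq_sum_le_card_mul_sum_sq hz0
    _ = (Ico u v).card * ∑ j ∈ Ico u v, z * (h (j + 1) - h j) ^ 2 := by rw [← mul_sum]; ring
    _ ≤ L * ∑ j ∈ Icc lo hi, μ j * (h (j + 1) - h j) ^ 2 := by
      refine mul_le_mul hc ?_ (sum_nonneg fun j _ => mul_nonneg hz0 (sq_nonneg _)) hL0
      refine (sum_le_sum fun j hj => mul_le_mul_of_nonneg_right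
        (hz j (mem_Ico.1 hj).1 (mem_Ico.1 hj).2) (sq_nonneg _)).trans ?_
      refine sum_le_sum_of_subset_of_nonneg (fun j hj => ?_)
        fun j _ _ => mul_nonneg (hμ j) (sq_nonneg _)
      rw [mem_Ico] at hj
      rw [mem_Icc]
      omega

lemma awp_path (Z h : ℤ → ℝ) (hZ : ∀ j, 0 ≤ Z j)
    (hq : ∀ a b c, a ≤ b → b ≤ c → min (Z a) (Z c) ≤ Z b) {lo hi : ℤ} (hl : lo ≤ hi) {L : ℝ}
    (hL : ((hi - lo + 1 : ℤ) : ℝ) ≤ L) :
    ∃ c, ∑ b ∈ Icc lo hi, Z b * (h b - h c) ^ 2 ≤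
      L ^ 2 * ∑ j ∈ Icc lo hi, min (Z j) (Z (j + 1)) * (h (j + 1) - h j) ^ 2 := by
  obtain ⟨c, hc, hmax⟩ := exists_max_image (Icc lo hi) Z (nonempty_Icc.2 hl)
  have hμ : ∀ j, 0 ≤ min (Z j) (Z (j + 1)) := fun j => le_min (hZ _) (hZ _)
  have hT : 0 ≤ ∑ j ∈ Icc lo hi, min (Z j) (Z (j + 1)) * (h (j + 1) - h j) ^ 2 :=
    sum_nonneg fun j _ => mul_nonneg (hμ j) (sq_nonneg _)
  have hcard : ((Icc lo hi).card : ℝ) ≤ L := by
    refine le_trans ?_ hL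
    rw [Int.card_Icc]
    have : (((hi + 1 - lo).toNat : ℕ) : ℤ) ≤ hi - lo + 1 := by omega
    exact_mod_cast this
  have hL0 : 0 ≤ L := (Nat.cast_nonneg _).trans hcard
  refine ⟨c, (sum_le_card_nsmul _ _
    (L * ∑ j ∈ Icc lo hi, min (Z j) (Z (j + 1)) * (h (j + 1) - h j) ^ 2) fun b hb => ?_).trans ?_⟩
  · have hbc := hmax b hb
    rw [mem_Icc] at hb hc
    rcases le_total c b with hcb | hcb
    · refine awp_path1 _ h hμ hc.1 hcb hb.2 hL (hZ b) fun j h1 h2 => le_min ?_ ?_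
      · exact (le_min hbc le_rfl).trans (hq c j b h1 h2.le)
      · exact (le_min hbc le_rfl).trans (hq c (j + 1) b (by omega) (by omega))
    · rw [← neg_sub, neg_sq]
      refine awp_path1 _ h hμ hb.1 hcb hc.2 hL (hZ b) fun j h1 h2 => le_min ?_ ?_
      · exact (le_min le_rfl hbc).trans (hq b j c h1 h2.le)
      · exact (le_min le_rfl hbc).trans (hq b (j + 1) c (by omega) (by omega))
  · rw [nsmul_eq_mul, sq, mul_assoc]
    exact mul_le_mul_of_nonneg_right hcard (mul_nonneg hL0 hT)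

lemma awp_edge {κ : Type} (J : Finset κ) {Z₁ Z₂ G₁ G₂ E₁ E₂ L M N : ℝ} {X E r : κ → ℝ}
    (hZ₁ : 0 ≤ Z₁) (hZ₂ : 0 ≤ Z₂) (hE₁ : 0 ≤ E₁) (hE₂ : 0 ≤ E₂) (hX : ∀ l, 0 ≤ X l)
    (hE : ∀ l, 0 ≤ E l) (hr : ∀ l, 0 < r l) (hL : 1 ≤ L) (hM : 1 ≤ M) (hN : (J.card : ℝ) ≤ N)
    (hN1 : 1 ≤ N) (h₁ : 0 ≤ G₁ / Z₁ ∧ G₁ / Z₁ ≤ 1) (h₂ : 0 ≤ G₂ / Z₂ ∧ G₂ / Z₂ ≤ 1)
    (hk : |Z₂ * G₁ - Z₁ * G₂| ≤ Z₂ * √(Z₁ * E₁) + Z₁ * √(Z₂ * E₂) +
      ∑ l ∈ J, L * √(Z₁ * Z₂ * X l * E l)) :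
    min Z₂ Z₁ * (G₁ / Z₁ - G₂ / Z₂) ^ 2 ≤
      3 * N * L ^ 2 * M * (E₁ + E₂ + ∑ l ∈ J, r l * E l) + (∑ l ∈ J, X l / r l) / M := by
  have hμ0 : 0 ≤ min Z₂ Z₁ := le_min hZ₂ hZ₁
  have hS : 0 ≤ ∑ l ∈ J, r l * E l := sum_nonneg fun l _ => mul_nonneg (hr l).le (hE l)
  have hA : 0 ≤ 3 * N * L ^ 2 * M * (E₁ + E₂ + ∑ l ∈ J, r l * E l) := by positivity
  have hB0 : ∀ l, 0 ≤ X l / r l := fun l => div_nonneg (hX l) (hr l).le
  have hB : 0 ≤ (∑ l ∈ J, X l / r l) / M := div_nonneg (sum_nonneg fun l _ => hB0 l) (by linarith)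
  by_cases hbad : ∃ l ∈ J, M * min Z₂ Z₁ < X l / r l
  · obtain ⟨l, hl, hlt⟩ := hbad
    have h1 : (G₁ / Z₁ - G₂ / Z₂) ^ 2 ≤ 1 := by nlinarith [h₁.1, h₁.2, h₂.1, h₂.2]
    have h2 : min Z₂ Z₁ ≤ (∑ l ∈ J, X l / r l) / M := by
      rw [le_div_iff₀ (by linarith), mul_comm]
      exact hlt.le.trans (single_le_sum (fun l _ => hB0 l) hl)
    nlinarith
  push Not at hbad
  rcases hμ0.eq_or_lt with h0 | hpos
  · rw [← h0, zero_mul]; linarith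
  have hz₂ : 0 < Z₂ := hpos.trans_le (min_le_left _ _)
  have hz₁ : 0 < Z₁ := hpos.trans_le (min_le_right _ _)
  set μ := min Z₂ Z₁ with hμ
  have hμ₂ : μ ≤ Z₂ := min_le_left _ _
  have hμ₁ : μ ≤ Z₁ := min_le_right _ _
  have hsq : (∑ l ∈ J, L * √(Z₁ * Z₂ * X l * E l)) ^ 2 ≤
      N * ∑ l ∈ J, L ^ 2 * (Z₁ * Z₂ * X l * E l) := by
    refine sq_sum_le_card_mul_sum_sq.trans ?_
    rw [sum_congr rfl fun l _ => by
      rw [mul_pow, Real.sq_sqrt (by have := hX l; have := hE l; positivity)]]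
    exact mul_le_mul_of_nonneg_right hN
      (sum_nonneg fun l _ => by have := hX l; have := hE l; positivity)
  have hD : (Z₂ * G₁ - Z₁ * G₂) ^ 2 ≤ 3 * (Z₂ ^ 2 * (Z₁ * E₁) + Z₁ ^ 2 * (Z₂ * E₂) +
      N * ∑ l ∈ J, L ^ 2 * (Z₁ * Z₂ * X l * E l)) := by
    have a1 : (Z₂ * √(Z₁ * E₁)) ^ 2 = Z₂ ^ 2 * (Z₁ * E₁) := by
      rw [mul_pow, Real.sq_sqrt (by positivity)]
    have a2 : (Z₁ * √(Z₂ * E₂)) ^ 2 = Z₁ ^ 2 * (Z₂ * E₂) := by
      rw [mul_pow, Real.sq_sqrt (by positivity)]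
    have a3 := pow_le_pow_left₀ (abs_nonneg _) hk 2
    rw [sq_abs] at a3
    rw [← a1, ← a2]
    generalize Z₂ * √(Z₁ * E₁) = a at *
    generalize Z₁ * √(Z₂ * E₂) = b at *
    generalize ∑ l ∈ J, L * √(Z₁ * Z₂ * X l * E l) = c at *
    nlinarith [sq_nonneg (a - b), sq_nonneg (a - c), sq_nonneg (b - c)]
  have hsum : μ * ∑ l ∈ J, L ^ 2 * (Z₁ * Z₂ * X l * E l) ≤
      (Z₁ * Z₂) ^ 2 * (L ^ 2 * M * ∑ l ∈ J, r l * E l) := by
    rw [mul_sum, mul_sum, mul_sum]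
    refine sum_le_sum fun l hl => ?_
    have b1 : X l ≤ M * μ * r l := (div_le_iff₀ (hr l)).1 (hbad l hl)
    have b2 : μ * μ ≤ Z₁ * Z₂ := mul_le_mul hμ₁ hμ₂ hpos.le hz₁.le
    have b3 : μ * X l ≤ Z₁ * Z₂ * (M * r l) := by
      have := hr l
      calc μ * X l ≤ μ * (M * μ * r l) := mul_le_mul_of_nonneg_left b1 hpos.le
        _ = μ * μ * (M * r l) := by ring
        _ ≤ _ := mul_le_mul_of_nonneg_right b2 (by positivity)
    have := hE l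
    calc μ * (L ^ 2 * (Z₁ * Z₂ * X l * E l)) = μ * X l * (L ^ 2 * (Z₁ * Z₂) * E l) := by ring
      _ ≤ Z₁ * Z₂ * (M * r l) * (L ^ 2 * (Z₁ * Z₂) * E l) :=
        mul_le_mul_of_nonneg_right b3 (by positivity)
      _ = _ := by ring
  have hK : 1 ≤ N * L ^ 2 * M :=
    one_le_mul_of_one_le_of_one_le (one_le_mul_of_one_le_of_one_le hN1 (one_le_pow₀ hL)) hM
  have hfin : μ * (G₁ / Z₁ - G₂ / Z₂) ^ 2 ≤
      3 * N * L ^ 2 * M * (E₁ + E₂ + ∑ l ∈ J, r l * E l) := by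
    have e : G₁ / Z₁ - G₂ / Z₂ = (Z₂ * G₁ - Z₁ * G₂) / (Z₁ * Z₂) := by field_simp
    rw [e, div_pow, ← mul_div_assoc, div_le_iff₀ (by positivity)]
    have c1 : μ * (Z₂ ^ 2 * (Z₁ * E₁)) ≤ (Z₁ * Z₂) ^ 2 * (N * L ^ 2 * M * E₁) := by
      calc μ * (Z₂ ^ 2 * (Z₁ * E₁)) ≤ Z₁ * (Z₂ ^ 2 * (Z₁ * E₁)) :=
            mul_le_mul_of_nonneg_right hμ₁ (by positivity)
        _ = (Z₁ * Z₂) ^ 2 * (1 * E₁) := by ring
        _ ≤ _ := mul_le_mul_of_nonneg_left (mul_le_mul_of_nonneg_right hK hE₁) (by positivity)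
    have c2 : μ * (Z₁ ^ 2 * (Z₂ * E₂)) ≤ (Z₁ * Z₂) ^ 2 * (N * L ^ 2 * M * E₂) := by
      calc μ * (Z₁ ^ 2 * (Z₂ * E₂)) ≤ Z₂ * (Z₁ ^ 2 * (Z₂ * E₂)) :=
            mul_le_mul_of_nonneg_right hμ₂ (by positivity)
        _ = (Z₁ * Z₂) ^ 2 * (1 * E₂) := by ring
        _ ≤ _ := mul_le_mul_of_nonneg_left (mul_le_mul_of_nonneg_right hK hE₂) (by positivity)
    have c3 := mul_le_mul_of_nonneg_left hsum (show 0 ≤ N by linarith)
    have c4 := mul_le_mul_of_nonneg_left hD hpos.le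
    nlinarith
  linarith

/-! ### the pair system -/

variable {I : Type} [Fintype I] [DecidableEq I]

/-- the directions of the pair system -/
abbrev awpE : I ⊕ I → (I → ℤ) × (I → ℤ) :=
  Sum.elim (fun p : I => ((uv p, 0) : (I → ℤ) × (I → ℤ))) fun p : I => (0, uv p)

lemma awp_nd (z : (I → ℤ) × (I → ℤ)) (a : I → ℤ) :
    nd awpE Sum.inl Sum.inr z a = (z.1 + a, z.2 - a) := by
  have h : ∑ l, a l • uv l = a := by
    funext j
    simp [uv, Pi.single_apply]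
  unfold nd
  refine Prod.ext ?_ ?_
  · simp [Prod.fst_sum, h, -zsmul_eq_mul]
  · simp [Prod.snd_sum, h, sub_eq_add_neg, -zsmul_eq_mul]

/-- sum over the free coordinates `J` -/
noncomputable def awpS (J : Finset I) (lo hi y : I → ℤ) (φ : (I → ℤ) → ℝ) : ℝ :=
  ∑ a ∈ boxJ J lo hi, φ (y + a)

lemma awpS_empty (lo hi y : I → ℤ) (φ : (I → ℤ) → ℝ) : awpS ∅ lo hi y φ = φ y := by
  have : boxJ (∅ : Finset I) lo hi = {0} := by
    ext a
    simp [boxJ, funext_iff]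
  simp [awpS, this]

lemma awpS_insert {J : Finset I} {i : I} (hi' : i ∉ J) (lo hi y : I → ℤ) (φ : (I → ℤ) → ℝ) :
    awpS (insert i J) lo hi y φ = ∑ b ∈ Icc (lo i) (hi i), awpS J lo hi (y + b • uv i) φ := by
  unfold awpS
  rw [sum_boxJ_insert hi']
  refine sum_congr rfl fun b _ => sum_congr rfl fun a ha => ?_
  have h0 : a i = 0 := by
    have := Fintype.mem_piFinset.1 ha i
    simpa [hi'] using this
  congr 1
  funext j
  by_cases hj : j = i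
  · subst hj; simp [uv, h0]
  · simp [uv, hj]

lemma awpS_nonneg (J : Finset I) (lo hi y : I → ℤ) {φ : (I → ℤ) → ℝ} (h : ∀ x, 0 ≤ φ x) :
    0 ≤ awpS J lo hi y φ := sum_nonneg fun _ _ => h _

lemma awpS_congr (J : Finset I) (lo hi y : I → ℤ) {φ ψ : (I → ℤ) → ℝ} (h : ∀ x, φ x = ψ x) :
    awpS J lo hi y φ = awpS J lo hi y ψ := sum_congr rfl fun _ _ => h _

lemma awpS_shift (J : Finset I) (lo hi y v : I → ℤ) (φ : (I → ℤ) → ℝ) :
    awpS J lo hi (y + v) φ = awpS J lo hi y fun x => φ (x + v) :=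
  sum_congr rfl fun _ _ => by rw [add_right_comm]

section
variable (Θ G F g : (I → ℤ) → ℝ) (J : Finset I) (lo hi y : I → ℤ) (k q : I)

lemma awp_kZ_inl : kZ awpE (fun z => Θ z.1 * G z.2) Sum.inl Sum.inr J lo hi (y, -y - uv k)
    (Sum.inl q) = awpS J lo hi y fun x => Θ (x + uv q) * G (-x - uv k) := by
  refine sum_congr rfl fun a _ => ?_
  simp only [awp_nd, Sum.elim_inl, Prod.mk_add_mk, add_zero]
  congr 2; abel

lemma awp_kZ_inr : kZ awpE (fun z => Θ z.1 * G z.2) Sum.inl Sum.inr J lo hi (y, -y - uv k)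
    (Sum.inr q) = awpS J lo hi y fun x => Θ x * G (uv q - uv k - x) := by
  refine sum_congr rfl fun a _ => ?_
  simp only [awp_nd, Sum.elim_inr, Prod.mk_add_mk, add_zero]
  congr 2; abel

lemma awp_kG_inl : kG awpE (fun z => Θ z.1 * G z.2) (fun z => F z.1) Sum.inl Sum.inr J lo hi
    (y, -y - uv k) (Sum.inl q) =
      awpS J lo hi y fun x => Θ (x + uv q) * G (-x - uv k) * F (x + uv q) := by
  refine sum_congr rfl fun a _ => ?_
  simp only [awp_nd, Sum.elim_inl, Prod.mk_add_mk, add_zero]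
  congr 3; abel

lemma awp_kG_inr : kG awpE (fun z => Θ z.1 * G z.2) (fun z => F z.1) Sum.inl Sum.inr J lo hi
    (y, -y - uv k) (Sum.inr q) = awpS J lo hi y fun x => Θ x * G (uv q - uv k - x) * F x := by
  refine sum_congr rfl fun a _ => ?_
  simp only [awp_nd, Sum.elim_inr, Prod.mk_add_mk, add_zero]
  congr 3; abel

lemma awp_kE_inl : kE awpE (fun z => Θ z.1 * G z.2) (fun z => F z.1) (fun z => g z.1) Sum.inl
    Sum.inr J lo hi (y, -y - uv k) (Sum.inl q) =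
      awpS J lo hi y fun x => Θ (x + uv q) * G (-x - uv k) * (F (x + uv q) - g x) ^ 2 := by
  refine sum_congr rfl fun a _ => ?_
  simp only [awp_nd, Sum.elim_inl, Prod.mk_add_mk, add_zero]
  congr 3; abel

lemma awp_kE_inr : kE awpE (fun z => Θ z.1 * G z.2) (fun z => F z.1) (fun z => g z.1) Sum.inl
    Sum.inr J lo hi (y, -y - uv k) (Sum.inr q) =
      awpS J lo hi y fun x => Θ x * G (uv q - uv k - x) * (F x - g x) ^ 2 := by
  refine sum_congr rfl fun a _ => ?_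
  simp only [awp_nd, Sum.elim_inr, Prod.mk_add_mk, add_zero]
  congr 3; abel

lemma awp_kX_lr (l : I) : kX awpE (fun z => Θ z.1 * G z.2) Sum.inl Sum.inr J lo hi (y, -y - uv k)
    (Sum.inl k) (Sum.inr k) l =
      awpS J lo hi y fun x => Θ (x + uv k) * G (uv k - uv l - (x + uv k)) := by
  refine sum_congr rfl fun a _ => ?_
  simp only [awp_nd, Sum.elim_inl, Sum.elim_inr, Prod.mk_add_mk, Prod.mk_sub_mk, add_zero, sub_zero]
  congr 2; abel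

lemma awp_kX_ll (l : I) : kX awpE (fun z => Θ z.1 * G z.2) Sum.inl Sum.inr J lo hi (y, -y - uv k)
    (Sum.inl q) (Sum.inl k) l =
      awpS J lo hi y fun x => Θ (x + (uv q + uv k)) * G (uv q - uv l - (x + (uv q + uv k))) := by
  refine sum_congr rfl fun a _ => ?_
  simp only [awp_nd, Sum.elim_inl, Sum.elim_inr, Prod.mk_add_mk, Prod.mk_sub_mk, add_zero, sub_zero]
  congr 2 <;> abel

end

end Crest.Agent.R302
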