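import Crest.Agent.R302.Sub

/-!
Row 302, part B2: exchange capacities, closed sets, the range lemma, chains, the ideal centre.
-/

set_option autoImplicit false
set_option linter.unusedSectionVars false

namespace Crest.Agent.R302

open Finset

variable {P C : Type} [Fintype P] [DecidableEq P]

/-- One can move from `c` by `θ (e_p - e_q)`. -/
def Cap (F : Finset P → ℤ) (c : P → ℝ) (θ : ℝ) (p q : P) : Prop :=
  ∀ S : Finset P, p ∈ S → q ∉ S → θ ≤ slack F S c

/-- One can move from `c` by `± θ (e_p - e_q)`. -/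
def Cap2 (F : Finset P → ℤ) (c : P → ℝ) (θ : ℝ) (p q : P) : Prop := Cap F c θ p q ∧ Cap F c θ q p

/-- `S` is a union of classes of `R`. -/
def Cls (R : P → P → Prop) (S : Finset P) : Prop := ∀ p q, R p q → (p ∈ S ↔ q ∈ S)

variable {F : Finset P → ℤ} {c : P → ℝ} {θ θ' : ℝ} {p q r : P}

lemma Cap.refl (F : Finset P → ℤ) (c : P → ℝ) (θ : ℝ) (p : P) : Cap F c θ p p :=
  fun _ h h' => absurd h h'

lemma Cap.trans (h : Cap F c θ p q) (h' : Cap F c θ q r) : Cap F c θ p r := fun S hp hr => by
  by_cases hq : q ∈ S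
  · exact h' S hq hr
  · exact h S hp hq

lemma Cap.mono (h : Cap F c θ p q) (hθ : θ' ≤ θ) : Cap F c θ' p q :=
  fun S hp hq => hθ.trans (h S hp hq)

lemma Cap2.refl (F : Finset P → ℤ) (c : P → ℝ) (θ : ℝ) (p : P) : Cap2 F c θ p p :=
  ⟨Cap.refl F c θ p, Cap.refl F c θ p⟩

lemma Cap2.symm (h : Cap2 F c θ p q) : Cap2 F c θ q p := ⟨h.2, h.1⟩

lemma Cap2.trans (h : Cap2 F c θ p q) (h' : Cap2 F c θ q r) : Cap2 F c θ p r :=
  ⟨h.1.trans h'.1, h'.2.trans h.2⟩

lemma Cap2.mono (h : Cap2 F c θ p q) (hθ : θ' ≤ θ) : Cap2 F c θ' p q := ⟨h.1.mono hθ, h.2.mono hθ⟩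

lemma le_slack_of_not_cls {S : Finset P} (h : ¬ Cls (Cap2 F c θ) S) : θ ≤ slack F S c := by
  simp only [Cls, not_forall] at h
  obtain ⟨p, q, hpq, h⟩ := h
  by_cases hp : p ∈ S
  · exact hpq.1 S hp fun hq => h ⟨fun _ => hq, fun _ => hp⟩
  · exact hpq.2 S (by tauto) hp

lemma Cls.mono {S : Finset P} (h : Cls (Cap2 F c θ') S) (hθ : θ' ≤ θ) : Cls (Cap2 F c θ) S :=
  fun p q hpq => h p q (hpq.mono hθ)

/-- Capacities of an integer point are tested by membership. -/
lemma cap_iff_inB {a : P → ℤ} (ha : InB F a) (t : ℕ) (p q : P) :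
    Cap F (toR a) t p q ↔ InB F (a + (t : ℤ) • (Pi.single p 1 - Pi.single q 1)) := by
  have hsum : ∀ S : Finset P, ∑ x ∈ S, (a + (t : ℤ) • (Pi.single p 1 - Pi.single q 1) : P → ℤ) x =
      ∑ x ∈ S, a x + t * ((if p ∈ S then 1 else 0) - (if q ∈ S then 1 else 0)) := by
    intro S
    simp only [Pi.add_apply, Pi.smul_apply, Pi.sub_apply, smul_eq_mul, sum_add_distrib,
      ← mul_sum, sum_sub_distrib, Finset.sum_pi_single']
  have hsl : ∀ S : Finset P, ((t : ℝ) ≤ slack F S (toR a)) ↔ ∑ x ∈ S, a x + t ≤ F S := by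
    intro S
    unfold slack toR
    rw [le_sub_iff_add_le']
    exact_mod_cast Iff.rfl
  constructor
  · intro h
    refine ⟨fun S => ?_, by rw [hsum]; simpa using ha.2⟩
    rw [hsum]
    have h1 := ha.1 S
    have ht : (0 : ℤ) ≤ t := Int.natCast_nonneg t
    by_cases hp : p ∈ S <;> by_cases hq : q ∈ S <;> simp only [hp, hq, if_true, if_false]
    · linarith
    · have := (hsl S).1 (h S hp hq)
      linarith
    · linarith
    · linarith
  · intro h S hp hq
    have := h.1 S
    rw [hsum, if_pos hp, if_neg hq] at this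
    exact (hsl S).2 (by linarith)

lemma cap_slack_submod (hF : Submod F) (c : P → ℝ) (A B : Finset P) :
    slack F (A ∪ B) c + slack F (A ∩ B) c ≤ slack F A c + slack F B c := by
  have h1 : (F (A ∪ B) : ℝ) + F (A ∩ B) ≤ F A + F B := by exact_mod_cast hF A B
  have h2 := sum_union_inter (s₁ := A) (s₂ := B) (f := c)
  unfold slack
  linarith

lemma cap_slack_inf (hF : Submod F) (hc : InBR F c) {ι : Type} (s : Finset ι)
    (f : ι → Finset P) : slack F (s.inf f) c ≤ ∑ i ∈ s, slack F (f i) c := by
  classical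
  induction s using Finset.induction_on with
  | empty => simp [slack, hc.2]
  | insert i s hi ih =>
    rw [inf_insert, sum_insert hi, inf_eq_inter]
    have h1 := cap_slack_submod hF c (f i) (s.inf f)
    have h2 := hc.slack_nonneg (f i ∪ s.inf f)
    linarith

lemma cap_slack_sup (hF : Submod F) (h0 : F ∅ = 0) (hc : InBR F c) {ι : Type} (s : Finset ι)
    (f : ι → Finset P) : slack F (s.sup f) c ≤ ∑ i ∈ s, slack F (f i) c := by
  classical
  induction s using Finset.induction_on with
  | empty => simp [slack, h0]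
  | insert i s hi ih =>
    rw [sup_insert, sum_insert hi, sup_eq_union]
    have h1 := cap_slack_submod hF c (f i) (s.sup f)
    have h2 := hc.slack_nonneg (f i ∩ s.sup f)
    linarith

/-- `A = ⋃_{p ∈ A} ⋂_{q ∉ A} S p q` with `slack (S p q) < θ`; the slack is non-negative and
submodular, so it is subadditive under both unions and intersections. -/
theorem slack_closed (hF : Submod F) (h0 : F ∅ = 0) (hc : InBR F c) (hθ : 0 ≤ θ) {A : Finset P}
    (hA : ∀ p ∈ A, ∀ q, Cap F c θ p q → q ∈ A) : slack F A c ≤ (Fintype.card P : ℝ) ^ 2 * θ := by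
  classical
  have hex : ∀ p q : P, ∃ S : Finset P, p ∈ A → q ∉ A → p ∈ S ∧ q ∉ S ∧ slack F S c ≤ θ := by
    intro p q
    by_cases h : p ∈ A ∧ q ∉ A
    · have h1 : ¬ Cap F c θ p q := fun h' => h.2 (hA p h.1 q h')
      unfold Cap at h1
      push Not at h1
      obtain ⟨S, h2, h3, h4⟩ := h1
      exact ⟨S, fun _ _ => ⟨h2, h3, h4.le⟩⟩
    · exact ⟨∅, fun h1 h2 => absurd ⟨h1, h2⟩ h⟩
  choose S hS using hex
  have e : A = A.sup fun p => Aᶜ.inf (S p) := by
    ext x
    rw [mem_sup]
    constructor
    · intro hx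
      exact ⟨x, hx, mem_inf.2 fun q hq => (hS x q hx (mem_compl.1 hq)).1⟩
    · rintro ⟨p, hp, hx⟩
      by_contra hxA
      exact (hS p x hp hxA).2.1 (mem_inf.1 hx x (mem_compl.2 hxA))
  have h1 : ∀ p ∈ A, slack F (Aᶜ.inf (S p)) c ≤ Fintype.card P * θ := by
    intro p hp
    refine (cap_slack_inf hF hc _ _).trans ?_
    refine (sum_le_card_nsmul _ _ θ fun q hq => (hS p q hp (mem_compl.1 hq)).2.2).trans ?_
    rw [nsmul_eq_mul]
    exact mul_le_mul_of_nonneg_right (by exact_mod_cast card_le_univ _) hθ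
  rw [e]
  refine (cap_slack_sup hF h0 hc _ _).trans ((sum_le_card_nsmul _ _ _ h1).trans ?_)
  rw [nsmul_eq_mul, sq, mul_assoc]
  exact mul_le_mul_of_nonneg_right (by exact_mod_cast card_le_univ _) (by positivity)

/-- Every class of `Cap2` is the difference of the closed sets `{q | Cap p q}` and
`{q | Cap p q ∧ ¬ Cap q p}`; on a closed set both slacks are small. -/
theorem range_le (hF : Submod F) (h0 : F ∅ = 0) (hc : InBR F c) {a : P → ℝ} (ha : InBR F a) {s : ℝ}
    (hs : (Fintype.card P : ℝ) ≤ s) (hs1 : 1 ≤ s) (hθ : 1 ≤ θ)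
    (hDR : ∀ S, slack F S a ≤ s * (slack F S c + s)) {S : Finset P} (hS : Cls (Cap2 F c θ) S) :
    |∑ p ∈ S, a p - ∑ p ∈ S, c p| ≤ 4 * s ^ 4 * θ := by
  classical
  have hθ0 : 0 ≤ θ := by linarith
  have hs0 : 0 ≤ s := by linarith
  have hcl : ∀ A : Finset P, (∀ p ∈ A, ∀ q, Cap F c θ p q → q ∈ A) →
      -(2 * s ^ 3 * θ) ≤ ∑ p ∈ A, (a p - c p) ∧ ∑ p ∈ A, (a p - c p) ≤ s ^ 3 * θ := by
    intro A hA
    have h1 := slack_closed hF h0 hc hθ0 hA
    have h2 : (Fintype.card P : ℝ) ^ 2 * θ ≤ s ^ 2 * θ := by gcongr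
    have h3 := hDR A
    have h4 := hc.slack_nonneg A
    have h5 := ha.slack_nonneg A
    have h6 : ∑ p ∈ A, (a p - c p) = slack F A c - slack F A a := by
      rw [sum_sub_distrib]; unfold slack; ring
    have h7 : s ^ 2 * θ ≤ s ^ 3 * θ := by gcongr; norm_num
    have h8 : s * (slack F A c + s) ≤ s * (s ^ 2 * θ + s) := by gcongr; linarith
    have h9 : s * s ≤ s ^ 3 * θ := by nlinarith [sq_nonneg s]
    rw [h6]
    constructor <;> nlinarith
  have key : ∀ S : Finset P, Cls (Cap2 F c θ) S →
      |∑ p ∈ S, (a p - c p)| ≤ S.card * (3 * s ^ 3 * θ) := by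
    intro S
    induction S using Finset.strongInduction with
    | H S ih =>
      intro hS
      rcases S.eq_empty_or_nonempty with rfl | ⟨p, hp⟩
      · simp
      let K := univ.filter fun q => Cap2 F c θ p q
      have hK : ∀ q, q ∈ K ↔ Cap2 F c θ p q := fun q => by simp [K]
      have hKS : K ⊆ S := fun q hq => (hS p q ((hK q).1 hq)).1 hp
      have hpK : p ∈ K := (hK p).2 (Cap2.refl _ _ _ _)
      have hss : S \ K ⊂ S := sdiff_ssubset hKS ⟨p, hpK⟩
      have h1 := ih _ hss (fun x y hxy => by
        rw [mem_sdiff, mem_sdiff, hS x y hxy, hK, hK]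
        exact and_congr_right fun _ => not_congr ⟨fun h => h.trans hxy, fun h => h.trans hxy.symm⟩)
      let A := univ.filter fun q => Cap F c θ p q
      have hA : ∀ q, q ∈ A ↔ Cap F c θ p q := fun q => by simp [A]
      have hKA : K ⊆ A := fun q hq => (hA q).2 ((hK q).1 hq).1
      have h2 := hcl A fun x hx y hxy => (hA y).2 (((hA x).1 hx).trans hxy)
      have h3 := hcl (A \ K) fun x hx y hxy => by
        rw [mem_sdiff, hA, hK] at hx ⊢
        exact ⟨hx.1.trans hxy, fun h => hx.2 ⟨hx.1, hxy.trans h.2⟩⟩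
      have h4 := sum_sdiff (f := fun p => a p - c p) hKA
      have h5 := sum_sdiff (f := fun p => a p - c p) hKS
      have h6 : ((S \ K).card : ℝ) + 1 ≤ S.card := by exact_mod_cast card_lt_card hss
      have h7 : 0 ≤ s ^ 3 * θ := by positivity
      have h8 : |∑ p ∈ K, (a p - c p)| ≤ 3 * s ^ 3 * θ := abs_le.2 ⟨by linarith, by linarith⟩
      rw [← h5]
      refine (abs_add_le _ _).trans ?_
      nlinarith
  rw [← sum_sub_distrib]
  refine (key S hS).trans ?_
  have h1 : (S.card : ℝ) ≤ s := le_trans (by exact_mod_cast card_le_univ _) hs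
  have h7 : 0 ≤ s ^ 3 * θ := by positivity
  nlinarith

/-- A linear order of the classes of `Cap2` whose initial segments are closed: compare first the
number of `q` with `Cap p q`, then a fixed numbering of the classes. -/
theorem exists_key (F : Finset P → ℤ) (c : P → ℝ) (θ : ℝ) : ∃ key : P → ℕ,
    (∀ p q, key p = key q ↔ Cap2 F c θ p q) ∧ ∀ p q, Cap F c θ p q → key q ≤ key p := by
  classical
  let N := Fintype.card (Finset P)
  let up : P → Finset P := fun p => univ.filter fun q => Cap F c θ p q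
  let cls : P → Finset P := fun p => univ.filter fun q => Cap2 F c θ p q
  let idx : P → ℕ := fun p => Fintype.equivFin (Finset P) (cls p)
  have hidx : ∀ p, idx p < N := fun p => (Fintype.equivFin (Finset P) (cls p)).2
  have hup : ∀ p q, Cap F c θ p q → up q ⊆ up p := fun p q h x hx => by
    simp only [up, mem_filter, mem_univ, true_and] at hx ⊢
    exact h.trans hx
  have heq : ∀ p q, Cap2 F c θ p q → N * (up p).card + idx p = N * (up q).card + idx q := by
    intro p q h
    have e1 : up p = up q := Subset.antisymm (hup q p h.2) (hup p q h.1)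
    have e2 : cls p = cls q := by
      ext x
      simp only [cls, mem_filter, mem_univ, true_and]
      exact ⟨fun h' => h.symm.trans h', fun h' => h.trans h'⟩
    simp only [idx, e1, e2]
  refine ⟨fun p => N * (up p).card + idx p, fun p q => ⟨fun h => ?_, heq p q⟩, fun p q h => ?_⟩
  · have h1 := congrArg (· % N) h
    simp only [Nat.mul_add_mod, Nat.mod_eq_of_lt (hidx _)] at h1
    have h2 : cls p = cls q := (Fintype.equivFin (Finset P)).injective (Fin.ext h1)
    have h3 : q ∈ cls p := by
      rw [h2]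
      simp only [cls, mem_filter, mem_univ, true_and]
      exact Cap2.refl _ _ _ _
    simpa [cls] using h3
  · by_cases h' : Cap F c θ q p
    · exact (heq p q ⟨h, h'⟩).ge
    · have h1 : up q ⊂ up p := (ssubset_iff_of_subset (hup p q h)).2
        ⟨p, by simpa [up] using Cap.refl F c θ p, by simpa [up] using h'⟩
      have h2 : (up q).card + 1 ≤ (up p).card := card_lt_card h1
      have h3 := Nat.mul_le_mul_left N h2
      have h4 := hidx q
      change N * (up q).card + idx q ≤ N * (up p).card + idx p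
      rw [Nat.mul_add] at h3
      omega

/-- `F (A ∪ T) - F A ≤ F ((S ∩ A) ∪ T) - F (S ∩ A)` for `A = {key < j}`, `T = S ∩ {key = j}`;
telescope over the levels. -/
theorem chain_le (hF : Submod F) (h0 : F ∅ = 0) (key : P → ℕ) (S : Finset P) :
    ∑ j ∈ univ.image key, (F (univ.filter (fun p => key p < j) ∪ S.filter fun p => key p = j) -
      F (univ.filter fun p => key p < j)) ≤ F S := by
  let g : ℕ → ℤ := fun j => F (S.filter fun p => key p < j)
  have h1 : ∀ j, F (univ.filter (fun p => key p < j) ∪ S.filter fun p => key p = j) -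
      F (univ.filter fun p => key p < j) ≤ g (j + 1) - g j := by
    intro j
    have := hF (univ.filter fun p => key p < j) (S.filter fun p => key p < j + 1)
    have e1 : (univ.filter fun p => key p < j) ∪ (S.filter fun p => key p < j + 1) =
        univ.filter (fun p => key p < j) ∪ S.filter fun p => key p = j := by
      ext x
      simp only [mem_union, mem_filter, mem_univ, true_and]
      by_cases hx : x ∈ S <;> simp only [hx, true_and, false_and, or_false]
      omega
    have e2 : (univ.filter fun p => key p < j) ∩ (S.filter fun p => key p < j + 1) =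
        S.filter fun p => key p < j := by
      ext x
      simp only [mem_inter, mem_filter, mem_univ, true_and]
      by_cases hx : x ∈ S <;> simp only [hx, true_and, false_and, and_false]
      omega
    rw [e1, e2] at this
    simp only [g]
    linarith
  refine (sum_le_sum fun j _ => h1 j).trans (le_of_eq ?_)
  have hsub : univ.image key ⊆ range (univ.sup key + 1) := by
    intro j hj
    obtain ⟨p, hp, rfl⟩ := mem_image.1 hj
    exact mem_range.2 (Nat.lt_succ_of_le (le_sup (f := key) hp))
  rw [sum_subset hsub, sum_range_sub]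
  · have e1 : (S.filter fun p => key p < univ.sup key + 1) = S :=
      filter_true_of_mem fun p _ => Nat.lt_succ_of_le (le_sup (f := key) (mem_univ p))
    simp only [g, e1, Nat.not_lt_zero, filter_false, h0, sub_zero]
  · intro j _ hj
    rw [sub_eq_zero]
    refine congrArg F (filter_congr fun p _ => ?_)
    have : key p ≠ j := fun e => hj (mem_image.2 ⟨p, mem_univ p, e⟩)
    omega

/-- Helly's theorem (`Convex.helly_theorem'`) for the convex sets
`{c ∈ Q | max_{a ∈ Q} slack S a ≤ (|P| + 1) slack S c}`, `Q` the compact set of real points with the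
given class sums: the average of at most `|P| + 1` maximisers lies in the corresponding sets. -/
theorem exists_centre [Fintype C] [DecidableEq C] (cl : P → C) {γ : C → ℝ}
    (hne : ∃ a, InBR F a ∧ agg cl a = γ) :
    ∃ c, InBR F c ∧ agg cl c = γ ∧ ∀ a, InBR F a → agg cl a = γ → ∀ S,
      slack F S a ≤ (Fintype.card P + 1) * slack F S c := by
  let Q : Set (P → ℝ) := {a | InBR F a ∧ agg cl a = γ}
  have hQc : IsCompact Q := by
    refine (isCompact_Icc (a := fun p => (F univ : ℝ) - F (univ.erase p))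
      (b := fun p => (F {p} : ℝ))).of_isClosed_subset ?_ ?_
    · refine IsClosed.inter (IsClosed.inter ?_ (isClosed_eq (by fun_prop) continuous_const))
        (isClosed_eq (continuous_pi fun j => by unfold agg; fun_prop) continuous_const)
      change IsClosed {a : P → ℝ | ∀ A : Finset P, ∑ p ∈ A, a p ≤ F A}
      rw [Set.setOf_forall]
      exact isClosed_iInter fun A => isClosed_le (by fun_prop) continuous_const
    · rintro a ⟨ha, -⟩
      refine ⟨fun p => ?_, fun p => by simpa using ha.1 {p}⟩
      have h1 := ha.1 (univ.erase p)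
      have h2 := add_sum_erase univ a (mem_univ p)
      have h3 := ha.2
      linarith
  have hsl : ∀ (S : Finset P) (x y : P → ℝ) (u v : ℝ), u + v = 1 →
      slack F S (u • x + v • y) = u * slack F S x + v * slack F S y := by
    intro S x y u v huv
    simp only [slack, Pi.add_apply, Pi.smul_apply, smul_eq_mul, sum_add_distrib, ← mul_sum]
    linear_combination (-(F S : ℝ)) * huv
  have hQv : Convex ℝ Q := by
    rintro x ⟨hx, hx'⟩ y ⟨hy, hy'⟩ u v hu hv huv
    refine ⟨⟨fun A => ?_, ?_⟩, ?_⟩
    · have := hsl A x y u v huv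
      have h1 := mul_nonneg hu (hx.slack_nonneg A)
      have h2 := mul_nonneg hv (hy.slack_nonneg A)
      exact sub_nonneg.1 (show 0 ≤ slack F A (u • x + v • y) by linarith)
    · simp only [Pi.add_apply, Pi.smul_apply, smul_eq_mul, sum_add_distrib, ← mul_sum, hx.2, hy.2]
      linear_combination (F univ : ℝ) * huv
    · funext j
      have h1 := congrFun hx' j
      have h2 := congrFun hy' j
      simp only [agg, Pi.add_apply, Pi.smul_apply, smul_eq_mul, sum_add_distrib, ← mul_sum]
        at h1 h2 ⊢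
      rw [h1, h2]
      linear_combination γ j * huv
  have hmax : ∀ S : Finset P, ∃ m ∈ Q, ∀ a ∈ Q, slack F S a ≤ slack F S m := fun S =>
    hQc.exists_isMaxOn (f := slack F S) hne (by unfold slack; fun_prop)
  choose m hmQ hm using hmax
  let K : Finset P → Set (P → ℝ) := fun S =>
    {x | x ∈ Q ∧ slack F S (m S) ≤ (Fintype.card P + 1) * slack F S x}
  have hK : (⋂ S ∈ (univ : Finset (Finset P)), K S).Nonempty := by
    refine Convex.helly_theorem' (𝕜 := ℝ) (fun S _ => ?_) fun I _ hI => ?_
    · rintro x ⟨hx, hx'⟩ y ⟨hy, hy'⟩ u v hu hv huv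
      refine ⟨hQv hx hy hu hv huv, ?_⟩
      rw [hsl S x y u v huv]
      have h1 := mul_le_mul_of_nonneg_left hx' hu
      have h2 := mul_le_mul_of_nonneg_left hy' hv
      have h3 : slack F S (m S) = u * slack F S (m S) + v * slack F S (m S) := by
        rw [← add_mul, huv, one_mul]
      linarith
    · rcases I.eq_empty_or_nonempty with rfl | hI0
      · simp
      rw [Module.finrank_fintype_fun_eq_card] at hI
      have hI1 : (0 : ℝ) < I.card := by exact_mod_cast hI0.card_pos
      have hI2 : (I.card : ℝ) ≤ Fintype.card P + 1 := by exact_mod_cast hI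
      have hx : ∑ T ∈ I, (I.card : ℝ)⁻¹ • m T ∈ Q :=
        hQv.sum_mem (fun _ _ => by positivity) (by simp [hI1.ne']) fun T _ => hmQ T
      refine ⟨∑ T ∈ I, (I.card : ℝ)⁻¹ • m T, Set.mem_iInter₂.2 fun S hS => ⟨hx, ?_⟩⟩
      have h1 : (I.card : ℝ) * slack F S (∑ T ∈ I, (I.card : ℝ)⁻¹ • m T) =
          ∑ T ∈ I, slack F S (m T) := by
        simp only [slack, Finset.sum_apply, Pi.smul_apply, smul_eq_mul, ← mul_sum,
          sum_sub_distrib, sum_const, nsmul_eq_mul]
        rw [sum_comm]
        field_simp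
      have h2 : slack F S (m S) ≤ ∑ T ∈ I, slack F S (m T) :=
        single_le_sum (f := fun T => slack F S (m T)) (fun T _ => (hmQ T).1.slack_nonneg S) hS
      exact h2.trans (h1 ▸ mul_le_mul_of_nonneg_right hI2 (hx.1.slack_nonneg S))
  obtain ⟨x, hx⟩ := hK
  have hx' : ∀ S, x ∈ K S := fun S => Set.mem_iInter₂.1 hx S (mem_univ S)
  exact ⟨x, (hx' ∅).1.1, (hx' ∅).1.2, fun a ha ha' S => (hm S a ⟨ha, ha'⟩).trans (hx' S).2⟩

end Crest.Agent.R302
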