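import Crest.Agent.R302.Feas

/-!
Row 302, part D2: every point is the corner of its cell plus an offset.
-/

set_option autoImplicit false
set_option linter.unusedSectionVars false

namespace Crest.Agent.R302

open Finset

variable {E : Type} [Fintype E] [DecidableEq E]

namespace Sys.Ok

variable {Y : Sys E}

lemma H_sub (Y : Sys E) : Y.H ⊆ Y.σ.act := filter_subset _ _

lemma Δ_pos (Y : Sys E) (g : E × Bool) : 0 < Y.Δ g := by unfold Sys.Δ; positivity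

lemma cell_cls (Y : Sys E) (j : E × Bool) :
    Cls (Y.R (jK Y.s)) (univ.filter fun p => Y.lab p = j) := fun p q hpq => by
  simp only [mem_filter, mem_univ, true_and, (Y.lab_eq p q).2 hpq]

lemma cell_agg_add (Y : Sys E) (a b : E × Bool → ℤ) :
    agg Y.lab (a + b) = agg Y.lab a + agg Y.lab b := by
  funext j
  simp only [agg, Pi.add_apply, sum_add_distrib]

lemma cell_coef_sub (Y : Sys E) (g : E × Bool) (a b : E × Bool → ℤ) :
    Y.σ.coef g (a - b) = Y.σ.coef g a - Y.σ.coef g b := by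
  rw [eq_sub_iff_add_eq, ← coef_add, sub_add_cancel]

lemma cell_pt_eq (Y : Sys E) (x : (E × Bool → ℤ) × (E × Bool → ℤ)) (r : E × Bool → ℤ) :
    Y.pt x + Y.ov r = x.1 + Y.ov fun g => Y.Δ g * x.2 g + r g - Y.σ.coef g x.1 := by
  funext p
  simp only [Sys.pt, Sys.canon, Sys.ov, Pi.add_apply, Pi.sub_apply, Finset.sum_apply, Pi.smul_apply,
    smul_eq_mul, add_mul, sub_mul, sum_add_distrib, sum_sub_distrib]
  ring

lemma mem_Off {o : E × Bool → ℤ} :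
    o ∈ Y.Off ↔ (∀ g ∈ Y.H, 0 ≤ o g ∧ o g < Y.Δ g) ∧ ∀ g ∉ Y.H, o g = 0 := by
  simp only [Sys.Off, boxJ, Fintype.mem_piFinset]
  constructor
  · intro h
    refine ⟨fun g hg => ?_, fun g hg => ?_⟩
    · have := h g
      rw [if_pos hg, mem_Icc] at this
      omega
    · have := h g
      rwa [if_neg hg, mem_singleton] at this
  · rintro ⟨h1, h2⟩ g
    by_cases hg : g ∈ Y.H
    · have := h1 g hg
      rw [if_pos hg, mem_Icc]
      omega
    · rw [if_neg hg, mem_singleton]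
      exact h2 g hg

lemma Off_card_pos (Y : Sys E) : 0 < Y.Off.card := by
  exact card_pos.2 ⟨0, mem_Off.2 ⟨fun g _ => ⟨le_rfl, Δ_pos Y g⟩, fun _ _ => rfl⟩⟩

lemma offOf_mem (Y : Sys E) (a : E × Bool → ℤ) : Y.offOf a ∈ Y.Off := by
  refine mem_Off.2 ⟨fun g hg => ?_, fun g hg => if_neg hg⟩
  simp only [Sys.offOf, if_pos hg]
  exact ⟨Int.emod_nonneg _ (Δ_pos Y g).ne', Int.emod_lt_of_pos _ (Δ_pos Y g)⟩

/-- `Flab {p} = F ∅` and `Flab {p}ᶜ = F univ` if `p` is not a label. -/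
lemma agg_of_Flab (h : Y.Ok) {β : E × Bool → ℤ} (hβ : InB Y.Flab β) : agg Y.lab β = β := by
  have h0 : ∀ p, Y.lab p ≠ p → β p = 0 := by
    intro p hp
    have hq : ∀ q, Y.lab q ≠ p := fun q e => hp (by rw [← e, Y.lab_lab])
    have e1 : pre Y.lab {p} = ∅ := by
      ext q; simp [pre, hq q]
    have e2 : pre Y.lab {p}ᶜ = pre Y.lab univ := by
      ext q; simp [pre, hq q]
    have h1 := hβ.1 {p}
    have h2 := hβ.1 {p}ᶜ
    have h3 := Finset.sum_add_sum_compl {p} β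
    have h4 := hβ.2
    simp only [Sys.Flab, e1, e2, h.sz.empty, sum_singleton] at h1 h2 h3 h4
    omega
  funext j
  refine sum_eq_single j (fun p hp hpj => h0 p ?_) (fun hj => h0 j (by simpa using hj))
  rw [(mem_filter.1 hp).2]
  exact hpj.symm

lemma agg_ov (h : Y.Ok) (r : E × Bool → ℤ) : agg Y.lab (Y.ov r) = 0 := by
  funext j
  simp only [agg, Sys.ov, Finset.sum_apply, Pi.smul_apply, smul_eq_mul, Pi.zero_apply]
  rw [sum_comm]
  refine sum_eq_zero fun g hg => ?_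
  rw [← mul_sum, h.valid.cls g (H_sub Y hg) _ (Sys.cls_mono (mem_filter.1 hg).2 (cell_cls Y j)),
    mul_zero]

/-- `Valid.span` at level `jK` for `a - agg lab a`. -/
theorem pt_cellOf (h : Y.Ok) (a : E × Bool → ℤ) : Y.pt (Y.cellOf a) + Y.ov (Y.offOf a) = a := by
  have h1 := h.valid.span (jK Y.s) (a - agg Y.lab a) (fun S hS => by
    have e : pre Y.lab S = S := by
      ext p
      simp only [pre, mem_filter, mem_univ, true_and]
      exact hS _ _ (Y.lab_R p)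
    simp only [Pi.sub_apply, sum_sub_distrib, sum_agg, e, sub_self])
  rw [cell_pt_eq]
  change agg Y.lab a + _ = a
  rw [← eq_sub_iff_add_eq', h1]
  refine sum_congr rfl fun g hg => ?_
  have hg' : g ∈ Y.H := hg
  congr 1
  simp only [Sys.cellOf, Sys.offOf, if_pos hg', cell_coef_sub]
  have := Int.mul_ediv_add_emod (Y.σ.coef g a) (Y.Δ g)
  omega

lemma agg_pt (h : Y.Ok) {x : (E × Bool → ℤ) × (E × Bool → ℤ)} (hx : agg Y.lab x.1 = x.1)
    (r : E × Bool → ℤ) : agg Y.lab (Y.pt x + Y.ov r) = x.1 := by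
  rw [cell_pt_eq, cell_agg_add, hx, h.agg_ov, add_zero]

lemma coef_pt (h : Y.Ok) (x : (E × Bool → ℤ) × (E × Bool → ℤ)) (r : E × Bool → ℤ) {g : E × Bool}
    (hg : g ∈ Y.H) : Y.σ.coef g (Y.pt x + Y.ov r) = Y.Δ g * x.2 g + r g := by
  rw [cell_pt_eq, coef_add, Sys.ov, h.coef_sum (H_sub Y hg) (H_sub Y), if_pos hg]
  ring

theorem cellOf_pt (h : Y.Ok) {x : (E × Bool → ℤ) × (E × Bool → ℤ)} (hx : x ∈ Y.Cells)
    {o : E × Bool → ℤ} (ho : o ∈ Y.Off) :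
    Y.cellOf (Y.pt x + Y.ov o) = x ∧ Y.offOf (Y.pt x + Y.ov o) = o := by
  classical
  obtain ⟨-, hx1, hx2⟩ := mem_filter.1 hx
  obtain ⟨ho1, ho2⟩ := mem_Off.1 ho
  refine ⟨Prod.ext (h.agg_pt (h.agg_of_Flab hx1) o) (funext fun g => ?_), funext fun g => ?_⟩
  · by_cases hg : g ∈ Y.H
    · simp only [Sys.cellOf, if_pos hg]
      rw [h.coef_pt x o hg, add_comm, Int.add_mul_ediv_left _ _ (Δ_pos Y g).ne',
        Int.ediv_eq_zero_of_lt (ho1 g hg).1 (ho1 g hg).2, zero_add]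
    · simp only [Sys.cellOf, if_neg hg]
      exact (hx2 g hg).symm
  · by_cases hg : g ∈ Y.H
    · simp only [Sys.offOf, if_pos hg]
      rw [h.coef_pt x o hg, add_comm, Int.add_mul_emod_self_left,
        Int.emod_eq_of_lt (ho1 g hg).1 (ho1 g hg).2]
    · simp only [Sys.offOf, if_neg hg]
      exact (ho2 g hg).symm

lemma ty_pt (h : Y.Ok) (x : (E × Bool → ℤ) × (E × Bool → ℤ)) (r : E × Bool → ℤ) :
    Y.ty (Y.pt x + Y.ov r) = Y.ty x.1 := by
  rw [cell_pt_eq, ty_add, Sys.ov, h.ty_v (H_sub Y), add_zero]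

lemma W_pt (h : Y.Ok) (x : (E × Bool → ℤ) × (E × Bool → ℤ)) (r : E × Bool → ℤ) :
    Y.W (Y.pt x + Y.ov r) = Y.W x.1 := by
  rw [cell_pt_eq, Sys.ov, Inst.W, h.wx_add _ (H_sub Y), Inst.W]

lemma mu_pt (h : Y.Ok) (pot : E → ℤ) (x : (E × Bool → ℤ) × (E × Bool → ℤ)) (r : E × Bool → ℤ) :
    Y.mu pot (Y.pt x + Y.ov r) = Y.mu pot x.1 := by
  rw [Sys.mu, Sys.mu, h.W_pt, h.pot_sum, h.pot_sum, h.ty_pt]

lemma pt_add (Y : Sys E) (x y : (E × Bool → ℤ) × (E × Bool → ℤ)) :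
    Y.pt (x + y) = Y.pt x + Y.pt y := by
  funext p
  simp only [Sys.pt, Sys.canon, Sys.ov, Prod.fst_add, Prod.snd_add, coef_add, Pi.add_apply,
    Pi.sub_apply, Finset.sum_apply, Pi.smul_apply, smul_eq_mul, mul_add, add_mul, sum_add_distrib]
  ring

/-- `range_le` for the classes of level `jK` and for the cuts `S g` (level `lv g + 1`), applied to
`a` and to `ctr`; the leak is bounded for tree indices. -/
theorem cellOf_mem (h : Y.Ok) {a : E × Bool → ℤ} (ha : a ∈ Y.Om) : Y.cellOf a ∈ Y.TCells := by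
  classical
  obtain ⟨ha1, ⟨i, k, ha2⟩, ha3⟩ := mem_filter.1 ha
  rw [Inst.mem_N] at ha1
  obtain ⟨hc1, hc2, -⟩ := h.ctr_spec
  have hs : (2 : ℤ) ^ 20 ≤ Y.s := by exact_mod_cast h.sz.big
  have hs1 : (1 : ℤ) ≤ Y.s := le_trans (by norm_num) hs
  have hdiff : ∀ (j : ℕ) (S : Finset (E × Bool)), Cls (Y.R j) S →
      |∑ p ∈ S, a p - ∑ p ∈ S, Y.ctr p| ≤ 8 * (Y.s : ℤ) ^ 4 * pθ Y.s j + 3 * (Y.s : ℤ) ^ 332 := by
    intro j S hS
    have a1 := h.range_le ha1 (h.norm_ell_le ha) hS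
    have a2 := h.range_le hc1 (M := 0) (by simp [hc2]) hS
    have a3 := abs_sub_le (∑ p ∈ S, (a p : ℝ)) (∑ p ∈ S, Y.c p) (∑ p ∈ S, (Y.ctr p : ℝ))
    rw [abs_sub_comm (∑ p ∈ S, Y.c p)] at a3
    have a4 : |∑ p ∈ S, (a p : ℝ) - ∑ p ∈ S, (Y.ctr p : ℝ)| ≤
        8 * (Y.s : ℝ) ^ 4 * pθ Y.s j + 3 * (Y.s : ℝ) ^ 332 := by
      simp only [pw] at a1
      push_cast at a1 a2
      have e : (Y.s : ℝ) * (3 * Y.s * Y.s ^ 330) = 3 * (Y.s : ℝ) ^ 332 := by ring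
      linarith
    exact_mod_cast a4
  have p1 : (Y.s : ℤ) ^ 332 ≤ (Y.s : ℤ) ^ 370 := pow_le_pow_right₀ hs1 (by norm_num)
  have p2 : (Y.s : ℤ) ^ 334 ≤ (Y.s : ℤ) ^ 370 := pow_le_pow_right₀ hs1 (by norm_num)
  have p3 : (Y.s : ℤ) ^ 330 ≤ (Y.s : ℤ) ^ 371 := pow_le_pow_right₀ hs1 (by norm_num)
  have p4 : 19 * (Y.s : ℤ) ^ 370 ≤ (Y.s : ℤ) ^ 371 := by
    rw [pow_succ' (Y.s : ℤ) 370]
    exact mul_le_mul_of_nonneg_right (le_trans (by norm_num) hs) (by positivity)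
  have p5 : 0 ≤ (Y.s : ℤ) ^ 370 := by positivity
  have hD : ((pD Y.s : ℕ) : ℤ) = (Y.s : ℤ) ^ 371 := by simp [pD]
  refine mem_filter.2 ⟨mem_filter.2 ⟨mem_product.2 ⟨mem_bx.2 fun p => ?_, mem_bx.2 fun g => ?_⟩,
    ha1.agg Y.lab, fun g hg => if_neg hg⟩, i, k, (h.ty_agg a).trans ha2⟩
  · have a1 := abs_le.1 (hdiff _ _ (cell_cls Y p))
    rw [h.sz.pθ_jK] at a1
    push_cast at a1
    have e : 8 * (Y.s : ℤ) ^ 4 * (Y.s : ℤ) ^ 366 = 8 * (Y.s : ℤ) ^ 370 := by ring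
    rw [e] at a1
    simp only [Sys.cellOf, Pi.sub_apply, Pi.add_apply, agg, hD]
    constructor <;> linarith [a1.1, a1.2]
  · simp only [Sys.cellOf, Pi.sub_apply, Pi.add_apply, hD]
    by_cases hg : g ∈ Y.H
    swap
    · simp only [if_neg hg]
      constructor <;> linarith
    simp only [if_pos hg]
    have hΔ := Δ_pos Y g
    have key : |Y.σ.coef g a - Y.σ.coef g Y.ctr| ≤ Y.Δ g * (Y.s : ℤ) ^ 371 := by
      have q1 : (Y.s : ℤ) ^ 371 ≤ Y.Δ g * (Y.s : ℤ) ^ 371 :=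
        le_mul_of_one_le_left (by positivity) hΔ
      by_cases ht : g ∈ Y.σ.tree
      · have a1 := ha3 g ht
        have a2 : Y.σ.coef g Y.ctr = 0 := by simp [Str.coef, ht, hc2]
        simp only [pw] at a1
        push_cast at a1
        rw [a2, sub_zero, abs_le]
        constructor <;> linarith [a1.1, a1.2]
      · have a1 := hdiff _ _ (h.valid.cut g (H_sub Y hg) ht)
        have a2 : ((pθ Y.s (Y.σ.lv g + 1) : ℕ) : ℤ) = 2 * (Y.Δ g * (Y.s : ℤ) ^ 330) := by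
          have := h.Δ_mul ht
          simp only [pw, pθ] at this ⊢
          push_cast at this ⊢
          rw [this]; ring
        simp only [Str.coef, if_neg ht]
        refine a1.trans ?_
        rw [a2]
        have e : 8 * (Y.s : ℤ) ^ 4 * (2 * (Y.Δ g * (Y.s : ℤ) ^ 330)) =
            Y.Δ g * (16 * (Y.s : ℤ) ^ 334) := by ring
        have q2 : 3 * (Y.s : ℤ) ^ 332 ≤ Y.Δ g * (3 * (Y.s : ℤ) ^ 332) :=
          le_mul_of_one_le_left (by positivity) hΔ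
        have q3 : Y.Δ g * (16 * (Y.s : ℤ) ^ 334 + 3 * (Y.s : ℤ) ^ 332) ≤ Y.Δ g * (Y.s : ℤ) ^ 371 :=
          mul_le_mul_of_nonneg_left (by linarith) hΔ.le
        rw [e]
        linarith
    rw [abs_le] at key
    have b1 := Int.ediv_le_ediv hΔ (show Y.σ.coef g a ≤ Y.σ.coef g Y.ctr + Y.Δ g * (Y.s : ℤ) ^ 371 by
      linarith [key.2])
    have b2 := Int.ediv_le_ediv hΔ (show Y.σ.coef g Y.ctr ≤ Y.σ.coef g a + Y.Δ g * (Y.s : ℤ) ^ 371 by
      linarith [key.1])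
    rw [Int.add_mul_ediv_left _ _ hΔ.ne'] at b1 b2
    constructor <;> linarith

theorem sum_Om (h : Y.Ok) (g : (E × Bool → ℤ) → ℝ) :
    ∑ a ∈ Y.Om, g a = ∑ x ∈ Y.TCells,
      ∑ o ∈ Y.Off.filter (fun o => Y.pt x + Y.ov o ∈ Y.Om), g (Y.pt x + Y.ov o) := by
  classical
  rw [← sum_fiberwise_of_maps_to (g := Y.cellOf) (t := Y.TCells) fun a ha => h.cellOf_mem ha]
  refine sum_congr rfl fun x hx => ?_
  have hx' : x ∈ Y.Cells := (mem_filter.1 hx).1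
  refine sum_nbij' Y.offOf (fun o => Y.pt x + Y.ov o) (fun a ha => ?_) (fun o ho => ?_)
    (fun a ha => ?_) (fun o ho => ?_) fun a ha => ?_
  · obtain ⟨a1, rfl⟩ := mem_filter.1 ha
    exact mem_filter.2 ⟨offOf_mem Y a, by rwa [h.pt_cellOf]⟩
  · obtain ⟨o1, o2⟩ := mem_filter.1 ho
    exact mem_filter.2 ⟨o2, (h.cellOf_pt hx' o1).1⟩
  · obtain ⟨-, rfl⟩ := mem_filter.1 ha
    exact h.pt_cellOf a
  · exact (h.cellOf_pt hx' (mem_filter.1 ho).1).2
  · obtain ⟨-, rfl⟩ := mem_filter.1 ha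
    rw [h.pt_cellOf]

lemma card_Cells (h : Y.Ok) : Y.Cells.card ≤ 2 ^ Y.s ^ 2 := by
  classical
  have hs := h.sz.big
  have hb : ∀ z : E × Bool → ℤ, (bx (z - fun _ => (pD Y.s : ℤ)) (z + fun _ => (pD Y.s : ℤ))).card ≤
      (Y.s ^ 372) ^ Y.s := by
    intro z
    have e : ∀ p, (Icc ((z - fun _ => (pD Y.s : ℤ) : E × Bool → ℤ) p)
        ((z + fun _ => (pD Y.s : ℤ) : E × Bool → ℤ) p)).card = 2 * pD Y.s + 1 := by
      intro p
      simp only [Pi.sub_apply, Pi.add_apply, Int.card_Icc]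
      omega
    have hs3 : 3 ≤ Y.s := le_trans (by norm_num) hs
    have h1 : 1 ≤ Y.s ^ 371 := Nat.one_le_pow _ _ (by omega)
    have h2 : 2 * pD Y.s + 1 ≤ Y.s ^ 372 := by
      rw [pow_succ' Y.s 371, pD]
      have : 3 * Y.s ^ 371 ≤ Y.s * Y.s ^ 371 := Nat.mul_le_mul_right _ hs3
      generalize Y.s ^ 371 = t at *
      omega
    rw [bx, Fintype.card_piFinset]
    simp only [e, prod_const, card_univ]
    exact (Nat.pow_le_pow_left h2 _).trans
      (Nat.pow_le_pow_right (Nat.one_le_pow _ _ (by omega)) h.sz.card.le)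
  refine (card_filter_le _ _).trans ?_
  rw [card_product]
  refine (Nat.mul_le_mul (hb _) (hb _)).trans ?_
  rw [← mul_pow, ← pow_add, sq, pow_mul]
  exact Nat.pow_le_pow_left (h.sz.pow_le (by norm_num)) _

lemma le_W_cell (h : Y.Ok) {x : (E × Bool → ℤ) × (E × Bool → ℤ)} (hx : x ∈ Y.Cells) :
    (1 / 2) ^ Y.s ^ 2 ≤ Y.W x.1 := by
  classical
  obtain ⟨a, ha, e⟩ := h.exists_of_Flab (mem_filter.1 hx).2.1
  rw [← e, Inst.W, h.wx_agg]
  exact h.sz.le_W ha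

end Sys.Ok

end Crest.Agent.R302
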