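import Crest.Agent.R302.Feas
import Crest.Agent.R302.Base

/-!
Row 302, part D8: the partition function as a function of the leak; lifting and absorbing.
-/

set_option autoImplicit false
set_option linter.unusedSectionVars false

namespace Crest.Agent.R302

open Finset

variable {E : Type} [Fintype E] [DecidableEq E]

lemma flat_agg_add {P C : Type} [Fintype P] [DecidableEq C] (cl : P → C) (a b : P → ℤ) :
    agg cl (a + b) = agg cl a + agg cl b := by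
  funext j
  simp [agg, sum_add_distrib]

lemma flat_agg_smul {P C : Type} [Fintype P] [DecidableEq C] (cl : P → C) (t : ℤ) (a : P → ℤ) :
    agg cl (t • a) = t • agg cl a := by
  funext j
  simp [agg, mul_sum]

lemma flat_agg_zero {P C : Type} [Fintype P] [DecidableEq C] (cl : P → C) :
    agg cl (0 : P → ℤ) = 0 := by
  funext j
  simp [agg]

lemma flat_agg_sum {P C κ : Type} [Fintype P] [DecidableEq C] (cl : P → C) (J : Finset κ)
    (t : κ → ℤ) (a : κ → P → ℤ) : agg cl (∑ g ∈ J, t g • a g) = ∑ g ∈ J, t g • agg cl (a g) := by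
  classical
  induction J using Finset.induction_on with
  | empty => simp [flat_agg_zero]
  | insert g J hg ih => rw [sum_insert hg, sum_insert hg, flat_agg_add, flat_agg_smul, ih]

lemma flat_norm_root (a b : E) : ∑ e, |(Pi.single a 1 - Pi.single b 1 : E → ℤ) e| ≤ 2 := by
  calc _ ≤ ∑ e, ((Pi.single a 1 : E → ℤ) e + (Pi.single b 1 : E → ℤ) e) := by
        refine sum_le_sum fun e _ => ?_
        simp only [Pi.sub_apply, Pi.single_apply]
        split_ifs <;> simp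
    _ = 2 := by simp [sum_add_distrib]

lemma flat_norm_add (a b : E → ℤ) : ∑ e, |(a + b) e| ≤ ∑ e, |a e| + ∑ e, |b e| := by
  rw [← sum_add_distrib]
  exact sum_le_sum fun e _ => abs_add_le _ _

lemma flat_norm_smul (t : ℤ) (a : E → ℤ) : ∑ e, |(t • a) e| = |t| * ∑ e, |a e| := by
  simp [abs_mul, mul_sum]

namespace Inst

variable {I : Inst E}

/-- `DL.base` times coordinate weights (`DL.mul_prod`), `DL.conS` for the pairs
`((e, false), (e, true))` with windows that cover the polytope, pulled back along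
`γ ↦ fun p => if p.2 then 0 else γ p.1`. -/
theorem Zb_dl (hF : Submod I.F) (h0 : I.F ∅ = 0)
    (hc : ∀ p j, 2 * I.φ p (j + 1) ≤ I.φ p j + I.φ p (j + 2)) (lo hi : E → ℤ) :
    DL uv univ (I.Zb lo hi) := by
  classical
  have h1 := (DL.base hF h0).mul_prod (ψ := fun p j => (1 / 2 : ℝ) ^ I.φ p j *
    if p.2 = true then (if lo p.1 ≤ j ∧ j ≤ hi p.1 then 1 else 0) else 1) fun p =>
      (DL1.half_pow (hc p)).mul (by
        cases p.2
        · simpa using DL1.one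
        · simpa using DL1.icc (lo p.1) (hi p.1))
  have h2 := h1.conS (α := fun e : E => (e, true)) (β := fun e => (e, false)) (J := univ)
    (fun _ _ => mem_univ _) (fun _ _ => mem_univ _) (lo := fun e => min (lo e) (hi e)) (hi := hi)
    fun e _ => min_le_right _ _
  let φ : (E → ℤ) →+ (E × Bool → ℤ) :=
    { toFun := fun γ p => if p.2 = true then 0 else γ p.1
      map_zero' := by funext p; simp
      map_add' := fun a b => by
        funext p
        simp only [Pi.add_apply]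
        split_ifs <;> simp }
  have h3 := h2.comap (e' := uv) (S' := univ) φ 0 fun e _ => Or.inr ⟨(e, false), mem_univ _, by
    funext ⟨e', b⟩
    cases b <;> simp [φ, uv, Pi.single_apply]⟩
  convert h3 using 2 with γ
  have hnd : ∀ a : E → ℤ, nd uv (fun e : E => (e, true)) (fun e => (e, false)) (0 + φ γ) a =
      fun p => if p.2 = true then a p.1 else γ p.1 - a p.1 := by
    intro a
    funext ⟨e, b⟩
    cases b <;> simp [nd, φ, uv, Finset.sum_apply, Pi.single_apply, sub_eq_add_neg]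
  simp only [hnd]
  have hW : ∀ y : E × Bool → ℤ, ((if InB I.F y then (1 : ℝ) else 0) * ∏ p : E × Bool,
      (1 / 2 : ℝ) ^ I.φ p (y p) *
        if p.2 = true then (if lo p.1 ≤ y p ∧ y p ≤ hi p.1 then 1 else 0) else 1) =
      if InB I.F y ∧ ∀ e, lo e ≤ y (e, true) ∧ y (e, true) ≤ hi e then I.W y else 0 := by
    intro y
    rw [prod_mul_distrib, prod_pow_eq_pow_sum, Fintype.prod_prod_type]
    simp only [Fintype.prod_bool, if_true, Bool.false_eq_true, if_false, mul_one,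
      Fintype.prod_boole, W, wx]
    by_cases a1 : InB I.F y <;> by_cases a2 : ∀ e, lo e ≤ y (e, true) ∧ y (e, true) ≤ hi e <;>
      simp [a1, a2]
  simp only [hW]
  rw [← sum_filter, Zb]
  refine sum_nbij' (fun y e => y (e, true))
    (fun a p => if p.2 = true then a p.1 else γ p.1 - a p.1) (fun y hy => ?_) (fun a ha => ?_)
    (fun y hy => ?_) (fun a _ => ?_) fun y hy => ?_
  · obtain ⟨y1, y2, y3⟩ := mem_filter.1 hy
    have e : (fun p : E × Bool => if p.2 = true then y (p.1, true) else γ p.1 - y (p.1, true)) =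
        y := by
      funext ⟨e, b⟩
      cases b <;> simp [← y2, ell_apply]
    refine mem_filter.2 ⟨Fintype.mem_piFinset.2 fun e => ?_, ?_, fun e => ?_⟩
    · rw [if_pos (mem_univ _), mem_Icc]
      exact ⟨(min_le_left _ _).trans (y3 e).1, (y3 e).2⟩
    · rw [e]; exact I.mem_N.1 y1
    · simpa using y3 e
  · obtain ⟨-, a2, a3⟩ := mem_filter.1 ha
    refine mem_filter.2 ⟨I.mem_N.2 a2, ?_, a3⟩
    funext e
    simp [ell_apply]
  · obtain ⟨-, y2, -⟩ := mem_filter.1 hy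
    funext ⟨e, b⟩
    cases b <;> simp [← y2, ell_apply]
  · funext e
    simp
  · obtain ⟨-, y2, -⟩ := mem_filter.1 hy
    congr 1
    funext ⟨e, b⟩
    cases b <;> simp [← y2, ell_apply]

lemma Zb_eq_Z {lo hi : E → ℤ} (h : ∀ a, InB I.F a → ∀ e, lo e ≤ a (e, true) ∧ a (e, true) ≤ hi e) :
    I.Zb lo hi = I.Z := by
  funext γ
  rw [Zb, Z]
  refine sum_congr (filter_congr fun a ha => ?_) fun _ _ => rfl
  exact and_iff_left (h a (I.mem_N.1 ha))

theorem Z_dl (hF : Submod I.F) (h0 : I.F ∅ = 0)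
    (hc : ∀ p j, 2 * I.φ p (j + 1) ≤ I.φ p j + I.φ p (j + 2)) : DL uv univ I.Z := by
  classical
  rw [← Zb_eq_Z (lo := fun e => I.F univ - I.F {(e, true)}ᶜ) (hi := fun e => I.F {(e, true)})
    fun a ha e => mem_bx.1 (mem_filter.1 (I.mem_N.2 ha)).1 (e, true)]
  exact Zb_dl hF h0 hc _ _

/-- `DL.tri` at the base point `- uv j - uv k`. -/
theorem Z_tri {s : ℕ} (h : I.Sz s) (i k j : E) :
    I.Z (uv i - uv k) * I.Z (uv k - uv j) ≤ 2 * (I.Z (uv i - uv j) * I.Z 0) := by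
  have h1 := (Z_dl h.sub h.empty h.conv).tri (mem_univ i) (mem_univ k) (mem_univ j) (-uv j - uv k)
  rwa [show -uv j - uv k + uv i + uv j = uv i - uv k by abel,
    show -uv j - uv k + uv k + uv k = uv k - uv j by abel,
    show -uv j - uv k + uv i + uv k = uv i - uv j by abel,
    show -uv j - uv k + uv k + uv j = 0 by abel] at h1

end Inst

namespace Sys.Ok

variable {Y : Sys E}

lemma flat_ty_v (h : Y.Ok) {g : E × Bool} (hg : g ∈ Y.σ.tree) :
    agg Y.σ.root (ell (Y.σ.v g)) = 0 := by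
  have := h.ty_v (J := {g}) (by simpa using h.valid.tree_sub hg) fun _ => 1
  rwa [sum_singleton, one_smul] at this

lemma flat_ell_tv (φ : E × Bool → ℤ) : ell (Y.tv φ) = ∑ g ∈ Y.σ.tree, φ g • ell (Y.σ.v g) :=
  flat_agg_sum _ _ _ _

lemma flat_card_tree (h : Y.Ok) : Y.σ.tree.card < Y.s := (card_le_univ _).trans_lt h.sz.card

lemma flat_pw_pos (h : Y.Ok) : 0 < pw Y.s := pow_pos (lt_of_lt_of_le (by norm_num) h.sz.big) _

lemma flat_bounds (h : Y.Ok) {lo hi : E → ℤ} {z : E × Bool → ℤ} (hz : InB Y.F z) {i k : E}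
    (hτ : ell z = Y.τ i k)
    (hb : ∀ e, lo e + 3 * Y.s ^ 6 * pw Y.s ≤ z (e, true) ∧ z (e, true) + 3 * Y.s ^ 6 * pw Y.s ≤ hi e)
    {δ : E → ℤ} (hδ : agg Y.σ.root δ = 0) (hn : ∑ e, |δ e| ≤ 3 * Y.s ^ 6 * pw Y.s) :
    (1 / 2) ^ Y.s ^ 2 ≤ Y.Zb lo hi (Y.τ i k + δ) := by
  have hs := h.sz.big
  have h1 : ∑ e, |(Y.τ i k + δ) e| ≤ (Y.s : ℤ) ^ 345 := by
    refine (flat_norm_add _ _).trans ((add_le_add (flat_norm_root _ _) hn).trans ?_)
    have : 2 + 3 * Y.s ^ 6 * pw Y.s ≤ Y.s ^ 345 := by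
      have a1 := h.flat_pw_pos
      have a2 : 5 * Y.s ^ 6 ≤ Y.s ^ 15 := by
        rw [show Y.s ^ 15 = Y.s ^ 9 * Y.s ^ 6 by ring]
        exact Nat.mul_le_mul_right _ (le_trans (by omega) (Nat.le_self_pow (by norm_num) _))
      have a3 : 0 < Y.s ^ 6 := pow_pos (by omega) _
      have a4 : Y.s ^ 345 = Y.s ^ 15 * pw Y.s := by rw [pw, ← pow_add]
      rw [a4]
      nlinarith [Nat.mul_le_mul_right (pw Y.s) a2, Nat.mul_pos a3 a1]
    exact_mod_cast this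
  have h2 := h.feas hz (γ := Y.τ i k + δ) (by
    rw [flat_agg_add, hδ, add_zero, Sys.ty, hτ]) h1
  obtain ⟨a, a1, a2, a3⟩ := prox h.sz.sub h.sz.empty Prod.fst (inBR_toR.2 hz) h2
    (M := 3 * Y.s ^ 6 * pw Y.s) (by
      have : ∀ e, agg Prod.fst (toR z) e = (Y.τ i k e : ℝ) := fun e => by
        rw [← hτ, ell, agg, agg]
        simp [toR]
      simp only [this, Pi.add_apply, Int.cast_add, add_sub_cancel_left]
      exact_mod_cast hn)
  refine (h.sz.le_W a1).trans (single_le_sum (f := Y.W) (fun a _ => (Y.W_pos a).le)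
    (mem_filter.2 ⟨Y.mem_N.2 a1, a2, fun e => ?_⟩))
  have a4 := a3 (e, true)
  have a5 := hb e
  simp only [toR, Int.floor_intCast, Int.ceil_intCast] at a4
  constructor <;> omega

lemma flat_upper (h : Y.Ok) (lo hi γ : E → ℤ) : Y.Zb lo hi γ ≤ 2 ^ (2 * Y.s ^ 2) := by
  refine (sum_le_card_nsmul _ _ 1 fun a _ => Y.W_le_one a).trans ?_
  rw [nsmul_eq_mul, mul_one]
  exact_mod_cast (card_filter_le _ _).trans h.sz.card_N

lemma flat_step (h : Y.Ok) {lo hi : E → ℤ} {z : E × Bool → ℤ} (hz : InB Y.F z) {i k : E}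
    (hτ : ell z = Y.τ i k)
    (hb : ∀ e, lo e + 3 * Y.s ^ 6 * pw Y.s ≤ z (e, true) ∧ z (e, true) + 3 * Y.s ^ 6 * pw Y.s ≤ hi e)
    {δ : E → ℤ} (hδ : agg Y.σ.root δ = 0) (hn : ∑ e, |δ e| ≤ Y.s ^ 6 * pw Y.s) {a b : E}
    (hab : agg Y.σ.root (uv a - uv b) = 0) :
    (1 - ((3 * Y.s ^ 2 : ℕ) : ℝ) / (Y.s ^ 6 * pw Y.s : ℕ)) * Y.Zb lo hi (Y.τ i k + δ) ≤
      Y.Zb lo hi (Y.τ i k + (δ + (uv a - uv b))) := by
  have hM : 0 < Y.s ^ 6 * pw Y.s :=
    Nat.mul_pos (pow_pos (lt_of_lt_of_le (by norm_num) h.sz.big) _) h.flat_pw_pos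
  have h1 := (Inst.Zb_dl h.sz.sub h.sz.empty h.sz.conv lo hi).root (mem_univ a) (mem_univ b)
    (Y.τ i k + δ)
  have h2 := h.flat_bounds hz hτ hb (δ := δ + ((Y.s ^ 6 * pw Y.s : ℕ) : ℤ) • (uv a - uv b))
    (by rw [flat_agg_add, flat_agg_smul, hδ, hab, smul_zero, add_zero]) (by
      refine (flat_norm_add _ _).trans ?_
      rw [flat_norm_smul, Nat.abs_cast]
      have := mul_le_mul_of_nonneg_left (flat_norm_root a b) (Nat.cast_nonneg (Y.s ^ 6 * pw Y.s))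
      push_cast at this ⊢
      unfold uv
      linarith)
  have h3 := h1.near (B := 3 * Y.s ^ 2) (T := Y.s ^ 6 * pw Y.s) (d := 1) hM hM (by
    rw [zero_smul, add_zero, add_assoc]
    refine (h.flat_upper _ _ _).trans (le_trans (le_of_eq ?_)
      (mul_le_mul_of_nonneg_left h2 (by positivity)))
    rw [show 3 * Y.s ^ 2 = 2 * Y.s ^ 2 + Y.s ^ 2 by ring, pow_add, mul_assoc, ← mul_pow]
    norm_num)
  simpa only [zero_smul, add_zero, Nat.cast_one, mul_one, one_smul, add_assoc] using h3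

lemma flat_walk (h : Y.Ok) {lo hi : E → ℤ} {z : E × Bool → ℤ} (hz : InB Y.F z) {i k : E}
    (hτ : ell z = Y.τ i k)
    (hb : ∀ e, lo e + 3 * Y.s ^ 6 * pw Y.s ≤ z (e, true) ∧ z (e, true) + 3 * Y.s ^ 6 * pw Y.s ≤ hi e)
    {q : ℝ} (hq : q = 1 - ((3 * Y.s ^ 2 : ℕ) : ℝ) / (Y.s ^ 6 * pw Y.s : ℕ)) (hq0 : 0 ≤ q)
    (L : List (E × E)) (hL : ∀ x ∈ L, agg Y.σ.root (uv x.1 - uv x.2) = 0)
    (hl : 2 * L.length ≤ Y.s ^ 6 * pw Y.s) :
    agg Y.σ.root (L.map fun x => uv x.1 - uv x.2).sum = 0 ∧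
    ∑ e, |(L.map fun x => uv x.1 - uv x.2).sum e| ≤ 2 * L.length ∧
    q ^ L.length * Y.Zb lo hi (Y.τ i k) ≤
      Y.Zb lo hi (Y.τ i k + (L.map fun x => uv x.1 - uv x.2).sum) ∧
    q ^ L.length * Y.Zb lo hi (Y.τ i k + (L.map fun x => uv x.1 - uv x.2).sum) ≤
      Y.Zb lo hi (Y.τ i k) := by
  induction L with
  | nil => simp [flat_agg_zero]
  | cons x L ih =>
    simp only [List.length_cons, List.map_cons, List.sum_cons] at hl ⊢
    obtain ⟨h1, h2, h3, h4⟩ := ih (fun y hy => hL y (List.mem_cons_of_mem _ hy)) (by omega)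
    have hx := hL x List.mem_cons_self
    generalize (L.map fun x => uv x.1 - uv x.2).sum = δ at *
    rw [add_comm (uv x.1 - uv x.2)]
    have hl' : (2 * (L.length + 1 : ℕ) : ℤ) ≤ Y.s ^ 6 * pw Y.s := by exact_mod_cast hl
    have h5 : agg Y.σ.root (δ + (uv x.1 - uv x.2)) = 0 := by rw [flat_agg_add, h1, hx, add_zero]
    have h6 : ∑ e, |(δ + (uv x.1 - uv x.2)) e| ≤ 2 * (L.length + 1 : ℕ) := by
      refine (flat_norm_add _ _).trans ((add_le_add h2 (flat_norm_root _ _)).trans ?_)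
      push_cast
      omega
    have h7 := h.flat_step hz hτ hb h1 (by push_cast at hl' ⊢; omega) hx
    have h8 := h.flat_step hz hτ hb h5 (h6.trans hl') (a := x.2) (b := x.1) (by
      rw [← neg_sub, ← neg_one_smul ℤ, flat_agg_smul, hx, smul_zero])
    rw [← hq] at h7 h8
    rw [show δ + (uv x.1 - uv x.2) + (uv x.2 - uv x.1) = δ by abel] at h8
    refine ⟨h5, h6, ?_, ?_⟩
    · rw [pow_succ', mul_assoc]
      exact (mul_le_mul_of_nonneg_left h3 hq0).trans h7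
    · rw [pow_succ, mul_assoc]
      exact (mul_le_mul_of_nonneg_left h8 (pow_nonneg hq0 _)).trans h4

lemma flat_list (h : Y.Ok) (c : E × Bool → ℤ) (J : Finset (E × Bool)) (hJ : J ⊆ Y.σ.tree) :
    ∃ L : List (E × E), (∀ x ∈ L, agg Y.σ.root (uv x.1 - uv x.2) = 0) ∧
      (L.length : ℤ) = ∑ g ∈ J, |c g| ∧
      (L.map fun x => uv x.1 - uv x.2).sum = ∑ g ∈ J, c g • ell (Y.σ.v g) := by
  induction J using Finset.induction_on with
  | empty => exact ⟨[], by simp, by simp, by simp⟩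
  | insert g J hg ih =>
    obtain ⟨L, h1, h2, h3⟩ := ih ((subset_insert _ _).trans hJ)
    have hgt := hJ (mem_insert_self _ _)
    obtain ⟨a, b, hab⟩ := h.valid.tree_root g hgt
    have h4 : agg Y.σ.root (uv a - uv b) = 0 := by
      have := h.flat_ty_v hgt
      rwa [hab] at this
    rw [sum_insert hg, sum_insert hg, hab, ← h2, ← h3]
    obtain ⟨n, hn | hn⟩ := Int.eq_nat_or_neg (c g)
    · refine ⟨List.replicate n (a, b) ++ L, fun x hx => ?_, by simp [hn], by simp [hn, uv]⟩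
      rcases List.mem_append.1 hx with hx | hx
      · rw [List.eq_of_mem_replicate hx]; exact h4
      · exact h1 x hx
    · refine ⟨List.replicate n (b, a) ++ L, fun x hx => ?_, by simp [hn], ?_⟩
      · rcases List.mem_append.1 hx with hx | hx
        · rw [List.eq_of_mem_replicate hx, ← neg_sub, ← neg_one_smul ℤ, flat_agg_smul, h4,
            smul_zero]
        · exact h1 x hx
      · simp only [hn, List.map_append, List.map_replicate, List.sum_append, List.sum_replicate,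
          neg_smul, natCast_zsmul, uv, ← smul_neg, neg_sub]

/-- Walk from `τ` to `γ = τ + ∑ γ (U g) • ell (v g)` (`Valid.leak`) in at most `3 s² pw` root steps
(`Valid.tree_root`).  With `M = s ^ 6 pw`, every leak `γ'` within `M` further root steps of the walk
has `‖γ' - τ‖₁ ≤ 3 M`, is feasible (`feas`) and is realised inside the box (`prox` from `z`), so
`2 ^ (- s²) ≤ Zb γ' ≤ 2 ^ (2 s²)`; by `DL.root`, `DL1.near`, `DL1.neg` every step changes `Zb` by a factor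
at least `1 - 3 s² / M` in both directions. -/
theorem flat_box (h : Y.Ok) {lo hi : E → ℤ} {z : E × Bool → ℤ} (hz : InB Y.F z) {i k : E}
    (hτ : ell z = Y.τ i k)
    (hb : ∀ e, lo e + 3 * Y.s ^ 6 * pw Y.s ≤ z (e, true) ∧ z (e, true) + 3 * Y.s ^ 6 * pw Y.s ≤ hi e)
    {γ : E → ℤ} (hγ : agg Y.σ.root γ = Y.τ i k) (hn : ∑ e, |γ e| ≤ 3 * Y.s * pw Y.s) :
    Y.Zb lo hi γ ≤ 2 * Y.Zb lo hi (Y.τ i k) ∧ Y.Zb lo hi (Y.τ i k) ≤ 2 * Y.Zb lo hi γ := by
  have hs := h.sz.big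
  have hw := h.flat_pw_pos
  obtain ⟨L, h1, h2, h3⟩ := h.flat_list (fun g => ∑ e ∈ Y.σ.U g, γ e) _ subset_rfl
  have h4 : Y.τ i k + (L.map fun x => uv x.1 - uv x.2).sum = γ := by
    rw [h3, ← hγ, add_comm]
    exact (h.valid.leak γ).symm
  have h5 : L.length ≤ 3 * Y.s ^ 2 * pw Y.s := by
    have a1 : ∑ g ∈ Y.σ.tree, |∑ e ∈ Y.σ.U g, γ e| ≤ Y.σ.tree.card • (3 * Y.s * pw Y.s : ℤ) :=
      sum_le_card_nsmul _ _ _ fun g _ => (abs_sum_le_sum_abs _ _).trans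
        ((sum_le_sum_of_subset_of_nonneg (subset_univ _) fun _ _ _ => abs_nonneg _).trans hn)
    rw [← h2, nsmul_eq_mul] at a1
    have a2 : L.length ≤ Y.σ.tree.card * (3 * Y.s * pw Y.s) := by exact_mod_cast a1
    calc _ ≤ Y.s * (3 * Y.s * pw Y.s) := a2.trans (Nat.mul_le_mul_right _ h.flat_card_tree.le)
      _ = _ := by ring
  have h6 : 18 * Y.s ^ 4 ≤ Y.s ^ 6 := by
    rw [show Y.s ^ 6 = Y.s ^ 2 * Y.s ^ 4 by ring]
    exact Nat.mul_le_mul_right _ (by nlinarith)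
  have h7 : Y.s ^ 2 ≤ Y.s ^ 4 := Nat.pow_le_pow_right (by omega) (by norm_num)
  have hM : (0 : ℝ) < (Y.s ^ 6 * pw Y.s : ℕ) := by
    exact_mod_cast Nat.mul_pos (pow_pos (by omega) _) hw
  have h8 : ((3 * Y.s ^ 2 : ℕ) : ℝ) / (Y.s ^ 6 * pw Y.s : ℕ) ≤ 1 := by
    rw [div_le_one hM]
    exact_mod_cast (show 3 * Y.s ^ 2 ≤ Y.s ^ 6 by omega).trans (Nat.le_mul_of_pos_right _ hw)
  obtain ⟨-, -, h9, h10⟩ := h.flat_walk hz hτ hb rfl (sub_nonneg.2 h8) L h1 (by nlinarith)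
  rw [h4] at h9 h10
  have h11 := one_add_mul_le_pow (a := -(((3 * Y.s ^ 2 : ℕ) : ℝ) / (Y.s ^ 6 * pw Y.s : ℕ)))
    (by linarith) L.length
  rw [← sub_eq_add_neg] at h11
  have h12 : (L.length : ℝ) * (((3 * Y.s ^ 2 : ℕ) : ℝ) / (Y.s ^ 6 * pw Y.s : ℕ)) ≤ 1 / 2 := by
    rw [← mul_div_assoc, div_le_div_iff₀ hM two_pos]
    have : L.length * (3 * Y.s ^ 2) * 2 ≤ 1 * (Y.s ^ 6 * pw Y.s) :=
      calc _ ≤ 3 * Y.s ^ 2 * pw Y.s * (3 * Y.s ^ 2) * 2 := by gcongr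
        _ = 18 * Y.s ^ 4 * pw Y.s := by ring
        _ ≤ _ := by rw [one_mul]; gcongr
    exact_mod_cast this
  have h13 : ∀ γ', 0 ≤ Y.Zb lo hi γ' := fun γ' => sum_nonneg fun a _ => (Y.W_pos a).le
  have h14 := h13 γ
  have h15 := h13 (Y.τ i k)
  constructor <;> nlinarith

/-- If one side is positive the type is feasible (`exists_deep`); take a huge box. -/
theorem flat (h : Y.Ok) {i k : E} {γ : E → ℤ} (hγ : agg Y.σ.root γ = Y.τ i k)
    (hn : ∑ e, |γ e| ≤ 3 * Y.s * pw Y.s) :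
    Y.Z γ ≤ 2 * Y.Z (Y.τ i k) ∧ Y.Z (Y.τ i k) ≤ 2 * Y.Z γ := by
  classical
  by_cases hex : ∃ a, InB Y.F a ∧ Y.ty a = Y.τ i k
  · obtain ⟨a, ha, hτ⟩ := hex
    obtain ⟨b, hb, hb', -⟩ := h.exists_deep ha hτ
    have hb1 : InB Y.F b := Y.mem_N.1 (mem_filter.1 hb).1
    have h0 : (0 : ℤ) ≤ 3 * Y.s ^ 6 * pw Y.s := by positivity
    rw [← Inst.Zb_eq_Z (lo := fun _ => -(2 ^ Y.s + 3 * Y.s ^ 6 * pw Y.s))
      (hi := fun _ => 2 ^ Y.s + 3 * Y.s ^ 6 * pw Y.s) fun a ha e => by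
        have := abs_le.1 (h.sz.bound a ha (e, true))
        constructor <;> linarith]
    refine h.flat_box hb1 hb' (fun e => ?_) hγ hn
    have := abs_le.1 (h.sz.bound b hb1 (e, true))
    constructor <;> linarith
  · have key : ∀ γ', agg Y.σ.root γ' = Y.τ i k → Y.Z γ' = 0 := fun γ' h' =>
      sum_eq_zero fun a ha => absurd ⟨a, Y.mem_N.1 (mem_filter.1 ha).1, by
        rw [Sys.ty, (mem_filter.1 ha).2, h']⟩ hex
    rw [key γ hγ, key _ (h.agg_τ i k)]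
    simp

lemma mem_lbox {φ : E × Bool → ℤ} : φ ∈ Y.lbox ↔
    (∀ g ∈ Y.σ.tree, -(pw Y.s : ℤ) ≤ φ g ∧ φ g < pw Y.s) ∧ ∀ g ∉ Y.σ.tree, φ g = 0 := by
  simp only [lbox, boxJ, Fintype.mem_piFinset]
  constructor
  · intro h
    refine ⟨fun g hg => ?_, fun g hg => ?_⟩
    · have := h g
      rw [if_pos hg, mem_Icc] at this
      omega
    · have := h g
      rwa [if_neg hg, mem_singleton] at this
  · rintro ⟨h1, h2⟩ g
    split_ifs with hg
    · have := h1 g hg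
      rw [mem_Icc]
      omega
    · rw [mem_singleton]; exact h2 g hg

lemma card_lbox (Y : Sys E) : Y.lbox.card = (2 * pw Y.s) ^ Y.σ.tree.card := by
  rw [lbox, boxJ, Fintype.card_piFinset]
  have : ∀ g, (if g ∈ Y.σ.tree then Icc (-(pw Y.s : ℤ)) ((pw Y.s : ℤ) - 1) else {0}).card =
      if g ∈ Y.σ.tree then 2 * pw Y.s else 1 := fun g => by
    split_ifs
    · rw [Int.card_Icc]; omega
    · rfl
  simp only [this]
  rw [prod_ite_mem, univ_inter, prod_const]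

lemma flat_coef (h : Y.Ok) {a φ : E × Bool → ℤ} {i k : E} (ha : ell a = Y.τ i k + ell (Y.tv φ))
    {g : E × Bool} (hg : g ∈ Y.σ.tree) : Y.σ.coef g a = φ g := by
  have h1 := h.coef_sum (h.valid.tree_sub hg) h.valid.tree_sub φ
  rw [if_pos hg, Str.coef, if_pos hg] at h1
  rw [Str.coef, if_pos hg, ha, ← h1]
  refine sum_congr rfl fun e he => ?_
  have h2 : ∀ j, e ≠ Y.σ.root j := fun j hj =>
    (h.valid.U_sub g hg e he).2 (by rw [hj, h.valid.root_idem])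
  simp [Sys.τ, h2, Sys.tv]

lemma flat_tv_congr {φ φ' : E × Bool → ℤ} (h : ∀ g ∈ Y.σ.tree, φ g = φ' g) : Y.tv φ = Y.tv φ' :=
  sum_congr rfl fun g hg => by rw [h g hg]

lemma flat_cf_mem {a : E × Bool → ℤ} (ha : Y.Leak a) :
    (fun g => if g ∈ Y.σ.tree then Y.σ.coef g a else 0) ∈ Y.lbox :=
  mem_lbox.2 ⟨fun g hg => by rw [if_pos hg]; exact ha g hg, fun g hg => if_neg hg⟩

lemma coef_lift (h : Y.Ok) {z : E × Bool → ℤ} {i k : E} (hz : ell z = Y.τ i k) (φ : E × Bool → ℤ)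
    {g : E × Bool} (hg : g ∈ Y.σ.tree) : Y.σ.coef g (z + Y.tv φ) = φ g := by
  exact h.flat_coef (by rw [← hz]; exact flat_agg_add _ _ _) hg

lemma ell_eq (h : Y.Ok) (a : E × Bool → ℤ) :
    ell a = Y.ty a + ell (Y.tv fun g => Y.σ.coef g a) := by
  rw [flat_ell_tv, add_comm, Sys.ty]
  conv_lhs => rw [h.valid.leak (ell a)]
  congr 1
  exact sum_congr rfl fun g hg => by rw [Str.coef, if_pos hg]

lemma leak_spec (h : Y.Ok) (i k : E) {φ : E × Bool → ℤ} (hφ : φ ∈ Y.lbox) :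
    agg Y.σ.root (Y.τ i k + ell (Y.tv φ)) = Y.τ i k ∧
      ∑ e, |(Y.τ i k + ell (Y.tv φ)) e| ≤ 3 * Y.s * pw Y.s := by
  refine ⟨?_, ?_⟩
  · rw [flat_agg_add, h.agg_τ]
    exact add_eq_left.2 (h.ty_v h.valid.tree_sub φ)
  · have h1 : ∑ e, |ell (Y.tv φ) e| ≤ Y.σ.tree.card • (pw Y.s * 2 : ℤ) := by
      rw [flat_ell_tv]
      simp only [Finset.sum_apply]
      refine (sum_le_sum fun e _ => abs_sum_le_sum_abs _ _).trans ?_
      rw [sum_comm]
      refine sum_le_card_nsmul _ _ _ fun g hg => ?_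
      obtain ⟨a, b, hab⟩ := h.valid.tree_root g hg
      have h2 := (mem_lbox.1 hφ).1 g hg
      rw [flat_norm_smul, hab]
      exact mul_le_mul (abs_le.2 ⟨h2.1, h2.2.le⟩) (flat_norm_root _ _)
        (sum_nonneg fun _ _ => abs_nonneg _) (by positivity)
    refine (flat_norm_add _ _).trans ((add_le_add (flat_norm_root _ _) h1).trans ?_)
    have h2 := h.flat_card_tree
    have h3 := h.flat_pw_pos
    have : 2 + Y.σ.tree.card * (pw Y.s * 2) ≤ 3 * Y.s * pw Y.s := by nlinarith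
    rw [nsmul_eq_mul]
    exact_mod_cast this

/-- The states of the type `τ`, sorted by their leak. -/
theorem sum_type (h : Y.Ok) (i k : E) (g : (E × Bool → ℤ) → ℝ) :
    ∑ a ∈ Y.Om.filter (fun a => Y.ty a = Y.τ i k), g a =
      ∑ φ ∈ Y.lbox, ∑ a ∈ Y.N.filter (fun a => ell a = Y.τ i k + ell (Y.tv φ)), g a := by
  classical
  rw [← sum_fiberwise_of_maps_to (t := Y.lbox)
    (g := fun a l => if l ∈ Y.σ.tree then Y.σ.coef l a else 0)
    fun a ha => flat_cf_mem (mem_filter.1 (mem_filter.1 ha).1).2.2]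
  refine sum_congr rfl fun φ hφ => sum_congr ?_ fun _ _ => rfl
  ext a
  simp only [mem_filter, Sys.Om]
  constructor
  · rintro ⟨⟨⟨h1, -⟩, h2⟩, h3⟩
    refine ⟨h1, ?_⟩
    rw [h.ell_eq a, h2, ← h3, flat_tv_congr fun g hg => (if_pos hg).symm]
  · rintro ⟨h1, h2⟩
    have h3 : Y.ty a = Y.τ i k := by rw [Sys.ty, h2, (h.leak_spec i k hφ).1]
    refine ⟨⟨⟨h1, ⟨i, k, h3⟩, fun l hl => ?_⟩, h3⟩, funext fun l => ?_⟩
    · rw [h.flat_coef h2 hl]; exact (mem_lbox.1 hφ).1 l hl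
    · split_ifs with hl
      · exact h.flat_coef h2 hl
      · exact ((mem_lbox.1 hφ).2 l hl).symm

theorem Zlk_flat (h : Y.Ok) (i k : E) :
    Y.Zlk (Y.τ i k) ≤ 2 * (Y.lbox.card * Y.Z (Y.τ i k)) ∧
      Y.lbox.card * Y.Z (Y.τ i k) ≤ 2 * Y.Zlk (Y.τ i k) := by
  have h1 : Y.Zlk (Y.τ i k) = ∑ φ ∈ Y.lbox, Y.Z (Y.τ i k + ell (Y.tv φ)) := h.sum_type i k Y.W
  have h2 := fun φ hφ => h.flat (h.leak_spec i k (φ := φ) hφ).1 (h.leak_spec i k hφ).2
  rw [h1, ← nsmul_eq_mul, ← sum_const, mul_sum, mul_sum]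
  exact ⟨sum_le_sum fun φ hφ => (h2 φ hφ).1, sum_le_sum fun φ hφ => (h2 φ hφ).2⟩

theorem Z_root (h : Y.Ok) (i k : E) :
    Y.Z (uv i - uv k) ≤ 2 * Y.Z (Y.τ i k) ∧ Y.Z (Y.τ i k) ≤ 2 * Y.Z (uv i - uv k) := by
  refine h.flat (h.agg_root_single i k) ((flat_norm_root i k).trans ?_)
  have h1 := h.sz.big
  have h2 := h.flat_pw_pos
  have : 2 ≤ 3 * Y.s * pw Y.s := by nlinarith
  exact_mod_cast this

lemma lift_mem (h : Y.Ok) [Nonempty E] {z φ : E × Bool → ℤ} (hz : ell z = 0) (hφ : φ ∈ Y.lbox)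
    (hl : InB Y.F (z + Y.tv φ)) :
    z + Y.tv φ ∈ Y.Om ∧ Y.ty (z + Y.tv φ) = 0 ∧ Y.wx (z + Y.tv φ) = Y.wx z ∧
      ∀ pot, Y.mu pot (z + Y.tv φ) = Y.W z := by
  classical
  obtain ⟨i⟩ := ‹Nonempty E›
  have h1 : Y.ty (z + Y.tv φ) = 0 := by
    rw [ty_add, Sys.tv, h.ty_v h.valid.tree_sub, Sys.ty, hz, flat_agg_zero, add_zero]
  have h2 : Y.wx (z + Y.tv φ) = Y.wx z := h.wx_add z h.valid.tree_sub φ
  have h3 : Y.ty (z + Y.tv φ) = Y.τ i i := h1.trans (Y.τ_self i).symm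
  refine ⟨mem_filter.2 ⟨Y.mem_N.2 hl, ⟨i, i, h3⟩, fun g hg => ?_⟩, h1, h2, fun pot => ?_⟩
  · rw [h.coef_lift (hz.trans (Y.τ_self i).symm) φ hg]
    exact (mem_lbox.1 hφ).1 g hg
  · rw [Sys.mu, h.pot_τ pot h3, sub_self, zpow_zero, mul_one, Inst.W, h2, Inst.W]

lemma lift_inj (h : Y.Ok) [Nonempty E] {z z' φ φ' : E × Bool → ℤ} (hz : ell z = 0) (hz' : ell z' = 0)
    (hφ : φ ∈ Y.lbox) (hφ' : φ' ∈ Y.lbox) (e : z + Y.tv φ = z' + Y.tv φ') : z = z' ∧ φ = φ' := by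
  obtain ⟨i⟩ := ‹Nonempty E›
  have h1 : φ = φ' := by
    funext g
    by_cases hg : g ∈ Y.σ.tree
    · rw [← h.coef_lift (hz.trans (Y.τ_self i).symm) φ hg, e,
        h.coef_lift (hz'.trans (Y.τ_self i).symm) φ' hg]
    · rw [(mem_lbox.1 hφ).2 g hg, (mem_lbox.1 hφ').2 g hg]
  rw [h1] at e
  exact ⟨add_right_cancel e, h1⟩

open Classical in
/-- The states that are absorbed to `y` are the lifts of `y`. -/
theorem sum_absorb (h : Y.Ok) [Nonempty E] {y : E × Bool → ℤ} (hy : ell y = 0)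
    (g : (E × Bool → ℤ) → ℝ) :
    ∑ a ∈ Y.Om.filter (fun a => a - Y.tv (fun l => Y.σ.coef l a) = y), g a =
      ∑ φ ∈ Y.lbox.filter (fun φ => InB Y.F (y + Y.tv φ)), g (y + Y.tv φ) := by
  obtain ⟨i⟩ := ‹Nonempty E›
  symm
  refine sum_nbij (fun φ => y + Y.tv φ) (fun φ hφ => ?_) (fun φ hφ φ' hφ' e => ?_)
    (fun a ha => ?_) fun _ _ => rfl
  · obtain ⟨h1, h2⟩ := mem_filter.1 hφ
    refine mem_filter.2 ⟨(h.lift_mem hy h1 h2).1, ?_⟩
    rw [flat_tv_congr fun g hg => h.coef_lift (hy.trans (Y.τ_self i).symm) φ hg,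
      add_sub_cancel_right]
  · exact (h.lift_inj hy hy (mem_filter.1 hφ).1 (mem_filter.1 hφ').1 e).2
  · obtain ⟨h1, h2⟩ := mem_filter.1 ha
    obtain ⟨h3, -, h4⟩ := mem_filter.1 h1
    have e : y + Y.tv (fun l => if l ∈ Y.σ.tree then Y.σ.coef l a else 0) = a := by
      rw [flat_tv_congr fun g hg => if_pos hg, ← h2, sub_add_cancel]
    refine ⟨_, mem_filter.2 ⟨flat_cf_mem h4, ?_⟩, e⟩
    rw [e]
    exact Y.mem_N.1 h3

lemma flat_mu_type (h : Y.Ok) (pot : E → ℤ) (i k : E) :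
    ∑ a ∈ Y.Om.filter (fun a => Y.ty a = Y.τ i k), Y.mu pot a =
      (2 : ℝ) ^ (pot (Y.σ.root i) - pot (Y.σ.root k)) * Y.Zlk (Y.τ i k) := by
  rw [Sys.Zlk, mul_sum]
  exact sum_congr rfl fun a ha => by rw [Sys.mu, h.pot_τ pot (mem_filter.1 ha).2, mul_comm]

/-- The total weight is the sum over the types. -/
theorem sum_mu_le (h : Y.Ok) (pot : E → ℤ) :
    ∑ a ∈ Y.Om, Y.mu pot a ≤ ∑ i, ∑ k,
      (2 : ℝ) ^ (pot (Y.σ.root i) - pot (Y.σ.root k)) * Y.Zlk (Y.τ i k) := by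
  classical
  simp only [← h.flat_mu_type, sum_filter]
  rw [← Fintype.sum_prod_type', sum_comm]
  refine sum_le_sum fun a ha => ?_
  obtain ⟨i, k, hik⟩ := (mem_filter.1 ha).2.1
  refine le_trans (le_of_eq (if_pos hik).symm) (single_le_sum
    (f := fun x : E × E => if Y.ty a = Y.τ x.1 x.2 then Y.mu pot a else 0) (fun x _ => ?_)
    (mem_univ (i, k)))
  split_ifs
  · exact (Y.mu_pos pot a).le
  · exact le_rfl

theorem sum_mu_type (h : Y.Ok) (pot : E → ℤ) (i k : E) :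
    ∑ a ∈ Y.Om.filter (fun a => Y.ty a = Y.τ i k), Y.mu pot a =
      (2 : ℝ) ^ (pot (Y.σ.root i) - pot (Y.σ.root k)) * Y.Zlk (Y.τ i k) := by
  exact h.flat_mu_type pot i k

end Sys.Ok

end Crest.Agent.R302
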