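import Crest.Agent.R302.Pen

/-!
Row 302, part D6: energies of cells are bounded by the energy of the real moves.
-/

set_option autoImplicit false
set_option linter.unusedSectionVars false

namespace Crest.Agent.R302

open Finset

variable {E : Type} [Fintype E] [DecidableEq E]

section box

variable {κ : Type} [Fintype κ] [DecidableEq κ]

/-- the dyadic box -/
noncomputable abbrev energyBox (J : Finset κ) (d : κ → ℕ) : Finset (κ → ℤ) :=
  boxJ J (fun _ => 0) (fun g => 2 ^ d g - 1)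

lemma energy_mem_box {J : Finset κ} {d : κ → ℕ} {o : κ → ℤ} :
    o ∈ energyBox J d ↔ (∀ g ∈ J, 0 ≤ o g ∧ o g < 2 ^ d g) ∧ ∀ g ∉ J, o g = 0 := by
  simp only [energyBox, boxJ, Fintype.mem_piFinset]
  constructor
  · intro h
    refine ⟨fun g hg => ?_, fun g hg => ?_⟩
    · have := h g
      rw [if_pos hg, mem_Icc] at this
      omega
    · have := h g
      rwa [if_neg hg, mem_singleton] at this
  · rintro ⟨h1, h2⟩ g
    by_cases hg : g ∈ J
    · rw [if_pos hg, mem_Icc]
      have := h1 g hg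
      omega
    · rw [if_neg hg, mem_singleton]
      exact h2 g hg

lemma energy_shift_apply (o : κ → ℤ) (c : ℤ) (g l : κ) :
    (o + c • uv g) l = o l + if l = g then c else 0 := by
  by_cases h : l = g
  · subst h
    simp [uv]
  · simp [uv, h]

lemma energy_split {J : Finset κ} {d : κ → ℕ} {g : κ} (hg : g ∈ J) (Φ : (κ → ℤ) → ℝ) :
    ∑ o ∈ energyBox J (Function.update d g (d g + 1)), Φ o =
      ∑ o ∈ energyBox J d, Φ o + ∑ o ∈ energyBox J d, Φ (o + (2 : ℤ) ^ d g • uv g) := by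
  have hinj : Set.InjOn (fun o : κ → ℤ => o + (2 : ℤ) ^ d g • uv g) (energyBox J d) :=
    fun a _ b _ h => add_right_cancel h
  rw [← sum_image hinj, ← sum_union]
  · refine sum_congr ?_ fun _ _ => rfl
    ext o
    simp only [mem_union, mem_image, energy_mem_box]
    constructor
    · rintro ⟨h1, h2⟩
      have hog := h1 g hg
      rw [Function.update_self, pow_succ] at hog
      by_cases hlt : o g < 2 ^ d g
      · left
        refine ⟨fun l hl => ?_, h2⟩
        by_cases hlg : l = g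
        · subst hlg
          exact ⟨hog.1, hlt⟩
        · simpa [hlg] using h1 l hl
      · right
        refine ⟨o + (-(2 : ℤ) ^ d g) • uv g, ⟨fun l hl => ?_, fun l hl => ?_⟩, by simp⟩
        · rw [energy_shift_apply]
          by_cases hlg : l = g
          · subst hlg
            rw [if_pos rfl]
            omega
          · simpa [hlg] using h1 l hl
        · have hlg : l ≠ g := fun e => hl (e ▸ hg)
          rw [energy_shift_apply, if_neg hlg, h2 l hl, add_zero]
    · have hp : (0 : ℤ) < 2 ^ d g := by positivity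
      rintro (⟨h1, h2⟩ | ⟨a, ⟨h1, h2⟩, rfl⟩)
      · refine ⟨fun l hl => ?_, h2⟩
        by_cases hlg : l = g
        · subst hlg
          have := h1 l hl
          rw [Function.update_self, pow_succ]
          omega
        · simpa [hlg] using h1 l hl
      · refine ⟨fun l hl => ?_, fun l hl => ?_⟩
        · rw [energy_shift_apply]
          by_cases hlg : l = g
          · subst hlg
            have := h1 l hl
            rw [Function.update_self, pow_succ, if_pos rfl]
            omega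
          · simpa [hlg] using h1 l hl
        · have hlg : l ≠ g := fun e => hl (e ▸ hg)
          rw [energy_shift_apply, if_neg hlg, h2 l hl, add_zero]
  · rw [disjoint_left]
    intro o ho ho'
    obtain ⟨a, ha, rfl⟩ := mem_image.1 ho'
    have h1 := (energy_mem_box.1 ho).1 g hg
    have h2 := (energy_mem_box.1 ha).1 g hg
    rw [energy_shift_apply, if_pos rfl] at h1
    omega

/-- the energy of the dyadic moves in the box -/
noncomputable def energyR (J : Finset κ) (d : κ → ℕ) (ψ : (κ → ℤ) → ℝ) : ℝ :=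
  ∑ g ∈ J, ∑ j ∈ range (d g), ∑ o ∈ energyBox J d,
    if o g + 2 ^ j < 2 ^ d g then (ψ (o + (2 : ℤ) ^ j • uv g) - ψ o) ^ 2 else 0

lemma energyR_split {J : Finset κ} {d : κ → ℕ} {g : κ} (hg : g ∈ J) (ψ : (κ → ℤ) → ℝ) :
    energyR J d ψ + energyR J d (fun o => ψ (o + (2 : ℤ) ^ d g • uv g)) +
      ∑ o ∈ energyBox J d, (ψ (o + (2 : ℤ) ^ d g • uv g) - ψ o) ^ 2 ≤
        energyR J (Function.update d g (d g + 1)) ψ := by
  unfold energyR
  simp only [energy_split hg]
  rw [← sum_add_distrib, ← add_sum_erase J _ hg, ← add_sum_erase J _ hg, add_right_comm]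
  refine add_le_add ?_ (sum_le_sum fun l hl => ?_)
  · simp only [Function.update_self]
    rw [sum_range_succ, ← sum_add_distrib]
    refine add_le_add (sum_le_sum fun j _ => add_le_add (sum_le_sum fun o _ => ?_)
      (sum_le_sum fun o _ => ?_)) ?_
    · have hp : (0 : ℤ) < 2 ^ d g := by positivity
      split_ifs with h1 h2
      · exact le_rfl
      · rw [pow_succ] at h2
        omega
      · positivity
      · exact le_rfl
    · rw [energy_shift_apply, if_pos rfl, add_right_comm o]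
      split_ifs with h1 h2
      · exact le_rfl
      · rw [pow_succ] at h2
        omega
      · positivity
      · exact le_rfl
    · refine le_add_of_le_of_nonneg (sum_le_sum fun o ho => ?_)
        (sum_nonneg fun o _ => by split_ifs <;> positivity)
      have := (energy_mem_box.1 ho).1 g hg
      rw [if_pos (by rw [pow_succ]; omega)]
  · have hlg : l ≠ g := ne_of_mem_erase hl
    simp only [Function.update_of_ne hlg]
    rw [← sum_add_distrib]
    refine sum_le_sum fun j _ => add_le_add le_rfl (sum_le_sum fun o _ => ?_)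
    rw [energy_shift_apply, if_neg hlg, add_zero, add_right_comm o]

lemma energy_var {α : Type} (S : Finset α) (ψ : α → ℝ) :
    ∑ o ∈ S, (ψ o - (∑ o' ∈ S, ψ o') / S.card) ^ 2 =
      ∑ o ∈ S, ψ o ^ 2 - (∑ o ∈ S, ψ o) ^ 2 / S.card := by
  rcases S.eq_empty_or_nonempty with rfl | hS
  · simp
  have hc : (S.card : ℝ) ≠ 0 := by exact_mod_cast hS.card_pos.ne'
  simp only [sub_sq, sum_add_distrib, sum_sub_distrib, sum_const, nsmul_eq_mul, ← sum_mul,
    ← mul_sum]
  field_simp
  ring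

lemma energy_poincare (J : Finset κ) (n : ℕ) : ∀ (d : κ → ℕ) (ψ : (κ → ℤ) → ℝ), ∑ g ∈ J, d g = n →
    ∑ o ∈ energyBox J d, ψ o ^ 2 - (∑ o ∈ energyBox J d, ψ o) ^ 2 / (energyBox J d).card ≤
      energyR J d ψ := by
  induction n with
  | zero =>
    intro d ψ hd
    have h0 : ∀ g ∈ J, d g = 0 := sum_eq_zero_iff.1 hd
    have hb : energyBox J d = {0} := by
      ext o
      rw [energy_mem_box, mem_singleton]
      constructor
      · rintro ⟨h1, h2⟩
        funext l
        by_cases hl : l ∈ J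
        · have := h1 l hl
          rw [h0 l hl] at this
          simp only [Pi.zero_apply]
          omega
        · exact h2 l hl
      · rintro rfl
        exact ⟨fun g _ => ⟨le_rfl, by positivity⟩, fun _ _ => rfl⟩
    rw [hb]
    simp only [sum_singleton, card_singleton, Nat.cast_one, div_one, sub_self]
    exact sum_nonneg fun _ _ => sum_nonneg fun _ _ => sum_nonneg fun _ _ => by
      split_ifs <;> positivity
  | succ n ih =>
    intro d ψ hd
    obtain ⟨g, hg, hdg⟩ : ∃ g ∈ J, d g ≠ 0 := by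
      by_contra hc
      push Not at hc
      rw [sum_eq_zero hc] at hd
      omega
    obtain ⟨d', rfl, hd'⟩ : ∃ d' : κ → ℕ, d = Function.update d' g (d' g + 1) ∧ ∑ l ∈ J, d' l = n := by
      refine ⟨Function.update d g (d g - 1), ?_, ?_⟩
      · rw [Function.update_idem, Function.update_self, Nat.sub_add_cancel (by omega),
          Function.update_eq_self]
      · rw [← add_sum_erase J _ hg] at hd ⊢
        rw [Function.update_self, sum_congr rfl fun l hl =>
          Function.update_of_ne (ne_of_mem_erase hl) _ _]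
        omega
    have h1 := ih d' ψ hd'
    have h2 := ih d' (fun o => ψ (o + (2 : ℤ) ^ d' g • uv g)) hd'
    have h3 := energyR_split (d := d') hg ψ
    have hc : ((energyBox J (Function.update d' g (d' g + 1))).card : ℝ) =
        2 * (energyBox J d').card := by
      have := energy_split (d := d') hg fun _ => 1
      simp only [sum_const, nsmul_eq_mul, mul_one] at this
      linarith
    have hne : (energyBox J d').Nonempty :=
      ⟨0, energy_mem_box.2 ⟨fun g _ => ⟨le_rfl, by positivity⟩, fun _ _ => rfl⟩⟩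
    have hpos : (0 : ℝ) < (energyBox J d').card := by exact_mod_cast hne.card_pos
    have h4 := sq_sum_le_card_mul_sum_sq (s := energyBox J d')
      (f := fun o => ψ (o + (2 : ℤ) ^ d' g • uv g) - ψ o)
    rw [sum_sub_distrib] at h4
    rw [hc, energy_split hg, energy_split hg]
    set A := ∑ o ∈ energyBox J d', ψ o
    set B := ∑ o ∈ energyBox J d', ψ (o + (2 : ℤ) ^ d' g • uv g)
    set N : ℝ := ((energyBox J d').card : ℝ)
    set T := ∑ o ∈ energyBox J d', (ψ (o + (2 : ℤ) ^ d' g • uv g) - ψ o) ^ 2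
    have hT : 0 ≤ T := sum_nonneg fun _ _ => sq_nonneg _
    have h5 : A ^ 2 / N + B ^ 2 / N - (A + B) ^ 2 / (2 * N) = (B - A) ^ 2 / (2 * N) := by
      field_simp
      ring
    have h6 : (B - A) ^ 2 / (2 * N) ≤ T := by
      rw [div_le_iff₀ (by positivity)]
      nlinarith
    linarith

end box

/-- Poincaré inequality of the hypercube, for boxes whose sides are powers of two.  Induction (on
`J` and on `d`): split the box into two halves. -/
theorem box_poincare {κ : Type} [Fintype κ] [DecidableEq κ] (J : Finset κ) (d : κ → ℕ)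
    (ψ : (κ → ℤ) → ℝ) :
    ∑ o ∈ boxJ J (fun _ => 0) (fun g => 2 ^ d g - 1),
      (ψ o - (∑ o' ∈ boxJ J (fun _ => 0) (fun g => 2 ^ d g - 1), ψ o') /
        (boxJ J (fun _ => 0) (fun g => (2 : ℤ) ^ d g - 1)).card) ^ 2 ≤
      ∑ g ∈ J, ∑ j ∈ range (d g), ∑ o ∈ (boxJ J (fun _ => 0) (fun g => 2 ^ d g - 1)).filter
        (fun o => o g + 2 ^ j < 2 ^ d g), (ψ (o + (2 : ℤ) ^ j • uv g) - ψ o) ^ 2 := by
  rw [energy_var]
  simp only [sum_filter]
  exact energy_poincare J _ d ψ rfl

namespace Sys.Ok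

variable {Y : Sys E}

lemma energy_En_nonneg (Y : Sys E) (pot : E → ℤ) (f : (E × Bool → ℤ) → ℝ) : 0 ≤ Y.En pot f :=
  add_nonneg (sum_nonneg fun _ _ => sum_nonneg fun _ _ => Y.Ed_nonneg _ _ _)
    (sum_nonneg fun _ _ => sum_nonneg fun _ _ => Y.Ed_nonneg _ _ _)

lemma Ed_le_En_unit (Y : Sys E) (pot : E → ℤ) (f : (E × Bool → ℤ) → ℝ) (p q : E × Bool) :
    Y.Ed pot f (uv p - uv q) ≤ Y.En pot f := by
  refine le_add_of_le_of_nonneg ?_ (sum_nonneg fun _ _ => sum_nonneg fun _ _ => Y.Ed_nonneg _ _ _)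
  refine le_trans ?_ (single_le_sum (f := fun p => ∑ q, Y.Ed pot f (uv p - uv q))
    (fun _ _ => sum_nonneg fun _ _ => Y.Ed_nonneg _ _ _) (mem_univ p))
  exact single_le_sum (f := fun q => Y.Ed pot f (uv p - uv q)) (fun _ _ => Y.Ed_nonneg _ _ _)
    (mem_univ q)

lemma Ed_le_En_v (Y : Sys E) (pot : E → ℤ) (f : (E × Bool → ℤ) → ℝ) {g : E × Bool}
    (hg : g ∈ Y.σ.act) {j : ℕ} (hj : j ≤ Y.s + 1) :
    Y.Ed pot f ((2 : ℤ) ^ j • Y.σ.v g) ≤ Y.En pot f := by
  refine le_add_of_nonneg_of_le (sum_nonneg fun _ _ => sum_nonneg fun _ _ => Y.Ed_nonneg _ _ _) ?_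
  refine le_trans ?_ (single_le_sum
    (f := fun g => ∑ j ∈ range (Y.s + 2), Y.Ed pot f ((2 : ℤ) ^ j • Y.σ.v g))
    (fun _ _ => sum_nonneg fun _ _ => Y.Ed_nonneg _ _ _) hg)
  exact single_le_sum (f := fun j => Y.Ed pot f ((2 : ℤ) ^ j • Y.σ.v g))
    (fun _ _ => Y.Ed_nonneg _ _ _) (mem_range.2 (by omega))

lemma energy_Ed_small (Y : Sys E) (pot : E → ℤ) (f : (E × Bool → ℤ) → ℝ) {g : E × Bool}
    (hg : g ∈ Y.σ.act) {c : ℤ} (hc : |c| ≤ 2) : Y.Ed pot f (c • Y.σ.v g) ≤ Y.En pot f := by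
  have h1 := Ed_le_En_v Y pot f hg (j := 0) (by omega)
  have h2 := Ed_le_En_v Y pot f hg (j := 1) (by omega)
  rw [pow_zero] at h1
  rw [pow_one] at h2
  obtain ⟨hc1, hc2⟩ := abs_le.1 hc
  interval_cases c
  · rwa [neg_smul, Y.Ed_neg]
  · rwa [neg_smul, Y.Ed_neg]
  · refine le_trans (le_of_eq ?_) (energy_En_nonneg Y pot f)
    simp [Sys.Ed]
  · exact h1
  · exact h2

lemma energy_Deep_sub (Y : Sys E) (t : ℝ) : Y.Deep t ⊆ Y.Cells := by
  classical
  intro x hx
  unfold Sys.Deep Sys.TCells at hx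
  exact (mem_filter.1 (mem_filter.1 hx).1).1

lemma energy_ov_add (Y : Sys E) (r r' : E × Bool → ℤ) : Y.ov (r + r') = Y.ov r + Y.ov r' := by
  simp [Sys.ov, add_smul, sum_add_distrib]

lemma energy_ov_uv (Y : Sys E) {g : E × Bool} (hg : g ∈ Y.H) (c : ℤ) :
    Y.ov (c • uv g) = c • Y.σ.v g := by
  unfold Sys.ov
  rw [sum_eq_single g (fun l _ hl => by simp [uv, hl]) (fun h => absurd hg h)]
  simp [uv]

/-- Transfer of an energy from pairs (cell, offset) to the real points. -/
lemma energy_transfer (h : Y.Ok) (pot : E → ℤ) (f : (E × Bool → ℤ) → ℝ)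
    {X : Finset ((E × Bool → ℤ) × (E × Bool → ℤ))} (hX : X ⊆ Y.Cells) {O : Finset (E × Bool → ℤ)}
    (hO : O ⊆ Y.Off) (c : (E × Bool → ℤ) × (E × Bool → ℤ) → ℝ) (w d : E × Bool → ℤ)
    (H : ∀ x ∈ X, ∀ o ∈ O, Y.pt x + Y.ov o + w ∈ Y.Om ∧ Y.pt x + Y.ov o + w + d ∈ Y.Om ∧
      c x ≤ Y.mu pot (Y.pt x + Y.ov o + w) ∧ c x ≤ Y.mu pot (Y.pt x + Y.ov o + w + d)) :
    ∑ x ∈ X, c x * ∑ o ∈ O, (f (Y.pt x + Y.ov o + w + d) - f (Y.pt x + Y.ov o + w)) ^ 2 ≤
      Y.Ed pot f d := by
  classical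
  have hinj : Set.InjOn (fun z : ((E × Bool → ℤ) × (E × Bool → ℤ)) × (E × Bool → ℤ) =>
      Y.pt z.1 + Y.ov z.2 + w) (X ×ˢ O : Finset _) := by
    intro z hz z' hz' e
    obtain ⟨hz1, hz2⟩ := mem_product.1 (mem_coe.1 hz)
    obtain ⟨hz1', hz2'⟩ := mem_product.1 (mem_coe.1 hz')
    have e' : Y.pt z.1 + Y.ov z.2 = Y.pt z'.1 + Y.ov z'.2 := add_right_cancel e
    have h1 := h.cellOf_pt (hX hz1) (hO hz2)
    have h2 := h.cellOf_pt (hX hz1') (hO hz2')
    rw [e'] at h1
    exact Prod.ext (h1.1.symm.trans h2.1) (h1.2.symm.trans h2.2)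
  calc _ = ∑ z ∈ X ×ˢ O, c z.1 *
        (f (Y.pt z.1 + Y.ov z.2 + w + d) - f (Y.pt z.1 + Y.ov z.2 + w)) ^ 2 := by
        rw [sum_product]
        simp only [mul_sum]
    _ ≤ ∑ z ∈ X ×ˢ O, min (Y.mu pot (Y.pt z.1 + Y.ov z.2 + w)) (Y.mu pot (Y.pt z.1 + Y.ov z.2 + w + d)) *
        (f (Y.pt z.1 + Y.ov z.2 + w + d) - f (Y.pt z.1 + Y.ov z.2 + w)) ^ 2 := by
        refine sum_le_sum fun z hz => ?_
        obtain ⟨hz1, hz2⟩ := mem_product.1 hz
        obtain ⟨-, -, h3, h4⟩ := H _ hz1 _ hz2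
        exact mul_le_mul_of_nonneg_right (le_min h3 h4) (sq_nonneg _)
    _ = ∑ a ∈ (X ×ˢ O).image (fun z => Y.pt z.1 + Y.ov z.2 + w),
        min (Y.mu pot a) (Y.mu pot (a + d)) * (f (a + d) - f a) ^ 2 :=
        (sum_image (f := fun a => min (Y.mu pot a) (Y.mu pot (a + d)) * (f (a + d) - f a) ^ 2)
          hinj).symm
    _ ≤ _ := by
        refine sum_le_sum_of_subset_of_nonneg (fun a ha => ?_) fun a _ _ =>
          mul_nonneg (le_min (Y.mu_pos _ _).le (Y.mu_pos _ _).le) (sq_nonneg _)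
        obtain ⟨z, hz, rfl⟩ := mem_image.1 ha
        obtain ⟨hz1, hz2⟩ := mem_product.1 hz
        obtain ⟨h1, h2, -, -⟩ := H _ hz1 _ hz2
        exact mem_filter.2 ⟨h1, h2⟩

lemma energy_off_le {o : E × Bool → ℤ} (ho : o ∈ Y.Off) {r : E × Bool → ℤ}
    (hr : ∀ g ∈ Y.H, |r g| ≤ Y.Δ g + 1) : ∀ g ∈ Y.H, |(o + r) g| ≤ 2 * Y.Δ g := by
  intro g hg
  have h1 := (mem_Off.1 ho).1 g hg
  have h2 := abs_le.1 (hr g hg)
  rw [Pi.add_apply, abs_le]
  omega

/-- `box_poincare` in every deep cell; `deep_mem`, `mu_pt`, `dl_le`, `cellOf_pt` (injectivity). -/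
theorem within (h : Y.Ok) (pot : E → ℤ) (f : (E × Bool → ℤ) → ℝ) :
    ∑ x ∈ Y.Deep (1 / 2), Y.mu pot x.1 * ∑ o ∈ Y.Off, (f (Y.pt x + Y.ov o) - Y.cavg f x) ^ 2 ≤
      Y.En pot f := by
  calc _ ≤ ∑ x ∈ Y.Deep (1 / 2), Y.mu pot x.1 * ∑ g ∈ Y.H, ∑ j ∈ range (Y.dl g),
        ∑ o ∈ Y.Off.filter (fun o => o g + 2 ^ j < 2 ^ Y.dl g),
          (f (Y.pt x + Y.ov (o + (2 : ℤ) ^ j • uv g)) - f (Y.pt x + Y.ov o)) ^ 2 :=
        sum_le_sum fun x _ => mul_le_mul_of_nonneg_left
          (box_poincare Y.H Y.dl fun o => f (Y.pt x + Y.ov o)) (Y.mu_pos _ _).le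
    _ = ∑ g ∈ Y.H, ∑ j ∈ range (Y.dl g), ∑ x ∈ Y.Deep (1 / 2), Y.mu pot x.1 *
        ∑ o ∈ Y.Off.filter (fun o => o g + 2 ^ j < 2 ^ Y.dl g),
          (f (Y.pt x + Y.ov o + 0 + (2 : ℤ) ^ j • Y.σ.v g) - f (Y.pt x + Y.ov o + 0)) ^ 2 := by
        simp only [mul_sum (s := Y.H), mul_sum (s := range _)]
        rw [sum_comm]
        refine sum_congr rfl fun g hg => ?_
        rw [sum_comm]
        simp only [energy_ov_add, energy_ov_uv Y hg, add_zero, add_assoc]
    _ ≤ ∑ g ∈ Y.H, ∑ j ∈ range (Y.dl g), Y.Ed pot f ((2 : ℤ) ^ j • Y.σ.v g) := by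
        refine sum_le_sum fun g hg => sum_le_sum fun j hj => ?_
        refine energy_transfer h pot f (energy_Deep_sub Y _) (filter_subset _ _)
          (fun x => Y.mu pot x.1) 0 _ fun x hx o ho => ?_
        have ho' := (mem_filter.1 ho).1
        have e : Y.pt x + Y.ov o + 0 + (2 : ℤ) ^ j • Y.σ.v g =
            Y.pt x + Y.ov (o + (2 : ℤ) ^ j • uv g) := by
          rw [energy_ov_add, energy_ov_uv Y hg, add_zero, add_assoc]
        rw [e, add_zero, h.mu_pt, h.mu_pt]
        refine ⟨(h.deep_mem hx ?_).1, (h.deep_mem hx (energy_off_le ho' fun l _ => ?_)).1, le_rfl,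
          le_rfl⟩
        · simpa using energy_off_le ho' (r := 0) fun l _ => by
            have := Δ_pos Y l
            simp only [Pi.zero_apply, abs_zero]
            omega
        · have h1 := Δ_pos Y l
          by_cases hl : l = g
          · subst hl
            have h2 : (2 : ℤ) ^ j ≤ Y.Δ l :=
              pow_le_pow_right₀ (by norm_num) (mem_range.1 hj).le
            have h3 : (0 : ℤ) < 2 ^ j := by positivity
            simp only [uv, Pi.smul_apply, Pi.single_eq_same, smul_eq_mul, mul_one]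
            rw [abs_of_pos h3]
            omega
          · simp only [uv, Pi.smul_apply, Pi.single_eq_of_ne hl, smul_eq_mul, mul_zero, abs_zero]
            omega
    _ ≤ ∑ g ∈ Y.σ.act, ∑ j ∈ range (Y.s + 2), Y.Ed pot f ((2 : ℤ) ^ j • Y.σ.v g) := by
        refine le_trans (sum_le_sum fun g hg => ?_) (sum_le_sum_of_subset_of_nonneg (H_sub Y)
          fun _ _ _ => sum_nonneg fun _ _ => Y.Ed_nonneg _ _ _)
        refine sum_le_sum_of_subset_of_nonneg (range_subset_range.2 ?_) fun _ _ _ => Y.Ed_nonneg _ _ _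
        have := h.dl_le (H_sub Y hg)
        omega
    _ ≤ _ := le_add_of_nonneg_left (sum_nonneg fun _ _ => sum_nonneg fun _ _ => Y.Ed_nonneg _ _ _)

lemma energy_jensen (Y : Sys E) (f : (E × Bool → ℤ) → ℝ) (x y : (E × Bool → ℤ) × (E × Bool → ℤ)) :
    Y.Off.card * (Y.cavg f y - Y.cavg f x) ^ 2 ≤
      ∑ o ∈ Y.Off, (f (Y.pt y + Y.ov o) - f (Y.pt x + Y.ov o)) ^ 2 := by
  have hpos : (0 : ℝ) < Y.Off.card := by exact_mod_cast Off_card_pos Y
  have h4 := sq_sum_le_card_mul_sum_sq (s := Y.Off)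
    (f := fun o => f (Y.pt y + Y.ov o) - f (Y.pt x + Y.ov o))
  rw [sum_sub_distrib] at h4
  unfold Sys.cavg
  rw [← sub_div, div_pow, ← mul_div_assoc, div_le_iff₀ (by positivity)]
  nlinarith

lemma energy_cEd_le (Y : Sys E) (pot : E → ℤ) (f : (E × Bool → ℤ) → ℝ)
    (d : (E × Bool → ℤ) × (E × Bool → ℤ)) :
    Y.Off.card * Y.cEd pot (Y.cavg f) d ≤
      ∑ x ∈ (Y.Deep (1 / 2)).filter (fun x => x + d ∈ Y.Deep (1 / 2)),
        min (Y.mu pot x.1) (Y.mu pot (x + d).1) *
          ∑ o ∈ Y.Off, (f (Y.pt x + Y.ov o + Y.pt d) - f (Y.pt x + Y.ov o)) ^ 2 := by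
  unfold Sys.cEd
  rw [mul_sum]
  refine sum_le_sum fun x _ => ?_
  rw [mul_left_comm]
  refine mul_le_mul_of_nonneg_left ?_ (le_min (Y.mu_pos _ _).le (Y.mu_pos _ _).le)
  have := energy_jensen Y f x (x + d)
  simpa only [pt_add, add_right_comm _ (Y.pt d)] using this

lemma energy_coarse (h : Y.Ok) (pot : E → ℤ) (f : (E × Bool → ℤ) → ℝ) (g : E × Bool) :
    Y.Off.card * Y.cEd pot (Y.cavg f) (0, uv g) ≤ Y.En pot f := by
  classical
  refine (energy_cEd_le Y pot f _).trans ?_
  by_cases hg : g ∈ Y.H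
  · have e : Y.pt (0, uv g) = Y.ov (Y.Δ g • uv g) := by
      have e0 : ∀ l, Y.σ.coef l 0 = 0 := fun l => by
        have := coef_add Y l 0 0
        rw [add_zero] at this
        omega
      simp only [Sys.pt, Sys.canon, e0]
      have e1 : (Y.ov fun _ => 0) = 0 := by simp [Sys.ov]
      rw [e1, sub_zero, zero_add]
      congr 1
      funext l
      by_cases hl : l = g
      · subst hl
        simp [uv]
      · simp [uv, hl]
    refine le_trans ?_ (Ed_le_En_v Y pot f (H_sub Y hg) (h.dl_le (H_sub Y hg)))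
    have := energy_transfer h pot f (X := (Y.Deep (1 / 2)).filter (fun x => x + (0, uv g) ∈ Y.Deep (1 / 2)))
      ((filter_subset _ _).trans (energy_Deep_sub Y _)) (subset_refl Y.Off)
      (fun x => min (Y.mu pot x.1) (Y.mu pot (x + (0, uv g)).1)) 0 (Y.pt (0, uv g)) fun x hx o ho => by
        have hx1 := (mem_filter.1 hx).1
        rw [add_zero, e, add_assoc, ← energy_ov_add, h.mu_pt, h.mu_pt]
        refine ⟨(h.deep_mem hx1 ?_).1, (h.deep_mem hx1 (energy_off_le ho fun l _ => ?_)).1,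
          min_le_left _ _, min_le_left _ _⟩
        · simpa using energy_off_le ho (r := 0) fun l _ => by
            have := Δ_pos Y l
            simp only [Pi.zero_apply, abs_zero]
            omega
        · have h1 := Δ_pos Y l
          by_cases hl : l = g
          · subst hl
            simp only [uv, Pi.smul_apply, Pi.single_eq_same, smul_eq_mul, mul_one]
            rw [abs_of_pos h1]
            omega
          · simp only [uv, Pi.smul_apply, Pi.single_eq_of_ne hl, smul_eq_mul, mul_zero, abs_zero]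
            omega
    simp only [add_zero] at this
    refine this.trans (le_of_eq ?_)
    rw [e, energy_ov_uv Y hg]
    rfl
  · refine le_trans (le_of_eq (sum_eq_zero fun x hx => ?_)) (energy_En_nonneg Y pot f)
    exfalso
    obtain ⟨h1, h2⟩ := mem_filter.1 hx
    have h3 := (mem_filter.1 (energy_Deep_sub Y _ h1)).2.2 g hg
    have h4 := (mem_filter.1 (energy_Deep_sub Y _ h2)).2.2 g hg
    simp [uv, h3] at h4

lemma energy_sq_step {u v n : ℝ} (hn : 0 < n) : (u + v) ^ 2 ≤ (1 + 1 / n) * u ^ 2 + (1 + n) * v ^ 2 := by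
  have h1 : (1 + 1 / n) * u ^ 2 + (1 + n) * v ^ 2 - (u + v) ^ 2 = (u - n * v) ^ 2 / n := by
    field_simp
    ring
  have h2 : 0 ≤ (u - n * v) ^ 2 / n := by positivity
  linarith

lemma energy_unit (h : Y.Ok) (pot : E → ℤ) (f : (E × Bool → ℤ) → ℝ) (p q : E × Bool) :
    Y.Off.card * Y.cEd pot (Y.cavg f) (uv p - uv q, 0) ≤ (Y.s : ℝ) ^ 2 * Y.En pot f := by
  classical
  refine (energy_cEd_le Y pot f _).trans ?_
  set δ : E × Bool → ℤ := uv p - uv q with hδ
  set X := (Y.Deep (1 / 2)).filter (fun x => x + (δ, 0) ∈ Y.Deep (1 / 2)) with hX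
  set c : (E × Bool → ℤ) × (E × Bool → ℤ) → ℝ :=
    fun x => min (Y.mu pot x.1) (Y.mu pot (x + (δ, 0)).1) with hc
  have hXs : X ⊆ Y.Cells := (filter_subset _ _).trans (energy_Deep_sub Y _)
  have hcoef : ∀ g, |Y.σ.coef g δ| ≤ 2 := fun g => by
    refine (abs_coef_le Y g δ).trans ?_
    calc ∑ l, |δ l| ≤ ∑ l, (uv p l + uv q l) := sum_le_sum fun l _ => by
          have h1 : 0 ≤ uv p l := by unfold uv; by_cases hl : l = p <;> simp [hl]
          have h2 : 0 ≤ uv q l := by unfold uv; by_cases hl : l = q <;> simp [hl]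
          rw [hδ, Pi.sub_apply, abs_le]
          omega
      _ = 2 := by simp [uv, sum_add_distrib]
  have ept : Y.pt (δ, 0) = δ - Y.ov fun g => Y.σ.coef g δ := by
    simp [Sys.pt, Sys.canon, Sys.ov]
  -- the intermediate points
  have hw : ∀ J ⊆ Y.H, ∀ x ∈ X, ∀ o ∈ Y.Off,
      Y.pt x + Y.ov o + (δ + ∑ g ∈ J, (-Y.σ.coef g δ) • Y.σ.v g) ∈ Y.Om ∧
        c x ≤ Y.mu pot (Y.pt x + Y.ov o + (δ + ∑ g ∈ J, (-Y.σ.coef g δ) • Y.σ.v g)) := by
    intro J hJ x hx o ho
    have e : Y.pt x + Y.ov o + (δ + ∑ g ∈ J, (-Y.σ.coef g δ) • Y.σ.v g) =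
        Y.pt (x + (δ, 0)) + Y.ov (o + fun g => if g ∈ J then 0 else Y.σ.coef g δ) := by
      have e1 : (Y.ov fun g => Y.σ.coef g δ) + ∑ g ∈ J, (-Y.σ.coef g δ) • Y.σ.v g =
          Y.ov fun g => if g ∈ J then 0 else Y.σ.coef g δ := by
        have e2 : ∑ g ∈ J, (-Y.σ.coef g δ) • Y.σ.v g =
            ∑ g ∈ Y.H, (if g ∈ J then -Y.σ.coef g δ else 0) • Y.σ.v g := by
          simp only [ite_smul, zero_smul]
          rw [← sum_filter, filter_mem_eq_inter, inter_eq_right.2 hJ]
        rw [e2]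
        unfold Sys.ov
        rw [← sum_add_distrib]
        refine sum_congr rfl fun g _ => ?_
        rw [← add_smul]
        by_cases hgJ : g ∈ J
        · simp only [if_pos hgJ, add_neg_cancel]
        · simp only [if_neg hgJ, add_zero]
      rw [pt_add, energy_ov_add, ept, ← e1]
      abel
    rw [e, h.mu_pt]
    refine ⟨(h.deep_mem (mem_filter.1 hx).2 (energy_off_le ho fun l _ => ?_)).1, min_le_right _ _⟩
    have h1 := Δ_pos Y l
    have h2 := hcoef l
    split_ifs
    · rw [abs_zero]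
      omega
    · omega
  have hc0 : ∀ x, 0 ≤ c x := fun x => le_min (Y.mu_pos _ _).le (Y.mu_pos _ _).le
  have key : ∀ J ⊆ Y.H, ∑ x ∈ X, c x * ∑ o ∈ Y.Off,
      (f (Y.pt x + Y.ov o + (δ + ∑ g ∈ J, (-Y.σ.coef g δ) • Y.σ.v g)) - f (Y.pt x + Y.ov o)) ^ 2 ≤
        ((J.card : ℝ) + 1) ^ 2 * Y.En pot f := by
    intro J
    induction J using Finset.induction_on with
    | empty =>
      intro _
      have := energy_transfer h pot f hXs (subset_refl Y.Off) c 0 δ fun x hx o ho => by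
        have h1 := hw ∅ (empty_subset _) x hx o ho
        rw [sum_empty, add_zero] at h1
        rw [add_zero, h.mu_pt]
        refine ⟨(h.deep_mem (mem_filter.1 hx).1 ?_).1, h1.1, min_le_left _ _, h1.2⟩
        simpa using energy_off_le ho (r := 0) fun l _ => by
          have := Δ_pos Y l
          simp only [Pi.zero_apply, abs_zero]
          omega
      simp only [add_zero] at this
      simp only [sum_empty, add_zero, card_empty, Nat.cast_zero, zero_add, one_pow, one_mul]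
      exact this.trans (Ed_le_En_unit Y pot f p q)
    | insert g J hg ih =>
      intro hJ
      have hJ' : J ⊆ Y.H := (subset_insert _ _).trans hJ
      have hgH : g ∈ Y.H := hJ (mem_insert_self _ _)
      have h1 := ih hJ'
      have e : δ + ∑ l ∈ insert g J, (-Y.σ.coef l δ) • Y.σ.v l =
          δ + ∑ l ∈ J, (-Y.σ.coef l δ) • Y.σ.v l + (-Y.σ.coef g δ) • Y.σ.v g := by
        rw [sum_insert hg]
        abel
      have h2 := (energy_transfer h pot f hXs (subset_refl Y.Off) c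
        (δ + ∑ l ∈ J, (-Y.σ.coef l δ) • Y.σ.v l) ((-Y.σ.coef g δ) • Y.σ.v g) fun x hx o ho => by
          have h3 := hw J hJ' x hx o ho
          have h4 := hw _ hJ x hx o ho
          rw [e, ← add_assoc] at h4
          exact ⟨h3.1, h4.1, h3.2, h4.2⟩).trans
        (energy_Ed_small Y pot f (H_sub Y hgH) (by rw [abs_neg]; exact hcoef g))
      set n : ℝ := (J.card : ℝ) + 1 with hn
      have hn0 : 0 < n := by positivity
      calc _ ≤ ∑ x ∈ X, c x * ∑ o ∈ Y.Off, ((1 + 1 / n) *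
            (f (Y.pt x + Y.ov o + (δ + ∑ l ∈ J, (-Y.σ.coef l δ) • Y.σ.v l)) - f (Y.pt x + Y.ov o)) ^ 2 +
            (1 + n) * (f (Y.pt x + Y.ov o + (δ + ∑ l ∈ J, (-Y.σ.coef l δ) • Y.σ.v l) +
              (-Y.σ.coef g δ) • Y.σ.v g) -
              f (Y.pt x + Y.ov o + (δ + ∑ l ∈ J, (-Y.σ.coef l δ) • Y.σ.v l))) ^ 2) := by
            refine sum_le_sum fun x _ => mul_le_mul_of_nonneg_left (sum_le_sum fun o _ => ?_) (hc0 x)
            refine le_trans (le_of_eq ?_) (energy_sq_step hn0)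
            rw [e, ← add_assoc]
            ring
        _ = (1 + 1 / n) * ∑ x ∈ X, c x * ∑ o ∈ Y.Off,
            (f (Y.pt x + Y.ov o + (δ + ∑ l ∈ J, (-Y.σ.coef l δ) • Y.σ.v l)) - f (Y.pt x + Y.ov o)) ^ 2 +
            (1 + n) * ∑ x ∈ X, c x * ∑ o ∈ Y.Off,
              (f (Y.pt x + Y.ov o + (δ + ∑ l ∈ J, (-Y.σ.coef l δ) • Y.σ.v l) +
              (-Y.σ.coef g δ) • Y.σ.v g) -
              f (Y.pt x + Y.ov o + (δ + ∑ l ∈ J, (-Y.σ.coef l δ) • Y.σ.v l))) ^ 2 := by
            rw [mul_sum X, mul_sum X, ← sum_add_distrib]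
            refine sum_congr rfl fun x _ => ?_
            rw [sum_add_distrib, ← mul_sum, ← mul_sum]
            ring
        _ ≤ (1 + 1 / n) * (n ^ 2 * Y.En pot f) + (1 + n) * Y.En pot f := by gcongr
        _ = _ := by
            rw [card_insert_of_notMem hg]
            push_cast
            rw [← hn]
            field_simp
            ring
  have h1 := key Y.H subset_rfl
  have e : δ + ∑ g ∈ Y.H, (-Y.σ.coef g δ) • Y.σ.v g = Y.pt (δ, 0) := by
    rw [ept]
    simp [Sys.ov, sub_eq_add_neg]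
  rw [e] at h1
  refine h1.trans (mul_le_mul_of_nonneg_right ?_ (energy_En_nonneg Y pot f))
  have h2 : Y.H.card + 1 ≤ Y.s := lt_of_le_of_lt (card_le_univ _) h.sz.card
  have h3 : (Y.H.card : ℝ) + 1 ≤ Y.s := by exact_mod_cast h2
  gcongr

/-- Jensen: `Off.card * (cavg f x' - cavg f x)² ≤ ∑ o, (f (pt x' + ov o) - f (pt x + ov o))²`.
The move `(0, uv g)` is the real move `Δ g • v g` (only `g ∈ H` can occur).  For the move
`(uv p - uv q, 0)` go from `a = pt x + ov o` to `a + uv p - uv q` and then subtract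
`coef g (uv p - uv q) • v g` (coefficients of size at most `2`) for one `g ∈ H` after the other; all these
points have the form `pt x' + ov ρ` with `|ρ g| ≤ 2 Δ g` (`deep_mem`, `mu_pt`, `Ed_neg`). -/
theorem cell_energy (h : Y.Ok) (pot : E → ℤ) (f : (E × Bool → ℤ) → ℝ) :
    Y.Off.card * Y.cEn pot (Y.cavg f) ≤ (Y.s : ℝ) ^ 6 * Y.En pot f := by
  have hE := energy_En_nonneg Y pot f
  have hc : (Fintype.card (E × Bool) : ℝ) ≤ Y.s := by exact_mod_cast h.sz.card.le
  have hs : (2 : ℝ) ^ 20 ≤ Y.s := by exact_mod_cast h.sz.big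
  unfold Sys.cEn
  rw [mul_add, mul_sum, mul_sum]
  simp only [mul_sum (s := univ)]
  calc _ ≤ ∑ _p : E × Bool, ∑ _q : E × Bool, (Y.s : ℝ) ^ 2 * Y.En pot f + ∑ _g : E × Bool, Y.En pot f :=
        add_le_add (sum_le_sum fun p _ => sum_le_sum fun q _ => energy_unit h pot f p q)
          (sum_le_sum fun g _ => energy_coarse h pot f g)
    _ = (Fintype.card (E × Bool) * (Fintype.card (E × Bool) * (Y.s : ℝ) ^ 2) +
          Fintype.card (E × Bool)) * Y.En pot f := by
        simp only [sum_const, card_univ, nsmul_eq_mul]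
        ring
    _ ≤ (Y.s * (Y.s * (Y.s : ℝ) ^ 2) + Y.s) * Y.En pot f := by gcongr
    _ ≤ _ := by
        refine mul_le_mul_of_nonneg_right ?_ hE
        have h1 : (1 : ℝ) ≤ Y.s := le_trans (by norm_num) hs
        have h2 : (Y.s : ℝ) ≤ Y.s ^ 4 := le_self_pow₀ h1 (by norm_num)
        have h3 : (2 : ℝ) ≤ Y.s ^ 2 := by nlinarith
        have h4 : (0 : ℝ) ≤ Y.s ^ 4 := by positivity
        nlinarith

end Sys.Ok

end Crest.Agent.R302
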