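import Crest.Agent.R302.AuxCell
import Crest.Agent.R302.AC
import Crest.Agent.R302.Energy

/-!
Row 302, part D7: the weak Poincaré inequality for the leaky state space.
-/

set_option autoImplicit false
set_option linter.unusedSectionVars false

namespace Crest.Agent.R302

open Finset

variable {E : Type} [Fintype E] [DecidableEq E]

namespace Sys.Ok

variable {Y : Sys E}

lemma wp_Deep_mono (Y : Sys E) : Y.Deep 1 ⊆ Y.Deep (1 / 2) := by
  classical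
  intro x hx
  unfold Sys.Deep at hx ⊢
  rw [mem_filter] at hx ⊢
  exact ⟨hx.1, fun r => (hx.2 r).trans (by norm_num)⟩

lemma wp_Deep_sub (Y : Sys E) (t : ℝ) : Y.Deep t ⊆ Y.TCells := by
  classical
  intro x hx
  unfold Sys.Deep at hx
  exact (mem_filter.1 hx).1

lemma wp_nu_nonneg (Y : Sys E) (pot : E → ℤ) (x : (E × Bool → ℤ) × (E × Bool → ℤ)) :
    0 ≤ Y.nu pot x :=
  mul_nonneg (mul_nonneg (Y.W_pos _).le (Real.exp_pos _).le) (zpow_pos two_pos _).le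

lemma wp_nu_eq (h : Y.Ok) (pot : E → ℤ) {x : (E × Bool → ℤ) × (E × Bool → ℤ)} (hx : x ∈ Y.Deep 1) :
    Y.nu pot x = Y.mu pot x.1 := by
  classical
  have hH : ∀ r, Y.Hc r (Y.pt x) ≤ -1 := by
    unfold Sys.Deep at hx
    exact (mem_filter.1 hx).2
  have hs : (0 : ℝ) < Y.s := by exact_mod_cast lt_of_lt_of_le (by norm_num) h.sz.big
  have hw : (0 : ℝ) < pw Y.s := by
    unfold pw
    push_cast
    positivity
  unfold Sys.nu Sys.wE Sys.mu
  rw [sum_eq_zero, neg_zero, Real.exp_zero, mul_one]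
  intro r _
  rw [max_eq_left, mul_zero]
  have := hH r
  rw [Int.cast_natCast, div_self hw.ne']
  linarith

lemma wp_split {α : Type} (S : Finset α) (hS : 0 < S.card) (ψ : α → ℝ) (m : ℝ) :
    ∑ o ∈ S, (ψ o - m) ^ 2 = ∑ o ∈ S, (ψ o - (∑ o' ∈ S, ψ o') / S.card) ^ 2 +
      S.card * ((∑ o' ∈ S, ψ o') / S.card - m) ^ 2 := by
  have hc : (S.card : ℝ) ≠ 0 := by exact_mod_cast hS.ne'
  rw [energy_var]
  simp only [sub_sq, sum_add_distrib, sum_sub_distrib, sum_const, nsmul_eq_mul, ← sum_mul,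
    ← mul_sum]
  field_simp
  ring

open Classical in
lemma wp_bad (h : Y.Ok) {pot : E → ℤ} (hb : Y.Bal pot) :
    ∑ a ∈ Y.Om.filter (fun a => Y.cellOf a ∉ Y.Deep 1), Y.mu pot a ≤ 1 / Y.s ^ 2 * Y.Zlk 0 := by
  have hs : (2 : ℝ) ^ 20 ≤ Y.s := by exact_mod_cast h.sz.big
  have hs0 : (0 : ℝ) < Y.s := lt_of_lt_of_le (by norm_num) hs
  have hZ := Y.Zlk_nonneg 0
  have hc : (Fintype.card E : ℝ) ≤ Y.s := by
    have := h.sz.card
    rw [Fintype.card_prod, Fintype.card_bool] at this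
    exact_mod_cast (by omega : Fintype.card E ≤ Y.s)
  calc _ ≤ ∑ a ∈ Y.Om.filter (fun a => Y.cellOf a ∉ Y.Deep 1), ∑ i, ∑ k,
        if Y.ty a = Y.τ i k then Y.mu pot a else 0 := by
        refine sum_le_sum fun a ha => ?_
        have ha' := (mem_filter.1 ha).1
        unfold Sys.Om at ha'
        obtain ⟨i, k, hik⟩ := (mem_filter.1 ha').2.1
        have h0 : ∀ i k, 0 ≤ if Y.ty a = Y.τ i k then Y.mu pot a else 0 := fun i k => by
          split_ifs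
          · exact (Y.mu_pos _ _).le
          · exact le_rfl
        refine le_trans ?_ (single_le_sum (f := fun i => ∑ k, if Y.ty a = Y.τ i k then Y.mu pot a else 0)
          (fun i _ => sum_nonneg fun k _ => h0 i k) (mem_univ i))
        refine le_trans ?_ (single_le_sum (f := fun k => if Y.ty a = Y.τ i k then Y.mu pot a else 0)
          (fun k _ => h0 i k) (mem_univ k))
        rw [if_pos hik]
    _ = ∑ i, ∑ k, (2 : ℝ) ^ (pot (Y.σ.root i) - pot (Y.σ.root k)) *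
        ∑ a ∈ Y.Om.filter (fun a => Y.ty a = Y.τ i k ∧ Y.cellOf a ∉ Y.Deep 1), Y.W a := by
        rw [sum_comm]
        refine sum_congr rfl fun i _ => ?_
        rw [sum_comm]
        refine sum_congr rfl fun k _ => ?_
        rw [← sum_filter, filter_filter, mul_sum]
        refine sum_congr (filter_congr fun a _ => and_comm) fun a ha => ?_
        unfold Sys.mu
        rw [h.pot_τ pot (mem_filter.1 ha).2.1, mul_comm]
    _ ≤ ∑ _i : E, ∑ _k : E, 1 / (Y.s : ℝ) ^ 4 * Y.Zlk 0 := by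
        refine sum_le_sum fun i _ => sum_le_sum fun k _ => ?_
        have h1 := h.ac_real i k
        have h2 := hb i k
        have hk : (0 : ℝ) < 2 ^ pot (Y.σ.root k) := zpow_pos two_pos _
        have hi : (0 : ℝ) < 2 ^ pot (Y.σ.root i) := zpow_pos two_pos _
        rw [zpow_sub₀ two_ne_zero]
        calc _ ≤ (2 : ℝ) ^ pot (Y.σ.root i) / 2 ^ pot (Y.σ.root k) * (1 / Y.s ^ 5 * Y.Zlk (Y.τ i k)) :=
              mul_le_mul_of_nonneg_left h1 (by positivity)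
          _ = (2 : ℝ) ^ pot (Y.σ.root i) * Y.Zlk (Y.τ i k) / (2 ^ pot (Y.σ.root k) * Y.s ^ 5) := by
              field_simp
          _ ≤ Y.s * ((2 : ℝ) ^ pot (Y.σ.root k) * Y.Zlk 0) / (2 ^ pot (Y.σ.root k) * Y.s ^ 5) := by
              gcongr
          _ = _ := by field_simp
    _ = Fintype.card E * (Fintype.card E * (1 / (Y.s : ℝ) ^ 4 * Y.Zlk 0)) := by
        simp only [sum_const, card_univ, nsmul_eq_mul]
    _ ≤ Y.s * (Y.s * (1 / (Y.s : ℝ) ^ 4 * Y.Zlk 0)) := by gcongr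
    _ = _ := by field_simp

open Classical in
lemma wp_good (h : Y.Ok) (pot : E → ℤ) (f : (E × Bool → ℤ) → ℝ) (m : ℝ) :
    ∑ a ∈ Y.Om.filter (fun a => Y.cellOf a ∈ Y.Deep 1), Y.mu pot a * (f a - m) ^ 2 ≤
      Y.En pot f + Y.Off.card * ∑ x ∈ Y.TCells, Y.nu pot x * (Y.cavg f x - m) ^ 2 := by
  rw [sum_filter, h.sum_Om]
  calc _ ≤ ∑ x ∈ Y.TCells, if x ∈ Y.Deep 1 then
        Y.mu pot x.1 * ∑ o ∈ Y.Off, (f (Y.pt x + Y.ov o) - m) ^ 2 else 0 := by
        refine sum_le_sum fun x hx => ?_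
        have hxc : x ∈ Y.Cells := by
          unfold Sys.TCells at hx
          exact (mem_filter.1 hx).1
        rw [sum_congr rfl (g := fun o => if x ∈ Y.Deep 1 then
          Y.mu pot x.1 * (f (Y.pt x + Y.ov o) - m) ^ 2 else 0) fun o ho => by
            rw [(h.cellOf_pt hxc (mem_filter.1 ho).1).1, h.mu_pt]]
        split_ifs
        · rw [mul_sum]
          exact sum_le_sum_of_subset_of_nonneg (filter_subset _ _) fun _ _ _ =>
            mul_nonneg (Y.mu_pos _ _).le (sq_nonneg _)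
        · simp
    _ = ∑ x ∈ Y.Deep 1, Y.mu pot x.1 * ∑ o ∈ Y.Off, (f (Y.pt x + Y.ov o) - Y.cavg f x) ^ 2 +
        Y.Off.card * ∑ x ∈ Y.Deep 1, Y.nu pot x * (Y.cavg f x - m) ^ 2 := by
        rw [← sum_filter, filter_mem_eq_inter, inter_eq_right.2 (wp_Deep_sub Y 1), mul_sum,
          ← sum_add_distrib]
        refine sum_congr rfl fun x hx => ?_
        rw [wp_split _ (Off_card_pos Y), wp_nu_eq h pot hx]
        unfold Sys.cavg
        ring
    _ ≤ _ := by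
        refine add_le_add (le_trans (sum_le_sum_of_subset_of_nonneg (wp_Deep_mono Y) fun _ _ _ =>
          mul_nonneg (Y.mu_pos _ _).le (sum_nonneg fun _ _ => sq_nonneg _)) (h.within pot f))
          (mul_le_mul_of_nonneg_left (sum_le_sum_of_subset_of_nonneg (wp_Deep_sub Y 1) fun _ _ _ =>
            mul_nonneg (wp_nu_nonneg Y pot _) (sq_nonneg _)) (Nat.cast_nonneg _))

/-- Take `m` from `aux_cell_wp` for `cavg f` (`bal_Mass`).  Points whose cell is not in `Deep 1`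
have total weight `≤ ∑_{i, k} 2 ^ (pot i - pot k) Zlk (τ i k) / s ^ 5 ≤ Zlk 0 / s²` (`ac_real`).  On a cell
in `Deep 1` we have `nu = mu` and `∑ o (f - m)² = ∑ o (f - cavg)² + Off.card (cavg - m)²`; `within`,
`cell_energy`, `tail`, `Mass_shift_le`, `Mass_le_Zlk`.  (If `E` is empty, `Om` is empty.) -/
theorem wp (h : Y.Ok) {pot : E → ℤ} (hb : Y.Bal pot) {f : (E × Bool → ℤ) → ℝ}
    (hf : ∀ a, 0 ≤ f a ∧ f a ≤ 1) : ∃ m : ℝ,
      ∑ a ∈ Y.Om, Y.mu pot a * (f a - m) ^ 2 ≤ (Y.s : ℝ) ^ 2300 * Y.En pot f + 1 / Y.s * Y.Zlk 0 := by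
  classical
  have hs : (2 : ℝ) ^ 20 ≤ Y.s := by exact_mod_cast h.sz.big
  have hs0 : (0 : ℝ) < Y.s := lt_of_lt_of_le (by norm_num) hs
  have hs1 : (1 : ℝ) ≤ Y.s := le_trans (by norm_num) hs
  have hZ := Y.Zlk_nonneg 0
  have hE := energy_En_nonneg Y pot f
  rcases isEmpty_or_nonempty E with hE0 | ⟨⟨i⟩⟩
  · refine ⟨0, ?_⟩
    rw [sum_eq_zero fun a ha => ?_]
    · positivity
    · unfold Sys.Om at ha
      obtain ⟨i, -⟩ := (mem_filter.1 ha).2.1
      exact hE0.elim i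
  have hpos : (0 : ℝ) < Y.Off.card := by exact_mod_cast Off_card_pos Y
  have hF : ∀ x, 0 ≤ Y.cavg f x ∧ Y.cavg f x ≤ 1 := fun x => by
    unfold Sys.cavg
    refine ⟨div_nonneg (sum_nonneg fun _ _ => (hf _).1) hpos.le, (div_le_one hpos).2 ?_⟩
    simpa using sum_le_sum (s := Y.Off) fun o _ => (hf (Y.pt x + Y.ov o)).2
  obtain ⟨m, hm0, hm1, hm⟩ := h.aux_cell_wp pot (h.bal_Mass hb) hF
  refine ⟨m, ?_⟩
  have h1 := wp_good h pot f m
  have h2 : ∑ a ∈ Y.Om.filter (fun a => Y.cellOf a ∉ Y.Deep 1), Y.mu pot a * (f a - m) ^ 2 ≤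
      1 / Y.s ^ 2 * Y.Zlk 0 := by
    refine le_trans (sum_le_sum fun a _ => ?_) (wp_bad h hb)
    refine mul_le_of_le_one_right (Y.mu_pos _ _).le ?_
    have := hf a
    rw [sq_le_one_iff_abs_le_one, abs_le]
    constructor <;> linarith
  have h3 := h.cell_energy pot f
  have h4 := h.tail hb
  have h5 := h.Mass_le_Zlk i i
  rw [Y.τ_self] at h5
  have h6 : Y.Off.card * Y.Mass (fun _ => pw Y.s) 0 ≤ 2 * Y.Zlk 0 :=
    (mul_le_mul_of_nonneg_left (Mass_shift_le Y 0) hpos.le).trans h5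
  have h7 : (Y.s : ℝ) ^ 2260 * (1 / 2) ^ Y.s ^ 3 ≤ 1 / Y.s ^ 3 := by
    have h8 : Y.s ^ 2263 ≤ 2 ^ Y.s ^ 3 := (h.sz.pow_le (by norm_num)).trans
      (Nat.pow_le_pow_right (by norm_num) (Nat.le_self_pow (by norm_num) _))
    have h9 : (Y.s : ℝ) ^ 2263 ≤ 2 ^ Y.s ^ 3 := by exact_mod_cast h8
    rw [one_div_pow, mul_one_div, div_le_div_iff₀ (by positivity) (by positivity), one_mul, ← pow_add]
    exact h9
  have h10 : Y.Off.card * ∑ x ∈ Y.TCells, Y.nu pot x * (Y.cavg f x - m) ^ 2 ≤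
      (Y.s : ℝ) ^ 2266 * Y.En pot f + 3 / Y.s ^ 3 * Y.Zlk 0 := by
    calc _ ≤ Y.Off.card * ((Y.s : ℝ) ^ 2260 * (Y.cEn pot (Y.cavg f) +
          ∑ x ∈ Y.TCells \ Y.Deep (1 / 2), Y.nu pot x) + 1 / Y.s ^ 3 * Y.Mass (fun _ => pw Y.s) 0) :=
          mul_le_mul_of_nonneg_left hm hpos.le
      _ = (Y.s : ℝ) ^ 2260 * (Y.Off.card * Y.cEn pot (Y.cavg f) +
          Y.Off.card * ∑ x ∈ Y.TCells \ Y.Deep (1 / 2), Y.nu pot x) +
          1 / Y.s ^ 3 * (Y.Off.card * Y.Mass (fun _ => pw Y.s) 0) := by ring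
      _ ≤ (Y.s : ℝ) ^ 2260 * ((Y.s : ℝ) ^ 6 * Y.En pot f + (1 / 2) ^ Y.s ^ 3 * Y.Zlk 0) +
          1 / Y.s ^ 3 * (2 * Y.Zlk 0) := by gcongr
      _ = (Y.s : ℝ) ^ 2266 * Y.En pot f + ((Y.s : ℝ) ^ 2260 * (1 / 2) ^ Y.s ^ 3) * Y.Zlk 0 +
          2 / Y.s ^ 3 * Y.Zlk 0 := by ring
      _ ≤ (Y.s : ℝ) ^ 2266 * Y.En pot f + 1 / Y.s ^ 3 * Y.Zlk 0 + 2 / Y.s ^ 3 * Y.Zlk 0 := by gcongr
      _ = _ := by ring
  have h11 : (1 : ℝ) + Y.s ^ 2266 ≤ Y.s ^ 2300 := by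
    have a1 : (1 : ℝ) ≤ Y.s ^ 2266 := one_le_pow₀ hs1
    have a2 : (2 : ℝ) ≤ Y.s ^ 34 := le_trans (le_trans (by norm_num) hs) (le_self_pow₀ hs1 (by norm_num))
    calc _ ≤ (Y.s : ℝ) ^ 2266 * 2 := by linarith
      _ ≤ (Y.s : ℝ) ^ 2266 * Y.s ^ 34 := by gcongr
      _ = _ := by rw [← pow_add]
  have h12 : 3 / (Y.s : ℝ) ^ 3 + 1 / Y.s ^ 2 ≤ 1 / Y.s := by
    rw [div_add_div _ _ (by positivity) (by positivity), div_le_div_iff₀ (by positivity) hs0]
    have a1 : (0 : ℝ) < Y.s ^ 3 := by positivity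
    have a2 : (3 : ℝ) + Y.s ≤ Y.s ^ 2 := by nlinarith
    nlinarith
  rw [← sum_filter_add_sum_filter_not Y.Om (fun a => Y.cellOf a ∈ Y.Deep 1)]
  have h13 := mul_le_mul_of_nonneg_right h11 hE
  have h14 := mul_le_mul_of_nonneg_right h12 hZ
  generalize (Y.s : ℝ) ^ 2266 = A at *
  generalize (Y.s : ℝ) ^ 2300 = B at *
  linarith

end Sys.Ok

end Crest.Agent.R302
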