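import Crest.Agent.R302.Alg
import Crest.Agent.R302.WP
import Crest.Agent.R302.Flat

/-!
Row 302, part E3: the chain of a good stage mixes from a warm start.
-/

set_option autoImplicit false

namespace Crest.Agent.R302

open Finset Crest.Agent.Lib.PT Crest.Agent.R309

lemma ix_injective {m : ℕ} : Function.Injective (ix : Fin m × Bool → ℕ) := by
  rintro ⟨e, b⟩ ⟨e', b'⟩ h
  unfold ix at h
  cases b <;> cases b' <;> simp at h ⊢ <;> omega

lemma exists_ix {m x : ℕ} (h : x < 2 * m) : ∃ p : Fin m × Bool, ix p = x := by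
  refine ⟨(⟨x / 2, by omega⟩, decide (x % 2 = 1)), ?_⟩
  unfold ix
  by_cases hx : x % 2 = 1 <;> simp [hx] <;> omega

lemma sum_ix {m : ℕ} {β : Type} [AddCommMonoid β] (f : ℕ → β) :
    ∑ g ∈ range (2 * m), f g = ∑ p : Fin m × Bool, f (ix p) := by
  refine (Finset.sum_bij (fun p _ => ix p) (fun p _ => mem_range.2 (ix_lt p))
    (fun p _ q _ h => ix_injective h) (fun x hx => ?_) fun _ _ => rfl).symm
  obtain ⟨p, hp⟩ := exists_ix (mem_range.1 hx)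
  exact ⟨p, mem_univ _, hp⟩

lemma vec_map_range {m : ℕ} (f : ℕ → ℤ) (p : Fin m × Bool) :
    vec m ((List.range (2 * m)).map f) p = f (ix p) := by
  have := ix_lt p
  simp [vec, List.getD_eq_getElem?_getD, this]

lemma kr_ix {m : ℕ} (x p : Fin m × Bool) : kr (ix x) (ix p) = uv p x := by
  simp only [kr, uv, Pi.single_apply, ix_injective.eq_iff]

lemma mem_image_lst {m : ℕ} {X : Finset (Fin m × Bool → ℤ)} {l : List ℤ} :
    l ∈ X.image lst ↔ l.length = 2 * m ∧ vec m l ∈ X := by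
  rw [mem_image]
  constructor
  · rintro ⟨a, ha, rfl⟩
    exact ⟨length_lst a, by rwa [vec_lst]⟩
  · rintro ⟨h1, h2⟩
    exact ⟨_, h2, lst_vec h1⟩

lemma Sys.mem_Om {E : Type} [Fintype E] [DecidableEq E] {Y : Sys E} {a : E × Bool → ℤ} :
    a ∈ Y.Om ↔ InB Y.F a ∧ (∃ i k, Y.ty a = Y.τ i k) ∧ Y.Leak a := by
  classical
  rw [Sys.Om, mem_filter, Inst.mem_N]

namespace Alg

variable {A : Alg} {I : ℕ → Inst (Fin A.m)}

/-- Everything that is known about a good stage. -/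
structure Cx (A : Alg) (I : ℕ → Inst (Fin A.m)) (θ : Th) (c : Fin A.m × Bool → ℝ)
    (σ : Str (Fin A.m)) : Prop where
  spec : A.Spec I
  lt : θ.1 < A.Tn
  pot : A.GoodPot I θ.1 θ.2.2
  gs : A.GS I θ.1 c σ θ.2.1

lemma ellL_eq (l : List ℤ) (e : Fin A.m) : ellL l e = ell (vec A.m l) e := by
  rw [ell_apply]
  simp [ellL, vec, ix]

lemma perf_iff (l : List ℤ) : A.perf l = true ↔ ell (vec A.m l) = 0 := by
  simp only [perf, decide_eq_true_eq]
  constructor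
  · intro h
    funext e
    rw [← ellL_eq]
    exact h e e.2
  · intro h e he
    have := ellL_eq (A := A) l ⟨e, he⟩
    rw [h] at this
    exact this

lemma mem_PL {t : ℕ} {l : List ℤ} :
    l ∈ A.PL I t ↔ l.length = 2 * A.m ∧ InB (I t).F (vec A.m l) ∧ ell (vec A.m l) = 0 := by
  rw [PL, mem_image_lst, mem_filter, Inst.mem_N]

lemma sum_PL (t : ℕ) (g : List ℤ → ℝ) :
    ∑ l ∈ A.PL I t, g l = ∑ a ∈ (I t).N.filter (fun a => ell a = 0), g (lst a) :=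
  sum_image fun _ _ _ _ h => lst_injective h

lemma sum_piL (t : ℕ) : ∑ l ∈ A.PL I t, A.piL I t l = (I t).Z 0 := by
  rw [sum_PL]
  simp only [piL, vec_lst, Inst.Z]

lemma sum_OmL (t : ℕ) (c : Fin A.m × Bool → ℝ) (σ : Str (Fin A.m)) (g : List ℤ → ℝ) :
    ∑ l ∈ A.OmL I t c σ, g l = ∑ a ∈ (A.sys I t c σ).Om, g (lst a) :=
  sum_image fun _ _ _ _ h => lst_injective h

lemma mem_OmL {t : ℕ} {c : Fin A.m × Bool → ℝ} {σ : Str (Fin A.m)} {l : List ℤ} :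
    l ∈ A.OmL I t c σ ↔ l.length = 2 * A.m ∧ vec A.m l ∈ (A.sys I t c σ).Om := mem_image_lst

lemma rootL_eq {σ : Str (Fin A.m)} {L : StrL} (h : σ.Rep L) (e : Fin A.m) :
    rootL L e = σ.root e := h.root e

lemma tyL_eq {t : ℕ} {c : Fin A.m × Bool → ℝ} {σ : Str (Fin A.m)} {L : StrL} (h : σ.Rep L)
    (l : List ℤ) (r : Fin A.m) : A.tyL L l r = (A.sys I t c σ).ty (vec A.m l) r := by
  unfold tyL Sys.ty agg
  rw [sum_range, sum_filter]
  refine sum_congr rfl fun e _ => ?_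
  rw [rootL_eq h, ellL_eq]
  simp only [Fin.val_inj, sys]
  congr

lemma isTy_iff {t : ℕ} {c : Fin A.m × Bool → ℝ} {σ : Str (Fin A.m)} {L : StrL} (h : σ.Rep L)
    (l : List ℤ) (i k : Fin A.m) :
    A.isTy L l i k = true ↔ (A.sys I t c σ).ty (vec A.m l) = (A.sys I t c σ).τ i k := by
  have e : ∀ r : Fin A.m, kr (rootL L i) r - kr (rootL L k) r = (A.sys I t c σ).τ i k r := fun r => by
    rw [rootL_eq h, rootL_eq h]
    simp only [kr, Sys.τ, sys, Pi.sub_apply, Pi.single_apply, Fin.val_inj, eq_comm]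
  simp only [isTy, decide_eq_true_eq]
  constructor
  · intro H
    funext r
    rw [← tyL_eq h, ← e]
    exact H r r.2
  · intro H r hr
    have := tyL_eq (I := I) (t := t) (c := c) h l ⟨r, hr⟩
    rw [H, ← e] at this
    exact this

lemma coefL_eq {σ : Str (Fin A.m)} {L : StrL} (h : σ.Rep L) {g : Fin A.m × Bool} (hg : g ∈ σ.tree)
    (l : List ℤ) : A.coefL L (ix g) l = σ.coef g (vec A.m l) := by
  unfold coefL Str.coef
  rw [if_pos hg, sum_range, ← sum_filter]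
  refine sum_congr ?_ fun e _ => ellL_eq l e
  ext e
  simp only [mem_filter, mem_univ, true_and, h.U]

lemma vL_eq {σ : Str (Fin A.m)} {L : StrL} (h : σ.Rep L) (g x : Fin A.m × Bool) :
    vL L (ix g) (ix x) = σ.v g x := congrFun (h.v g) x

lemma vec_addT {t : ℕ} {c : Fin A.m × Bool → ℝ} {σ : Str (Fin A.m)} {L : StrL} (h : σ.Rep L)
    (z φ : List ℤ) :
    vec A.m (A.addT L z φ) = vec A.m z + (A.sys I t c σ).tv (vec A.m φ) := by
  funext x
  rw [addT, vec_map_range, sum_ix, ← sum_filter]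
  simp only [Pi.add_apply, Sys.tv, Finset.sum_apply, Pi.smul_apply, smul_eq_mul]
  congr 1
  refine sum_congr ?_ fun g _ => ?_
  · ext g
    simp only [mem_filter, mem_univ, true_and, sys, h.tree]
  · rw [vL_eq h]
    rfl

lemma length_addT (L : StrL) (z φ : List ℤ) : (A.addT L z φ).length = 2 * A.m := by simp [addT]

lemma length_prop (L : StrL) (i : ℕ) (b : Bool) (a : List ℤ) : (A.prop L i b a).length = 2 * A.m := by
  simp [prop]

lemma vec_prop (L : StrL) (i : ℕ) (b : Bool) (a : List ℤ) (x : Fin A.m × Bool) :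
    vec A.m (A.prop L i b a) x = vec A.m a x + (if b = true then 1 else -1) * A.mv L i (ix x) :=
  vec_map_range _ x

namespace Cx

variable {θ : Th} {c : Fin A.m × Bool → ℝ} {σ : Str (Fin A.m)}

lemma ok (h : Cx A I θ c σ) : (A.sys I θ.1 c σ).Ok := h.gs.ok

lemma big (h : Cx A I θ c σ) : 2 ^ 20 ≤ A.S := by
  obtain ⟨k, hk, e⟩ := h.spec.pow
  rw [e]
  exact Nat.pow_le_pow_right (by norm_num) hk

lemma valid_iff (h : Cx A I θ c σ) (l : List ℤ) : A.valid θ l = true ↔ l ∈ A.OmL I θ.1 c σ := by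
  have hr := h.gs.rep
  rw [mem_OmL, Sys.mem_Om]
  simp only [valid, Bool.and_eq_true, decide_eq_true_eq, h.spec.mem _ h.lt.le, and_assoc]
  refine and_congr_right fun _ => and_congr_right fun _ => and_congr ?_ ?_
  · constructor
    · rintro ⟨i, hi, k, hk, H⟩
      exact ⟨⟨i, hi⟩, ⟨k, hk⟩, (isTy_iff hr l ⟨i, hi⟩ ⟨k, hk⟩).1 H⟩
    · rintro ⟨i, k, H⟩
      exact ⟨i, i.2, k, k.2, (isTy_iff hr l i k).2 H⟩
  · constructor
    · intro H g hg
      have := H (ix g) (ix_lt g) ((hr.tree g).1 hg)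
      rw [coefL_eq hr hg] at this
      exact this
    · intro H x hx hg
      obtain ⟨g, rfl⟩ := exists_ix hx
      have hg' := (hr.tree g).2 hg
      rw [coefL_eq hr hg']
      exact H g hg'

lemma lw_eq (h : Cx A I θ c σ) (l : List ℤ) :
    A.lw θ l = ∑ e, A.potF θ.2.2 (σ.root e) * ell (vec A.m l) e - ((I θ.1).wx (vec A.m l) : ℤ) := by
  rw [lw, h.spec.wex _ h.lt.le, sum_range]
  congr 1
  refine sum_congr rfl fun e _ => ?_
  rw [rootL_eq h.gs.rep, ellL_eq]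
  rfl

lemma muL_eq (h : Cx A I θ c σ) (l : List ℤ) :
    A.muL θ l = (A.sys I θ.1 c σ).mu (A.potF θ.2.2) (vec A.m l) := by
  rw [muL, h.lw_eq, zpow_sub₀ (by norm_num), zpow_natCast, Sys.mu, Inst.W, one_div, inv_pow,
    div_eq_inv_mul]
  rfl

/-- `τ i k = uv (root i) - uv (root k)`; `Zlk_flat` twice gives the constant `4 * 2 ^ 16`. -/
lemma bal' (h : Cx A I θ c σ) (i k : Fin A.m) :
    (2 : ℝ) ^ A.potF θ.2.2 (σ.root i) * (A.sys I θ.1 c σ).Zlk ((A.sys I θ.1 c σ).τ i k) ≤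
      2 ^ 18 * ((2 : ℝ) ^ A.potF θ.2.2 (σ.root k) * (A.sys I θ.1 c σ).Zlk 0) := by
  have h1 := (h.ok.Zlk_flat i k).1
  have h2 := (h.ok.Zlk_flat i i).2
  rw [Sys.τ_self] at h2
  have h3 : (2 : ℝ) ^ A.potF θ.2.2 (σ.root i) * (A.sys I θ.1 c σ).Z ((A.sys I θ.1 c σ).τ i k) ≤
      2 ^ 16 * ((2 : ℝ) ^ A.potF θ.2.2 (σ.root k) * (A.sys I θ.1 c σ).Z 0) :=
    h.pot.bal (σ.root i) (σ.root k)
  have p1 : (0 : ℝ) < (2 : ℝ) ^ A.potF θ.2.2 (σ.root i) := by positivity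
  have p2 : (0 : ℝ) < (2 : ℝ) ^ A.potF θ.2.2 (σ.root k) := by positivity
  have p3 : (0 : ℝ) ≤ (A.sys I θ.1 c σ).lbox.card := by positivity
  calc _ ≤ (2 : ℝ) ^ A.potF θ.2.2 (σ.root i) * (2 * ((A.sys I θ.1 c σ).lbox.card *
        (A.sys I θ.1 c σ).Z ((A.sys I θ.1 c σ).τ i k))) := mul_le_mul_of_nonneg_left h1 p1.le
    _ = 2 * (A.sys I θ.1 c σ).lbox.card * ((2 : ℝ) ^ A.potF θ.2.2 (σ.root i) *
        (A.sys I θ.1 c σ).Z ((A.sys I θ.1 c σ).τ i k)) := by ring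
    _ ≤ 2 * (A.sys I θ.1 c σ).lbox.card * (2 ^ 16 * ((2 : ℝ) ^ A.potF θ.2.2 (σ.root k) *
        (A.sys I θ.1 c σ).Z 0)) := mul_le_mul_of_nonneg_left h3 (by positivity)
    _ = 2 ^ 17 * (2 : ℝ) ^ A.potF θ.2.2 (σ.root k) * ((A.sys I θ.1 c σ).lbox.card *
        (A.sys I θ.1 c σ).Z 0) := by ring
    _ ≤ 2 ^ 17 * (2 : ℝ) ^ A.potF θ.2.2 (σ.root k) * (2 * (A.sys I θ.1 c σ).Zlk 0) :=
        mul_le_mul_of_nonneg_left h2 (by positivity)
    _ = _ := by ring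

lemma bal (h : Cx A I θ c σ) : (A.sys I θ.1 c σ).Bal (A.potF θ.2.2) := by
  intro i k
  refine (h.bal' i k).trans (mul_le_mul_of_nonneg_right ?_
    (mul_nonneg (by positivity) (Sys.Zlk_nonneg _ _)))
  have : (2 : ℝ) ^ 20 ≤ (A.sys I θ.1 c σ).s := by exact_mod_cast h.ok.sz.big
  linarith

/-- `sum_mu_le`, `bal'`. -/
lemma sum_muL_le (h : Cx A I θ c σ) :
    ∑ l ∈ A.OmL I θ.1 c σ, A.muL θ l ≤ A.S ^ 3 * (A.sys I θ.1 c σ).Zlk 0 := by
  rw [sum_OmL]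
  simp only [h.muL_eq, vec_lst]
  refine (h.ok.sum_mu_le _).trans ?_
  have hz := Sys.Zlk_nonneg (A.sys I θ.1 c σ) 0
  have hb : ∀ i k : Fin A.m, (2 : ℝ) ^ (A.potF θ.2.2 ((A.sys I θ.1 c σ).σ.root i) -
      A.potF θ.2.2 ((A.sys I θ.1 c σ).σ.root k)) * (A.sys I θ.1 c σ).Zlk ((A.sys I θ.1 c σ).τ i k) ≤
      2 ^ 18 * (A.sys I θ.1 c σ).Zlk 0 := fun i k => by
    have p2 : (0 : ℝ) < (2 : ℝ) ^ A.potF θ.2.2 (σ.root k) := by positivity
    rw [zpow_sub₀ (by norm_num), div_mul_eq_mul_div]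
    exact (div_le_iff₀ p2).2 ((h.bal' i k).trans_eq (by ring))
  refine (sum_le_sum fun i _ => sum_le_sum fun k _ => hb i k).trans ?_
  simp only [sum_const, card_univ, Fintype.card_fin, nsmul_eq_mul]
  have hm : (A.m : ℝ) ≤ A.S := by exact_mod_cast h.spec.m_le
  have hS : (2 : ℝ) ^ 20 ≤ A.S := by exact_mod_cast h.big
  have h0 : (0 : ℝ) ≤ A.m := by positivity
  calc (A.m : ℝ) * (A.m * (2 ^ 18 * (A.sys I θ.1 c σ).Zlk 0)) ≤
        A.S * (A.S * (A.S * (A.sys I θ.1 c σ).Zlk 0)) := by gcongr; linarith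
    _ = _ := by ring

lemma le_sum_muL (h : Cx A I θ c σ) :
    (A.sys I θ.1 c σ).Zlk 0 ≤ ∑ l ∈ A.OmL I θ.1 c σ, A.muL θ l := by
  rw [sum_OmL]
  simp only [h.muL_eq, vec_lst]
  have := h.ok.sum_mu_type (A.potF θ.2.2) ⟨0, h.spec.m_pos⟩ ⟨0, h.spec.m_pos⟩
  rw [Sys.τ_self, sub_self, zpow_zero, one_mul] at this
  rw [← this]
  exact sum_le_sum_of_subset_of_nonneg (filter_subset _ _) fun a _ _ => (Sys.mu_pos _ _ _).le

lemma Zlk_pos (h : Cx A I θ c σ) : 0 < (A.sys I θ.1 c σ).Zlk 0 := by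
  have h2 := (h.ok.Zlk_flat ⟨0, h.spec.m_pos⟩ ⟨0, h.spec.m_pos⟩).2
  rw [Sys.τ_self, Sys.Ok.card_lbox] at h2
  have h3 : 0 < (A.sys I θ.1 c σ).Z 0 := h.spec.pos _ h.lt.le
  have h4 : 0 < (2 * pw (A.sys I θ.1 c σ).s) ^ (A.sys I θ.1 c σ).σ.tree.card :=
    pow_pos (Nat.mul_pos (by norm_num) h.ok.flat_pw_pos) _
  have h5 : (0 : ℝ) < ((2 * pw (A.sys I θ.1 c σ).s) ^ (A.sys I θ.1 c σ).σ.tree.card : ℕ) := by
    exact_mod_cast h4
  nlinarith [mul_pos h5 h3]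

/-- `pot_τ`, `GoodPot.bd`, `wx_le` for the size `S ^ 20`. -/
lemma lw_sub_le (h : Cx A I θ c σ) :
    ∀ a ∈ A.OmL I θ.1 c σ, ∀ a' ∈ A.OmL I θ.1 c σ, A.lw θ a - A.lw θ a' ≤ nA A.S := by
  have key : ∀ a ∈ A.OmL I θ.1 c σ, -(6 * (θ.1 : ℤ)) - (A.S ^ 20) ^ 2 ≤ A.lw θ a ∧
      A.lw θ a ≤ 6 * θ.1 := fun a ha => by
    obtain ⟨hB, ⟨i, k, hτ⟩, -⟩ := Sys.mem_Om.1 (mem_OmL.1 ha).2
    have e := h.ok.pot_τ (A.potF θ.2.2) hτ
    have hw : (((I θ.1).wx (vec A.m a) : ℕ) : ℤ) ≤ (A.S ^ 20) ^ 2 := by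
      exact_mod_cast (h.spec.sz _ h.lt.le).wx_le hB
    have b1 := abs_le.1 (h.pot.bd (σ.root i))
    have b2 := abs_le.1 (h.pot.bd (σ.root k))
    have e' : ∑ e, A.potF θ.2.2 (σ.root e) * ell (vec A.m a) e =
        θ.2.2.getD (σ.root i) 0 - θ.2.2.getD (σ.root k) 0 := e
    rw [h.lw_eq, e']
    omega
  intro a ha a' ha'
  have h1 := key a ha
  have h2 := key a' ha'
  have hT : (θ.1 : ℤ) ≤ A.S ^ 8 := by exact_mod_cast h.lt.le.trans h.spec.Tn_le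
  have hS : (2 : ℤ) ^ 20 ≤ A.S := by exact_mod_cast h.big
  have h8 : (A.S : ℤ) ^ 8 ≤ A.S ^ 40 := pow_le_pow_right₀ (by linarith) (by norm_num)
  have h9 : (A.S : ℤ) ^ 40 * 13 ≤ A.S ^ 40 * A.S ^ 10 :=
    mul_le_mul_of_nonneg_left (le_trans (by linarith) (le_self_pow₀ (by linarith) (by norm_num)))
      (by positivity)
  have e1 : ((A.S : ℤ) ^ 20) ^ 2 = A.S ^ 40 := by ring
  have e2 : ((nA A.S : ℕ) : ℤ) = A.S ^ 40 * A.S ^ 10 := by rw [nA]; push_cast; ring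
  rw [e2]
  linarith [h1.2, h2.1]

theorem step_rev (h : Cx A I θ c σ) :
    Rev (A.OmL I θ.1 c σ) (A.muL θ) (r1 A.S) (A.step θ) := by
  refine metro_rev h.valid_iff (fun i b a ha _ => ?_) h.lw_sub_le
  rw [← lst_vec (mem_OmL.1 ha).1, ← lst_vec (length_prop _ _ _ _)]
  congr 1
  funext x
  rw [vec_prop, vec_prop, vec_lst]
  cases b <;> simp

lemma Ed_le (h : Cx A I θ c σ) (f : List ℤ → ℝ) {d : Fin A.m × Bool → ℤ} {i : ℕ}
    (hi : i < 4 * q2 A.S ^ 3) (hd : ∀ x, A.mv θ.2.1 i (ix x) = d x) :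
    (A.sys I θ.1 c σ).Ed (A.potF θ.2.2) (fun a => f (lst a)) d ≤
      16 * (q2 A.S : ℝ) ^ 3 * En (A.OmL I θ.1 c σ) (A.muL θ) (r1 A.S) (A.step θ) f := by
  have hq : 2 ^ Nat.log 2 (q2 A.S) = q2 A.S := h.ok.sz.pow_log
  have e0 : 2 ^ r0 A.S = 4 * q2 A.S ^ 3 := by
    rw [r0, pow_add, mul_comm 3, pow_mul, hq]; ring
  have H := metro_en (prop := A.prop θ.2.1) h.valid_iff h.lw_sub_le f (e0 ▸ hi) true
  have e1 : (2 : ℝ) ^ (r0 A.S + 2) = 16 * (q2 A.S : ℝ) ^ 3 := by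
    have : ((2 ^ r0 A.S : ℕ) : ℝ) = ((4 * q2 A.S ^ 3 : ℕ) : ℝ) := by rw [e0]
    push_cast at this
    rw [pow_add, this]; ring
  have e2 : ∀ a : Fin A.m × Bool → ℤ, A.prop θ.2.1 i true (lst a) = lst (a + d) := fun a => by
    rw [← lst_vec (length_prop _ _ _ _)]
    congr 1
    funext x
    rw [vec_prop, vec_lst, hd]
    simp
  rw [e1, sum_filter, sum_OmL] at H
  refine le_trans (le_of_eq ?_) H
  rw [Sys.Ed, sum_filter]
  refine sum_congr rfl fun a _ => ?_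
  have e3 : ∀ a : Fin A.m × Bool → ℤ, (2 : ℝ) ^ A.lw θ (lst a) =
      (A.sys I θ.1 c σ).mu (A.potF θ.2.2) a := fun a => by
    have := h.muL_eq (lst a)
    rwa [vec_lst] at this
  rw [e2, e3, e3]
  simp only [mem_OmL, length_lst, vec_lst, true_and]

lemma En_le (h : Cx A I θ c σ) (f : List ℤ → ℝ) :
    (A.sys I θ.1 c σ).En (A.potF θ.2.2) (fun a => f (lst a)) ≤
      (q2 A.S : ℝ) ^ 10 * En (A.OmL I θ.1 c σ) (A.muL θ) (r1 A.S) (A.step θ) f := by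
  have hb : 2 ^ 20 ≤ q2 A.S := h.ok.sz.big
  have hc : Fintype.card (Fin A.m × Bool) < q2 A.S := h.ok.sz.card
  have hx : ∀ p : Fin A.m × Bool, ix p < q2 A.S := fun p => by
    have := ix_lt p
    simp only [Fintype.card_prod, Fintype.card_fin, Fintype.card_bool] at hc
    omega
  have hr := h.gs.rep
  have hE : 0 ≤ En (A.OmL I θ.1 c σ) (A.muL θ) (r1 A.S) (A.step θ) f :=
    sum_nonneg fun x _ => sum_nonneg fun y _ =>
      mul_nonneg (mul_nonneg (by unfold muL; positivity) (Pr_nonneg _ _)) (sq_nonneg _)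
  generalize hs : q2 A.S = s at hb hc hx
  have hs0 : 0 < s := by omega
  have h1 : ∀ p q : Fin A.m × Bool,
      (A.sys I θ.1 c σ).Ed (A.potF θ.2.2) (fun a => f (lst a)) (uv p - uv q) ≤
        16 * (s : ℝ) ^ 3 * En (A.OmL I θ.1 c σ) (A.muL θ) (r1 A.S) (A.step θ) f := fun p q => by
    have hp := hx p
    have hq := hx q
    have hi : ix p + s * ix q < s ^ 2 := by nlinarith
    rw [← hs]
    refine h.Ed_le f (i := ix p + s * ix q) (by rw [hs]; nlinarith) fun x => ?_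
    rw [mv, hs, if_pos (Nat.div_eq_of_lt hi), Nat.add_mul_mod_self_left, Nat.mod_eq_of_lt hp,
      Nat.add_mul_div_left _ _ hs0, Nat.div_eq_of_lt hp, zero_add, Nat.mod_eq_of_lt hq, kr_ix, kr_ix]
    rfl
  have h2 : ∀ g ∈ σ.act, ∀ j ∈ range (s + 2),
      (A.sys I θ.1 c σ).Ed (A.potF θ.2.2) (fun a => f (lst a)) ((2 : ℤ) ^ j • σ.v g) ≤
        16 * (s : ℝ) ^ 3 * En (A.OmL I θ.1 c σ) (A.muL θ) (r1 A.S) (A.step θ) f := fun g hg j hj => by
    have hp := hx g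
    have hj' := mem_range.1 hj
    have hp2 : ix g < s ^ 2 := by nlinarith
    have d1 : (ix g + s ^ 2 * (j + 1)) / s ^ 2 = j + 1 := by
      rw [Nat.add_mul_div_left _ _ (by positivity), Nat.div_eq_of_lt hp2, zero_add]
    have d2 : (ix g + s ^ 2 * (j + 1)) % s = ix g := by
      rw [sq, mul_assoc, Nat.add_mul_mod_self_left, Nat.mod_eq_of_lt hp]
    rw [← hs]
    refine h.Ed_le f (i := ix g + s ^ 2 * (j + 1)) ?_ fun x => ?_
    · rw [hs]
      have : s ^ 2 * (j + 1) ≤ s ^ 2 * (2 * s) := Nat.mul_le_mul_left _ (by omega)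
      nlinarith
    · rw [mv, hs, d1, d2, if_neg (by omega), if_pos ((hr.act g).1 hg), vL_eq hr,
        Nat.add_sub_cancel, min_eq_left (by omega)]
      rfl
  have hcr : (Fintype.card (Fin A.m × Bool) : ℝ) ≤ s := by exact_mod_cast hc.le
  have hac : (σ.act.card : ℝ) ≤ s := le_trans (by exact_mod_cast card_le_univ _) hcr
  have hbr : (2 : ℝ) ^ 20 ≤ s := by exact_mod_cast hb
  have a1 := sum_le_sum fun p (_ : p ∈ univ) => sum_le_sum fun q (_ : q ∈ univ) => h1 p q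
  have a2 := sum_le_sum fun g hg => sum_le_sum (h2 g hg)
  simp only [sum_const, card_univ, nsmul_eq_mul, card_range] at a1 a2
  have e : (A.sys I θ.1 c σ).s = s := hs
  rw [Sys.En, e]
  refine (add_le_add a1 a2).trans ?_
  generalize En (A.OmL I θ.1 c σ) (A.muL θ) (r1 A.S) (A.step θ) f = X at hE
  have b1 : (Fintype.card (Fin A.m × Bool) : ℝ) * (Fintype.card (Fin A.m × Bool) * (16 * s ^ 3 * X)) ≤
      s * (s * (16 * s ^ 3 * X)) := by gcongr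
  have b2 : (σ.act.card : ℝ) * (((s + 2 : ℕ) : ℝ) * (16 * s ^ 3 * X)) ≤
      s * (2 * s * (16 * s ^ 3 * X)) := by
    push_cast
    gcongr
    linarith
  have b3 : (48 : ℝ) ≤ s ^ 5 := le_trans (by linarith) (le_self_pow₀ (by linarith) (by norm_num))
  have b4 : 48 * ((s : ℝ) ^ 5 * X) ≤ s ^ 5 * (s ^ 5 * X) :=
    mul_le_mul_of_nonneg_right b3 (by positivity)
  nlinarith

/-- Every move of `Sys.En` is a proposal with `b = true` and an index `i < 2 ^ r0 = 4 s³`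
(`metro_en`), so `Sys.En ≤ s ^ 6 * En`; `wp`, `Rev.mix` with `C = s ^ 2310`, `δ = 1 / s`, `Ex_foldl`. -/
theorem run_mix (h : Cx A I θ c σ) {φ : List ℤ → ℝ} (hφ : Unit01 φ) :
    ∑ a ∈ A.OmL I θ.1 c σ, A.muL θ a *
      (Ex (nT A.S * r1 A.S) (fun ω => φ (A.run θ a ω)) - avg (A.OmL I θ.1 c σ) (A.muL θ) φ) ^ 2 ≤
      2 / q2 A.S * ∑ a ∈ A.OmL I θ.1 c σ, A.muL θ a := by
  have hb : (2 : ℝ) ^ 20 ≤ q2 A.S := by exact_mod_cast (h.ok.sz.big : 2 ^ 20 ≤ q2 A.S)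
  have hs1 : (1 : ℝ) ≤ q2 A.S := by linarith
  have H := h.step_rev.mix (C := (q2 A.S : ℝ) ^ 2310) (δ := 1 / q2 A.S) (one_le_pow₀ hs1)
    (by positivity) (fun f hf => by
      obtain ⟨m, hm⟩ := h.ok.wp h.bal (f := fun a => f (lst a)) fun a => hf _
      refine ⟨m, ?_⟩
      have e : ((A.sys I θ.1 c σ).s : ℝ) = q2 A.S := rfl
      rw [e] at hm
      rw [sum_OmL]
      simp only [h.muL_eq, vec_lst]
      refine hm.trans (add_le_add ?_ ?_)
      · rw [show 2310 = 2300 + 10 from rfl, pow_add, mul_assoc]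
        exact mul_le_mul_of_nonneg_left (h.En_le f) (by positivity)
      · have := h.le_sum_muL
        simp only [h.muL_eq] at this
        exact mul_le_mul_of_nonneg_left this (by positivity)) hφ (nT A.S)
  simp only [run, Ex_foldl]
  refine H.trans (mul_le_mul_of_nonneg_right ?_
    (sum_nonneg fun a _ => by unfold muL; positivity))
  have e : ((nT A.S : ℕ) : ℝ) = (q2 A.S : ℝ) ^ 2310 * (q2 A.S : ℝ) ^ 10 := by
    rw [nT, ← pow_add]; push_cast; rfl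
  generalize (q2 A.S : ℝ) = s at hb hs1 e
  have hC : (1 : ℝ) ≤ s ^ 2310 := one_le_pow₀ hs1
  generalize s ^ 2310 = C at hC e
  have hx0 : 0 ≤ 1 / (2 * C) := by positivity
  have hx1 : 1 / (2 * C) ≤ 1 := by rw [div_le_one (by positivity)]; linarith
  have b1 : (1 - 1 / (2 * C)) ^ nT A.S * (1 + nT A.S * (1 / (2 * C))) ≤ 1 := by
    have := one_add_mul_le_pow (a := 1 / (2 * C)) (by linarith) (nT A.S)
    calc _ ≤ (1 - 1 / (2 * C)) ^ nT A.S * (1 + 1 / (2 * C)) ^ nT A.S :=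
          mul_le_mul_of_nonneg_left this (pow_nonneg (by linarith) _)
      _ = (1 - (1 / (2 * C)) ^ 2) ^ nT A.S := by rw [← mul_pow]; congr 1; ring
      _ ≤ 1 := pow_le_one₀ (by nlinarith) (by nlinarith)
  have e2 : (nT A.S : ℝ) * (1 / (2 * C)) = s ^ 10 / 2 := by rw [e]; field_simp
  rw [e2] at b1
  have b2 : 2 * s ≤ s ^ 10 := by
    have : s ≤ s ^ 9 := le_self_pow₀ hs1 (by norm_num)
    nlinarith
  have b3 : 0 ≤ (1 - 1 / (2 * C)) ^ nT A.S := pow_nonneg (by linarith) _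
  have b4 : (1 - 1 / (2 * C)) ^ nT A.S ≤ 1 / s := by
    rw [le_div_iff₀ (by linarith)]
    nlinarith
  calc _ ≤ 1 / s + 1 / s := by linarith
    _ = _ := by ring

end Cx

end Alg

end Crest.Agent.R302
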