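import Crest.Agent.R302.SFMAuxB

/-!
Row 302, part F (correctness): the list implementation simulates the abstract algorithm.
-/

set_option autoImplicit false

namespace Crest.Agent.R302.SFMAux

open Finset

variable {n : ℕ}

/-- The indicator string of a set. -/
def msk (A : Finset (Fin n)) : List Bool := List.ofFn fun j : Fin n => decide (j ∈ A)

lemma range_map {β : Type} (P : ℕ → β) :
    (List.range n).map P = List.ofFn fun j : Fin n => P j := by
  apply List.ext_getElem <;> simp

lemma ofFn_getD {β : Type} (Y : Fin n → β) (j : Fin n) (d : β) :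
    (List.ofFn Y).getD j d = Y j := by
  simp [List.getD_eq_getElem?_getD]

lemma msk_getD (A : Finset (Fin n)) (j : Fin n) : (msk A).getD j false = decide (j ∈ A) :=
  ofFn_getD _ j false

lemma range_map_msk {P : ℕ → Bool} {A : Finset (Fin n)} (h : ∀ j : Fin n, P j = true ↔ j ∈ A) :
    (List.range n).map P = msk A := by
  rw [range_map, msk]
  congr 1
  funext j
  rw [Bool.eq_iff_iff, h, decide_eq_true_iff]

lemma range_all {P : ℕ → Bool} : (List.range n).all P = true ↔ ∀ j : Fin n, P j = true := by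
  rw [List.all_eq_true]
  exact ⟨fun h j => h j (List.mem_range.2 j.2), fun h j hj => h ⟨j, List.mem_range.1 hj⟩⟩

lemma range_countP {P : ℕ → Bool} {A : Finset (Fin n)} (h : ∀ j : Fin n, P j = true ↔ j ∈ A) :
    ((List.range n).countP P : ℤ) = A.card := by
  have h1 : ∀ l : List ℕ, (l.countP P : ℤ) = (l.map fun j => if P j = true then 1 else 0).sum := by
    intro l
    induction l with
    | nil => simp
    | cons a l ih => rw [List.countP_cons, List.map_cons, List.sum_cons, ← ih]; push_cast; ring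
  rw [h1, range_map, List.sum_ofFn]
  simp_rw [h]
  simp

/-- The encoding of a state. -/
def encS (F : Finset (Fin n)) (up : Fin n → Finset (Fin n)) : St :=
  (msk F, List.ofFn fun v => msk (up v))

/-- A valid input, and the function to be minimised. -/
structure Val (O : Orc) (a : Inp) (g : Finset (Fin n) → ℤ) : Prop where
  len : a.2.1.length = n
  eq : ∀ A, gI O (a, msk A) = g A
  sub : Submod g

variable {O : Orc} {a : Inp} {g : Finset (Fin n) → ℤ}

lemma Val.rg (h : Val O a g) : rg a = List.range n := by rw [SFMAux.rg, h.len]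

lemma Val.full (h : Val O a g) : full a = msk (univ : Finset (Fin n)) := by
  rw [SFMAux.full, h.rg]
  exact range_map_msk (by simp)

lemma Val.intI (h : Val O a g) (up : Fin n → Finset (Fin n)) (B U : Finset (Fin n)) (L : ℤ) :
    intI (a, List.ofFn fun v => msk (up v), msk B, L) (msk U) = msk (int up B U) := by
  unfold SFMAux.intI
  dsimp only
  rw [h.rg]
  refine range_map_msk fun j => ?_
  rw [range_all, mem_int]
  simp only [ofFn_getD, msk_getD]
  simp [subset_iff, or_assoc, imp_iff_not_or]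

lemma Val.extI (h : Val O a g) (up : Fin n → Finset (Fin n)) (B U : Finset (Fin n)) (L : ℤ) :
    extI O ((a, List.ofFn fun v => msk (up v), msk B, L), msk U) = ext g up B L U := by
  unfold SFMAux.extI crd ext
  dsimp only
  rw [h.intI, h.eq, h.rg, range_countP (A := U ∪ B) (fun j => by simp only [msk_getD]; simp),
    range_countP (A := int up B U) (fun j => by simp only [msk_getD]; simp)]

lemma Val.befI_false (h : Val O a g) (Y : Fin n → ℤ) (v : Fin n) :
    befI a (List.ofFn Y) v false = msk (bef Y v) := by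
  unfold befI
  rw [h.rg]
  refine range_map_msk fun j => ?_
  simp [bef]

lemma Val.befI_true (h : Val O a g) (Y : Fin n → ℤ) (v : Fin n) :
    befI a (List.ofFn Y) v true = msk (insert v (bef Y v)) := by
  unfold befI
  rw [h.rg]
  refine range_map_msk fun j => ?_
  simp [bef, Fin.ext_iff]

variable {F : Finset (Fin n)} {up : Fin n → Finset (Fin n)} {B : Finset (Fin n)} {L : ℤ}

lemma Val.grI (h : Val O a g) (c : Ctx g F up B L) (Y : Fin n → ℤ) (v : Fin n) :
    grI O (((a, List.ofFn fun v => msk (up v), msk B, L), List.ofFn Y), v) =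
      gr (ext g up B L) Y v := by
  unfold SFMAux.grI clampI
  dsimp only
  rw [h.befI_true, h.befI_false, h.extI, h.extI, h.len]
  have h1 := c.gr_abs Y v
  rw [Fintype.card_fin] at h1
  have h2 := le_abs_self ((n : ℤ) * L)
  rw [abs_le] at h1
  unfold gr at h1 ⊢
  omega

lemma Val.descI (h : Val O a g) (c : Ctx g F up B L) :
    descI O (a, List.ofFn fun v => msk (up v), msk B, L) =
      List.ofFn (desc (ext g up B L) (4 * n ^ 6 + 1)) := by
  unfold SFMAux.descI
  dsimp only
  rw [h.len]
  induction 4 * n ^ 6 + 1 with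
  | zero => rw [h.rg, range_map]; rfl
  | succ t ih =>
    rw [List.range_succ, List.foldl_append, ih]
    simp only [List.foldl_cons, List.foldl_nil, stepI, h.rg, range_map, h.grI c]
    apply List.ext_getElem <;> simp [desc]

lemma Val.lowI (h : Val O a g) (v : Fin n) : lowI (a, encS F up) v = msk (low F up v) := by
  unfold SFMAux.lowI encS
  dsimp only
  rw [h.rg]
  refine range_map_msk fun j => ?_
  simp only [ofFn_getD, msk_getD]
  simp [low]

lemma foldr_max_spec (l : List ℤ) : 0 ≤ l.foldr max 0 ∧ (∀ z ∈ l, z ≤ l.foldr max 0) ∧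
    (l.foldr max 0 = 0 ∨ l.foldr max 0 ∈ l) := by
  induction l with
  | nil => simp
  | cons z l ih =>
    obtain ⟨h1, h2, h3⟩ := ih
    simp only [List.foldr_cons, List.mem_cons, forall_eq_or_imp]
    refine ⟨h1.trans (le_max_right _ _), ⟨le_max_left _ _,
      fun y hy => (h2 y hy).trans (le_max_right _ _)⟩, ?_⟩
    rcases max_choice z (l.foldr max 0) with h | h <;> rw [h] <;> tauto

lemma Val.etaI (h : Val O a g) : IsEta g F up (etaI O (a, encS F up)) := by
  have e : SFMAux.etaI O (a, encS F up) =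
      (List.ofFn fun v => g (up v) - g (low F up v)).foldr max 0 := by
    unfold SFMAux.etaI
    dsimp only
    rw [h.rg, range_map]
    simp only [h.lowI]
    simp only [h.eq, encS, ofFn_getD]
  rw [e]
  obtain ⟨h1, h2, h3⟩ := foldr_max_spec (List.ofFn fun v => g (up v) - g (low F up v))
  refine ⟨h1, fun v => h2 _ (List.mem_ofFn.2 ⟨v, rfl⟩), h3.imp id fun h4 => ?_⟩
  obtain ⟨v, hv⟩ := List.mem_ofFn.1 h4
  exact ⟨v, hv.symm⟩

lemma Val.scI (h : Val O a g) : scI O ((a, encS F up), msk B) =
    max (SFMAux.etaI O (a, encS F up)) (g B - g univ) := by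
  unfold SFMAux.scI
  dsimp only
  rw [h.full, h.eq, h.eq]

/-- The abstract test. -/
def Tst (g : Finset (Fin n) → ℤ) (up : Fin n → Finset (Fin n)) (η : ℤ) (B : Finset (Fin n))
    (w : Fin n) : Prop :=
  w ∉ B ∧ test (Fintype.card (Fin n)) (max η (g B - g univ))
    (desc (ext g up B (max η (g B - g univ))) (4 * Fintype.card (Fin n) ^ 6 + 1) w)

lemma Val.fixI (h : Val O a g) (hs : Sys F up) (hB : B = F ∨ ∃ v, B = up v) :
    (fixI O ((a, encS F up), msk B) = none ∧
      ∀ w, ¬ Tst g up (SFMAux.etaI O (a, encS F up)) B w) ∨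
    ∃ w : Fin n, fixI O ((a, encS F up), msk B) = some (msk B, (w : ℕ)) ∧
      Tst g up (SFMAux.etaI O (a, encS F up)) B w := by
  have c := h.etaI.ctx h.sub hs hB
  unfold SFMAux.fixI Tst
  dsimp only
  rw [h.scI, Fintype.card_fin]
  generalize max (SFMAux.etaI O (a, encS F up)) (g B - g univ) = L at c ⊢
  unfold encS
  dsimp only
  rw [h.descI c]
  unfold selI
  dsimp only
  rw [h.rg, h.len]
  generalize hp : (fun w => !(msk B).getD w false &&
    decide (test n L ((List.ofFn (desc (ext g up B L) (4 * n ^ 6 + 1))).getD w 0))) = p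
  have key : ∀ w : Fin n, p w = true ↔
      w ∉ B ∧ test n L (desc (ext g up B L) (4 * n ^ 6 + 1) w) := fun w => by
    rw [← hp]
    simp only [ofFn_getD, msk_getD]
    simp
  cases hf : List.find? p (List.range n) with
  | none =>
    refine Or.inl ⟨rfl, fun w hw => ?_⟩
    exact List.find?_eq_none.1 hf w (List.mem_range.2 w.2) ((key w).2 hw)
  | some w =>
    have hw := List.mem_range.1 (List.mem_of_find?_eq_some hf)
    exact Or.inr ⟨⟨w, hw⟩, rfl, (key ⟨w, hw⟩).1 (List.find?_some hf)⟩

lemma Val.updI (h : Val O a g) (B U S : Finset (Fin n)) :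
    updI a (msk B) (msk U) (msk S) = msk (upd B U S) := by
  unfold SFMAux.updI
  rw [h.rg]
  refine range_map_msk fun j => ?_
  rw [Bool.or_eq_true, Bool.and_eq_true, range_all, mem_upd]
  simp only [msk_getD]
  simp [subset_iff, imp_iff_not_or]

lemma Val.outI (h : Val O a g) (hi : Inv g F up) :
    (outI O (a, encS F up) = encS F up ∧ (g univ ≤ g F → ∀ T, g univ ≤ g T)) ∨
      ∃ F' up', outI O (a, encS F up) = encS F' up' ∧ Inv g F' up' ∧ meas F up < meas F' up' := by
  unfold SFMAux.outI newI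
  dsimp only
  generalize hl : ((encS F up).1 :: (encS F up).2).map
    (fun B => SFMAux.fixI O ((a, encS F up), B)) = l
  have hmem : ∀ o, o ∈ l ↔ ∃ B, (B = F ∨ ∃ v, B = up v) ∧
      o = SFMAux.fixI O ((a, encS F up), msk B) := by
    intro o
    rw [← hl, List.mem_map]
    constructor
    · rintro ⟨B, hB, rfl⟩
      rcases List.mem_cons.1 hB with rfl | hB
      · exact ⟨F, Or.inl rfl, rfl⟩
      · obtain ⟨v, rfl⟩ := List.mem_ofFn.1 hB
        exact ⟨up v, Or.inr ⟨v, rfl⟩, rfl⟩
    · rintro ⟨B, rfl | ⟨v, rfl⟩, rfl⟩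
      · exact ⟨_, List.mem_cons_self, rfl⟩
      · exact ⟨_, List.mem_cons_of_mem _ (List.mem_ofFn.2 ⟨v, rfl⟩), rfl⟩
  cases hf : l.findSome? fun o => o with
  | none =>
    refine Or.inl ⟨rfl, fun hF => hi.stop h.sub h.etaI hF fun B hB w hw ht => ?_⟩
    have h1 := List.findSome?_eq_none_iff.1 hf _ ((hmem _).2 ⟨B, hB, rfl⟩)
    rcases h.fixI hi.sys hB with ⟨-, h2⟩ | ⟨w', h2, -⟩
    · exact h2 w ⟨hw, ht⟩
    · rw [h2] at h1; cases h1
  | some q =>
    obtain ⟨o, ho, hq⟩ := List.exists_of_findSome?_eq_some hf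
    obtain ⟨B, hB, rfl⟩ := (hmem o).1 ho
    rcases h.fixI hi.sys hB with ⟨h2, -⟩ | ⟨w, h2, h3, h4⟩
    · rw [h2] at hq; cases hq
    rw [h2] at hq
    cases hq
    refine Or.inr ⟨upd B (up w) F, fun v => upd B (up w) (up v), ?_,
      hi.step fun S hS hc hBS => (h.etaI.ctx h.sub hi.sys hB).sound h4 hS hc hBS,
      meas_step hi.sys hB h3⟩
    simp only [Option.elim_some, encS, h.rg, range_map, ofFn_getD, h.updI]

lemma Val.iniI (h : Val O a g) : iniI a = encS (∅ : Finset (Fin n)) fun v => {v} := by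
  unfold SFMAux.iniI encS
  rw [h.rg, range_map_msk (A := ∅) (by simp), range_map]
  congr 2
  funext v
  exact range_map_msk fun j => by simp [Fin.ext_iff]

lemma Val.iter (h : Val O a g) (k : ℕ) : ∃ F up,
    (fun s => SFMAux.outI O (a, s))^[k] (SFMAux.iniI a) = encS F up ∧ Inv g F up ∧
      (k ≤ meas F up ∨ (SFMAux.outI O (a, encS F up) = encS F up ∧
        (g univ ≤ g F → ∀ T, g univ ≤ g T))) := by
  induction k with
  | zero => exact ⟨_, _, h.iniI, Inv.init g, Or.inl (Nat.zero_le _)⟩
  | succ k ih =>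
    obtain ⟨F, up, h1, h2, h3⟩ := ih
    rw [Function.iterate_succ_apply', h1]
    rcases h3 with h3 | h3
    · rcases h.outI h2 with h4 | ⟨F', up', h4, h5, h6⟩
      · exact ⟨F, up, h4.1, h2, Or.inr h4⟩
      · exact ⟨F', up', h4, h5, Or.inl (by omega)⟩
    · exact ⟨F, up, h3.1, h2, Or.inr h3⟩

lemma Val.ansI (h : Val O a g) (hc : g univ ≤ -a.2.2.1) :
    ansI O a = true ↔ ∀ T, -a.2.2.1 ≤ g T := by
  obtain ⟨F, up, h1, -, h3⟩ := h.iter (n * (n + 1) + 1)
  have h4 := meas_le F up
  rw [Fintype.card_fin] at h4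
  have h5 := (h3.resolve_left (by omega)).2
  unfold SFMAux.ansI finI
  rw [h.len, h1, h.full]
  simp only [encS, h.eq, Bool.and_eq_true, decide_eq_true_iff]
  exact ⟨fun h6 T => h6.2.trans (h5 (hc.trans h6.1) T), fun h6 => ⟨h6 _, h6 _⟩⟩

theorem ansI_iff (O : Orc) (b : Bool) (r : Finset (Fin n) → ℕ) (x : Fin n → ℤ) (c : ℤ) (M : ℕ)
    (hr : ∀ A B, r (A ∪ B) + r (A ∩ B) ≤ r A + r B) (hO : ∀ A, O (b, msk A) = r A)
    (hM : ∀ A, r A ≤ M) :
    ansI O (b, List.ofFn x, c, M) = true ↔ ∀ A, ∑ j ∈ A, x j ≤ (r A : ℤ) + c := by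
  have hf : Submod fun A => (r A : ℤ) - ∑ j ∈ A, x j := by
    intro A B
    have h1 : (r (A ∪ B) : ℤ) + r (A ∩ B) ≤ r A + r B := by exact_mod_cast hr A B
    have h2 := sum_union_inter (s₁ := A) (s₂ := B) (f := x)
    linarith
  have hv : Val O (b, List.ofFn x, c, M) fun S =>
      if S = univ then min ((r S : ℤ) - ∑ j ∈ S, x j) (-c) else (r S : ℤ) - ∑ j ∈ S, x j := by
    refine ⟨List.length_ofFn, fun A => ?_, hf.trunc (-c)⟩
    have e : rg (b, List.ofFn x, c, M) = List.range n := by simp [rg]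
    have e1 : fI O ((b, List.ofFn x, c, M), msk A) = (r A : ℤ) - ∑ j ∈ A, x j := by
      unfold fI xs
      dsimp only
      rw [hO, min_eq_left (hM A), e, range_map, List.sum_ofFn]
      simp only [ofFn_getD, msk_getD]
      simp
    unfold gI trI
    dsimp only
    rw [e1, e]
    refine if_congr ?_ rfl rfl
    rw [range_all, eq_univ_iff_forall]
    simp only [msk_getD, decide_eq_true_iff]
  rw [hv.ansI (by simp)]
  refine forall_congr' fun A => ?_
  dsimp only
  split_ifs <;> omega

end Crest.Agent.R302.SFMAux
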