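import Crest.Agent.R302.OC
import Crest.Agent.R302.SFMAuxC
import Crest.Prelude.Def_Polymatroid

/-!
Row 302, part F: membership in a polymatroid with a value oracle (submodular function minimisation).

Method: averaging of greedy vertices gives an approximate minimiser of `f A = r A - x A`; the
reduction of Iwata, Fleischer and Fujishige (in the black-box form of Dadush, Végh and Zambelli)
makes it exact.  See `SFMAuxA` (mathematics), `SFMAuxB` (program), `SFMAuxC` (simulation).
-/

set_option autoImplicit false

namespace Crest.Agent.R302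

open Crest.Agent.Lib.PT Crest.Polymatroid

/-- The indicator string of a set. -/
def mask {n : ℕ} (A : Finset (Fin n)) : List Bool := List.ofFn fun j : Fin n => decide (j ∈ A)

/-- The input is `(b, x, c, M)`: the oracle to be asked, the vector, the allowance, and a bound on
the rank. -/
theorem exists_sfm : ∃ f : Orc → Bool × List ℤ × ℤ × ℕ → Bool, OC f ∧
    ∀ (O : Orc) (b : Bool) (n : ℕ) (r : Finset (Fin n) → ℕ) (x : Fin n → ℤ) (c : ℤ) (M : ℕ),
      IsPolymatroidRank r → (∀ A, O (b, mask A) = r A) → r Finset.univ ≤ M →
        (f O (b, List.ofFn x, c, M) = true ↔ ∀ A, ∑ j ∈ A, x j ≤ (r A : ℤ) + c) :=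
  ⟨SFMAux.ansI, SFMAux.oc_ansI, fun O b _ r x c M hr hO hM =>
    SFMAux.ansI_iff O b r x c M hr.2.2 hO fun A => (hr.2.1 A _ (Finset.subset_univ A)).trans hM⟩

end Crest.Agent.R302
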