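import Crest.Agent.R302.Ratio
import Crest.Agent.R302.Chain
import Crest.Agent.R302.SFM

/-!
Row 302, part E10: the concrete membership test, weight and initial sampler.
-/

set_option autoImplicit false

namespace Crest.Agent.R302

open Finset Crest.Polymatroid Crest.Agent.Lib.PT Crest.Agent.R309

/-- the coordinate `e` of the side `b` -/
def sideV (b : Bool) (l : List ℤ) (e : ℕ) : ℤ :=
  if b = true then -l.getD (2 * e + 1) 0 else l.getD (2 * e) 0

/-- the test for one side -/
def sideL (sfm : Bool × List ℤ × ℤ × ℕ → Bool) (n R S t : ℕ) (b : Bool) (l : List ℤ) : Bool :=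
  decide (∀ e < n, 0 ≤ sideV b l e ∧ sideV b l e < 2 ^ sb R) &&
    decide (-(su S t : ℤ) ≤ sideV b l n ∧ sideV b l n ≤ 0) &&
    decide (sideV b l (n + 1) ≤ st R S t) && decide (∑ e ∈ range (n + 2), sideV b l e = R) &&
    sfm (b, (List.range n).map (sideV b l), (sd n R S t : ℤ) - sideV b l n, R)

/-- the membership test -/
def memL (sfm : Bool × List ℤ × ℤ × ℕ → Bool) (n R S t : ℕ) (l : List ℤ) : Bool :=
  decide (l.length = 2 * (n + 2)) && sideL sfm n R S t false l && sideL sfm n R S t true l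

/-- the exponent of the weight -/
def wexL (n S t : ℕ) (l : List ℤ) : ℕ :=
  sφ S (sj S t) (-l.getD (2 * n) 0) + sφ S (sj S t) (l.getD (2 * (n + 1)) 0)

/-- bits of the initial sampler -/
def rI (n R S : ℕ) : ℕ := n * sb R + (3 * Nat.log 2 S + 1)

/-- coordinates of the initial sample -/
def initV (n R : ℕ) (ω : List Bool) (e : ℕ) : ℤ :=
  if e < n then (ofBits ((chunks n (sb R) ω).getD e []) : ℤ)
  else if e = n then -(ofBits (ω.drop (n * sb R)) : ℤ)
  else (R : ℤ) - ∑ j ∈ range n, (ofBits ((chunks n (sb R) ω).getD j []) : ℤ) +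
    ofBits (ω.drop (n * sb R))

/-- the initial sample -/
def initL (n R : ℕ) (ω : List Bool) : List ℤ :=
  (List.range (2 * (n + 2))).map fun x =>
    if x % 2 = 0 then initV n R ω (x / 2) else -initV n R ω (x / 2)

/-- the algorithm for the input `(n, R)` and the size parameter `S` -/
def alg (sfm : Bool × List ℤ × ℤ × ℕ → Bool) (build : ℕ × List (List (List Bool)) → StrL)
    (n R S : ℕ) : Alg :=
  ⟨n + 2, S, sT S, rI n R S, 2 ^ (sb R * n) * (2 * S ^ 3), memL sfm n R S, wexL n S, build, initL n R⟩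

/-- `sfm` answers the membership questions for `r₁` and `r₂`. -/
def SfmOk {n : ℕ} (sfm : Bool × List ℤ × ℤ × ℕ → Bool) (r₁ r₂ : Finset (Fin n) → ℕ) (R : ℕ) : Prop :=
  ∀ (b : Bool) (x : Fin n → ℤ) (c : ℤ), sfm (b, List.ofFn x, c, R) = true ↔
    ∀ A, ∑ j ∈ A, x j ≤ ((if b = true then r₂ else r₁) A : ℤ) + c

variable {n R S : ℕ} {r₁ r₂ : Finset (Fin n) → ℕ} {sfm : Bool × List ℤ × ℤ × ℕ → Bool}

lemma conc_map_range (f : ℕ → ℤ) (n : ℕ) :
    (List.range n).map f = List.ofFn fun e : Fin n => f e :=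
  List.ext_getElem (by simp) fun i h1 h2 => by simp

lemma conc_sum_split (y : Fin (n + 2) → ℤ) :
    ∑ e, y e = ∑ e : Fin n, y (eo e) + y (eτ n) + y (eσ n) := by
  rw [Fin.sum_univ_add, Fin.sum_univ_two, add_assoc]
  rfl

lemma conc_sideL_iff (h : SfmOk sfm r₁ r₂ R) (t : ℕ) (b : Bool) (l : List ℤ) :
    sideL sfm n R S t b l = true ↔
      Side (if b = true then r₂ else r₁) R (sb R) (sd n R S t) (su S t) 0 (st R S t)
        (fun e => sideV b l e) := by
  unfold sideL Side
  rw [conc_map_range, Finset.sum_range]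
  simp only [Bool.and_eq_true, decide_eq_true_eq, h b, and_assoc]
  refine and_congr ⟨fun g e => g _ e.2, fun g e he => g ⟨e, he⟩⟩ ?_
  refine and_congr Iff.rfl (and_congr (by simp [eτ]) (and_congr Iff.rfl (and_congr Iff.rfl ?_)))
  refine forall_congr' fun A => ?_
  change _ ↔ ∑ e ∈ A, sideV b l e + sideV b l n ≤ _
  constructor <;> intro g <;> linarith

theorem memL_iff (h : SfmOk sfm r₁ r₂ R) (t : ℕ) (l : List ℤ) :
    memL sfm n R S t l = true ↔ l.length = 2 * (n + 2) ∧
      Side r₁ R (sb R) (sd n R S t) (su S t) 0 (st R S t) (fun e => vec (n + 2) l (e, false)) ∧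
        Side r₂ R (sb R) (sd n R S t) (su S t) 0 (st R S t) (fun e => -vec (n + 2) l (e, true)) := by
  unfold memL
  simp only [Bool.and_eq_true, decide_eq_true_eq, and_assoc, conc_sideL_iff h]
  rfl

theorem wexL_eq {I : ℕ → Inst (Fin (n + 2))} (hF : IsFam r₁ r₂ R S I) (t : ℕ) (l : List ℤ) :
    wexL n S t l = (I t).wx (vec (n + 2) l) := by
  have hne : ((eτ n, false) : Fin (n + 2) × Bool) ≠ (eσ n, false) := by
    simp [eτ, eσ]
  have h1 : ∀ p : Fin (n + 2) × Bool, sw n S t p (vec (n + 2) l p) =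
      (if p = (eτ n, false) then sφ S (sj S t) (-vec (n + 2) l p) else 0) +
        if p = (eσ n, false) then sφ S (sj S t) (vec (n + 2) l p) else 0 := by
    intro p
    unfold sw
    by_cases h : p = (eτ n, false)
    · rw [if_pos h, if_pos h, if_neg (h ▸ hne), add_zero]
    · rw [if_neg h, if_neg h, zero_add]
  unfold Inst.wx
  rw [hF.wt]
  simp only [h1, Finset.sum_add_distrib, Finset.sum_ite_eq', mem_univ, if_true]
  rfl

lemma conc_ofBits_inj {l m : List Bool} (hl : l.length = m.length) (h : ofBits l = ofBits m) :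
    l = m := by
  induction l generalizing m with
  | nil => exact (List.length_eq_zero_iff.1 hl.symm).symm
  | cons a l ih =>
    cases m with
    | nil => simp at hl
    | cons b m =>
      rw [ofBits_cons, ofBits_cons] at h
      have h1 := congrArg Nat.bodd h
      have h2 := congrArg Nat.div2 h
      rw [Nat.bodd_bit, Nat.bodd_bit] at h1
      rw [Nat.div2_bit, Nat.div2_bit] at h2
      rw [h1, ih (by simpa using hl) h2]

lemma conc_chunks_inj {β : Type} (k m : ℕ) {l l' : List β} (h1 : chunks k m l = chunks k m l')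
    (h2 : l.drop (k * m) = l'.drop (k * m)) : l = l' := by
  induction k generalizing l l' with
  | zero => simpa using h2
  | succ k ih =>
    rw [chunks_succ, chunks_succ, List.cons.injEq] at h1
    have h3 : l.drop m = l'.drop m := ih h1.2 (by
      rw [List.drop_drop, List.drop_drop]
      rwa [Nat.succ_mul, add_comm] at h2)
    rw [← List.take_append_drop m l, ← List.take_append_drop m l', h1.1, h3]

lemma conc_length_initL (n R : ℕ) (ω : List Bool) : (initL n R ω).length = 2 * (n + 2) := by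
  simp [initL]

lemma conc_vec_initL (n R : ℕ) (ω : List Bool) (e : Fin (n + 2)) :
    vec (n + 2) (initL n R ω) (e, false) = initV n R ω e ∧
      vec (n + 2) (initL n R ω) (e, true) = -initV n R ω e := by
  have h1 := ix_lt (e, false)
  have h2 := ix_lt (e, true)
  have h3 : ix (e, false) = 2 * e := by simp [ix]
  have h4 : ix (e, true) = 2 * e + 1 := by simp [ix]
  simp only [vec, initL, List.getD_eq_getElem?_getD, List.getElem?_map, List.getElem?_range h1,
    List.getElem?_range h2, Option.map_some, Option.getD_some]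
  rw [h3, h4, if_pos (by omega), if_neg (by omega)]
  constructor
  · congr 1
    omega
  · congr 2
    omega

lemma conc_length_chunk {k m : ℕ} {ω : List Bool} (h : k * m ≤ ω.length) {e : ℕ} (he : e < k) :
    ((chunks k m ω).getD e []).length = m := by
  have h1 : e < (chunks k m ω).length := by rwa [length_chunks]
  rw [List.getD_eq_getElem _ _ h1]
  exact length_of_mem_chunks h (List.getElem_mem _)

lemma conc_two_pow (hS : SzIn n R S) : 2 ^ (3 * Nat.log 2 S + 1) = 2 * S ^ 3 := by
  obtain ⟨k, -, rfl⟩ := hS.pow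
  rw [Nat.log_pow (by norm_num), pow_succ, ← pow_mul, mul_comm k 3, mul_comm]

lemma conc_initL_inj {ω ω' : List Bool} (h1 : ω.length = rI n R S) (h2 : ω'.length = rI n R S)
    (h : initL n R ω = initL n R ω') : ω = ω' := by
  have hv : ∀ e : Fin (n + 2), initV n R ω e = initV n R ω' e := fun e => by
    rw [← (conc_vec_initL n R ω e).1, ← (conc_vec_initL n R ω' e).1, h]
  unfold rI at h1 h2
  refine conc_chunks_inj n (sb R) ?_ ?_
  · refine List.ext_getElem (by rw [length_chunks, length_chunks]) fun i g1 g2 => ?_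
    have hi : i < n := by rwa [length_chunks] at g1
    have h3 := hv ⟨i, by omega⟩
    simp only [initV, if_pos hi, Nat.cast_inj] at h3
    have h4 := conc_ofBits_inj (by
      rw [conc_length_chunk (by omega) hi, conc_length_chunk (by omega) hi]) h3
    rwa [List.getD_eq_getElem _ _ g1, List.getD_eq_getElem _ _ g2] at h4
  · have h3 := hv (eτ n)
    simp only [initV, eτ, lt_irrefl, if_false, if_true, neg_inj, Nat.cast_inj] at h3
    exact conc_ofBits_inj (by rw [List.length_drop, List.length_drop, h1, h2]) h3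

lemma conc_initV_side (hS : SzIn n R S) (r : Finset (Fin n) → ℕ) {ω : List Bool}
    (h : ω.length = rI n R S) :
    Side r R (sb R) (sd n R S 0) (su S 0) 0 (st R S 0) (fun e => initV n R ω e) := by
  unfold rI at h
  rw [side_zero hS]
  refine ⟨fun e => ?_, ?_, ?_⟩
  · have h1 : initV n R ω (eo e) = (ofBits ((chunks n (sb R) ω).getD e []) : ℤ) := by
      change initV n R ω e = _
      simp only [initV, if_pos e.2]
    have h2 := Crest.Agent.Lib.PT.ofBits_lt ((chunks n (sb R) ω).getD e [])
    rw [conc_length_chunk (by omega) e.2] at h2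
    rw [h1]
    exact ⟨Nat.cast_nonneg _, by exact_mod_cast h2⟩
  · have h1 : initV n R ω (eτ n) = -(ofBits (ω.drop (n * sb R)) : ℤ) := by
      change initV n R ω n = _
      simp only [initV, lt_irrefl, if_false, if_true]
    have h2 := Crest.Agent.Lib.PT.ofBits_lt (ω.drop (n * sb R))
    rw [List.length_drop, h, Nat.add_sub_cancel_left, conc_two_pow hS] at h2
    rw [h1]
    unfold sU
    omega
  · rw [conc_sum_split]
    have h1 : ∑ e : Fin n, initV n R ω (eo e) =
        ∑ j ∈ range n, (ofBits ((chunks n (sb R) ω).getD j []) : ℤ) := by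
      rw [Finset.sum_range]
      refine Finset.sum_congr rfl fun e _ => ?_
      change initV n R ω e = _
      simp only [initV, if_pos e.2]
    have h2 : initV n R ω (eτ n) = -(ofBits (ω.drop (n * sb R)) : ℤ) := by
      change initV n R ω n = _
      simp only [initV, lt_irrefl, if_false, if_true]
    have h3 : initV n R ω (eσ n) =
        (R : ℤ) - ∑ j ∈ range n, (ofBits ((chunks n (sb R) ω).getD j []) : ℤ) +
          ofBits (ω.drop (n * sb R)) := by
      change initV n R ω (n + 1) = _
      unfold initV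
      rw [if_neg (by omega), if_neg (by omega)]
    rw [h1, h2, h3]
    ring

/-- `initL` is a bijection from the bit strings of length `rI` to the bases without leak of stage
`0` (`side_zero`, `2 ^ (3 log S + 1) = sU S + 1`), all of which have weight one. -/
theorem init_spec {I : ℕ → Inst (Fin (n + 2))} (hF : IsFam r₁ r₂ R S I) (hS : SzIn n R S)
    (build : ℕ × List (List (List Bool)) → StrL) (φ : List ℤ → ℝ) :
    Ex (rI n R S) (fun ω => φ (initL n R ω)) =
      avg ((alg sfm build n R S).PL I 0) ((alg sfm build n R S).piL I 0) φ := by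
  have hpi : ∀ l, (alg sfm build n R S).piL I 0 l = 1 := by
    intro l
    change (I 0).W (vec (n + 2) l) = 1
    unfold Inst.W
    rw [← wexL_eq hF]
    simp [wexL, sj, sφ]
  have hcard : ((alg sfm build n R S).PL I 0).card = 2 ^ rI n R S := by
    have h1 := Alg.sum_piL (A := alg sfm build n R S) (I := I) 0
    have h2 : (I 0).Z 0 = ((2 ^ (sb R * n) * (2 * S ^ 3) : ℕ) : ℝ) := hF.tot hS
    simp only [hpi, Finset.sum_const, nsmul_eq_mul, mul_one] at h1
    have h3 : ((alg sfm build n R S).PL I 0).card = 2 ^ (sb R * n) * (2 * S ^ 3) := by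
      exact_mod_cast h1.trans h2
    rw [h3, rI, pow_add, conc_two_pow hS, mul_comm n]
  have hmem : ∀ ω : Fin (rI n R S) → Bool,
      initL n R (List.ofFn ω) ∈ (alg sfm build n R S).PL I 0 := by
    intro ω
    refine (Alg.mem_PL (A := alg sfm build n R S) (I := I)).2 ⟨conc_length_initL _ _ _, ?_, ?_⟩
    · refine (hF.mem 0 _).2 ⟨?_, ?_⟩
      · have h1 := conc_initV_side hS r₁ (ω := List.ofFn ω) List.length_ofFn
        convert h1 using 2 with e
        exact (conc_vec_initL n R _ e).1
      · have h1 := conc_initV_side hS r₂ (ω := List.ofFn ω) List.length_ofFn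
        convert h1 using 2 with e
        exact neg_eq_iff_eq_neg.2 (conc_vec_initL n R _ e).2
    · funext e
      have h1 := conc_vec_initL n R (List.ofFn ω) e
      refine (ell_apply _ e).trans ?_
      change vec (n + 2) _ (e, false) + vec (n + 2) _ (e, true) = 0
      rw [h1.1, h1.2, add_neg_cancel]
  have hinj : Function.Injective fun ω : Fin (rI n R S) → Bool => initL n R (List.ofFn ω) :=
    fun ω ω' h => List.ofFn_injective (conc_initL_inj List.length_ofFn List.length_ofFn h)
  have himg : (univ.image fun ω : Fin (rI n R S) → Bool => initL n R (List.ofFn ω)) =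
      (alg sfm build n R S).PL I 0 := by
    refine Finset.eq_of_subset_of_card_le (fun l hl => ?_) ?_
    · obtain ⟨ω, -, rfl⟩ := Finset.mem_image.1 hl
      exact hmem ω
    · rw [Finset.card_image_of_injective _ hinj, hcard]
      simp
  unfold avg Ex
  simp only [hpi, one_mul, Finset.sum_const, nsmul_eq_mul, mul_one]
  rw [hcard, ← himg, Finset.sum_image fun ω _ ω' _ h => hinj h]
  push_cast
  rfl

/-- A verified state of the last stage without leak is a common base. -/
theorem memL_zero (h : SfmOk sfm r₁ r₂ R) (e₁ : r₁ univ = R) (h0 : numCommonIntBases R r₁ r₂ = 0)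
    (build : ℕ × List (List (List Bool)) → StrL) (z : List ℤ) :
    ((alg sfm build n R S).perf z && memL sfm n R S (sT S) z) = false ∨ ¬ SzIn n R S := by
  by_contra hc
  rw [not_or, not_not, Bool.not_eq_false, Bool.and_eq_true] at hc
  obtain ⟨⟨hp, hm⟩, hS⟩ := hc
  have hl : ell (vec (n + 2) z) = 0 := (Alg.perf_iff (A := alg sfm build n R S) z).1 hp
  obtain ⟨-, s1, s2⟩ := (memL_iff h _ _).1 hm
  have e1 : (fun e => -vec (n + 2) z (e, true)) = fun e => vec (n + 2) z (e, false) := by
    funext e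
    have := congrFun hl e
    rw [ell_apply, Pi.zero_apply] at this
    omega
  have e2 : sd n R S (sT S) = 0 := hS.sd_eq_zero (by unfold sT; omega)
  have e3 : su S (sT S) = 0 := by simp [su]
  have e4 : st R S (sT S) = 0 := by
    unfold st
    rw [if_neg (by unfold sT; omega), e3]
  rw [e1] at s2
  rw [e2, e3, e4] at s1 s2
  generalize (fun e => vec (n + 2) z (e, false)) = y at s1 s2
  obtain ⟨a1, a2, a3, a4, a5⟩ := s1
  obtain ⟨-, -, -, -, b5⟩ := s2
  have a6 : y (eτ n) = 0 := by omega
  simp only [a6, add_zero, Nat.cast_zero] at a5 b5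
  rw [conc_sum_split] at a4
  have a7 : ∑ e : Fin n, y (eo e) = R := by
    have := a5 univ
    rw [e₁] at this
    omega
  have a8 : ∀ e : Fin n, (y (eo e)).toNat < R + 1 := fun e => by
    have := Finset.single_le_sum (f := fun e : Fin n => y (eo e)) (fun e _ => (a1 e).1) (mem_univ e)
    omega
  have a9 : ∀ A : Finset (Fin n),
      ((∑ j ∈ A, (y (eo j)).toNat : ℕ) : ℤ) = ∑ j ∈ A, y (eo j) := fun A => by
    push_cast
    exact Finset.sum_congr rfl fun e _ => Int.toNat_of_nonneg (a1 e).1
  unfold numCommonIntBases at h0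
  rw [Finset.card_eq_zero, Finset.filter_eq_empty_iff] at h0
  refine h0 (mem_univ fun e => ⟨(y (eo e)).toNat, a8 e⟩) ⟨?_, fun A => ⟨?_, ?_⟩⟩
  · have := a9 univ
    change ∑ j, (y (eo j)).toNat = R
    omega
  · have := a9 A
    have := a5 A
    change ∑ j ∈ A, (y (eo j)).toNat ≤ r₁ A
    omega
  · have := a9 A
    have := b5 A
    change ∑ j ∈ A, (y (eo j)).toNat ≤ r₂ A
    omega

theorem alg_spec {I : ℕ → Inst (Fin (n + 2))} (hF : IsFam r₁ r₂ R S I) (h : Inp r₁ r₂ R)
    (hS : SzIn n R S) (hs : SfmOk sfm r₁ r₂ R) {build : ℕ × List (List (List Bool)) → StrL}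
    (hb : ∀ (tab : List (List (List Bool))) (Q : ℕ → Fin (n + 2) × Bool → Fin (n + 2) × Bool → Prop),
      (∀ j, Equivalence (Q j)) → (∀ j p q, Q (j + 1) p q → Q j p q) →
      (∀ j < tab.length, ∀ p q, Q j p q ↔ ((tab.getD j []).getD (ix p) []).getD (ix q) false = true) →
      (∀ p q, Q tab.length p q → p = q) →
      ∃ σ : Str (Fin (n + 2)), σ.Valid Q ∧ σ.Rep (build (n + 2, tab))) :
    (alg sfm build n R S).Spec I :=
  { pow := hS.pow
    m_pos := Nat.succ_pos _
    m_le := hS.n_le
    Tn_le := hS.sT_le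
    sz := fun t _ => hF.sz h hS t
    mem := fun t _ l => (memL_iff hs t l).trans (and_congr_right fun _ => (hF.mem t _).symm)
    wex := fun t _ l => wexL_eq hF t l
    mono := fun t _ => hF.mono h hS t
    ratio := fun _ ht => hF.ratio h hS ht
    pos := fun t _ => hF.pos h hS t
    bal := fun _ _ => hF.bal hS _
    tot := (hF.tot hS).symm
    init := init_spec hF hS build
    build := hb }

section OC

variable {α : Type} [Enc α] {n R S : α → ℕ}

lemma conc_pt_sb (hR : PT R) : PT fun a => sb (R a) := by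
  unfold sb
  fun_prop

lemma conc_pb_sb (hR : PT R) : PB fun a => sb (R a) := by
  unfold sb
  fun_prop

lemma conc_pt_sU (hS : PT S) : PT fun a => sU (S a) := by
  unfold sU
  fun_prop

lemma conc_pt_sJ (hS : PT S) : PT fun a => sJ (S a) := by
  have := conc_pt_sU hS
  unfold sJ
  fun_prop

lemma conc_pt_sT (hS : PT S) : PT fun a => sT (S a) := by
  have := conc_pt_sJ hS
  unfold sT
  fun_prop

lemma conc_pt_su {t : α → ℕ} (hS : PT S) (ht : PT t) : PT fun a => su (S a) (t a) := by
  have := conc_pt_sT hS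
  have := conc_pt_sU hS
  unfold su
  fun_prop

lemma conc_pt_st {t : α → ℕ} (hR : PT R) (hS : PT S) (ht : PT t) :
    PT fun a => st (R a) (S a) (t a) := by
  have := conc_pt_su hS ht
  have := conc_pt_sU hS
  unfold st
  fun_prop

lemma conc_pt_sj {t : α → ℕ} (hS : PT S) (ht : PT t) : PT fun a => sj (S a) (t a) := by
  have := conc_pt_sJ hS
  unfold sj
  fun_prop

lemma conc_pt_sφ {j : α → ℕ} {y : α → ℤ} (hS : PT S) (hj : PT j) (hy : PT y) :
    PT fun a => sφ (S a) (j a) (y a) := by
  have := conc_pt_sU hS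
  unfold sφ
  fun_prop

lemma conc_pt_sd {t : α → ℕ} (hn : PT n) (hR : PT R) (hS : PT S) (hS' : PB S) (ht : PT t) :
    PT fun a => sd (n a) (R a) (S a) (t a) := by
  have h1 := conc_pt_sb hR
  have h2 := conc_pb_sb hR
  have h3 : PT fun a => n a * 2 ^ sb (R a) := by fun_prop
  have h4 : PT fun p : α × ℕ => sU (S p.1) := conc_pt_sU (by fun_prop)
  unfold sd
  refine PT.iterate_inv (f := fun a d => cool (S a) d) (fun a d => d ≤ n a * 2 ^ sb (R a))
    (fun a => sz (n a * 2 ^ sb (R a))) ?_ (by fun_prop) (PB.min_right _ (by fun_prop)) h3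
    (PB.sz h3) (fun a => le_rfl) (fun a d hd => ?_) fun a d hd => sz_nat_mono hd
  · unfold cool
    fun_prop
  · exact (Nat.sub_le _ _).trans hd

lemma conc_pt_sideV (b : Bool) {l : α → List ℤ} {e : α → ℕ} (hl : PT l) (he : PT e) :
    PT fun a => sideV b (l a) (e a) := by
  unfold sideV
  cases b
  · simp only [Bool.false_eq_true, if_false]
    fun_prop
  · simp only [if_true]
    fun_prop

lemma conc_oc_sideL {sfm : Orc → Bool × List ℤ × ℤ × ℕ → Bool} (hs : OC sfm) {t : α → ℕ}
    {l : α → List ℤ} (hn : PT n) (hn' : PB n) (hR : PT R) (hS : PT S) (hS' : PB S) (ht : PT t)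
    (hl : PT l) (b : Bool) :
    OC fun O a => sideL (sfm O) (n a) (R a) (S a) (t a) b (l a) := by
  have h1 := conc_pt_sb hR
  have h2 := conc_pb_sb hR
  have h3 := conc_pt_su hS ht
  have h4 := conc_pt_st hR hS ht
  have h5 := conc_pt_sd hn hR hS hS' ht
  have h6 : PT fun p : α × ℕ => sideV b (l p.1) p.2 := conc_pt_sideV b (by fun_prop) (by fun_prop)
  have h7 : PT fun a => sideV b (l a) (n a) := conc_pt_sideV b hl hn
  have h8 : PT fun a => sideV b (l a) (n a + 1) := conc_pt_sideV b hl (by fun_prop)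
  have g1 : PT fun a => decide (∀ e < n a, 0 ≤ sideV b (l a) e ∧ sideV b (l a) e < 2 ^ sb (R a)) := by
    refine PT.decide_forall_lt hn hn' ?_
    have k1 : PT fun p : α × ℕ => (2 : ℤ) ^ sb (R p.1) :=
      PT.intPow (PT.const 2) (h1.comp (by fun_prop)) (h2.comp (by fun_prop))
    exact PT.decide_and (PT.int_decide_le (PT.const 0) h6) (PT.int_decide_lt h6 k1)
  have g2 : PT fun a => decide (-(su (S a) (t a) : ℤ) ≤ sideV b (l a) (n a) ∧
      sideV b (l a) (n a) ≤ 0) := by fun_prop
  have g3 : PT fun a => decide (sideV b (l a) (n a + 1) ≤ st (R a) (S a) (t a)) := by fun_prop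
  have g4 : PT fun a => ∑ e ∈ range (n a + 2), sideV b (l a) e :=
    PT.int_sum_range (by fun_prop) (by fun_prop) h6
  have g5 : PT fun a => decide (∑ e ∈ range (n a + 2), sideV b (l a) e = R a) :=
    PT.decide_eq g4 (by fun_prop)
  have g6 : PT fun a => (List.range (n a)).map (sideV b (l a)) :=
    PT.map (g := fun a e => sideV b (l a) e) (PT.range hn hn') h6
  have g7 : PT fun a => (b, (List.range (n a)).map (sideV b (l a)),
      (sd (n a) (R a) (S a) (t a) : ℤ) - sideV b (l a) (n a), R a) :=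
    (PT.const b).pair (g6.pair (PT.pair (by fun_prop) hR))
  have g8 := ((g1.and g2).and g3).and g5
  exact OC.pt (g := fun q : Bool × Bool => q.1 && q.2) (by fun_prop)
    ((OC.pure g8).pair (hs.precomp g7))

theorem oc_memL {sfm : Orc → Bool × List ℤ × ℤ × ℕ → Bool} (hs : OC sfm) (hn : PT n) (hn' : PB n)
    (hR : PT R) (hS : PT S) (hS' : PB S) :
    OC fun O (p : α × ℕ × List ℤ) => memL (sfm O) (n p.1) (R p.1) (S p.1) p.2.1 p.2.2 := by
  have h := fun b => conc_oc_sideL (α := α × ℕ × List ℤ) (n := fun p => n p.1) (R := fun p => R p.1)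
    (S := fun p => S p.1) hs (t := fun p => p.2.1) (l := fun p => p.2.2) (by fun_prop) (by fun_prop)
    (by fun_prop) (by fun_prop) (by fun_prop) (by fun_prop) (by fun_prop) b
  have g : PT fun p : α × ℕ × List ℤ => decide (p.2.2.length = 2 * (n p.1 + 2)) := by fun_prop
  exact OC.pt (g := fun q : Bool × Bool × Bool => q.1 && q.2.1 && q.2.2) (by fun_prop)
    ((OC.pure g).pair ((h false).pair (h true)))

lemma conc_sideL_bound {sfm : Bool × List ℤ × ℤ × ℕ → Bool} {n R S t : ℕ} {b : Bool} {l : List ℤ}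
    (h : sideL sfm n R S t b l = true) {e : ℕ} (he : e < n + 2) :
    (sideV b l e).natAbs < 2 ^ (sb R + n + 2 * S ^ 3 + 2) := by
  unfold sideL at h
  simp only [Bool.and_eq_true, decide_eq_true_eq] at h
  obtain ⟨⟨⟨⟨h1, h2⟩, -⟩, h4⟩, -⟩ := h
  have a1 : su S t ≤ 2 * S ^ 3 := by
    unfold su sU
    split_ifs <;> omega
  have a2 := lt_two_pow_sb R
  have a3 : n < 2 ^ n := Nat.lt_two_pow_self
  have a4 : 2 * S ^ 3 < 2 ^ (2 * S ^ 3) := Nat.lt_two_pow_self
  have a5 : 2 ^ sb R ≤ 2 ^ (sb R + n + 2 * S ^ 3) := Nat.pow_le_pow_right (by norm_num) (by omega)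
  have a6 : n * 2 ^ sb R ≤ 2 ^ (sb R + n + 2 * S ^ 3) := by
    calc n * 2 ^ sb R ≤ 2 ^ n * 2 ^ sb R := Nat.mul_le_mul_right _ a3.le
      _ = 2 ^ (n + sb R) := (pow_add _ _ _).symm
      _ ≤ _ := Nat.pow_le_pow_right (by norm_num) (by omega)
  have a7 : 2 ^ (2 * S ^ 3) ≤ 2 ^ (sb R + n + 2 * S ^ 3) :=
    Nat.pow_le_pow_right (by norm_num) (by omega)
  have a8 : 0 ≤ ∑ e ∈ range n, sideV b l e :=
    Finset.sum_nonneg fun e he => (h1 e (mem_range.1 he)).1
  have a9 : ∑ e ∈ range n, sideV b l e ≤ ((n * 2 ^ sb R : ℕ) : ℤ) := by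
    have := Finset.sum_le_card_nsmul (range n) (sideV b l) (2 ^ sb R)
      fun e he => (h1 e (mem_range.1 he)).2.le
    simpa using this
  rw [Finset.sum_range_succ, Finset.sum_range_succ] at h4
  rw [pow_add _ _ 2]
  have a10 : ((2 ^ sb R : ℕ) : ℤ) = 2 ^ sb R := by push_cast; rfl
  generalize 2 ^ (sb R + n + 2 * S ^ 3) = M at a5 a6 a7
  generalize n * 2 ^ sb R = N at a6 a9
  rcases Nat.lt_or_ge e n with h | h
  · have := h1 e h
    omega
  · rcases Nat.lt_or_ge e (n + 1) with h' | h'
    · have : e = n := by omega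
      subst this
      omega
    · have : e = n + 1 := by omega
      subst this
      omega

/-- The explicit box tests bound all entries, whatever `sfm` answers. -/
theorem sz_memL (hn' : PB n) (hR : PT R) (hS' : PB S) : ∃ B : α → ℕ, PB B ∧
    ∀ (sfm : Bool × List ℤ × ℤ × ℕ → Bool) a t l, memL sfm (n a) (R a) (S a) t l = true →
      sz l ≤ B a := by
  have h2 := conc_pb_sb hR
  refine ⟨fun a => (6 * (sb (R a) + n a + 2 * S a ^ 3 + 2) + 7 + 1) * (2 * (n a + 2)) + 1,
    by fun_prop, fun sfm a t l h => ?_⟩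
  unfold memL at h
  simp only [Bool.and_eq_true, decide_eq_true_eq] at h
  obtain ⟨⟨h1, h3⟩, h4⟩ := h
  change sz l ≤ _ * (2 * (n a + 2)) + 1
  rw [← h1]
  refine sz_list_le l _ fun x hx => ?_
  obtain ⟨i, hi, rfl⟩ := List.getElem_of_mem hx
  have key : l[i].natAbs < 2 ^ (sb (R a) + n a + 2 * S a ^ 3 + 2) := by
    rcases Nat.even_or_odd' i with ⟨e, rfl | rfl⟩
    · have := conc_sideL_bound h3 (e := e) (by omega)
      simp only [sideV, Bool.false_eq_true, if_false] at this
      rwa [List.getD_eq_getElem _ _ hi] at this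
    · have := conc_sideL_bound h4 (e := e) (by omega)
      simp only [sideV, if_true, Int.natAbs_neg] at this
      rwa [List.getD_eq_getElem _ _ hi] at this
  have := sz_nat_le_of_lt_two_pow key
  rw [sz_int]
  omega

theorem pt_wexL (hn : PT n) (hS : PT S) :
    PT fun p : α × ℕ × List ℤ => wexL (n p.1) (S p.1) p.2.1 p.2.2 := by
  have h1 : PT fun p : α × ℕ × List ℤ => S p.1 := by fun_prop
  have h2 : PT fun p : α × ℕ × List ℤ => sj (S p.1) p.2.1 := conc_pt_sj h1 (by fun_prop)
  unfold wexL
  exact PT.add (conc_pt_sφ h1 h2 (by fun_prop)) (conc_pt_sφ h1 h2 (by fun_prop))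

lemma conc_pt_initV {ω : α → List Bool} {e : α → ℕ} (hn : PT n) (hn' : PB n) (hR : PT R)
    (hω : PT ω) (he : PT e) : PT fun a => initV (n a) (R a) (ω a) (e a) := by
  have h1 := conc_pt_sb hR
  have h2 : PT fun a => chunks (n a) (sb (R a)) (ω a) := PT.chunks hn hn' h1 hω
  have h3 : PT fun a => ∑ j ∈ range (n a), (ofBits ((chunks (n a) (sb (R a)) (ω a)).getD j []) : ℤ) :=
    PT.int_sum_range hn hn' (PT.intNatCast (PT.ofBits
      (PT.getD (by fun_prop) (h2.comp (f := Prod.fst) (by fun_prop)) (PT.const _))))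
  have h4 : PT fun a => (ofBits ((chunks (n a) (sb (R a)) (ω a)).getD (e a) []) : ℤ) :=
    PT.intNatCast (PT.ofBits (PT.getD he h2 (PT.const _)))
  have h5 : PT fun a => (ofBits ((ω a).drop (n a * sb (R a))) : ℤ) :=
    PT.intNatCast (PT.ofBits (PT.drop (hn.mul h1) hω))
  unfold initV
  exact PT.ite (PT.decide_lt he hn) h4 (PT.ite (PT.decide_eq he hn) h5.intNeg
    ((hR.intNatCast.intSub h3).intAdd h5))

theorem pt_initL (hn : PT n) (hn' : PB n) (hR : PT R) :
    PT fun p : α × List Bool => initL (n p.1) (R p.1) p.2 := by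
  have h1 : PT fun q : (α × List Bool) × ℕ => initV (n q.1.1) (R q.1.1) q.1.2 (q.2 / 2) :=
    conc_pt_initV (n := fun q : (α × List Bool) × ℕ => n q.1.1) (R := fun q => R q.1.1)
      (by fun_prop) (by fun_prop) (by fun_prop) (by fun_prop) (by fun_prop)
  unfold initL
  refine PT.map (g := fun (p : α × List Bool) x => if x % 2 = 0 then initV (n p.1) (R p.1) p.2 (x / 2)
    else -initV (n p.1) (R p.1) p.2 (x / 2)) (by fun_prop) ?_
  exact PT.ite (by fun_prop) h1 h1.intNeg

end OC

end Crest.Agent.R302
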