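import Crest.Agent.R302.DL

/-!
Row 302, part A2: window contractions of pairs of directions preserve `SN` and `DL`; consequences.
-/

set_option autoImplicit false
set_option linter.unusedSectionVars false

namespace Crest.Agent.R302

open Finset

variable {X : Type} [AddCommGroup X] {ι κ : Type}

lemma contr_lin [DecidableEq ι] {S : Finset ι} {β : ι} (hβ : β ∈ S) (u g : ι → ℝ) (t : ℝ) :
    ∑ p ∈ S, (u p + if p = β then t else 0) * g p = ∑ p ∈ S, u p * g p + t * g β := by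
  simp only [add_mul, ite_mul, zero_mul, sum_add_distrib, sum_ite_eq', if_pos hβ]

lemma contr_quad [DecidableEq ι] {S : Finset ι} {β : ι} (hβ : β ∈ S) (M : ι → ι → ℝ)
    (hM : ∀ p q, M p q = M q p) (u : ι → ℝ) (t : ℝ) :
    ∑ p ∈ S, ∑ q ∈ S, (u p + if p = β then t else 0) * (u q + if q = β then t else 0) * M p q =
      ∑ p ∈ S, ∑ q ∈ S, u p * u q * M p q + 2 * t * ∑ p ∈ S, u p * M β p + t ^ 2 * M β β := by
  have e1 : ∀ p, ∑ q ∈ S, (u p + if p = β then t else 0) * (u q + if q = β then t else 0) * M p q =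
      (u p + if p = β then t else 0) * (∑ q ∈ S, u q * M p q + t * M p β) := fun p => by
    rw [← contr_lin hβ, mul_sum]
    exact sum_congr rfl fun q _ => mul_assoc _ _ _
  have e2 : ∀ p, u p * (∑ q ∈ S, u q * M p q + t * M p β) =
      ∑ q ∈ S, u p * u q * M p q + t * (u p * M β p) := fun p => by
    rw [mul_add, mul_sum, hM p β, mul_left_comm]
    congr 1
    exact sum_congr rfl fun q _ => (mul_assoc _ _ _).symm
  simp only [e1]
  rw [contr_lin hβ]
  simp only [e2]
  rw [sum_add_distrib, ← mul_sum]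
  ring

lemma contr_Icc {lo hi : ℤ} (h : lo ≤ hi + 1) (g : ℤ → ℝ) :
    ∑ j ∈ Icc lo (hi + 1), g j = ∑ j ∈ Icc lo hi, g j + g (hi + 1) := by
  rw [← insert_Icc_right_eq_Icc_add_one h, sum_insert (by simp), add_comm]

lemma contr_tele {lo hi : ℤ} (h : lo ≤ hi) (D : ℤ → ℝ) :
    ∑ a ∈ Icc lo hi, (D (a + 1) - D a) = D (hi + 1) - D lo := by
  induction hi, h using Int.leInduction with
  | base => simp
  | succ n hn ih =>
    rw [contr_Icc (by omega), ih]
    ring

lemma contr_sn1 {g : ℤ → ℝ} (hg : SN (fun _ : Unit => (1 : ℤ)) univ g) (j : ℤ) :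
    g j * g (j + 2) ≤ g (j + 1) ^ 2 := by
  simpa [add_assoc] using hg.2 j fun _ => 1

lemma contr_interp {ψ : ℤ → ℝ} (h : DL1 ψ) (a : ℤ) (m n : ℕ) :
    ψ a ^ n * ψ (a + m + n) ^ m ≤ ψ (a + m) ^ (m + n) := by
  refine DL.le_of_continuous h (Φ := fun ψ => ψ a ^ n * ψ (a + m + n) ^ m)
    (Ψ := fun ψ => ψ (a + m) ^ (m + n)) (by fun_prop) (by fun_prop) fun g hg => ?_
  have hp := hg.1
  have hr : Antitone fun j => g (j + 1) / g j := antitone_int_of_succ_le fun j => by
    rw [div_le_div_iff₀ (hp _) (hp _), add_assoc, one_add_one_eq_two, mul_comm, ← sq]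
    exact contr_sn1 hg j
  obtain ⟨b, rfl⟩ : ∃ b, a = b - m := ⟨a + m, by ring⟩
  rw [sub_add_cancel]
  set r := g (b + 1) / g b with hrb
  have hr0 : 0 < r := div_pos (hp _) (hp _)
  have h1 : ∀ n : ℕ, g (b + n) ≤ g b * r ^ n := fun n => by
    induction n with
    | zero => simp
    | succ n ih =>
      have : g (b + n + 1) / g (b + n) ≤ r := hr (show b ≤ b + n by omega)
      rw [div_le_iff₀ (hp _)] at this
      push_cast
      rw [← add_assoc, pow_succ, ← mul_assoc, mul_comm _ r]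
      exact this.trans (mul_le_mul_of_nonneg_left ih hr0.le)
  have h2 : ∀ m : ℕ, g (b - m) * r ^ m ≤ g b := fun m => by
    induction m with
    | zero => simp
    | succ m ih =>
      have : r ≤ g (b - (m + 1) + 1) / g (b - (m + 1)) := hr (show b - (m + 1) ≤ b by omega)
      rw [le_div_iff₀ (hp _), show b - (m + 1) + 1 = b - m by ring] at this
      push_cast
      rw [pow_succ', ← mul_assoc, mul_comm _ r]
      exact (mul_le_mul_of_nonneg_right this (pow_nonneg hr0.le _)).trans ih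
  have a1 := (hp (b - m)).le
  have a2 := (hp (b + n)).le
  have a3 := (hp b).le
  calc g (b - m) ^ n * g (b + n) ^ m ≤ g (b - m) ^ n * (g b * r ^ n) ^ m := by
        gcongr
        exact h1 n
    _ = (g (b - m) * r ^ m) ^ n * g b ^ m := by ring
    _ ≤ g b ^ n * g b ^ m := by
        gcongr
        exact h2 m
    _ = g b ^ (m + n) := by ring

/-- Reverse Cauchy–Schwarz with respect to the direction `β`, including the slack direction with
coefficient `u₀`.  Proof: let `q` be the quadratic form of the matrix indexed by `S ∪ {slack}`; it is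
`≤ 0` on the kernel of the slack row.  Apply this to `a • β + b • u` with `a = row u`,
`b = - f (x + e β) ≠ 0`; then `t ↦ t² q β + 2 t B + q u` has a non-positive value. -/
theorem SN.rcs {e : ι → X} {S : Finset ι} {f : X → ℝ} (h : SN e S f) {β : ι} (hβ : β ∈ S) (x : X)
    (u₀ : ℝ) (u : ι → ℝ) :
    f (x + e β + e β) * (u₀ ^ 2 * f x + 2 * u₀ * ∑ p ∈ S, u p * f (x + e p) +
        ∑ p ∈ S, ∑ q ∈ S, u p * u q * f (x + e p + e q)) ≤
      (u₀ * f (x + e β) + ∑ p ∈ S, u p * f (x + e β + e p)) ^ 2 := by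
  classical
  have hF := h.1 x
  have hb := h.1 (x + e β)
  set a := u₀ * f x + ∑ p ∈ S, u p * f (x + e p) with ha
  have h1 := h.2 x fun p => -f (x + e β) * u p + if p = β then a else 0
  rw [contr_lin hβ, contr_quad hβ (fun p q => f (x + e p + e q))
    fun p q => by rw [add_right_comm]] at h1
  have e1 : ∑ p ∈ S, -f (x + e β) * u p * f (x + e p) =
      -f (x + e β) * ∑ p ∈ S, u p * f (x + e p) := by
    rw [mul_sum]
    exact sum_congr rfl fun p _ => by ring
  have e2 : ∑ p ∈ S, -f (x + e β) * u p * f (x + e β + e p) =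
      -f (x + e β) * ∑ p ∈ S, u p * f (x + e β + e p) := by
    rw [mul_sum]
    exact sum_congr rfl fun p _ => by ring
  have e3 : ∑ p ∈ S, ∑ q ∈ S, -f (x + e β) * u p * (-f (x + e β) * u q) * f (x + e p + e q) =
      f (x + e β) ^ 2 * ∑ p ∈ S, ∑ q ∈ S, u p * u q * f (x + e p + e q) := by
    rw [mul_sum]
    refine sum_congr rfl fun p _ => ?_
    rw [mul_sum]
    exact sum_congr rfl fun q _ => by ring
  rw [e1, e2, e3] at h1
  generalize ∑ p ∈ S, ∑ q ∈ S, u p * u q * f (x + e p + e q) = Q at *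
  generalize ∑ p ∈ S, u p * f (x + e β + e p) = Bu at *
  generalize ∑ p ∈ S, u p * f (x + e p) = L at *
  have hc := h.1 (x + e β + e β)
  generalize f (x + e β + e β) = c at *
  generalize f (x + e β) = b at *
  generalize f x = F at *
  have h2 : b ^ 2 * Q + 2 * a * (-b * Bu) + a ^ 2 * c ≤ b ^ 2 * u₀ ^ 2 * F := by
    refine le_of_mul_le_mul_left (h1.trans (le_of_eq ?_)) hF
    rw [ha]
    ring
  have h3 : b ^ 2 * (u₀ ^ 2 * F + 2 * u₀ * L + Q) ≤ 2 * a * b * (u₀ * b + Bu) - a ^ 2 * c := by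
    have : 2 * a * b * (u₀ * b) = 2 * (b ^ 2 * u₀ ^ 2 * F) + b ^ 2 * (2 * u₀ * L) := by
      rw [ha]
      ring
    nlinarith
  have h4 := mul_le_mul_of_nonneg_left h3 hc.le
  refine le_of_mul_le_mul_left ?_ (pow_pos hb 2)
  nlinarith [sq_nonneg (a * c - b * (u₀ * b + Bu))]

/-- The local inequality behind contraction and `key`.  Let `v = e α - e β`,
`P j = u₀ f (x + j v + e β) + ∑ u p f (x + j v + e β + e p)`, `R j = f (x + j v + 2 e β)`, and let
`Sm` be partial sums of `P` (`Sm j - Sm (j - 1) = P j` for `j = a, a + 1`).  Apply `SN.rcs` at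
`x + a v` to `u + σ α + τ β`, `σ = - Sm a / R (a + 1)`, `τ = Sm (a - 1) / R a` (the right side
vanishes), and use `2 S_a S_{a+1} / R_{a+1} ≤ S_a² R_{a+2} / R_{a+1}² + S_{a+1}² / R_{a+2}`. -/
theorem SN.local {e : ι → X} {S : Finset ι} {f : X → ℝ} (h : SN e S f) {α β : ι} (hα : α ∈ S)
    (hβ : β ∈ S) (x : X) (u₀ : ℝ) (u : ι → ℝ) (Sm : ℤ → ℝ) (a : ℤ)
    (hS : ∀ j, j = a ∨ j = a + 1 → Sm j - Sm (j - 1) =
      u₀ * f (x + j • (e α - e β) + e β) + ∑ p ∈ S, u p * f (x + j • (e α - e β) + e β + e p)) :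
    u₀ ^ 2 * f (x + a • (e α - e β)) + 2 * u₀ * ∑ p ∈ S, u p * f (x + a • (e α - e β) + e p) +
        ∑ p ∈ S, ∑ q ∈ S, u p * u q * f (x + a • (e α - e β) + e p + e q) ≤
      Sm (a - 1) ^ 2 / f (x + a • (e α - e β) + e β + e β) +
        Sm (a + 1) ^ 2 / f (x + (a + 2) • (e α - e β) + e β + e β) -
        2 * (Sm a ^ 2 / f (x + (a + 1) • (e α - e β) + e β + e β)) := by
  classical
  have hP0 := hS a (Or.inl rfl)
  have hP1 := hS (a + 1) (Or.inr rfl)
  rw [add_sub_cancel_right] at hP1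
  have y1 : x + (a + 1) • (e α - e β) + e β = x + a • (e α - e β) + e α := by
    rw [add_smul, one_smul]
    abel
  have y2 : x + (a + 2) • (e α - e β) + e β + e β = x + a • (e α - e β) + e α + e α := by
    rw [add_smul, two_smul]
    abel
  rw [y1] at hP1
  rw [y1, y2]
  generalize x + a • (e α - e β) = y at *
  have hR0 := h.1 (y + e β + e β)
  have hR1 := h.1 (y + e α + e β)
  have hR2 := h.1 (y + e α + e α)
  have hs : ∀ p q, f (y + e p + e q) = f (y + e q + e p) := fun p q => by rw [add_right_comm]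
  have h1 := h.rcs hβ y u₀ fun p => (u p + if p = α then -Sm a / f (y + e α + e β) else 0) +
    if p = β then Sm (a - 1) / f (y + e β + e β) else 0
  rw [contr_quad hβ (fun p q => f (y + e p + e q)) hs, contr_quad hα (fun p q => f (y + e p + e q)) hs,
    contr_lin hβ, contr_lin hβ, contr_lin hα, contr_lin hα, hs β α] at h1
  generalize ∑ p ∈ S, ∑ q ∈ S, u p * u q * f (y + e p + e q) = Q at *
  generalize ∑ p ∈ S, u p * f (y + e β + e p) = Bb at *
  generalize ∑ p ∈ S, u p * f (y + e α + e p) = Ba at *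
  generalize ∑ p ∈ S, u p * f (y + e p) = L at *
  generalize f (y + e β + e β) = R0 at *
  generalize f (y + e α + e β) = R1 at *
  generalize f (y + e α + e α) = R2 at *
  generalize f (y + e β) = fb at *
  generalize f (y + e α) = fa at *
  generalize f y = F at *
  obtain ⟨σ, hσ⟩ : ∃ σ, Sm a = σ * R1 := ⟨Sm a / R1, by field_simp⟩
  obtain ⟨τ, hτ⟩ : ∃ τ, Sm (a - 1) = τ * R0 := ⟨Sm (a - 1) / R0, by field_simp⟩
  obtain ⟨ρ, hρ⟩ : ∃ ρ, Sm (a + 1) = ρ * R2 := ⟨Sm (a + 1) / R2, by field_simp⟩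
  rw [hσ, hτ] at hP0 h1
  rw [hρ, hσ] at hP1
  rw [hσ, hτ, hρ]
  have e1 : -(σ * R1) / R1 = -σ := by field_simp
  have e2 : τ * R0 / R0 = τ := by field_simp
  have e3 : (τ * R0) ^ 2 / R0 = τ ^ 2 * R0 := by field_simp
  have e4 : (ρ * R2) ^ 2 / R2 = ρ ^ 2 * R2 := by field_simp
  have e5 : (σ * R1) ^ 2 / R1 = σ ^ 2 * R1 := by field_simp
  rw [e1, e2] at h1
  rw [e3, e4, e5]
  have e6 : u₀ * fb + (Bb + -σ * R1 + τ * R0) = 0 := by linarith
  rw [e6, zero_pow two_ne_zero] at h1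
  have h2 := nonpos_of_mul_nonpos_right h1 hR0
  have e7 : Bb = σ * R1 - τ * R0 - u₀ * fb := by linarith
  have e8 : Ba = ρ * R2 - σ * R1 - u₀ * fa := by linarith
  rw [e7, e8] at h2
  nlinarith [mul_nonneg hR2.le (sq_nonneg (σ - ρ))]

/-- Contraction.  Choose `u₀` with `∑_{j = lo}^{hi + 1} P j = 0`, sum `SN.local` over `a ∈ [lo, hi]`
(telescoping: the sum is `≤ 0`), and read off the discriminant. -/
theorem SN.con {e : ι → X} {S : Finset ι} {f : X → ℝ} (h : SN e S f) {α β : ι} (hα : α ∈ S)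
    (hβ : β ∈ S) {lo hi : ℤ} (hl : lo ≤ hi) :
    SN e S fun x => ∑ a ∈ Icc lo hi, f (x + a • (e α - e β)) := by
  have hpos : ∀ x, 0 < ∑ a ∈ Icc lo hi, f (x + a • (e α - e β)) := fun x =>
    sum_pos (fun _ _ => h.1 _) (nonempty_Icc.2 hl)
  refine ⟨hpos, fun x u => ?_⟩
  have hA : 0 < ∑ j ∈ Icc lo (hi + 1), f (x + j • (e α - e β) + e β) :=
    sum_pos (fun _ _ => h.1 _) (nonempty_Icc.2 (by omega))
  obtain ⟨u₀, hu₀⟩ : ∃ u₀ : ℝ, ∑ j ∈ Icc lo (hi + 1), (u₀ * f (x + j • (e α - e β) + e β) +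
      ∑ p ∈ S, u p * f (x + j • (e α - e β) + e β + e p)) = 0 := by
    refine ⟨-(∑ j ∈ Icc lo (hi + 1), ∑ p ∈ S, u p * f (x + j • (e α - e β) + e β + e p)) /
      ∑ j ∈ Icc lo (hi + 1), f (x + j • (e α - e β) + e β), ?_⟩
    rw [sum_add_distrib, ← mul_sum, div_mul_cancel₀ _ hA.ne', neg_add_cancel]
  set Sm : ℤ → ℝ := fun k => ∑ j ∈ Icc lo k, (u₀ * f (x + j • (e α - e β) + e β) +
      ∑ p ∈ S, u p * f (x + j • (e α - e β) + e β + e p)) with hSm
  set T : ℤ → ℝ := fun k => Sm k ^ 2 / f (x + (k + 1) • (e α - e β) + e β + e β) with hT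
  have hT0 : ∀ k, 0 ≤ T k := fun k => div_nonneg (sq_nonneg _) (h.1 _).le
  have h1 : ∀ a ∈ Icc lo hi, u₀ ^ 2 * f (x + a • (e α - e β)) +
      2 * u₀ * ∑ p ∈ S, u p * f (x + a • (e α - e β) + e p) +
      ∑ p ∈ S, ∑ q ∈ S, u p * u q * f (x + a • (e α - e β) + e p + e q) ≤
      (T (a + 1) - T (a + 1 - 1)) - (T a - T (a - 1)) := fun a ha => by
    have ha' := (mem_Icc.1 ha).1
    refine (h.local hα hβ x u₀ u Sm a fun j hj => ?_).trans (le_of_eq ?_)
    · have := contr_Icc (lo := lo) (hi := j - 1) (by omega)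
        fun j => u₀ * f (x + j • (e α - e β) + e β) +
          ∑ p ∈ S, u p * f (x + j • (e α - e β) + e β + e p)
      rw [sub_add_cancel] at this
      simp only [hSm]
      rw [this, add_sub_cancel_left]
    · simp only [hT, sub_add_cancel, add_sub_cancel_right, add_assoc a 1 1, one_add_one_eq_two]
      ring
  have h2 := sum_le_sum h1
  rw [contr_tele hl fun a => T a - T (a - 1), add_sub_cancel_right] at h2
  have h3 : T (hi + 1) = 0 := by
    have : Sm (hi + 1) = 0 := hu₀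
    simp only [hT, this]
    simp
  have h4 : T (lo - 1) = 0 := by
    have : Sm (lo - 1) = 0 := by
      simp only [hSm]
      rw [Icc_eq_empty (by omega), sum_empty]
    simp only [hT, this]
    simp
  rw [sum_add_distrib, sum_add_distrib, ← mul_sum, ← mul_sum] at h2
  have e1 : ∑ p ∈ S, u p * ∑ a ∈ Icc lo hi, f (x + e p + a • (e α - e β)) =
      ∑ a ∈ Icc lo hi, ∑ p ∈ S, u p * f (x + a • (e α - e β) + e p) := by
    rw [sum_comm]
    refine sum_congr rfl fun p _ => ?_
    rw [mul_sum]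
    exact sum_congr rfl fun a _ => by rw [add_right_comm]
  have e2 : ∑ p ∈ S, ∑ q ∈ S, u p * u q * ∑ a ∈ Icc lo hi, f (x + e p + e q + a • (e α - e β)) =
      ∑ a ∈ Icc lo hi, ∑ p ∈ S, ∑ q ∈ S, u p * u q * f (x + a • (e α - e β) + e p + e q) := by
    rw [sum_comm (s := Icc lo hi)]
    refine sum_congr rfl fun p _ => ?_
    rw [sum_comm (s := Icc lo hi)]
    refine sum_congr rfl fun q _ => ?_
    rw [mul_sum]
    exact sum_congr rfl fun a _ => by rw [add_right_comm _ (e q), add_right_comm _ (e p)]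
  beta_reduce
  rw [e1, e2]
  have hG := hpos x
  generalize ∑ a ∈ Icc lo hi, ∑ p ∈ S, ∑ q ∈ S,
    u p * u q * f (x + a • (e α - e β) + e p + e q) = Q at *
  generalize ∑ a ∈ Icc lo hi, ∑ p ∈ S, u p * f (x + a • (e α - e β) + e p) = L at *
  generalize ∑ a ∈ Icc lo hi, f (x + a • (e α - e β)) = G at *
  have h5 : u₀ ^ 2 * G + 2 * u₀ * L + Q ≤ 0 := by linarith [hT0 hi, hT0 lo]
  nlinarith [mul_le_mul_of_nonneg_left h5 hG.le, sq_nonneg (u₀ * G + L)]

section Multi

variable [Fintype κ] [DecidableEq κ]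

/-- Coefficient vectors supported on `J` and inside the windows. -/
noncomputable def boxJ (J : Finset κ) (lo hi : κ → ℤ) : Finset (κ → ℤ) :=
  Fintype.piFinset fun l => if l ∈ J then Icc (lo l) (hi l) else {0}

/-- The point reached from `x` by moving along the pairs. -/
def nd (e : ι → X) (α β : κ → ι) (x : X) (a : κ → ℤ) : X := x + ∑ l, a l • (e (α l) - e (β l))

lemma sum_boxJ_empty (e : ι → X) (α β : κ → ι) (lo hi : κ → ℤ) (x : X) (g : X → ℝ) :
    ∑ a ∈ boxJ ∅ lo hi, g (nd e α β x a) = g x := by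
  have : boxJ ∅ lo hi = {fun _ => 0} := by
    rw [← Fintype.piFinset_singleton]
    simp [boxJ]
  rw [this, sum_singleton]
  simp [nd]

lemma sum_boxJ_insert {J : Finset κ} {l : κ} (hl : l ∉ J) (lo hi : κ → ℤ) (g : (κ → ℤ) → ℝ) :
    ∑ a ∈ boxJ (insert l J) lo hi, g a =
      ∑ b ∈ Icc (lo l) (hi l), ∑ a ∈ boxJ J lo hi, g (Function.update a l b) := by
  rw [← sum_product']
  refine sum_nbij' (fun a => (a l, Function.update a l 0)) (fun q => Function.update q.2 l q.1)
    (fun a ha => ?_) (fun q hq => ?_) (fun a _ => ?_) (fun q hq => ?_) fun a _ => ?_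
  · simp only [boxJ, Fintype.mem_piFinset, mem_product] at ha ⊢
    refine ⟨by simpa using ha l, fun k => ?_⟩
    by_cases hk : k = l
    · subst hk
      simp [hl]
    · simpa [hk] using ha k
  · simp only [boxJ, Fintype.mem_piFinset, mem_product] at hq ⊢
    intro k
    by_cases hk : k = l
    · subst hk
      simpa using hq.1
    · simpa [hk] using hq.2 k
  · simp
  · simp only [boxJ, Fintype.mem_piFinset, mem_product] at hq
    have h0 : q.2 l = 0 := by simpa [hl] using hq.2 l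
    refine Prod.ext (by simp) ?_
    simp only [Function.update_idem]
    rw [← h0, Function.update_eq_self]
  · simp

lemma nd_update (e : ι → X) (α β : κ → ι) (x : X) {J : Finset κ} {l : κ} (hl : l ∉ J)
    {lo hi a : κ → ℤ} (ha : a ∈ boxJ J lo hi) (b : ℤ) :
    nd e α β x (Function.update a l b) = nd e α β (x + b • (e (α l) - e (β l))) a := by
  have h0 : a l = 0 := by
    simp only [boxJ, Fintype.mem_piFinset] at ha
    simpa [hl] using ha l
  unfold nd
  rw [add_assoc]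
  congr 1
  have e1 : ∀ k, Function.update a l b k • (e (α k) - e (β k)) =
      (if k = l then b • (e (α k) - e (β k)) else 0) + a k • (e (α k) - e (β k)) := fun k => by
    by_cases hk : k = l
    · subst hk
      simp [h0]
    · simp [hk]
  simp only [e1]
  rw [sum_add_distrib, sum_ite_eq', if_pos (mem_univ _)]

theorem SN.conS {e : ι → X} {S : Finset ι} {f : X → ℝ} (h : SN e S f) {α β : κ → ι} {J : Finset κ}
    (hα : ∀ l ∈ J, α l ∈ S) (hβ : ∀ l ∈ J, β l ∈ S) {lo hi : κ → ℤ} (hl : ∀ l ∈ J, lo l ≤ hi l) :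
    SN e S fun x => ∑ a ∈ boxJ J lo hi, f (nd e α β x a) := by
  induction J using Finset.induction_on with
  | empty => simpa only [sum_boxJ_empty] using h
  | insert l J hlJ ih =>
    have h1 := (ih (fun k hk => hα k (mem_insert_of_mem hk)) (fun k hk => hβ k (mem_insert_of_mem hk))
      fun k hk => hl k (mem_insert_of_mem hk)).con (hα l (mem_insert_self _ _))
        (hβ l (mem_insert_self _ _)) (hl l (mem_insert_self _ _))
    convert h1 using 2 with x
    rw [sum_boxJ_insert hlJ]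
    exact sum_congr rfl fun b _ => sum_congr rfl fun a ha => by rw [nd_update e α β x hlJ ha]

theorem DL.conS {e : ι → X} {S : Finset ι} {f : X → ℝ} (h : DL e S f) {α β : κ → ι} {J : Finset κ}
    (hα : ∀ l ∈ J, α l ∈ S) (hβ : ∀ l ∈ J, β l ∈ S) {lo hi : κ → ℤ} (hl : ∀ l ∈ J, lo l ≤ hi l) :
    DL e S fun x => ∑ a ∈ boxJ J lo hi, f (nd e α β x a) :=
  h.map (T := fun f x => ∑ a ∈ boxJ J lo hi, f (nd e α β x a))
    (continuous_pi fun _ => continuous_finsetSum _ fun _ _ => continuous_apply _)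
    fun _ hg => (hg.conS hα hβ hl).dl

end Multi

/-- Log-concavity along a root (`SN.rcs` at `y - e p - e q` with `β = p`, `u = q`). -/
theorem DL.root {e : ι → X} {S : Finset ι} {f : X → ℝ} (h : DL e S f) {p q : ι} (hp : p ∈ S)
    (hq : q ∈ S) (x : X) : DL1 fun j => f (x + j • (e p - e q)) := by
  classical
  refine h.map (T := fun f (j : ℤ) => f (x + j • (e p - e q)))
    (continuous_pi fun _ => continuous_apply _) fun g hg => DL1.of_pos (fun _ => hg.1 _) fun j => ?_
  have h1 := hg.rcs hp (x + (j + 1) • (e p - e q) - e p - e q) 0 fun r => 0 + if r = q then 1 else 0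
  rw [contr_quad hq (fun r s => g (x + (j + 1) • (e p - e q) - e p - e q + e r + e s))
    (fun r s => by rw [add_right_comm]), contr_lin hq, contr_lin hq] at h1
  have y1 : x + (j + 1) • (e p - e q) - e p - e q + e p + e p = x + (j + 2) • (e p - e q) := by
    rw [add_smul, add_smul, one_smul, two_smul]
    abel
  have y2 : x + (j + 1) • (e p - e q) - e p - e q + e q + e q = x + j • (e p - e q) := by
    rw [add_smul, one_smul]
    abel
  have y3 : x + (j + 1) • (e p - e q) - e p - e q + e p + e q = x + (j + 1) • (e p - e q) := by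
    abel
  rw [y1, y2, y3] at h1
  simpa [mul_comm] using h1

/-- `SN.rcs` with `β = j`, `u = f (x + j + k) • i + f (x + j + i) • k`. -/
theorem DL.tri {e : ι → X} {S : Finset ι} {f : X → ℝ} (h : DL e S f) {i j k : ι} (hi : i ∈ S)
    (hj : j ∈ S) (hk : k ∈ S) (x : X) :
    f (x + e i + e k) * f (x + e j + e j) ≤ 2 * (f (x + e i + e j) * f (x + e j + e k)) := by
  classical
  refine h.le_of_continuous (Φ := fun f => f (x + e i + e k) * f (x + e j + e j))
    (Ψ := fun f => 2 * (f (x + e i + e j) * f (x + e j + e k))) (by fun_prop) (by fun_prop)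
    fun g hg => ?_
  have hs : ∀ p q, g (x + e p + e q) = g (x + e q + e p) := fun p q => by rw [add_right_comm]
  have h1 := hg.rcs hj x 0 fun r => (0 + if r = i then g (x + e j + e k) else 0) +
    if r = k then g (x + e i + e j) else 0
  rw [contr_quad hk (fun p q => g (x + e p + e q)) hs, contr_quad hi (fun p q => g (x + e p + e q)) hs,
    contr_lin hk, contr_lin hk, contr_lin hi, contr_lin hi, contr_lin hi, hs j i, hs k i] at h1
  simp only [zero_mul, sum_const_zero, mul_zero, zero_add, add_zero, zero_pow two_ne_zero] at h1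
  have a1 := hg.1 (x + e j + e k)
  have a2 := hg.1 (x + e i + e j)
  have a3 := hg.1 (x + e j + e j)
  have a4 := hg.1 (x + e i + e i)
  have a5 := hg.1 (x + e k + e k)
  generalize g (x + e j + e k) = A at *
  generalize g (x + e i + e j) = C at *
  generalize g (x + e j + e j) = c at *
  generalize g (x + e i + e i) = d at *
  generalize g (x + e k + e k) = d' at *
  generalize g (x + e i + e k) = w at *
  refine le_of_mul_le_mul_left ?_ (mul_pos a1 a2)
  have b1 : 0 ≤ c * (A ^ 2 * d) := by positivity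
  have b2 : 0 ≤ c * (C ^ 2 * d') := by positivity
  nlinarith

theorem DL1.qc {ψ : ℤ → ℝ} (h : DL1 ψ) {a b c : ℤ} (hab : a ≤ b) (hbc : b ≤ c) :
    min (ψ a) (ψ c) ≤ ψ b := by
  obtain ⟨m, rfl⟩ := Int.le.dest hab
  obtain ⟨n, rfl⟩ := Int.le.dest hbc
  rcases Nat.eq_zero_or_pos (m + n) with h0 | h0
  · obtain rfl : m = 0 := by omega
    simp
  have h1 := contr_interp h a m n
  have h2 : 0 ≤ min (ψ a) (ψ (a + m + n)) := le_min (h.nonneg _) (h.nonneg _)
  refine le_of_pow_le_pow_left₀ h0.ne' (h.nonneg _) (le_trans ?_ h1)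
  rw [add_comm m n, pow_add]
  exact mul_le_mul (pow_le_pow_left₀ h2 (min_le_left _ _) _)
    (pow_le_pow_left₀ h2 (min_le_right _ _) _) (pow_nonneg h2 _) (pow_nonneg (h.nonneg _) _)

theorem DL1.interp {ψ : ℤ → ℝ} (h : DL1 ψ) (a : ℤ) (m n : ℕ) :
    ψ a ^ n * ψ (a + m + n) ^ m ≤ ψ (a + m) ^ (m + n) := by
  exact contr_interp h a m n

theorem DL1.neg {ψ : ℤ → ℝ} (h : DL1 ψ) : DL1 fun j => ψ (-j) := by
  refine h.map (T := fun ψ (j : ℤ) => ψ (-j)) (continuous_pi fun _ => continuous_apply _)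
    fun g hg => DL1.of_pos (fun _ => hg.1 _) fun j => ?_
  have := contr_sn1 hg (-(j + 2))
  rw [show -(j + 2) + 2 = -j by ring, show -(j + 2) + 1 = -(j + 1) by ring, mul_comm] at this
  exact this

/-- If the far value is not smaller than `ψ 0 / 2 ^ B`, the near values are almost `ψ 0`
(`DL1.interp`, then take roots; `2 ^ (-t) ≥ 1 - t`). -/
theorem DL1.near {ψ : ℤ → ℝ} (h : DL1 ψ) {B T d : ℕ} (hT : 0 < T) (hd : d ≤ T)
    (hB : ψ 0 ≤ 2 ^ B * ψ T) : (1 - (B : ℝ) * d / T) * ψ 0 ≤ ψ d := by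
  have h0 := h.nonneg 0
  have hd0 := h.nonneg d
  rcases le_or_gt (1 - (B : ℝ) * d / T) 0 with ht | ht
  · exact (mul_nonpos_of_nonpos_of_nonneg ht h0).trans hd0
  obtain ⟨n, rfl⟩ := Nat.exists_eq_add_of_le hd
  have h1 := h.interp 0 d n
  rw [zero_add, ← Nat.cast_add] at h1
  refine le_of_pow_le_pow_left₀ hT.ne' hd0 (le_trans ?_ h1)
  have hT' : (0 : ℝ) < ((d + n : ℕ) : ℝ) := by exact_mod_cast hT
  have h2 : (1 - (B : ℝ) * d / ((d + n : ℕ) : ℝ)) ^ (d + n) * (2 ^ B) ^ d ≤ 1 := by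
    have a1 : 1 - (B : ℝ) * d / ((d + n : ℕ) : ℝ) ≤ Real.exp (-((B : ℝ) * d / ((d + n : ℕ) : ℝ))) := by
      linarith [Real.add_one_le_exp (-((B : ℝ) * d / ((d + n : ℕ) : ℝ)))]
    have a2 : (2 : ℝ) ≤ Real.exp 1 := by linarith [Real.add_one_le_exp (1 : ℝ)]
    calc _ ≤ Real.exp (-((B : ℝ) * d / ((d + n : ℕ) : ℝ))) ^ (d + n) * (Real.exp 1 ^ B) ^ d := by
          gcongr
      _ = 1 := by
          rw [← Real.exp_nat_mul, ← Real.exp_nat_mul, ← Real.exp_nat_mul, ← Real.exp_add,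
            Real.exp_eq_one_iff]
          field_simp
          ring
  have hT0 := h.nonneg ((d + n : ℕ) : ℤ)
  calc ((1 - (B : ℝ) * d / ((d + n : ℕ) : ℝ)) * ψ 0) ^ (d + n)
      = (1 - (B : ℝ) * d / ((d + n : ℕ) : ℝ)) ^ (d + n) * ψ 0 ^ d * ψ 0 ^ n := by
        rw [mul_pow, pow_add (ψ 0), mul_assoc]
    _ ≤ (1 - (B : ℝ) * d / ((d + n : ℕ) : ℝ)) ^ (d + n) * (2 ^ B * ψ ((d + n : ℕ) : ℤ)) ^ d *
          ψ 0 ^ n := by gcongr
    _ = ((1 - (B : ℝ) * d / ((d + n : ℕ) : ℝ)) ^ (d + n) * (2 ^ B) ^ d) *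
          (ψ 0 ^ n * ψ ((d + n : ℕ) : ℤ) ^ d) := by rw [mul_pow]; ring
    _ ≤ 1 * (ψ 0 ^ n * ψ ((d + n : ℕ) : ℤ) ^ d) := by gcongr
    _ = _ := one_mul _

end Crest.Agent.R302
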