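import Mathlib

/-!
Row 302, part A1: discrete Lorentzian functions.

`SN e S f`: `f > 0` and at every point the matrix `f (x + e p + e q)` (with the extra direction `0`)
has only one positive eigenvalue.  `DL` is the pointwise closure.
-/

set_option autoImplicit false

namespace Crest.Agent.R302

open Finset

section Defs

variable {X : Type} [AddCommGroup X] {ι : Type}

/-- Strictly positive discrete Lorentzian function for the directions `e p`, `p ∈ S`. -/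
def SN (e : ι → X) (S : Finset ι) (f : X → ℝ) : Prop :=
  (∀ x, 0 < f x) ∧ ∀ (x : X) (u : ι → ℝ),
    f x * ∑ p ∈ S, ∑ q ∈ S, u p * u q * f (x + e p + e q) ≤ (∑ p ∈ S, u p * f (x + e p)) ^ 2

/-- Pointwise limits of `SN` functions. -/
def DL (e : ι → X) (S : Finset ι) (f : X → ℝ) : Prop := f ∈ closure {g : X → ℝ | SN e S g}

/-- Limits of positive log-concave sequences. -/
def DL1 (ψ : ℤ → ℝ) : Prop := DL (fun _ : Unit => (1 : ℤ)) univ ψ

/-- The unit vectors of `I → ℤ`. -/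
def uv {I : Type} [DecidableEq I] (p : I) : I → ℤ := Pi.single p 1

end Defs

variable {X Y Z : Type} [AddCommGroup X] [AddCommGroup Y] [AddCommGroup Z] {ι κ μ : Type}

lemma SN.dl {e : ι → X} {S : Finset ι} {f : X → ℝ} (h : SN e S f) : DL e S f :=
  subset_closure h

lemma DL.le_of_continuous {e : ι → X} {S : Finset ι} {f : X → ℝ} (h : DL e S f)
    {Φ Ψ : (X → ℝ) → ℝ} (hΦ : Continuous Φ) (hΨ : Continuous Ψ) (H : ∀ g, SN e S g → Φ g ≤ Ψ g) :
    Φ f ≤ Ψ f :=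
  closure_minimal (t := {g | Φ g ≤ Ψ g}) H (isClosed_le hΦ hΨ) h

lemma DL.nonneg {e : ι → X} {S : Finset ι} {f : X → ℝ} (h : DL e S f) (x : X) : 0 ≤ f x :=
  h.le_of_continuous continuous_const (continuous_apply x) fun _ hg => (hg.1 x).le

lemma DL.map {e : ι → X} {S : Finset ι} {e' : κ → Y} {S' : Finset κ} {f : X → ℝ} (h : DL e S f)
    {T : (X → ℝ) → Y → ℝ} (hT : Continuous T) (H : ∀ g, SN e S g → DL e' S' (T g)) :
    DL e' S' (T f) :=
  closure_minimal (t := T ⁻¹' closure {g | SN e' S' g}) H (isClosed_closure.preimage hT) h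

lemma DL.map₂ {e : ι → X} {S : Finset ι} {e' : κ → Y} {S' : Finset κ} {e'' : μ → Z} {S'' : Finset μ}
    {f : X → ℝ} {g : Y → ℝ} (hf : DL e S f) (hg : DL e' S' g)
    {T : (X → ℝ) → (Y → ℝ) → Z → ℝ} (hT : Continuous fun p : (X → ℝ) × (Y → ℝ) => T p.1 p.2)
    (H : ∀ f g, SN e S f → SN e' S' g → DL e'' S'' (T f g)) : DL e'' S'' (T f g) :=
  hf.map (T := fun f => T f g) (hT.comp (continuous_id.prodMk continuous_const)) fun f' hf' =>
    hg.map (T := fun g => T f' g) (hT.comp (continuous_const.prodMk continuous_id)) fun g' hg' =>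
      H f' g' hf' hg'

lemma DL.of_tendsto {e : ι → X} {S : Finset ι} {f : X → ℝ} {g : ℕ → X → ℝ}
    (hg : ∀ n, DL e S (g n)) (h : ∀ x, Filter.Tendsto (fun n => g n x) Filter.atTop (nhds (f x))) :
    DL e S f :=
  isClosed_closure.mem_of_tendsto (tendsto_pi_nhds.2 h) (Filter.Eventually.of_forall hg)

lemma dl_push [DecidableEq ι] {S : Finset ι} {S' : Finset κ} {ρ : κ → ι} (hρ : ∀ k ∈ S', ρ k ∈ S)
    (u : κ → ℝ) (F : ι → ℝ) :
    ∑ k ∈ S', u k * F (ρ k) = ∑ p ∈ S, (∑ k ∈ S' with ρ k = p, u k) * F p := by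
  rw [← Finset.sum_fiberwise_of_maps_to hρ]
  refine Finset.sum_congr rfl fun p _ => ?_
  rw [Finset.sum_mul]
  exact Finset.sum_congr rfl fun k hk => by rw [(Finset.mem_filter.1 hk).2]

lemma dl_reindex {e : ι → X} {S : Finset ι} {f : X → ℝ} (h : SN e S f) {S' : Finset κ} {ρ : κ → ι}
    (hρ : ∀ k ∈ S', ρ k ∈ S) : SN (e ∘ ρ) S' f := by
  classical
  refine ⟨h.1, fun x u => ?_⟩
  have h1 := h.2 x fun p => ∑ k ∈ S' with ρ k = p, u k
  rw [← dl_push hρ u fun p => f (x + e p)] at h1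
  refine le_of_eq_of_le ?_ h1
  congr 1
  simp only [mul_assoc, ← Finset.mul_sum]
  rw [← dl_push hρ u fun p => ∑ q ∈ S, (∑ k ∈ S' with ρ k = q, u k) * f (x + e p + e q)]
  refine Finset.sum_congr rfl fun k _ => ?_
  rw [← dl_push hρ u fun q => f (x + e (ρ k) + e q)]
  rfl

lemma dl_slack {e : ι → X} {S : Finset ι} {f : X → ℝ} (h : SN e S f) :
    SN (fun o : Option ι => o.elim 0 e) (Finset.insertNone S) f := by
  refine ⟨h.1, fun x u => ?_⟩
  have h1 := h.2 x fun p => u (some p)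
  simp only [Finset.sum_insertNone, Option.elim_none, Option.elim_some, add_zero,
    Finset.sum_add_distrib]
  have e1 : ∑ q ∈ S, u none * u (some q) * f (x + e q) =
      u none * ∑ q ∈ S, u (some q) * f (x + e q) := by
    rw [Finset.mul_sum]
    exact Finset.sum_congr rfl fun q _ => by ring
  have e2 : ∑ q ∈ S, u (some q) * u none * f (x + e q) =
      u none * ∑ q ∈ S, u (some q) * f (x + e q) := by
    rw [Finset.mul_sum]
    exact Finset.sum_congr rfl fun q _ => by ring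
  rw [e1, e2]
  nlinarith [h1]

/-- Pull-back along an affine map that sends every new direction to `0` or to an old direction
(covers: shrinking `S`, duplicating directions, translations, dummy directions).
Proof: push `u` forward to `S ∪ {slack}`; the inequality with the extra direction `0` is equivalent
to the one without (expand). -/
theorem SN.comap {e : ι → X} {S : Finset ι} {f : X → ℝ} (h : SN e S f) {e' : κ → Y} {S' : Finset κ}
    (φ : Y →+ X) (x₀ : X) (hφ : ∀ k ∈ S', φ (e' k) = 0 ∨ ∃ p ∈ S, φ (e' k) = e p) :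
    SN e' S' fun y => f (x₀ + φ y) := by
  classical
  have : ∀ k, ∃ o : Option ι, k ∈ S' → o ∈ Finset.insertNone S ∧ φ (e' k) = o.elim 0 e := by
    intro k
    by_cases hk : k ∈ S'
    · rcases hφ k hk with h0 | ⟨p, hp, h0⟩
      · exact ⟨none, fun _ => ⟨by simp, h0⟩⟩
      · exact ⟨some p, fun _ => ⟨by simpa using hp, h0⟩⟩
    · exact ⟨none, fun h => absurd h hk⟩
  choose ρ hρ using this
  have h1 := dl_reindex (dl_slack h) fun k hk => (hρ k hk).1
  refine ⟨fun y => h.1 _, fun y u => ?_⟩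
  have h2 := h1.2 (x₀ + φ y) u
  refine le_of_eq_of_le ?_ (h2.trans (le_of_eq ?_))
  · congr 1
    refine Finset.sum_congr rfl fun k hk => Finset.sum_congr rfl fun l hl => ?_
    simp only [map_add, (hρ k hk).2, (hρ l hl).2, Function.comp_apply, add_assoc]
  · congr 1
    refine Finset.sum_congr rfl fun k hk => ?_
    simp only [map_add, (hρ k hk).2, Function.comp_apply, add_assoc]

theorem DL.comap {e : ι → X} {S : Finset ι} {f : X → ℝ} (h : DL e S f) {e' : κ → Y} {S' : Finset κ}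
    (φ : Y →+ X) (x₀ : X) (hφ : ∀ k ∈ S', φ (e' k) = 0 ∨ ∃ p ∈ S, φ (e' k) = e p) :
    DL e' S' fun y => f (x₀ + φ y) :=
  h.map (T := fun f y => f (x₀ + φ y)) (continuous_pi fun _ => continuous_apply _)
    fun _ hg => (hg.comap φ x₀ hφ).dl

/-- Products: every direction of `S` leaves one of the factors invariant.
Proof: split `S` by which factor is invariant, `f₁ f₂ (f₂ Q₁ + f₁ Q₂ + 2 L₁ L₂) ≤ (f₂ L₁ + f₁ L₂)²`. -/
theorem SN.mul {e : ι → X} {S S₁ S₂ : Finset ι} {f₁ f₂ : X → ℝ} (h₁ : SN e S₁ f₁) (h₂ : SN e S₂ f₂)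
    (hS : ∀ p ∈ S, (p ∈ S₁ ∧ ∀ x, f₂ (x + e p) = f₂ x) ∨ (p ∈ S₂ ∧ ∀ x, f₁ (x + e p) = f₁ x)) :
    SN e S fun x => f₁ x * f₂ x := by
  classical
  refine ⟨fun x => mul_pos (h₁.1 x) (h₂.1 x), fun x u => ?_⟩
  set P : ι → Prop := fun p => p ∈ S₁ ∧ ∀ x, f₂ (x + e p) = f₂ x with hP
  have hA : ∀ p ∈ S.filter P, p ∈ S₁ ∧ ∀ x, f₂ (x + e p) = f₂ x :=
    fun p hp => (Finset.mem_filter.1 hp).2
  have hB : ∀ p ∈ S.filter fun p => ¬ P p, p ∈ S₂ ∧ ∀ x, f₁ (x + e p) = f₁ x :=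
    fun p hp => (hS p (Finset.mem_filter.1 hp).1).resolve_left (Finset.mem_filter.1 hp).2
  have k₁ := (dl_reindex h₁ (ρ := id) fun p hp => (hA p hp).1).2 x u
  have k₂ := (dl_reindex h₂ (ρ := id) fun p hp => (hB p hp).1).2 x u
  simp only [Function.comp_apply, id] at k₁ k₂
  simp only [← Finset.sum_filter_add_sum_filter_not S P, Finset.sum_add_distrib]
  set A := S.filter P
  set B := S.filter fun p => ¬ P p
  have e1 : ∑ p ∈ A, u p * (f₁ (x + e p) * f₂ (x + e p)) = f₂ x * ∑ p ∈ A, u p * f₁ (x + e p) := by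
    rw [Finset.mul_sum]
    exact Finset.sum_congr rfl fun p hp => by rw [(hA p hp).2]; ring
  have e2 : ∑ p ∈ B, u p * (f₁ (x + e p) * f₂ (x + e p)) = f₁ x * ∑ p ∈ B, u p * f₂ (x + e p) := by
    rw [Finset.mul_sum]
    exact Finset.sum_congr rfl fun p hp => by rw [(hB p hp).2]; ring
  have e3 : ∑ p ∈ A, ∑ q ∈ A, u p * u q * (f₁ (x + e p + e q) * f₂ (x + e p + e q)) =
      f₂ x * ∑ p ∈ A, ∑ q ∈ A, u p * u q * f₁ (x + e p + e q) := by
    simp only [Finset.mul_sum]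
    exact Finset.sum_congr rfl fun p hp => Finset.sum_congr rfl fun q hq => by
      rw [(hA q hq).2, (hA p hp).2]; ring
  have e4 : ∑ p ∈ B, ∑ q ∈ B, u p * u q * (f₁ (x + e p + e q) * f₂ (x + e p + e q)) =
      f₁ x * ∑ p ∈ B, ∑ q ∈ B, u p * u q * f₂ (x + e p + e q) := by
    simp only [Finset.mul_sum]
    exact Finset.sum_congr rfl fun p hp => Finset.sum_congr rfl fun q hq => by
      rw [(hB q hq).2, (hB p hp).2]; ring
  have e5 : ∑ p ∈ A, ∑ q ∈ B, u p * u q * (f₁ (x + e p + e q) * f₂ (x + e p + e q)) =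
      (∑ p ∈ A, u p * f₁ (x + e p)) * ∑ p ∈ B, u p * f₂ (x + e p) := by
    rw [Finset.sum_mul_sum]
    exact Finset.sum_congr rfl fun p hp => Finset.sum_congr rfl fun q hq => by
      rw [(hB q hq).2, add_right_comm, (hA p hp).2]; ring
  have e6 : ∑ p ∈ B, ∑ q ∈ A, u p * u q * (f₁ (x + e p + e q) * f₂ (x + e p + e q)) =
      (∑ p ∈ B, u p * f₂ (x + e p)) * ∑ p ∈ A, u p * f₁ (x + e p) := by
    rw [Finset.sum_mul_sum]
    exact Finset.sum_congr rfl fun p hp => Finset.sum_congr rfl fun q hq => by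
      rw [(hA q hq).2, add_right_comm, (hB p hp).2]; ring
  rw [e1, e2, e3, e4, e5, e6]
  nlinarith [mul_le_mul_of_nonneg_left k₁ (sq_nonneg (f₂ x)),
    mul_le_mul_of_nonneg_left k₂ (sq_nonneg (f₁ x))]

/-- Products of functions of independent groups of coordinates. -/
theorem DL.mul_comap {e₁ : ι → X} {S₁ : Finset ι} {f₁ : X → ℝ} {e₂ : κ → Y} {S₂ : Finset κ}
    {f₂ : Y → ℝ} (h₁ : DL e₁ S₁ f₁) (h₂ : DL e₂ S₂ f₂) {e : μ → Z} {S : Finset μ} (φ₁ : Z →+ X)
    (φ₂ : Z →+ Y)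
    (hφ : ∀ k ∈ S, (φ₂ (e k) = 0 ∧ (φ₁ (e k) = 0 ∨ ∃ p ∈ S₁, φ₁ (e k) = e₁ p)) ∨
      (φ₁ (e k) = 0 ∧ ∃ q ∈ S₂, φ₂ (e k) = e₂ q)) :
    DL e S fun z => f₁ (φ₁ z) * f₂ (φ₂ z) := by
  classical
  refine h₁.map₂ h₂ (T := fun f g z => f (φ₁ z) * g (φ₂ z)) (continuous_pi fun z =>
    ((continuous_apply _).comp continuous_fst).mul ((continuous_apply _).comp continuous_snd))
    fun g₁ g₂ k₁ k₂ => ?_
  have k₁' := k₁.comap (e' := e)
    (S' := S.filter fun k => φ₁ (e k) = 0 ∨ ∃ p ∈ S₁, φ₁ (e k) = e₁ p) φ₁ 0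
    fun k hk => (Finset.mem_filter.1 hk).2
  have k₂' := k₂.comap (e' := e)
    (S' := S.filter fun k => φ₂ (e k) = 0 ∨ ∃ p ∈ S₂, φ₂ (e k) = e₂ p) φ₂ 0
    fun k hk => (Finset.mem_filter.1 hk).2
  simp only [zero_add] at k₁' k₂'
  refine (k₁'.mul k₂' fun k hk => ?_).dl
  rcases hφ k hk with ⟨h0, h⟩ | ⟨h0, h⟩
  · exact Or.inl ⟨Finset.mem_filter.2 ⟨hk, h⟩, fun x => by rw [map_add, h0, add_zero]⟩
  · exact Or.inr ⟨Finset.mem_filter.2 ⟨hk, Or.inr h⟩, fun x => by rw [map_add, h0, add_zero]⟩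

lemma dl_sn1 {ψ : ℤ → ℝ} (h : SN (fun _ : Unit => (1 : ℤ)) univ ψ) (j : ℤ) :
    ψ j * ψ (j + 1 + 1) ≤ ψ (j + 1) ^ 2 := by
  simpa using h.2 j fun _ => 1

lemma dl_sn1_of {ψ : ℤ → ℝ} (h0 : ∀ j, 0 < ψ j) (h : ∀ j, ψ j * ψ (j + 2) ≤ ψ (j + 1) ^ 2) :
    SN (fun _ : Unit => (1 : ℤ)) univ ψ := by
  refine ⟨h0, fun j u => ?_⟩
  simp only [Finset.univ_unique, Finset.sum_singleton]
  rw [show j + 1 + 1 = j + 2 by ring]
  nlinarith [mul_le_mul_of_nonneg_left (h j) (sq_nonneg (u default))]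

lemma dl_mul_total {e : ι → X} {S : Finset ι} {f : X → ℝ} (h : SN e S f) {ψ : ℤ → ℝ}
    (hψ : SN (fun _ : Unit => (1 : ℤ)) univ ψ) (χ : X →+ ℤ) (hχ : ∀ p ∈ S, χ (e p) = 1) :
    SN e S fun x => f x * ψ (χ x) := by
  refine ⟨fun x => mul_pos (h.1 x) (hψ.1 _), fun x u => ?_⟩
  have e1 : ∑ p ∈ S, u p * (f (x + e p) * ψ (χ (x + e p))) =
      ψ (χ x + 1) * ∑ p ∈ S, u p * f (x + e p) := by
    rw [Finset.mul_sum]
    exact Finset.sum_congr rfl fun p hp => by rw [map_add, hχ p hp]; ring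
  have e2 : ∑ p ∈ S, ∑ q ∈ S, u p * u q * (f (x + e p + e q) * ψ (χ (x + e p + e q))) =
      ψ (χ x + 1 + 1) * ∑ p ∈ S, ∑ q ∈ S, u p * u q * f (x + e p + e q) := by
    simp only [Finset.mul_sum]
    exact Finset.sum_congr rfl fun p hp => Finset.sum_congr rfl fun q hq => by
      rw [map_add, map_add, hχ p hp, hχ q hq]; ring
  rw [e1, e2]
  nlinarith [mul_le_mul_of_nonneg_left (h.2 x u)
    (mul_pos (hψ.1 (χ x)) (hψ.1 (χ x + 1 + 1))).le,
    mul_le_mul_of_nonneg_right (dl_sn1 hψ (χ x)) (sq_nonneg (∑ p ∈ S, u p * f (x + e p)))]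

lemma dl_mul_coord {e : ι → X} {S : Finset ι} {f : X → ℝ} (h : SN e S f) {ψ : ℤ → ℝ}
    (hψ : SN (fun _ : Unit => (1 : ℤ)) univ ψ) (χ : X →+ ℤ) (p₀ : ι) (h₀ : χ (e p₀) = 1)
    (hχ : ∀ p ∈ S, p ≠ p₀ → χ (e p) = 0) : SN e S fun x => f x * ψ (χ x) := by
  refine ⟨fun x => mul_pos (h.1 x) (hψ.1 _), fun x u => ?_⟩
  have h1 := h.2 x fun p => u p * ψ (χ x + χ (e p))
  refine le_trans ?_ (h1.trans (le_of_eq ?_))
  · rw [mul_assoc]
    refine mul_le_mul_of_nonneg_left ?_ (h.1 x).le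
    simp only [Finset.mul_sum]
    refine Finset.sum_le_sum fun p hp => Finset.sum_le_sum fun q hq => ?_
    rw [map_add, map_add]
    by_cases hp0 : p = p₀
    · by_cases hq0 : q = p₀
      · rw [hp0, hq0, h₀]
        nlinarith [mul_le_mul_of_nonneg_left (dl_sn1 hψ (χ x))
          (mul_nonneg (sq_nonneg (u p₀)) (h.1 (x + e p₀ + e p₀)).le)]
      · rw [hχ q hq hq0, add_zero, add_zero]
        exact le_of_eq (by ring)
    · rw [hχ p hp hp0, add_zero]
      exact le_of_eq (by ring)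
  · congr 1
    exact Finset.sum_congr rfl fun p _ => by simp only [map_add]; ring

lemma dl_cont (χ : X →+ ℤ) :
    Continuous fun p : (X → ℝ) × (ℤ → ℝ) => fun x => p.1 x * p.2 (χ x) :=
  continuous_pi fun _ =>
    ((continuous_apply _).comp continuous_fst).mul ((continuous_apply _).comp continuous_snd)

/-- A log-concave weight of a functional that counts all directions. -/
theorem DL.mul_total {e : ι → X} {S : Finset ι} {f : X → ℝ} (h : DL e S f) {ψ : ℤ → ℝ} (hψ : DL1 ψ)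
    (χ : X →+ ℤ) (hχ : ∀ p ∈ S, χ (e p) = 1) : DL e S fun x => f x * ψ (χ x) := by
  exact h.map₂ hψ (T := fun f ψ x => f x * ψ (χ x)) (dl_cont χ)
    fun _ _ k₁ k₂ => (dl_mul_total k₁ k₂ χ hχ).dl

/-- A log-concave weight of a single coordinate (rescale `u` by `ψ (χ x)` off `p₀` and by
`ψ (χ x + 1)` at `p₀`). -/
theorem DL.mul_coord {e : ι → X} {S : Finset ι} {f : X → ℝ} (h : DL e S f) {ψ : ℤ → ℝ} (hψ : DL1 ψ)
    (χ : X →+ ℤ) (p₀ : ι) (h₀ : χ (e p₀) = 1) (hχ : ∀ p ∈ S, p ≠ p₀ → χ (e p) = 0) :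
    DL e S fun x => f x * ψ (χ x) := by
  exact h.map₂ hψ (T := fun f ψ x => f x * ψ (χ x)) (dl_cont χ)
    fun _ _ k₁ k₂ => (dl_mul_coord k₁ k₂ χ p₀ h₀ hχ).dl

/-- Log-concave weights on all coordinates. -/
theorem DL.mul_prod {I : Type} [Fintype I] [DecidableEq I] {S : Finset I} {f : (I → ℤ) → ℝ}
    (h : DL uv S f) {ψ : I → ℤ → ℝ} (hψ : ∀ i, DL1 (ψ i)) :
    DL uv S fun x => f x * ∏ i, ψ i (x i) := by
  have key : ∀ T : Finset I, DL uv S fun x => f x * ∏ i ∈ T, ψ i (x i) := by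
    intro T
    induction T using Finset.induction_on with
    | empty => simpa using h
    | insert i T hi ih =>
      have := ih.mul_coord (hψ i) (Pi.evalAddMonoidHom (fun _ => ℤ) i) i (by simp [uv])
        fun p _ hp => by simp [uv, Pi.single_eq_of_ne' hp]
      simp only [Finset.prod_insert hi]
      convert this using 2 with x
      simp only [Pi.evalAddMonoidHom_apply]
      ring
  exact key univ

lemma DL1.of_pos {ψ : ℤ → ℝ} (h0 : ∀ j, 0 < ψ j) (h : ∀ j, ψ j * ψ (j + 2) ≤ ψ (j + 1) ^ 2) :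
    DL1 ψ := by
  exact (dl_sn1_of h0 h).dl

lemma DL1.one : DL1 fun _ => 1 := DL1.of_pos (fun _ => one_pos) fun _ => by norm_num

lemma dl_pow {ε : ℝ} (h0 : 0 < ε) (h1 : ε ≤ 1) {φ : ℤ → ℕ}
    (h : ∀ j, 2 * φ (j + 1) ≤ φ j + φ (j + 2)) :
    SN (fun _ : Unit => (1 : ℤ)) univ fun j => ε ^ φ j := by
  refine dl_sn1_of (fun j => pow_pos h0 _) fun j => ?_
  rw [← pow_add, ← pow_mul, mul_comm]
  exact pow_le_pow_of_le_one h0.le h1 (h j)

lemma dl_tendsto (k : ℕ) : Filter.Tendsto (fun n : ℕ => (1 / ((n : ℝ) + 1)) ^ k) Filter.atTop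
    (nhds (if k = 0 then 1 else 0)) := by
  have := (tendsto_one_div_add_atTop_nhds_zero_nat (𝕜 := ℝ)).pow k
  rwa [zero_pow_eq] at this

lemma dl_eps_le (n : ℕ) : 1 / ((n : ℝ) + 1) ≤ 1 := by
  rw [div_le_one (by positivity)]
  linarith [(Nat.cast_nonneg n : (0 : ℝ) ≤ n)]

/-- Limit of `ε ^ dist (j, [lo, hi])` (and of constants tending to `0` when the interval is empty). -/
lemma DL1.icc (lo hi : ℤ) : DL1 fun j => if lo ≤ j ∧ j ≤ hi then 1 else 0 := by
  refine DL.of_tendsto (g := fun n j => (1 / ((n : ℝ) + 1)) ^ ((lo - j).toNat + (j - hi).toNat))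
    (fun n => (dl_pow (by positivity) (dl_eps_le n) fun j => by omega).dl) fun j => ?_
  have := dl_tendsto ((lo - j).toNat + (j - hi).toNat)
  rwa [if_congr (show (lo - j).toNat + (j - hi).toNat = 0 ↔ lo ≤ j ∧ j ≤ hi by omega) rfl rfl]
    at this

lemma DL1.half_pow {φ : ℤ → ℕ} (h : ∀ j, 2 * φ (j + 1) ≤ φ j + φ (j + 2)) :
    DL1 fun j => (1 / 2 : ℝ) ^ φ j := by
  exact (dl_pow (by norm_num) (by norm_num) h).dl

lemma DL1.mul {ψ ψ' : ℤ → ℝ} (h : DL1 ψ) (h' : DL1 ψ') : DL1 fun j => ψ j * ψ' j :=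
  DL.mul_total h h' (AddMonoidHom.id ℤ) fun _ _ => rfl

lemma dl_prod [DecidableEq κ] {e : ι → X} {S : Finset ι} (Cs : Finset κ) (cls : ι → κ)
    (g : κ → X → ℝ) (hg : ∀ c ∈ Cs, SN e (S.filter fun p => cls p = c) (g c))
    (hinv : ∀ c ∈ Cs, ∀ p ∈ S, cls p ≠ c → ∀ x, g c (x + e p) = g c x) :
    SN e S fun x => ∏ c ∈ Cs, g c x := by
  induction Cs using Finset.induction_on with
  | empty =>
    refine ⟨fun x => by simp, fun x u => le_of_eq ?_⟩
    simp only [Finset.prod_empty, mul_one, one_mul]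
    rw [sq, Finset.sum_mul_sum]
  | insert c Cs hc ih =>
    simp only [Finset.prod_insert hc]
    refine (hg c (Finset.mem_insert_self _ _)).mul
      (ih (fun c' h => hg c' (Finset.mem_insert_of_mem h))
        fun c' h => hinv c' (Finset.mem_insert_of_mem h)) fun p hp => ?_
    by_cases h : cls p = c
    · refine Or.inl ⟨Finset.mem_filter.2 ⟨hp, h⟩, fun x => Finset.prod_congr rfl fun c' hc' => ?_⟩
      exact hinv c' (Finset.mem_insert_of_mem hc') p hp (fun h' => hc (h ▸ h' ▸ hc')) x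
    · exact Or.inr ⟨hp, hinv c (Finset.mem_insert_self _ _) p hp h⟩

/-- The gadget: one homogeneous factor for every class.  Approximate the indicator by
`ε ^ (χ c x) ^ 2` (as in `DL.mul_total`, on the level of `SN`), multiply with `SN.mul` by induction
on `Cs`, let `ε → 0`. -/
theorem DL.gadget [DecidableEq κ] {e : ι → X} {S : Finset ι} (Cs : Finset κ) (cls : ι → κ)
    (χ : κ → X →+ ℤ) (f : κ → X → ℝ)
    (hχ : ∀ c ∈ Cs, ∀ p ∈ S, χ c (e p) = if cls p = c then 1 else 0)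
    (hf : ∀ c ∈ Cs, SN e (S.filter fun p => cls p = c) (f c))
    (hinv : ∀ c ∈ Cs, ∀ p ∈ S, cls p ≠ c → ∀ x, f c (x + e p) = f c x) :
    DL e S fun x => ∏ c ∈ Cs, if χ c x = 0 then f c x else 0 := by
  refine DL.of_tendsto
    (g := fun n x => ∏ c ∈ Cs, f c x * (1 / ((n : ℝ) + 1)) ^ (χ c x).natAbs)
    (fun n => (dl_prod Cs cls (fun c x => f c x * (1 / ((n : ℝ) + 1)) ^ (χ c x).natAbs)
      (fun c hc => ?_) fun c hc p hp h x => ?_).dl) fun x => ?_
  · refine dl_mul_total (hf c hc) (dl_pow (φ := Int.natAbs) (by positivity) (dl_eps_le n)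
      fun j => by omega) (χ c) fun p hp => ?_
    rw [hχ c hc p (Finset.mem_filter.1 hp).1, if_pos (Finset.mem_filter.1 hp).2]
  · simp only [hinv c hc p hp h, map_add, hχ c hc p hp, if_neg h, add_zero]
  · refine tendsto_finsetProd _ fun c _ => ?_
    have := (dl_tendsto (χ c x).natAbs).const_mul (f c x)
    simpa only [Int.natAbs_eq_zero, mul_ite, mul_one, mul_zero] using this

end Crest.Agent.R302
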