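import Crest.Agent.R302.Defs

/-!
Row 302, part D1: numerical facts, levels, weights, feasibility of leaks, ranges.
-/

set_option autoImplicit false
set_option linter.unusedSectionVars false

namespace Crest.Agent.R302

open Finset

variable {E : Type} [Fintype E] [DecidableEq E]

lemma feas_slack_single {P : Type} [Fintype P] [DecidableEq P] {F : Finset P → ℤ} (hF : Submod F)
    (h0 : F ∅ = 0) {c : P → ℝ} (hc : InBR F c) (p : P) :
    ∃ a a', InB F a ∧ InB F a' ∧ slack F {p} c ≤ ((a p - a' p : ℤ) : ℝ) := by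
  obtain ⟨a, ha, h1⟩ := exists_tight hF h0 {p}
  obtain ⟨a', ha', h2⟩ := exists_tight hF h0 {p}ᶜ
  refine ⟨a, a', ha, ha', ?_⟩
  have h3 := Finset.sum_add_sum_compl {p} a'
  have h4 := Finset.sum_add_sum_compl {p} c
  have h5 := hc.1 {p}ᶜ
  have h6 := hc.2
  have h7 := ha'.2
  simp only [sum_singleton] at h1 h3 h4
  have h8 : a p - a' p = F {p} - F univ + F {p}ᶜ := by omega
  unfold slack
  rw [h8, sum_singleton]
  push_cast
  linarith

lemma feas_agg_single {P C : Type} [Fintype P] [DecidableEq P] [DecidableEq C] (cl : P → C)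
    (i k : P) : agg cl (Pi.single i 1 - Pi.single k 1 : P → ℤ) =
      Pi.single (cl i) 1 - Pi.single (cl k) 1 := by
  funext j
  simp [agg, sum_sub_distrib, Pi.single_apply, eq_comm]

lemma feas_norm_single {P : Type} [Fintype P] [DecidableEq P] (i k : P) :
    ∑ p, |(Pi.single i 1 - Pi.single k 1 : P → ℤ) p| ≤ 2 := by
  calc ∑ p, |(Pi.single i 1 - Pi.single k 1 : P → ℤ) p|
      ≤ ∑ p, ((Pi.single i 1 : P → ℤ) p + (Pi.single k 1 : P → ℤ) p) := by
        refine sum_le_sum fun p _ => ?_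
        simp only [Pi.sub_apply, Pi.single_apply]
        split_ifs <;> simp
    _ = 2 := by simp [sum_add_distrib]

lemma feas_pre_univ {P C : Type} [Fintype P] [Fintype C] [DecidableEq C] (cl : P → C) :
    pre cl univ = univ := by
  ext p
  simp [pre]

lemma feas_close {x : ℝ} {a M : ℤ} (h : ⌊x⌋ - M ≤ a ∧ a ≤ ⌈x⌉ + M) : |(a : ℝ) - x| ≤ M + 1 := by
  have h1 : ((⌊x⌋ - M : ℤ) : ℝ) ≤ a := by exact_mod_cast h.1
  have h2 : (a : ℝ) ≤ ((⌈x⌉ + M : ℤ) : ℝ) := by exact_mod_cast h.2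
  have h3 := Int.lt_floor_add_one x
  have h4 := Int.ceil_lt_add_one x
  push_cast at h1 h2
  exact abs_le.2 ⟨by linarith, by linarith⟩

lemma feas_coef_eq (σ : Str E) (g : E × Bool) (a : E × Bool → ℤ) :
    σ.coef g a = ∑ p ∈ (if g ∈ σ.tree then pre Prod.fst (σ.U g) else σ.S g), a p := by
  unfold Str.coef
  split_ifs
  · exact sum_agg Prod.fst a _
  · rfl

namespace Inst.Sz

variable {I : Inst E} {s : ℕ}

lemma big (h : I.Sz s) : 2 ^ 20 ≤ s := by
  obtain ⟨k, hk, rfl⟩ := h.pow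
  exact Nat.pow_le_pow_right (by norm_num) hk

lemma pow_log (h : I.Sz s) : 2 ^ Nat.log 2 s = s := by
  obtain ⟨k, -, rfl⟩ := h.pow
  rw [Nat.log_pow (by norm_num)]

/-- `k * 10 ^ 4 ≤ 2 ^ k` for `k ≥ 20`. -/
lemma pow_le (h : I.Sz s) {k : ℕ} (hk : k ≤ 10 ^ 4) : s ^ k ≤ 2 ^ s := by
  obtain ⟨j, hj, rfl⟩ := h.pow
  rw [← pow_mul]
  refine Nat.pow_le_pow_right two_pos ?_
  have key : ∀ n : ℕ, 20 ≤ n → n * 10 ^ 4 ≤ 2 ^ n := by
    intro n hn
    induction n, hn using Nat.le_induction with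
    | base => norm_num
    | succ n hn ih =>
      have : 2 ^ 20 ≤ 2 ^ n := Nat.pow_le_pow_right two_pos hn
      rw [pow_succ 2 n, add_mul]
      generalize 2 ^ n = N at *
      norm_num at this ih ⊢
      linarith
  exact (Nat.mul_le_mul_left j hk).trans (key j hj)

lemma pθ_jK (h : I.Sz s) : pθ s (jK s) = s ^ 366 := by
  unfold pθ jK
  rw [mul_comm 21, pow_mul, h.pow_log, ← pow_add]

lemma mono (h : I.Sz s) {k : ℕ} (hk : 1 ≤ k) : I.Sz (s ^ k) := by
  have hs : s ≤ s ^ k := Nat.le_self_pow (by omega) s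
  refine ⟨h.sub, h.empty, h.total, h.card.trans_le hs, ?_, fun a ha p => ?_, h.conv,
    fun a ha p => (h.wt_le a ha p).trans hs, fun p => ?_⟩
  · obtain ⟨j, hj, rfl⟩ := h.pow
    exact ⟨j * k, hj.trans (Nat.le_mul_of_pos_right j hk), by rw [pow_mul]⟩
  · exact (h.bound a ha p).trans (pow_le_pow_right₀ (by norm_num) hs)
  · refine (h.range p).imp id fun h' a a' ha ha' => (h' a a' ha ha').trans ?_
    exact_mod_cast hs

/-- `exists_tight` for `{p}` and for its complement. -/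
lemma slack_single (h : I.Sz s) {c : E × Bool → ℝ} (hc : InBR I.F c) (p : E × Bool) :
    slack I.F {p} c ≤ 2 ^ (s + 1) := by
  obtain ⟨a, a', ha, ha', hs⟩ := feas_slack_single h.sub h.empty hc p
  have h1 := (abs_le.1 (h.bound a ha p)).2
  have h2 := (abs_le.1 (h.bound a' ha' p)).1
  have h3 : a p - a' p ≤ 2 ^ (s + 1) := by rw [pow_succ]; omega
  exact hs.trans (by exact_mod_cast h3)

lemma slack_single_wt (h : I.Sz s) {c : E × Bool → ℝ} (hc : InBR I.F c) {p : E × Bool} {j : ℤ}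
    (hp : I.φ p j ≠ 0) : slack I.F {p} c ≤ s := by
  obtain ⟨a, a', ha, ha', hs⟩ := feas_slack_single h.sub h.empty hc p
  rcases h.range p with h' | h'
  · exact absurd (h' j) hp
  · exact hs.trans (by exact_mod_cast h' a a' ha ha')

lemma cap_triv (h : I.Sz s) {c : E × Bool → ℝ} (hc : InBR I.F c) {θ : ℝ} (hθ : 2 ^ (s + 1) < θ)
    {p q : E × Bool} (hpq : Cap I.F c θ p q) : p = q := by
  by_contra hne
  have h1 := hpq {p} (mem_singleton_self p) fun hq => hne (mem_singleton.1 hq).symm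
  have h2 := h.slack_single hc p
  linarith

lemma card_N (h : I.Sz s) : I.N.card ≤ 2 ^ (2 * s ^ 2) := by
  have hsub : I.N ⊆ bx (fun _ => -(2 : ℤ) ^ s) fun _ => (2 : ℤ) ^ s := fun a ha =>
    mem_bx.2 fun p => abs_le.1 (h.bound a (I.mem_N.1 ha) p)
  refine (card_le_card hsub).trans ?_
  have h1 : (Icc (-(2 : ℤ) ^ s) ((2 : ℤ) ^ s)).card ≤ 2 ^ (s + 2) := by
    rw [Int.card_Icc, Int.toNat_le]
    have : (0 : ℤ) < 2 ^ s := by positivity
    push_cast
    rw [pow_add]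
    omega
  unfold bx
  rw [Fintype.card_piFinset, prod_const, card_univ]
  refine (Nat.pow_le_pow_left h1 _).trans ?_
  rw [← pow_mul]
  refine Nat.pow_le_pow_right two_pos ?_
  have h2 := h.card
  have h3 := h.big
  nlinarith

lemma wx_le (h : I.Sz s) {a : E × Bool → ℤ} (ha : InB I.F a) : I.wx a ≤ s ^ 2 := by
  unfold Inst.wx
  refine (sum_le_card_nsmul _ _ s fun p _ => h.wt_le a ha p).trans ?_
  rw [card_univ, smul_eq_mul, sq]
  exact Nat.mul_le_mul_right s h.card.le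

lemma le_W (h : I.Sz s) {a : E × Bool → ℤ} (ha : InB I.F a) : (1 / 2) ^ s ^ 2 ≤ I.W a := by
  exact pow_le_pow_of_le_one (by norm_num) (by norm_num) (h.wx_le ha)

end Inst.Sz

namespace Sys

variable {Y : Sys E}

lemma R_equiv (Y : Sys E) (j : ℕ) : Equivalence (Y.R j) := ⟨Cap2.refl _ _ _, Cap2.symm, Cap2.trans⟩

lemma R_mono {j j' : ℕ} (hj : j ≤ j') {p q : E × Bool} (h : Y.R j' p q) : Y.R j p q :=
  Cap2.mono h (by unfold pθ; exact_mod_cast Nat.mul_le_mul_left _ (Nat.pow_le_pow_right two_pos hj))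

lemma cls_mono {j j' : ℕ} (hj : j ≤ j') {S : Finset (E × Bool)} (h : Cls (Y.R j) S) :
    Cls (Y.R j') S := fun p q hpq => h p q (R_mono hj hpq)

lemma key_eq (Y : Sys E) (p q : E × Bool) : Y.key p = Y.key q ↔ Y.R 0 p q :=
  (Classical.choose_spec (exists_key Y.F Y.c (pθ Y.s 0))).1 p q

lemma key_le {p q : E × Bool} (h : Cap Y.F Y.c (pθ Y.s 0) p q) : Y.key q ≤ Y.key p :=
  (Classical.choose_spec (exists_key Y.F Y.c (pθ Y.s 0))).2 p q h

lemma lab_R (Y : Sys E) (p : E × Bool) : Y.R (jK Y.s) (Y.lab p) p :=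
  @Classical.epsilon_spec _ (fun q => Y.R (jK Y.s) q p) ⟨p, Cap2.refl _ _ _ _⟩

lemma lab_eq (Y : Sys E) (p q : E × Bool) : Y.lab p = Y.lab q ↔ Y.R (jK Y.s) p q := by
  constructor
  · intro h
    have h1 := Y.lab_R p
    have h2 := Y.lab_R q
    rw [h] at h1
    exact (Y.R_equiv _).trans ((Y.R_equiv _).symm h1) h2
  · intro h
    unfold lab
    congr 1
    funext x
    exact propext ⟨fun h' => (Y.R_equiv _).trans h' h,
      fun h' => (Y.R_equiv _).trans h' ((Y.R_equiv _).symm h)⟩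

lemma lab_lab (Y : Sys E) (p : E × Bool) : Y.lab (Y.lab p) = Y.lab p := (Y.lab_eq _ _).2 (Y.lab_R p)

lemma mu_pos (Y : Sys E) (pot : E → ℤ) (a : E × Bool → ℤ) : 0 < Y.mu pot a :=
  mul_pos (Y.W_pos a) (zpow_pos two_pos _)

lemma Ed_neg (Y : Sys E) (pot : E → ℤ) (f : (E × Bool → ℤ) → ℝ) (d : E × Bool → ℤ) :
    Y.Ed pot f (-d) = Y.Ed pot f d := by
  unfold Ed
  refine sum_bij' (fun a _ => a + -d) (fun b _ => b + d) ?_ ?_ ?_ ?_ ?_
  · intro a ha
    rw [mem_filter] at ha ⊢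
    exact ⟨ha.2, by simpa using ha.1⟩
  · intro a ha
    rw [mem_filter] at ha ⊢
    exact ⟨ha.2, by simpa using ha.1⟩
  · intro a _
    simp
  · intro a _
    simp
  · intro a _
    rw [neg_add_cancel_right, min_comm]
    ring

lemma Ed_nonneg (Y : Sys E) (pot : E → ℤ) (f : (E × Bool → ℤ) → ℝ) (d : E × Bool → ℤ) :
    0 ≤ Y.Ed pot f d :=
  sum_nonneg fun _ _ => mul_nonneg (le_min (Y.mu_pos _ _).le (Y.mu_pos _ _).le) (sq_nonneg _)

lemma Zlk_nonneg (Y : Sys E) (γ : E → ℤ) : 0 ≤ Y.Zlk γ := sum_nonneg fun a _ => (Y.W_pos a).le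

lemma τ_self (Y : Sys E) (i : E) : Y.τ i i = 0 := sub_self _

lemma feas_ty_eq (Y : Sys E) (a : E × Bool → ℤ) (r : E) :
    Y.ty a r = ∑ p ∈ univ.filter (fun p : E × Bool => Y.σ.root p.1 = r), a p := by
  unfold ty ell
  rw [agg, sum_agg]
  refine sum_congr ?_ fun _ _ => rfl
  ext p
  simp [pre]

lemma feas_cls_root (h : Y.Ok) (r : E) :
    Cls (Y.R 0) (univ.filter fun p : E × Bool => Y.σ.root p.1 = r) := fun p q hpq => by
  simp only [mem_filter, mem_univ, true_and, h.valid.root_R p q hpq]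

lemma feas_sum_c (h : Y.Ok) (A : Finset E) : ∑ p ∈ pre Prod.fst A, Y.c p = 0 := by
  have : agg Prod.fst Y.c = 0 := h.perf
  rw [← sum_agg, this]
  simp

lemma feas_zero (h : Y.Ok) : InB (fun A => Y.F (pre Prod.fst A)) (0 : E → ℤ) := by
  refine ⟨fun A => ?_, by simp [feas_pre_univ, h.sz.total]⟩
  have := h.mem.1 (pre Prod.fst A)
  rw [feas_sum_c h] at this
  simp only [Pi.zero_apply, sum_const_zero]
  exact_mod_cast this

namespace Ok

/-- `v g ≠ 0` by duality, so `R (lv g)` is not the equality (`Valid.cls`). -/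
lemma pθ_lv_le (h : Y.Ok) {g : E × Bool} (hg : g ∈ Y.σ.act) : pθ Y.s (Y.σ.lv g) ≤ 2 ^ (Y.s + 1) := by
  by_contra hlt
  have hlt' : (2 : ℝ) ^ (Y.s + 1) < pθ Y.s (Y.σ.lv g) := by exact_mod_cast not_le.1 hlt
  have hv : Y.σ.v g = 0 := by
    funext p
    have := h.valid.cls g hg {p} fun x y hxy => by rw [h.sz.cap_triv h.mem hlt' hxy.1]
    simpa using this
  have h1 := h.valid.dual g hg g hg
  rw [hv, if_pos rfl] at h1
  unfold Str.coef at h1
  split_ifs at h1 <;> simp [ell_apply] at h1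

lemma dl_le (h : Y.Ok) {g : E × Bool} (hg : g ∈ Y.σ.act) : Y.dl g ≤ Y.s + 1 := by
  unfold dl
  split_ifs
  · omega
  · have h1 := h.pθ_lv_le hg
    unfold pθ at h1
    have h2 := h.sz.pow_log
    set k := Nat.log 2 Y.s
    have h3 : Y.s ^ 345 = 2 ^ (k * 345) := by rw [pow_mul, h2]
    rw [h3, ← pow_add] at h1
    have h4 := (Nat.pow_le_pow_iff_right (by norm_num)).1 h1
    omega

lemma Δ_mul (h : Y.Ok) {g : E × Bool} (hg : g ∉ Y.σ.tree) :
    Y.Δ g * pw Y.s = pθ Y.s (Y.σ.lv g) := by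
  have h2 : (2 : ℤ) ^ Nat.log 2 Y.s = Y.s := by exact_mod_cast h.sz.pow_log
  unfold Δ dl pw pθ
  rw [if_neg hg, pow_add, mul_comm 15, pow_mul, h2]
  push_cast
  ring

lemma pl_spec (h : Y.Ok) {S : Finset (E × Bool)} {j : ℕ} (hS : ¬ Cls (Y.R j) S) :
    j ≤ Y.pl S ∧ ¬ Cls (Y.R (Y.pl S)) S ∧ Cls (Y.R (Y.pl S + 1)) S := by
  have hb : BddAbove {j | ¬ Cls (Y.R j) S} := by
    refine ⟨Y.s + 1, fun l hl => ?_⟩
    by_contra hlt
    refine hl fun x y hxy => ?_
    have h1 : 2 ^ (Y.s + 1) < pθ Y.s l := by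
      have h2 : 2 ^ (Y.s + 1) < 2 ^ l := Nat.pow_lt_pow_right (by norm_num) (not_le.1 hlt)
      have h3 : 0 < Y.s ^ 345 := pow_pos (lt_of_lt_of_le (by norm_num) h.sz.big) _
      exact h2.trans_le (Nat.le_mul_of_pos_left _ h3)
    rw [h.sz.cap_triv h.mem (by exact_mod_cast h1) hxy.1]
  refine ⟨le_csSup hb hS, Nat.sSup_mem (s := {j | ¬ Cls (Y.R j) S}) ⟨j, hS⟩ hb, ?_⟩
  by_contra hc
  have := le_csSup hb (show Y.pl S + 1 ∈ {j | ¬ Cls (Y.R j) S} from hc)
  unfold pl at this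
  omega

/-- A weighted coordinate is a class of its own on every level. -/
lemma R_wt (h : Y.Ok) {p q : E × Bool} {j : ℤ} (hp : Y.φ p j ≠ 0) {l : ℕ} (hpq : Y.R l p q) :
    p = q := by
  by_contra hne
  have h1 := hpq.1 {p} (mem_singleton_self p) fun hq => hne (mem_singleton.1 hq).symm
  have h2 := h.sz.slack_single_wt h.mem hp
  have h3 : Y.s < pθ Y.s l := by
    have h4 : Y.s ^ 1 < Y.s ^ 345 :=
      Nat.pow_lt_pow_right (lt_of_lt_of_le (by norm_num) h.sz.big) (by norm_num)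
    rw [pow_one] at h4
    exact h4.trans_le (Nat.le_mul_of_pos_right _ (by positivity))
  have h4 : (Y.s : ℝ) < pθ Y.s l := by exact_mod_cast h3
  linarith

lemma wx_add (h : Y.Ok) (a : E × Bool → ℤ) {J : Finset (E × Bool)} (hJ : J ⊆ Y.σ.act)
    (r : E × Bool → ℤ) : Y.wx (a + ∑ g ∈ J, r g • Y.σ.v g) = Y.wx a := by
  unfold Inst.wx
  refine sum_congr rfl fun p _ => ?_
  by_cases hp : ∀ j, Y.φ p j = 0
  · rw [hp, hp]
  · obtain ⟨j, hj⟩ := not_forall.1 hp
    have hv : ∀ g ∈ J, Y.σ.v g p = 0 := fun g hg => by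
      have := h.valid.cls g (hJ hg) {p} fun x y hxy => by
        simp only [mem_singleton]
        constructor
        · rintro rfl
          exact (h.R_wt hj hxy).symm
        · rintro rfl
          exact (h.R_wt hj ((Y.R_equiv _).symm hxy)).symm
      simpa using this
    congr 1
    rw [Pi.add_apply, Finset.sum_apply, sum_eq_zero fun g hg => by simp [hv g hg], add_zero]

lemma wx_agg (h : Y.Ok) (a : E × Bool → ℤ) : Y.wx (agg Y.lab a) = Y.wx a := by
  unfold Inst.wx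
  refine sum_congr rfl fun p _ => ?_
  by_cases hp : ∀ j, Y.φ p j = 0
  · rw [hp, hp]
  · obtain ⟨j, hj⟩ := not_forall.1 hp
    have h1 : univ.filter (fun q => Y.lab q = p) = {p} := by
      ext q
      simp only [mem_filter, mem_univ, true_and, mem_singleton]
      constructor
      · intro hq
        have := Y.lab_R q
        rw [hq] at this
        exact (h.R_wt hj this).symm
      · rintro rfl
        exact (h.R_wt hj ((Y.R_equiv _).symm (Y.lab_R q))).symm
    unfold agg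
    rw [h1, sum_singleton]

lemma ty_add (Y : Sys E) (a b : E × Bool → ℤ) : Y.ty (a + b) = Y.ty a + Y.ty b := by
  funext r
  simp only [Pi.add_apply, feas_ty_eq, sum_add_distrib]

/-- `v g` has total sum zero and lives in one component. -/
lemma ty_v (h : Y.Ok) {J : Finset (E × Bool)} (hJ : J ⊆ Y.σ.act) (r : E × Bool → ℤ) :
    Y.ty (∑ g ∈ J, r g • Y.σ.v g) = 0 := by
  funext e
  rw [feas_ty_eq]
  simp only [Finset.sum_apply, Pi.smul_apply, smul_eq_mul, Pi.zero_apply]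
  rw [sum_comm]
  refine sum_eq_zero fun g hg => ?_
  rw [← mul_sum, h.valid.cls g (hJ hg) _ (cls_mono (Nat.zero_le _) (feas_cls_root h e)), mul_zero]

lemma ty_agg (h : Y.Ok) (a : E × Bool → ℤ) : Y.ty (agg Y.lab a) = Y.ty a := by
  funext e
  rw [feas_ty_eq, feas_ty_eq, sum_agg]
  refine sum_congr ?_ fun _ _ => rfl
  ext q
  have := cls_mono (Nat.zero_le _) (feas_cls_root h e) _ _ (Y.lab_R q)
  simpa [pre] using this

lemma agg_τ (h : Y.Ok) (i k : E) : agg Y.σ.root (Y.τ i k) = Y.τ i k := by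
  have := feas_agg_single Y.σ.root (Y.σ.root i) (Y.σ.root k)
  rwa [h.valid.root_idem, h.valid.root_idem] at this

lemma agg_root_single (h : Y.Ok) (i k : E) :
    agg Y.σ.root (Pi.single i 1 - Pi.single k 1 : E → ℤ) = Y.τ i k := by
  exact feas_agg_single Y.σ.root i k

/-- The exponent of the potentials only depends on the type. -/
lemma pot_sum (h : Y.Ok) (pot : E → ℤ) (a : E × Bool → ℤ) :
    ∑ e, pot (Y.σ.root e) * ell a e = ∑ e, pot e * Y.ty a e := by
  rw [← sum_fiberwise univ Y.σ.root]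
  refine sum_congr rfl fun r _ => ?_
  unfold ty agg
  rw [mul_sum]
  exact sum_congr rfl fun e he => by rw [(mem_filter.1 he).2]

lemma pot_τ (h : Y.Ok) (pot : E → ℤ) {a : E × Bool → ℤ} {i k : E} (ha : Y.ty a = Y.τ i k) :
    ∑ e, pot (Y.σ.root e) * ell a e = pot (Y.σ.root i) - pot (Y.σ.root k) := by
  rw [h.pot_sum, ha]
  simp [τ, mul_sub, sum_sub_distrib, Pi.single_apply]

lemma coef_add (Y : Sys E) (g : E × Bool) (a b : E × Bool → ℤ) :
    Y.σ.coef g (a + b) = Y.σ.coef g a + Y.σ.coef g b := by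
  simp only [feas_coef_eq, Pi.add_apply, sum_add_distrib]

lemma coef_sum (h : Y.Ok) {g : E × Bool} (hg : g ∈ Y.σ.act) {J : Finset (E × Bool)}
    (hJ : J ⊆ Y.σ.act) (r : E × Bool → ℤ) :
    Y.σ.coef g (∑ l ∈ J, r l • Y.σ.v l) = if g ∈ J then r g else 0 := by
  have h1 : Y.σ.coef g (∑ l ∈ J, r l • Y.σ.v l) = ∑ l ∈ J, r l * Y.σ.coef g (Y.σ.v l) := by
    simp only [feas_coef_eq, Finset.sum_apply, Pi.smul_apply, smul_eq_mul, mul_sum]
    exact sum_comm
  rw [h1, sum_congr rfl fun l hl => by rw [h.valid.dual g hg l (hJ hl)]]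
  simp

lemma abs_coef_le (Y : Sys E) (g : E × Bool) (a : E × Bool → ℤ) : |Y.σ.coef g a| ≤ ∑ p, |a p| := by
  rw [feas_coef_eq]
  exact (abs_sum_le_sum_abs _ _).trans
    (sum_le_sum_of_subset_of_nonneg (subset_univ _) fun _ _ _ => abs_nonneg _)

/-- For `A` a union of components use `a`; otherwise `pre fst A` splits a class of level `0`
(`Valid.leak` for a unit vector and `Valid.cls`), so `F (pre fst A) = slack ≥ s ^ 345`. -/
theorem feas (h : Y.Ok) {a : E × Bool → ℤ} (ha : InB Y.F a) {γ : E → ℤ}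
    (hγ : agg Y.σ.root γ = Y.ty a) (hn : ∑ e, |γ e| ≤ (Y.s : ℤ) ^ 345) :
    InB (fun A => Y.F (pre Prod.fst A)) γ := by
  have hell : ∀ A : Finset E, ∑ e ∈ A, ell a e = ∑ p ∈ pre Prod.fst A, a p := fun A =>
    sum_agg Prod.fst a A
  have hU : ∀ B : Finset E, ∑ e ∈ pre Y.σ.root B, γ e = ∑ p ∈ pre Prod.fst (pre Y.σ.root B), a p :=
    fun B => by rw [← hell, ← sum_agg, ← sum_agg, hγ]; rfl
  refine ⟨fun A => ?_, ?_⟩
  · by_cases hA : ∀ e ∈ A, ∀ e', Y.σ.root e = Y.σ.root e' → e' ∈ A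
    · have hA' : pre Y.σ.root (A.image Y.σ.root) = A := by
        ext e
        simp only [pre, mem_filter, mem_univ, true_and, mem_image]
        exact ⟨fun ⟨x, hx, hxe⟩ => hA x hx e hxe, fun he => ⟨e, he, rfl⟩⟩
      have := hU (A.image Y.σ.root)
      rw [hA'] at this
      rw [this]
      exact ha.1 _
    · push Not at hA
      obtain ⟨e, he, e', hee, he'⟩ := hA
      have hn' : ¬ Cls (Y.R 0) (pre Prod.fst A) := by
        intro hc
        have h1 := h.valid.leak (Pi.single e 1 - Pi.single e' 1)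
        rw [feas_agg_single, hee, sub_self, add_zero] at h1
        have h2 := congrArg (fun x : E → ℤ => ∑ e ∈ A, x e) h1
        have h3 : ∀ g ∈ Y.σ.tree, ∑ x ∈ A, ell (Y.σ.v g) x = 0 := fun g hg => by
          rw [← h.valid.cls g (h.valid.tree_sub hg) _ (cls_mono (Nat.zero_le _) hc)]
          exact sum_agg Prod.fst _ A
        simp only [Finset.sum_apply, Pi.smul_apply, smul_eq_mul] at h2
        rw [sum_comm, sum_eq_zero (s := Y.σ.tree) fun g hg => by rw [← mul_sum, h3 g hg, mul_zero]]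
          at h2
        simp [sum_sub_distrib, Pi.single_apply, he, he'] at h2
      have h1 := le_slack_of_not_cls hn'
      unfold slack at h1
      rw [feas_sum_c h, sub_zero] at h1
      have h2 : ((Y.s : ℤ) ^ 345) ≤ Y.F (pre Prod.fst A) := by
        unfold pθ at h1
        rw [pow_zero, mul_one] at h1
        exact_mod_cast h1
      calc ∑ e ∈ A, γ e ≤ ∑ e ∈ A, |γ e| := sum_le_sum fun _ _ => le_abs_self _
        _ ≤ ∑ e, |γ e| := sum_le_sum_of_subset_of_nonneg (subset_univ _) fun _ _ _ => abs_nonneg _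
        _ ≤ _ := hn.trans h2
  · have := hU univ
    simp only [feas_pre_univ] at this ⊢
    rw [this, ha.2]

lemma exists_of_Flab (h : Y.Ok) {β : E × Bool → ℤ} (hβ : InB Y.Flab β) :
    ∃ a, InB Y.F a ∧ agg Y.lab a = β := by
  obtain ⟨a, ha, hb, -⟩ := prox h.sz.sub h.sz.empty Y.lab h.mem (γ := β) hβ (Int.le_ceil _)
  exact ⟨a, ha, hb⟩

lemma ctr_spec (h : Y.Ok) :
    InB Y.F Y.ctr ∧ ell Y.ctr = 0 ∧ ∀ p, |(Y.ctr p : ℝ) - Y.c p| ≤ 1 := by
  classical
  refine Classical.epsilon_spec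
    (p := fun a : E × Bool → ℤ => InB Y.F a ∧ ell a = 0 ∧ ∀ p, |(a p : ℝ) - Y.c p| ≤ 1) ?_
  obtain ⟨a, ha, hb, hc⟩ := prox h.sz.sub h.sz.empty Prod.fst h.mem (feas_zero h) (M := 0) (by
    have : agg Prod.fst Y.c = 0 := h.perf
    simp [this])
  refine ⟨a, ha, hb, fun p => ?_⟩
  have := feas_close (hc p)
  simpa using this

/-- `Valid.leak`, `Valid.tree_root`. -/
lemma norm_ell_le (h : Y.Ok) {a : E × Bool → ℤ} (ha : a ∈ Y.Om) :
    ∑ e, |ell a e| ≤ 3 * Y.s * pw Y.s := by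
  classical
  obtain ⟨-, ⟨i, k, hik⟩, hL⟩ := mem_filter.1 ha
  have h1 := h.valid.leak (ell a)
  have h2 : ∀ g ∈ Y.σ.tree, ∑ e, |((∑ e ∈ Y.σ.U g, ell a e) • ell (Y.σ.v g)) e| ≤ pw Y.s * 2 := by
    intro g hg
    obtain ⟨x, y, hxy⟩ := h.valid.tree_root g hg
    have h3 := hL g hg
    unfold Str.coef at h3
    rw [if_pos hg] at h3
    simp only [Pi.smul_apply, smul_eq_mul, abs_mul, ← mul_sum]
    rw [hxy]
    exact mul_le_mul (abs_le.2 ⟨h3.1, h3.2.le⟩) (feas_norm_single x y)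
      (sum_nonneg fun _ _ => abs_nonneg _) (by positivity)
  have h3 : ∑ e, |agg Y.σ.root (ell a) e| ≤ 2 := by
    change ∑ e, |Y.ty a e| ≤ 2
    rw [hik]
    exact feas_norm_single _ _
  have h4 : ∑ e, |ell a e| ≤ ∑ g ∈ Y.σ.tree, ∑ e, |((∑ e ∈ Y.σ.U g, ell a e) • ell (Y.σ.v g)) e| +
      ∑ e, |agg Y.σ.root (ell a) e| := by
    rw [sum_comm, ← sum_add_distrib]
    refine sum_le_sum fun e _ => ?_
    have h5 := congrFun h1 e
    rw [Pi.add_apply, Finset.sum_apply] at h5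
    rw [h5]
    exact (abs_add_le _ _).trans (add_le_add (abs_sum_le_sum_abs _ _) le_rfl)
  have h5 := sum_le_card_nsmul _ _ _ h2
  have h6 : (Y.σ.tree.card : ℤ) ≤ Y.s := by exact_mod_cast (card_le_univ _).trans h.sz.card.le
  have h7 : (2 : ℤ) ≤ Y.s := by exact_mod_cast le_trans (by norm_num) h.sz.big
  have h8 : (1 : ℤ) ≤ pw Y.s := by
    exact_mod_cast Nat.one_le_pow _ _ (lt_of_lt_of_le (by norm_num) h.sz.big)
  rw [nsmul_eq_mul] at h5
  nlinarith

/-- `prox` from `a` to the leak `0`, then `range_le`. -/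
theorem range_le (h : Y.Ok) {a : E × Bool → ℤ} (ha : InB Y.F a) {M : ℤ} (hM : ∑ e, |ell a e| ≤ M)
    {j : ℕ} {S : Finset (E × Bool)} (hS : Cls (Y.R j) S) :
    |∑ p ∈ S, (a p : ℝ) - ∑ p ∈ S, Y.c p| ≤ 4 * Y.s ^ 4 * pθ Y.s j + Y.s * M := by
  have hM0 : 0 ≤ M := (sum_nonneg fun _ _ => abs_nonneg _).trans hM
  obtain ⟨b, hb, hb0, hc⟩ := prox h.sz.sub h.sz.empty Prod.fst (inBR_toR.2 ha) (feas_zero h)
    (M := M) (by
      have h1 : ∀ e, agg Prod.fst (toR a) e = ((ell a e : ℤ) : ℝ) := fun e => by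
        unfold ell agg toR
        push_cast
        rfl
      simp only [h1, Pi.zero_apply, Int.cast_zero, zero_sub, abs_neg]
      exact_mod_cast hM)
  have hs1 : (1 : ℝ) ≤ Y.s := by exact_mod_cast le_trans (by norm_num) h.sz.big
  have hcard : (Fintype.card (E × Bool) : ℝ) ≤ Y.s := by exact_mod_cast h.sz.card.le
  have hθ : (1 : ℝ) ≤ pθ Y.s j := by
    unfold pθ
    push_cast
    exact one_le_mul_of_one_le_of_one_le (one_le_pow₀ hs1) (one_le_pow₀ (by norm_num))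
  have hb1 : ell (toR b) = 0 := by
    funext e
    have := congrFun hb0 e
    unfold ell agg toR
    unfold agg at this
    rw [Pi.zero_apply] at this ⊢
    exact_mod_cast this
  have h1 := R302.range_le h.sz.sub h.sz.empty h.mem (inBR_toR.2 hb) hcard hs1 hθ
    (h.dr _ (inBR_toR.2 hb) hb1) hS
  have h2 : |∑ p ∈ S, (a p : ℝ) - ∑ p ∈ S, toR b p| ≤ Y.s * M := by
    rw [← sum_sub_distrib]
    refine (abs_sum_le_sum_abs _ _).trans ((sum_le_card_nsmul _ _ (M : ℝ) fun p _ => ?_).trans ?_)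
    · have h3 := hc p
      simp only [toR, Int.floor_intCast, Int.ceil_intCast] at h3 ⊢
      have h4 : |a p - b p| ≤ M := abs_le.2 ⟨by omega, by omega⟩
      exact_mod_cast h4
    · rw [nsmul_eq_mul]
      have h3 : (S.card : ℝ) ≤ Y.s := le_trans (by exact_mod_cast card_le_univ _) hcard
      exact mul_le_mul_of_nonneg_right h3 (by exact_mod_cast hM0)
  have h3 := abs_sub_le (∑ p ∈ S, (a p : ℝ)) (∑ p ∈ S, toR b p) (∑ p ∈ S, Y.c p)
  linarith

/-- `feas` and `prox` from the centre. -/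
theorem exists_deep (h : Y.Ok) {a : E × Bool → ℤ} (ha : InB Y.F a) {i k : E}
    (hτ : Y.ty a = Y.τ i k) :
    ∃ b ∈ Y.Om, ell b = Y.τ i k ∧ Y.ty b = Y.τ i k ∧ ∀ p, |(b p : ℝ) - Y.c p| ≤ 3 := by
  classical
  have hs : (2 : ℤ) ≤ Y.s := by exact_mod_cast le_trans (by norm_num) h.sz.big
  have hn : ∑ e, |Y.τ i k e| ≤ 2 := feas_norm_single _ _
  have hγ := h.feas ha (γ := Y.τ i k) (by rw [h.agg_τ, hτ])
    (hn.trans (hs.trans (le_self_pow₀ (by omega) (by norm_num))))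
  obtain ⟨b, hb, hb0, hc⟩ := prox h.sz.sub h.sz.empty Prod.fst h.mem hγ (M := 2) (by
    have : agg Prod.fst Y.c = 0 := h.perf
    simp only [this, Pi.zero_apply, sub_zero]
    exact_mod_cast hn)
  have hb1 : ell b = Y.τ i k := hb0
  have hb2 : Y.ty b = Y.τ i k := by unfold ty; rw [hb1, h.agg_τ]
  refine ⟨b, mem_filter.2 ⟨Y.mem_N.2 hb, ⟨i, k, hb2⟩, fun g hg => ?_⟩, hb1, hb2, fun p => ?_⟩
  · have h1 : Y.σ.coef g b = 0 := by
      unfold Str.coef
      rw [if_pos hg, hb1]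
      refine sum_eq_zero fun e he => ?_
      have h2 := (h.valid.U_sub g hg e he).2
      have h3 : ∀ x, e ≠ Y.σ.root x := fun x hx => h2 (by rw [hx, h.valid.root_idem])
      simp [τ, h3]
    have h8 : (1 : ℤ) ≤ pw Y.s := by
      exact_mod_cast Nat.one_le_pow _ _ (lt_of_lt_of_le (by norm_num) h.sz.big)
    rw [h1]
    omega
  · have := feas_close (hc p)
    push_cast at this
    linarith

end Ok

end Sys

end Crest.Agent.R302
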