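import Crest.Agent.R302.Ram
import Crest.Agent.R302.SFM

/-!
Row 302, part G3: from an oracle polynomial time function to the statements; matroid rank from an
independence oracle.
-/

set_option autoImplicit false

namespace Crest.Agent.R302

open Finset Crest.Polymatroid Crest.Agent.Lib.PT Crest.Agent.R309 Crest.OracleRAM

lemma orcOf_mask {n : ℕ} (O : Bool → Finset (Fin n) → ℕ) (b : Bool) (A : Finset (Fin n)) :
    orcOf O (b, mask A) = O b A := by
  unfold orcOf
  congr 1
  ext j
  simp [mask, List.getD_eq_getElem?_getD]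

lemma final_poly_lt (K A k : ℕ) : ∃ c : ℕ, K * (A + c) ^ k < 2 ^ c := by
  have h := tendsto_pow_const_div_const_pow_of_one_lt k (r := (2 : ℝ)) (by norm_num)
  have hpos : (0 : ℝ) < 1 / ((K + 1) * 2 ^ A) := by positivity
  obtain ⟨m₀, hm₀⟩ := Filter.eventually_atTop.1 (h.eventually (gt_mem_nhds hpos))
  refine ⟨m₀, ?_⟩
  have h1 := hm₀ (A + m₀) (by omega)
  rw [div_lt_div_iff₀ (by positivity) (by positivity), one_mul, pow_add] at h1
  have h2 : (0 : ℝ) < 2 ^ A := by positivity
  have h3 : ((A + m₀ : ℕ) : ℝ) ^ k * (K + 1) < 2 ^ m₀ := by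
    have : ((A + m₀ : ℕ) : ℝ) ^ k * (K + 1) * 2 ^ A < 2 ^ m₀ * 2 ^ A := by linarith
    exact lt_of_mul_lt_mul_right this h2.le
  have h4 : (0 : ℝ) ≤ ((A + m₀ : ℕ) : ℝ) ^ k := by positivity
  have h5 : ((K * (A + m₀) ^ k : ℕ) : ℝ) < ((2 ^ m₀ : ℕ) : ℝ) := by
    rw [Nat.cast_mul, Nat.cast_pow, Nat.cast_pow, Nat.cast_ofNat]
    nlinarith
  exact_mod_cast h5

lemma final_clog_le (a : ℕ) : Nat.clog 2 a ≤ a :=
  (Nat.clog_le_iff_le_pow (by norm_num)).2 Nat.lt_two_pow_self.le

lemma final_size_le (a : ℕ) : Nat.size a ≤ Nat.clog 2 (a + 2) :=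
  Nat.size_le.2 (lt_of_lt_of_le (by omega) (Nat.le_pow_clog (by norm_num) (a + 2)))

lemma final_size_self (a : ℕ) : Nat.size a ≤ a := Nat.size_le.2 Nat.lt_two_pow_self

lemma final_ceil_le {ε : ℚ} (hε : 0 < ε) : ⌈ε⁻¹⌉₊ ≤ ε.den := by
  rw [Nat.ceil_le]
  have h1 : (1 : ℚ) ≤ ε.num := by exact_mod_cast Rat.num_pos.2 hε
  have h2 : (0 : ℚ) < ε.den := by exact_mod_cast ε.den_pos
  have h3 : ε * ε.den = ε.num := Rat.mul_den_eq_num ε
  rw [inv_le_iff_one_le_mul₀ hε, mul_comm, h3]
  exact h1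

lemma final_sz (n R : ℕ) (ε δ : ℚ) : sz (countInput n R ε δ) ≤ 13 * (sizeParam n R ε δ + 1) := by
  have h1 := final_size_self n
  have h2 := final_size_le R
  have h3 := final_size_le ε.num.natAbs
  have h4 := final_size_le ε.den
  have h5 := final_size_le δ.num.natAbs
  have h6 := final_size_le δ.den
  simp only [countInput, sizeParam, sz_cons, sz_nil, sz_nat]
  omega

lemma final_param_le (n R : ℕ) {ε : ℚ} (δ : ℚ) (hε : 0 < ε) :
    sizeParam n R ε δ + 1 ≤ 8 * (n + R + ε.num.natAbs + ε.den + δ.num.natAbs + δ.den + 2) := by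
  have h1 := final_ceil_le hε
  have h2 := final_clog_le (R + 2)
  have h3 := final_clog_le (ε.num.natAbs + 2)
  have h4 := final_clog_le (ε.den + 2)
  have h5 := final_clog_le (δ.num.natAbs + 2)
  have h6 := final_clog_le (δ.den + 2)
  simp only [sizeParam]
  omega

lemma final_clog_param (n R : ℕ) (ε δ : ℚ) :
    Nat.clog 2 (n + R + ε.num.natAbs + ε.den + δ.num.natAbs + δ.den + 2) ≤ sizeParam n R ε δ + 3 := by
  rw [Nat.clog_le_iff_le_pow (by norm_num), pow_add]
  have key : ∀ a, Nat.clog 2 (a + 2) ≤ sizeParam n R ε δ → a + 2 ≤ 2 ^ sizeParam n R ε δ :=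
    fun a h => (Nat.le_pow_clog (by norm_num) _).trans (Nat.pow_le_pow_right (by norm_num) h)
  have h1 : n ≤ 2 ^ sizeParam n R ε δ :=
    Nat.lt_two_pow_self.le.trans (Nat.pow_le_pow_right (by norm_num) (by
      simp only [sizeParam]; omega))
  have h2 := key R (by simp only [sizeParam]; omega)
  have h3 := key ε.num.natAbs (by simp only [sizeParam]; omega)
  have h4 := key ε.den (by simp only [sizeParam]; omega)
  have h5 := key δ.num.natAbs (by simp only [sizeParam]; omega)
  have h6 := key δ.den (by simp only [sizeParam]; omega)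
  omega

/-- Take `P`, `K`, `k` from `exists_oprog`.  With `N = n + R + … + 2` we have `sizeParam ≤ 6 N`,
`sz (countInput …) ≤ 6 * sizeParam + c`, `clog 2 N ≤ sizeParam + 3`; choose `c₀` so large that
`K (sz x + len x + w) ^ k < 2 ^ w` for `w = c₀ clog 2 N` (`N ≤ 2 ^ clog 2 N`, `clog 2 N ≥ 1`,
`K' (1 + c₀) ^ k < 2 ^ (c₀ / 2)`), then `C`, `d`.  `oprob_eq`, `ramprob_length`. -/
theorem exists_machine (len : List ℕ → ℕ) (f : Orc → List ℕ × List Bool → ℚ) (C d : ℕ)
    (hlen : PT len) (hf : OC f) (h0 : ∀ O a, 0 ≤ f O a) :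
    ∃ (P : OProgram) (c₀ C' d' : ℕ), ∀ (n R : ℕ) (O : Bool → Finset (Fin n) → ℕ) (ε δ : ℚ) (cnt : ℕ),
      0 < ε → (∀ b A, O b A ≤ R + 1) → n ≤ len (countInput n R ε δ) →
      len (countInput n R ε δ) ≤ C * (sizeParam n R ε δ + 1) ^ d →
      (cnt = 0 → ∀ ω : List Bool, ω.length = len (countInput n R ε δ) →
        f (orcOf O) (countInput n R ε δ, ω) = 0) →
      (1 - (δ : ℝ) ≤ Pr (len (countInput n R ε δ)) fun ω =>
        (1 - ε) * cnt ≤ f (orcOf O) (countInput n R ε δ, ω) ∧
          f (orcOf O) (countInput n R ε δ, ω) ≤ (1 + ε) * cnt) →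
      (∀ ρ : ℕ → ℕ, (orun P n O
          (c₀ * Nat.clog 2 (n + R + ε.num.natAbs + ε.den + δ.num.natAbs + δ.den + 2)) ρ
          (countInput n R ε δ) (C' * (sizeParam n R ε δ + 1) ^ d')).cfg.halted = true) ∧
      (∀ ρ : ℕ → ℕ, ∃ z : ℚ, 0 ≤ z ∧
        decodeRat (c₀ * Nat.clog 2 (n + R + ε.num.natAbs + ε.den + δ.num.natAbs + δ.den + 2))
          (orun P n O (c₀ * Nat.clog 2 (n + R + ε.num.natAbs + ε.den + δ.num.natAbs + δ.den + 2)) ρ
            (countInput n R ε δ) (C' * (sizeParam n R ε δ + 1) ^ d')).cfg.output = some z) ∧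
      (cnt = 0 → ∀ ρ : ℕ → ℕ,
        decodeRat (c₀ * Nat.clog 2 (n + R + ε.num.natAbs + ε.den + δ.num.natAbs + δ.den + 2))
          (orun P n O (c₀ * Nat.clog 2 (n + R + ε.num.natAbs + ε.den + δ.num.natAbs + δ.den + 2)) ρ
            (countInput n R ε δ) (C' * (sizeParam n R ε δ + 1) ^ d')).cfg.output = some 0) ∧
      1 - (δ : ℝ) ≤ oprobAfter P n O
        (c₀ * Nat.clog 2 (n + R + ε.num.natAbs + ε.den + δ.num.natAbs + δ.den + 2))
        (countInput n R ε δ) (C' * (sizeParam n R ε δ + 1) ^ d')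
        (fun c => ∃ z : ℚ, decodeRat
            (c₀ * Nat.clog 2 (n + R + ε.num.natAbs + ε.den + δ.num.natAbs + δ.den + 2))
            c.cfg.output = some z ∧ (1 - ε) * cnt ≤ z ∧ z ≤ (1 + ε) * cnt) := by
  obtain ⟨P, K, k, hP⟩ := exists_oprog len hlen f hf h0
  obtain ⟨c₁, hc₁⟩ := final_poly_lt K (13 + C + 4 * (d + 1) * k + 1) k
  obtain ⟨c₀, hc₀⟩ : ∃ c₀, c₀ = 4 * (d + 1) * k + 1 + c₁ := ⟨_, rfl⟩
  refine ⟨P, c₀, K * (13 + C + 3 * c₀) ^ k + C, (d + 1) * k + d,
    fun n R O ε δ cnt hε hO hn hl hz hp => ?_⟩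
  have hsz := final_sz n R ε δ
  have hS := final_param_le n R δ hε
  have hL := final_clog_param n R ε δ
  have hx : ∀ a ∈ countInput n R ε δ,
      a < n + R + ε.num.natAbs + ε.den + δ.num.natAbs + δ.den + 2 := by
    intro a ha
    simp only [countInput, List.mem_cons, List.not_mem_nil, or_false] at ha
    omega
  have hR : R + 1 < n + R + ε.num.natAbs + ε.den + δ.num.natAbs + δ.den + 2 := by omega
  have hN2 : 2 ≤ n + R + ε.num.natAbs + ε.den + δ.num.natAbs + δ.den + 2 := by omega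
  generalize n + R + ε.num.natAbs + ε.den + δ.num.natAbs + δ.den + 2 = N at *
  have hNL : N ≤ 2 ^ Nat.clog 2 N := Nat.le_pow_clog (by norm_num) N
  have hL1 : 1 ≤ Nat.clog 2 N := Nat.clog_pos (by norm_num) hN2
  generalize Nat.clog 2 N = L at *
  generalize sizeParam n R ε δ = S at *
  generalize countInput n R ε δ = x at *
  have hc1 : 1 ≤ c₀ := by omega
  have hLw : L ≤ c₀ * L := Nat.le_mul_of_pos_left _ hc1
  have hw : 0 < c₀ * L := by omega
  have hNw : N ≤ 2 ^ (c₀ * L) := hNL.trans (Nat.pow_le_pow_right (by norm_num) hLw)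
  have a1 : S + 1 ≤ (S + 1) ^ (d + 1) := Nat.le_self_pow (by omega) _
  have a2 : (S + 1) ^ d ≤ (S + 1) ^ (d + 1) := Nat.pow_le_pow_right (by omega) (by omega)
  have a3 : sz x + len x ≤ (13 + C) * (S + 1) ^ (d + 1) := by
    have := Nat.mul_le_mul_left C a2
    rw [add_mul]
    omega
  have hT : K * (sz x + len x + c₀ * L) ^ k ≤
      (K * (13 + C + 3 * c₀) ^ k + C) * (S + 1) ^ ((d + 1) * k + d) := by
    have b1 : c₀ * L ≤ 3 * c₀ * (S + 1) ^ (d + 1) := by
      rw [mul_comm 3 c₀, mul_assoc]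
      exact Nat.mul_le_mul_left _ (by omega)
    have b2 : sz x + len x + c₀ * L ≤ (13 + C + 3 * c₀) * (S + 1) ^ (d + 1) := by
      rw [add_mul (13 + C)]
      omega
    calc K * (sz x + len x + c₀ * L) ^ k ≤ K * ((13 + C + 3 * c₀) * (S + 1) ^ (d + 1)) ^ k := by
          gcongr
      _ = K * (13 + C + 3 * c₀) ^ k * (S + 1) ^ ((d + 1) * k) := by
          rw [mul_pow, ← pow_mul, mul_assoc]
      _ ≤ (K * (13 + C + 3 * c₀) ^ k + C) * (S + 1) ^ ((d + 1) * k + d) :=
          Nat.mul_le_mul (Nat.le_add_right _ _) (Nat.pow_le_pow_right (by omega) (by omega))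
  have hlT : len x ≤ (K * (13 + C + 3 * c₀) ^ k + C) * (S + 1) ^ ((d + 1) * k + d) :=
    hl.trans (Nat.mul_le_mul (Nat.le_add_left _ _) (Nat.pow_le_pow_right (by omega) (by omega)))
  have hK : K * (sz x + len x + c₀ * L) ^ k < 2 ^ (c₀ * L) := by
    have b0 : S + 1 ≤ 2 ^ (4 * L) := by
      calc S + 1 ≤ 8 * 2 ^ L := by omega
        _ = 2 ^ (L + 3) := by ring
        _ ≤ 2 ^ (4 * L) := Nat.pow_le_pow_right (by norm_num) (by omega)
    have b1 : (S + 1) ^ (d + 1) ≤ 2 ^ (4 * L * (d + 1)) := by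
      rw [pow_mul]
      exact Nat.pow_le_pow_left b0 _
    have b2 : L ≤ 2 ^ (4 * L * (d + 1)) :=
      Nat.lt_two_pow_self.le.trans (Nat.pow_le_pow_right (by norm_num) (by nlinarith))
    have b3 : sz x + len x + c₀ * L ≤ (13 + C + c₀) * 2 ^ (4 * L * (d + 1)) := by
      have := Nat.mul_le_mul_left (13 + C) b1
      have := Nat.mul_le_mul_left c₀ b2
      rw [add_mul (13 + C)]
      omega
    have b4 : 13 + C + c₀ = 13 + C + 4 * (d + 1) * k + 1 + c₁ := by omega
    calc K * (sz x + len x + c₀ * L) ^ k ≤ K * ((13 + C + c₀) * 2 ^ (4 * L * (d + 1))) ^ k := by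
          gcongr
      _ = K * (13 + C + c₀) ^ k * 2 ^ (4 * L * (d + 1) * k) := by
          rw [mul_pow, ← pow_mul, mul_assoc K]
      _ < 2 ^ c₁ * 2 ^ (4 * L * (d + 1) * k) := by
          rw [b4]
          exact Nat.mul_lt_mul_of_pos_right hc₁ (by positivity)
      _ = 2 ^ (c₁ + 4 * L * (d + 1) * k) := by rw [pow_add]
      _ ≤ 2 ^ (c₀ * L) := by
          refine Nat.pow_le_pow_right (by norm_num) ?_
          have : c₁ ≤ c₁ * L := Nat.le_mul_of_pos_right _ hL1
          rw [hc₀]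
          nlinarith
  have key := fun ρ => hP n O (c₀ * L) x hn (fun a ha => (hx a ha).trans_le hNw)
    (fun b A => (hO b A).trans_lt (hR.trans_le hNw)) hK ρ _ hT
  refine ⟨fun ρ => (key ρ).1, fun ρ => ⟨_, h0 _ _, (key ρ).2⟩, fun hc ρ => ?_, ?_⟩
  · rw [(key ρ).2, hz hc _ (by simp [bitsAt])]
  · rw [oprob_eq P n O hw x hlT _ _ fun ρ => ?_]
    · exact hp
    · rw [(key ρ).2]
      simp

/-- the rank function of a matroid on `Fin n` -/
noncomputable def mrk {n : ℕ} (M : Matroid (Fin n)) (A : Finset (Fin n)) : ℕ :=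
  (M.eRk (A : Set (Fin n))).toNat

lemma final_mrk_cast {n : ℕ} (M : Matroid (Fin n)) (A : Finset (Fin n)) :
    (mrk M A : ℕ∞) = M.eRk (A : Set (Fin n)) :=
  ENat.natCast_toNat (M.isRkFinite_of_finite A.finite_toSet).eRk_lt_top.ne

lemma final_mrk_le_card {n : ℕ} (M : Matroid (Fin n)) (A : Finset (Fin n)) : mrk M A ≤ A.card := by
  have h := M.eRk_le_encard (A : Set (Fin n))
  rw [← final_mrk_cast, Set.encard_coe_eq_coe_finsetCard] at h
  exact_mod_cast h

lemma final_card_le_mrk {n : ℕ} {M : Matroid (Fin n)} {I A : Finset (Fin n)}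
    (hI : M.Indep (I : Set (Fin n))) (hIA : I ⊆ A) : I.card ≤ mrk M A := by
  have h := hI.encard_le_eRk_of_subset (X := (A : Set (Fin n))) (by exact_mod_cast hIA)
  rw [← final_mrk_cast, Set.encard_coe_eq_coe_finsetCard] at h
  exact_mod_cast h

lemma mrk_poly {n : ℕ} (M : Matroid (Fin n)) : IsPolymatroidRank (mrk M) := by
  refine ⟨by simp [mrk], fun A B hAB => ?_, fun A B => ?_⟩
  · have h := M.eRk_mono (show (A : Set (Fin n)) ⊆ B by exact_mod_cast hAB)
    rw [← final_mrk_cast, ← final_mrk_cast] at h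
    exact_mod_cast h
  · have h := M.eRk_inter_add_eRk_union_le (A : Set (Fin n)) B
    rw [← Finset.coe_inter, ← Finset.coe_union, ← final_mrk_cast, ← final_mrk_cast,
      ← final_mrk_cast, ← final_mrk_cast, add_comm] at h
    exact_mod_cast h

lemma mrk_univ {n r : ℕ} {M : Matroid (Fin n)} (hE : M.E = Set.univ) (h : M.eRank = r) :
    mrk M univ = r := by
  have _ := hE
  simp [mrk, h]

lemma final_base_of {n r : ℕ} {M : Matroid (Fin n)} (e : M.eRank = r) {B : Finset (Fin n)}
    (hB : B.card = r) (h : B.card ≤ mrk M B) : M.IsBase (B : Set (Fin n)) := by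
  have h1 : M.eRk (B : Set (Fin n)) = (B : Set (Fin n)).encard := by
    rw [← final_mrk_cast, Set.encard_coe_eq_coe_finsetCard, le_antisymm (final_mrk_le_card M B) h]
  have h2 : M.Indep (B : Set (Fin n)) :=
    (Matroid.indep_iff_eRk_eq_encard_of_finite B.finite_toSet).2 h1
  refine h2.isBase_of_eRk_ge B.finite_toSet ?_
  rw [h1, e, Set.encard_coe_eq_coe_finsetCard, hB]

lemma final_card_of_base {n r : ℕ} {M : Matroid (Fin n)} (e : M.eRank = r) {B : Finset (Fin n)}
    (hB : M.IsBase (B : Set (Fin n))) : B.card = r := by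
  have h := hB.encard_eq_eRank
  rw [e, Set.encard_coe_eq_coe_finsetCard] at h
  exact_mod_cast h

lemma final_sum_eq {n r : ℕ} (x : Fin n → Fin (r + 1)) (hx : ∀ j, (x j : ℕ) ≤ 1)
    (A : Finset (Fin n)) : ∑ j ∈ A, (x j : ℕ) = (A.filter fun j => (x j : ℕ) ≠ 0).card := by
  rw [Finset.card_filter]
  refine Finset.sum_congr rfl fun j _ => ?_
  have := hx j
  split_ifs with h <;> omega

/-- An integer base has entries in `{0, 1}` (`mrk {e} ≤ 1`); its support is independent of size `r`. -/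
lemma numCommonBases_eq {n r : ℕ} {M₁ M₂ : Matroid (Fin n)} (h₁ : M₁.E = Set.univ)
    (h₂ : M₂.E = Set.univ) (e₁ : M₁.eRank = r) (e₂ : M₂.eRank = r) :
    numCommonBases M₁ M₂ = numCommonIntBases r (mrk M₁) (mrk M₂) := by
  classical
  have _ := h₁
  have _ := h₂
  have hle : ∀ x : Fin n → Fin (r + 1), (∀ A : Finset (Fin n),
      (∑ j ∈ A, (x j : ℕ)) ≤ mrk M₁ A ∧ (∑ j ∈ A, (x j : ℕ)) ≤ mrk M₂ A) → ∀ j, (x j : ℕ) ≤ 1 := by
    intro x hx j
    have h1 := (hx {j}).1
    have h2 := final_mrk_le_card M₁ {j}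
    simp only [Finset.sum_singleton, Finset.card_singleton] at h1 h2
    omega
  unfold numCommonBases numCommonIntBases
  symm
  refine Finset.card_bij (fun x _ => univ.filter fun j => (x j : ℕ) ≠ 0) (fun x hx => ?_)
    (fun x hx y hy hxy => ?_) (fun B hB => ?_)
  · obtain ⟨hx1, hx2⟩ := (Finset.mem_filter.1 hx).2
    have h1 := hle x hx2
    rw [final_sum_eq x h1] at hx1
    have h2 := hx2 (univ.filter fun j => (x j : ℕ) ≠ 0)
    rw [final_sum_eq x h1, Finset.filter_filter] at h2
    simp only [and_self] at h2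
    exact Finset.mem_filter.2 ⟨Finset.mem_univ _, final_base_of e₁ hx1 h2.1,
      final_base_of e₂ hx1 h2.2⟩
  · have h1 := hle x (Finset.mem_filter.1 hx).2.2
    have h2 := hle y (Finset.mem_filter.1 hy).2.2
    funext j
    have h3 : j ∈ (univ.filter fun j => (x j : ℕ) ≠ 0) ↔
        j ∈ (univ.filter fun j => (y j : ℕ) ≠ 0) := by rw [hxy]
    simp only [Finset.mem_filter, Finset.mem_univ, true_and] at h3
    have h4 := h1 j
    have h5 := h2 j
    exact Fin.ext (by omega)
  · obtain ⟨hB1, hB2⟩ := (Finset.mem_filter.1 hB).2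
    have hc := final_card_of_base e₁ hB1
    have hlt : ∀ j : Fin n, (if j ∈ B then 1 else 0) < r + 1 := by
      intro j
      split_ifs with h
      · have := Finset.card_pos.2 ⟨j, h⟩
        omega
      · omega
    have hs : ∀ A : Finset (Fin n), ∑ j ∈ A, (if j ∈ B then 1 else 0) = (A ∩ B).card := by
      intro A
      rw [← Finset.card_filter, Finset.filter_mem_eq_inter]
    refine ⟨fun j => ⟨if j ∈ B then 1 else 0, hlt j⟩, Finset.mem_filter.2 ⟨Finset.mem_univ _, ?_,
      fun A => ?_⟩, ?_⟩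
    · simp only [hs, Finset.univ_inter, hc]
    · simp only [hs]
      have h3 : ((A ∩ B : Finset (Fin n)) : Set (Fin n)) ⊆ B := by
        exact_mod_cast Finset.inter_subset_right
      exact ⟨final_card_le_mrk (hB1.indep.subset h3) Finset.inter_subset_left,
        final_card_le_mrk (hB2.indep.subset h3) Finset.inter_subset_left⟩
    · ext j
      simp

/-- One step of the greedy algorithm. -/
def finalStep (O : Orc) (q : Qy) (s : List Bool) (i : ℕ) : List Bool :=
  if q.2.getD i false = true ∧ min (O (q.1, s.set i true)) 1 = 1 then s.set i true else s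

lemma final_mask_length {n : ℕ} (A : Finset (Fin n)) : (mask A).length = n := by simp [mask]

lemma final_mask_getD {n : ℕ} (A : Finset (Fin n)) (j : Fin n) :
    (mask A).getD j false = decide (j ∈ A) := by
  simp [mask, List.getD_eq_getElem?_getD]

lemma final_mask_set {n : ℕ} (A : Finset (Fin n)) (j : Fin n) :
    (mask A).set j true = mask (insert j A) := by
  refine List.ext_getElem (by simp [mask]) fun i h1 h2 => ?_
  simp only [mask, List.getElem_set, List.getElem_ofFn, Finset.mem_insert]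
  split_ifs with h
  · subst h; simp
  · have : (⟨i, by simpa [mask] using h2⟩ : Fin n) ≠ j := fun h' => h (by rw [← h'])
    simp [this]

lemma final_mask_empty {n : ℕ} (A : Finset (Fin n)) :
    (mask A).map (fun _ => false) = mask (∅ : Finset (Fin n)) := by
  refine List.ext_getElem (by simp [mask]) fun i h1 h2 => ?_
  simp [mask]

lemma final_mask_count {n : ℕ} (A : Finset (Fin n)) : (mask A).countP (fun b => b) = A.card := by
  rw [mask, List.ofFn_eq_map, List.countP_map, List.countP_eq_length_filter,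
    ← List.toFinset_card_of_nodup ((List.nodup_finRange n).filter _)]
  congr 1
  ext j
  simp

lemma final_greedy {n : ℕ} (M₁ M₂ : Matroid (Fin n)) (h₁ : M₁.E = Set.univ) (h₂ : M₂.E = Set.univ)
    (b : Bool) (A : Finset (Fin n)) (i : ℕ) (hi : i ≤ n) :
    ∃ I : Finset (Fin n), (List.range i).foldl (finalStep (orcOf (indepOracle M₁ M₂)) (b, mask A))
        (mask (∅ : Finset (Fin n))) = mask I ∧
      (if b = true then M₂ else M₁).Indep (I : Set (Fin n)) ∧ I ⊆ A ∧
      ∀ j ∈ A, (j : ℕ) < i → j ∈ (if b = true then M₂ else M₁).closure (I : Set (Fin n)) := by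
  have hE : (if b = true then M₂ else M₁).E = Set.univ := by split_ifs <;> assumption
  have hO : ∀ J : Finset (Fin n), min (orcOf (indepOracle M₁ M₂) (b, mask J)) 1 = 1 ↔
      (if b = true then M₂ else M₁).Indep (J : Set (Fin n)) := by
    intro J
    rw [orcOf_mask, indepOracle]
    by_cases h : (if b = true then M₂ else M₁).Indep (J : Set (Fin n))
    · rw [if_pos h]
      simp [h]
    · rw [if_neg h]
      simp [h]
  generalize (if b = true then M₂ else M₁) = M at hE hO ⊢
  induction i with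
  | zero => exact ⟨∅, rfl, by simp, by simp, fun j _ h => absurd h (Nat.not_lt_zero _)⟩
  | succ i ih =>
    obtain ⟨I, e, hI, hIA, hcl⟩ := ih (by omega)
    obtain ⟨j, rfl⟩ : ∃ j : Fin n, (j : ℕ) = i := ⟨⟨i, by omega⟩, rfl⟩
    rw [List.range_succ, List.foldl_append, e, List.foldl_cons, List.foldl_nil, finalStep,
      final_mask_getD, final_mask_set]
    split_ifs with h
    · obtain ⟨h1, h2⟩ := h
      replace h2 := (hO _).1 h2
      have hjA : j ∈ A := by simpa using h1
      refine ⟨insert j I, rfl, h2, Finset.insert_subset hjA hIA, fun j' hj' hlt => ?_⟩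
      rcases Nat.lt_succ_iff_lt_or_eq.1 hlt with h3 | h3
      · exact M.closure_subset_closure (by exact_mod_cast Finset.subset_insert j I) (hcl j' hj' h3)
      · rw [Fin.ext h3]
        exact M.subset_closure _ h2.subset_ground (by simp)
    · refine ⟨I, rfl, hI, hIA, fun j' hj' hlt => ?_⟩
      rcases Nat.lt_succ_iff_lt_or_eq.1 hlt with h3 | h3
      · exact hcl j' hj' h3
      · obtain rfl : j' = j := Fin.ext h3
        rw [hI.mem_closure_iff', hE]
        refine ⟨Set.mem_univ _, fun h4 => absurd ⟨by simpa using hj', (hO _).2 ?_⟩ h⟩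
        rwa [Finset.coe_insert]

/-- The greedy algorithm: scan the positions of the query, keep an element if the current set stays
independent (`OC.foldl_inv`, `OC.query` with the clamp `1`). -/
theorem exists_greedy : ∃ g : Orc → Qy → ℕ, OC g ∧ ∀ (n : ℕ) (M₁ M₂ : Matroid (Fin n)),
    M₁.E = Set.univ → M₂.E = Set.univ → ∀ (b : Bool) (A : Finset (Fin n)),
      g (orcOf (indepOracle M₁ M₂)) (b, mask A) = mrk (if b = true then M₂ else M₁) A := by
  have hq : OC fun O (p : Qy × List Bool × ℕ) => min (O (p.1.1, p.2.1.set p.2.2 true)) 1 :=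
    OC.query (q := fun p : Qy × List Bool × ℕ => (p.1.1, p.2.1.set p.2.2 true)) (B := fun _ => 1)
      (by fun_prop) (by fun_prop)
  have hstep : OC fun O (p : Qy × List Bool × ℕ) => finalStep O p.1 p.2.1 p.2.2 :=
    OC.pt₂ (g := fun (p : Qy × List Bool × ℕ) (v : ℕ) =>
      if p.1.2.getD p.2.2 false = true ∧ v = 1 then p.2.1.set p.2.2 true else p.2.1)
      (by fun_prop) hq
  have hloop : OC fun O (q : Qy) =>
      (List.range q.2.length).foldl (finalStep O q) (q.2.map fun _ => false) := by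
    refine OC.foldl_inv (f := finalStep) (l := fun _ (q : Qy) => List.range q.2.length)
      (ini := fun _ (q : Qy) => q.2.map fun _ => false) (fun _ q s => s.length = q.2.length)
      (fun q => 6 * q.2.length + 1) hstep (OC.pure (by fun_prop)) (OC.pure (by fun_prop))
      (by fun_prop) (fun _ q => by simp) (fun O q s i _ h => ?_) (fun _ q s h => ?_)
    · unfold finalStep
      split_ifs <;> simp [h]
    · rw [sz_boolList, h]
  refine ⟨fun O q => ((List.range q.2.length).foldl (finalStep O q)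
    (q.2.map fun _ => false)).countP fun b => b,
    OC.pt (g := fun s : List Bool => s.countP fun b => b) (by fun_prop) hloop,
    fun n M₁ M₂ h₁ h₂ b A => ?_⟩
  obtain ⟨I, e, hI, hIA, hcl⟩ := final_greedy M₁ M₂ h₁ h₂ b A n le_rfl
  simp only [final_mask_length, final_mask_empty]
  rw [e, final_mask_count]
  have hb : (if b = true then M₂ else M₁).IsBasis (I : Set (Fin n)) A :=
    Matroid.isBasis_iff_indep_subset_closure.2
      ⟨hI, by exact_mod_cast hIA, fun j hj => hcl j (by exact_mod_cast hj) j.isLt⟩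
  have h := hb.encard_eq_eRk
  rw [← final_mrk_cast, Set.encard_coe_eq_coe_finsetCard] at h
  exact_mod_cast h

end Crest.Agent.R302
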