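import Crest.Agent.R302.KeyAux

/-!
Row 302, part A3: the key flow inequality.
-/

set_option autoImplicit false
set_option linter.unusedSectionVars false

namespace Crest.Agent.R302

open Finset

variable {X : Type} [AddCommGroup X] {ι κ : Type} [Fintype κ] [DecidableEq κ]

/-- The weight with second difference `-1` that vanishes at `lo - 1` and at `hi`. -/
noncomputable def psi (lo hi a : ℤ) : ℝ := ((a - lo + 1 : ℤ) : ℝ) * ((hi - a : ℤ) : ℝ) / 2

/-- The quadratic form of the hole states of the pair `l`. -/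
noncomputable def qhat (e : ι → X) (S : Finset ι) (f : X → ℝ) (α β : κ → ι) (J : Finset κ)
    (lo hi : κ → ℤ) (x : X) (u : ι → ℝ) (l : κ) : ℝ :=
  -∑ a ∈ boxJ J lo hi, psi (lo l) (hi l) (a l) *
    ∑ p ∈ S, ∑ q ∈ S, u p * u q * f (nd e α β x a - e (β l) + e p + e q)

/-- The energy of the node function `g` along the pair `l`. -/
noncomputable def ehat (e : ι → X) (f g : X → ℝ) (α β : κ → ι) (J : Finset κ) (lo hi : κ → ℤ)
    (x : X) (l : κ) : ℝ :=
  ∑ a ∈ (boxJ J lo hi).filter (fun a => a l < hi l), f (nd e α β x a + e (α l)) *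
    (g (nd e α β x a) - g (nd e α β x a + (e (α l) - e (β l)))) ^ 2

lemma key_psi_nonneg {lo hi a : ℤ} (h1 : lo ≤ a) (h2 : a ≤ hi) : 0 ≤ psi lo hi a := by
  unfold psi
  have : (0 : ℝ) ≤ ((a - lo + 1 : ℤ) : ℝ) := by exact_mod_cast (by omega : 0 ≤ a - lo + 1)
  have : (0 : ℝ) ≤ ((hi - a : ℤ) : ℝ) := by exact_mod_cast (by omega : 0 ≤ hi - a)
  positivity

lemma key_psi_le {lo hi a : ℤ} {L : ℝ} (h : lo ≤ hi) (hL : ((hi - lo + 1 : ℤ) : ℝ) ≤ L) :
    psi lo hi a ≤ L ^ 2 / 8 := by
  unfold psi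
  have h0 : (0 : ℝ) ≤ ((hi - lo + 1 : ℤ) : ℝ) := by exact_mod_cast (by omega : 0 ≤ hi - lo + 1)
  have h1 := pow_le_pow_left₀ h0 hL 2
  push_cast at *
  nlinarith [sq_nonneg (((a : ℝ) - lo + 1) - (hi - a))]

lemma key_psi_sum {lo hi : ℤ} (h : lo ≤ hi) (T Q : ℤ → ℝ) (h0 : T (lo - 1) = 0) (h1 : T hi = 0)
    (hQ : ∀ a ∈ Icc lo hi, Q a ≤ T (a - 1) + T (a + 1) - 2 * T a) :
    ∑ a ∈ Icc lo hi, T a ≤ -∑ a ∈ Icc lo hi, psi lo hi a * Q a := by
  have ht := key_tele (fun b => psi lo hi (b + 1) * T b - psi lo hi b * T (b + 1))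
    (lo := lo) (hi := hi) (by omega)
  have e1 : psi lo hi hi = 0 := by simp [psi]
  have e2 : psi lo hi (lo - 1) = 0 := by simp [psi]
  simp only [h0, h1, e1, e2, mul_zero, zero_mul, sub_zero, sub_add_cancel] at ht
  rw [← Finset.sum_neg_distrib, ← add_zero (∑ a ∈ Icc lo hi, T a), ← ht, ← Finset.sum_add_distrib]
  refine Finset.sum_le_sum fun a ha => ?_
  have hp := key_psi_nonneg (Finset.mem_Icc.1 ha).1 (Finset.mem_Icc.1 ha).2
  have e3 : psi lo hi (a + 1) + psi lo hi (a - 1) = 2 * psi lo hi a - 1 := by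
    unfold psi
    push_cast
    ring
  have := mul_le_mul_of_nonneg_left (hQ a ha) hp
  have e4 : psi lo hi (a + 1) = 2 * psi lo hi a - 1 - psi lo hi (a - 1) := by linarith
  rw [e4]
  nlinarith

lemma key_quad_sum {lo hi : ℤ} (h : lo ≤ hi) (σ Λ R : ℤ → ℝ) (h0 : σ (lo - 1) = 0) (h1 : σ hi = 0)
    (hR : ∀ b, 0 ≤ R b) :
    0 ≤ ∑ b ∈ Icc lo hi, (2 * σ b * Λ (b + 1) - 2 * σ (b - 1) * Λ b + σ b ^ 2 * R (b + 2) -
      2 * σ b * σ (b - 1) * R (b + 1) + σ (b - 1) ^ 2 * R b) := by
  have ht := key_tele (fun b => 2 * σ b * Λ (b + 1) + σ b ^ 2 * R (b + 2) - σ b ^ 2 * R (b + 1))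
    (lo := lo) (hi := hi) (by omega)
  simp only [h0, h1, mul_zero, zero_mul, sub_zero, sub_add_cancel, ne_eq, OfNat.ofNat_ne_zero,
    not_false_eq_true, zero_pow, add_zero] at ht
  rw [← ht]
  refine Finset.sum_le_sum fun b _ => ?_
  rw [show b - 1 + 2 = b + 1 by ring]
  nlinarith [mul_nonneg (hR (b + 1)) (sq_nonneg (σ b - σ (b - 1)))]

/-- the hole weight of the pair `l` -/
noncomputable def keyH (e : ι → X) (f : X → ℝ) (α β : κ → ι) (J : Finset κ) (lo hi : κ → ℤ)
    (l : κ) (y : X) : ℝ :=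
  ∑ a ∈ boxJ J lo hi, psi (lo l) (hi l) (a l) * f (nd e α β y a - e (β l))

lemma key_qhat_eq (e : ι → X) (S : Finset ι) (f : X → ℝ) (α β : κ → ι) (J : Finset κ)
    (lo hi : κ → ℤ) (x : X) (u : ι → ℝ) (l : κ) :
    qhat e S f α β J lo hi x u l =
      -∑ p ∈ S, ∑ q ∈ S, u p * u q * keyH e f α β J lo hi l (x + e p + e q) := by
  unfold qhat keyH
  congr 1
  simp only [Finset.mul_sum]
  rw [Finset.sum_comm]
  refine Finset.sum_congr rfl fun p _ => ?_
  rw [Finset.sum_comm]
  refine Finset.sum_congr rfl fun q _ => Finset.sum_congr rfl fun a _ => ?_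
  rw [key_nd_add, key_nd_add,
    show nd e α β x a + e p + e q - e (β l) = nd e α β x a - e (β l) + e p + e q by abel]
  ring

lemma key_H_nonneg {e : ι → X} {f : X → ℝ} (hf : ∀ x, 0 ≤ f x) (α β : κ → ι) {J : Finset κ}
    (lo hi : κ → ℤ) {l : κ} (hl : l ∈ J) (y : X) : 0 ≤ keyH e f α β J lo hi l y :=
  Finset.sum_nonneg fun _ ha =>
    mul_nonneg (key_psi_nonneg (key_mem_box ha hl).1 (key_mem_box ha hl).2) (hf _)

lemma key_ehat_nonneg {e : ι → X} {f : X → ℝ} (hf : ∀ x, 0 ≤ f x) (g : X → ℝ) (α β : κ → ι)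
    (J : Finset κ) (lo hi : κ → ℤ) (x : X) (l : κ) : 0 ≤ ehat e f g α β J lo hi x l :=
  Finset.sum_nonneg fun _ _ => mul_nonneg (hf _) (sq_nonneg _)

lemma key_qhat_insert (e : ι → X) (S : Finset ι) (f : X → ℝ) (α β : κ → ι) {J : Finset κ}
    (lo hi : κ → ℤ) (x : X) (u : ι → ℝ) {l k : κ} (hl : l ∉ J) (hk : k ∈ J) :
    qhat e S f α β (insert l J) lo hi x u k =
      ∑ b ∈ Icc (lo l) (hi l), qhat e S f α β J lo hi (x + b • (e (α l) - e (β l))) u k := by
  have hkl : k ≠ l := fun h => hl (h ▸ hk)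
  unfold qhat
  rw [key_split e α β x hl lo hi (fun a y => psi (lo k) (hi k) (a k) *
    ∑ p ∈ S, ∑ q ∈ S, u p * u q * f (y - e (β k) + e p + e q)), Finset.sum_neg_distrib]
  simp only [Function.update_of_ne hkl]

lemma key_ehat_insert (e : ι → X) (f g : X → ℝ) (α β : κ → ι) {J : Finset κ}
    (lo hi : κ → ℤ) (x : X) {l k : κ} (hl : l ∉ J) (hk : k ∈ J) :
    ehat e f g α β (insert l J) lo hi x k =
      ∑ b ∈ Icc (lo l) (hi l), ehat e f g α β J lo hi (x + b • (e (α l) - e (β l))) k := by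
  have hkl : k ≠ l := fun h => hl (h ▸ hk)
  unfold ehat
  simp only [Finset.sum_filter]
  rw [key_split e α β x hl lo hi (fun a y => if a k < hi k then f (y + e (α k)) *
    (g y - g (y + (e (α k) - e (β k)))) ^ 2 else 0)]
  simp only [Function.update_of_ne hkl]

lemma key_qhat_insert_self (e : ι → X) (S : Finset ι) (f : X → ℝ) (α β : κ → ι) {J : Finset κ}
    (lo hi : κ → ℤ) (x : X) (u : ι → ℝ) {l : κ} (hl : l ∉ J) :
    qhat e S f α β (insert l J) lo hi x u l =
      -∑ b ∈ Icc (lo l) (hi l), psi (lo l) (hi l) b * ∑ p ∈ S, ∑ q ∈ S, u p * u q *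
        ∑ a ∈ boxJ J lo hi,
          f (nd e α β (x - e (β l) + b • (e (α l) - e (β l)) + e p + e q) a) := by
  unfold qhat
  rw [key_split e α β x hl lo hi (fun a y => psi (lo l) (hi l) (a l) *
    ∑ p ∈ S, ∑ q ∈ S, u p * u q * f (y - e (β l) + e p + e q))]
  congr 1
  refine Finset.sum_congr rfl fun b _ => ?_
  simp only [Function.update_self]
  rw [← Finset.mul_sum]
  congr 1
  rw [Finset.sum_comm]
  refine Finset.sum_congr rfl fun p _ => ?_
  rw [Finset.sum_comm]
  refine Finset.sum_congr rfl fun q _ => ?_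
  rw [Finset.mul_sum]
  refine Finset.sum_congr rfl fun a _ => ?_
  congr 2
  unfold nd
  abel

lemma key_ehat_insert_self (e : ι → X) (f g : X → ℝ) (α β : κ → ι) {J : Finset κ}
    (lo hi : κ → ℤ) (x : X) {l : κ} (hl : l ∉ J) :
    ehat e f g α β (insert l J) lo hi x l =
      ∑ b ∈ Icc (lo l) (hi l), if b < hi l then ∑ a ∈ boxJ J lo hi,
        f (nd e α β (x + b • (e (α l) - e (β l))) a + e (α l)) *
          (g (nd e α β (x + b • (e (α l) - e (β l))) a) -
            g (nd e α β (x + b • (e (α l) - e (β l))) a + (e (α l) - e (β l)))) ^ 2 else 0 := by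
  unfold ehat
  simp only [Finset.sum_filter]
  rw [key_split e α β x hl lo hi (fun a y => if a l < hi l then f (y + e (α l)) *
    (g y - g (y + (e (α l) - e (β l)))) ^ 2 else 0)]
  refine Finset.sum_congr rfl fun b _ => ?_
  simp only [Function.update_self]
  split_ifs <;> simp

/-- Induction on `J`, generalizing `x` and `u`.  For `insert l J` put `v = e (α l) - e (β l)`,
`h = conS` over `J` (`SN.conS`), `P b = ∑ u p h (x + b v + e p)`, `Sm b = ∑_{lo ≤ j ≤ b} P j`
(`Sm (lo - 1) = Sm hi = 0`), `R b = h (x + b v + e (β l))`, `σ b = - Sm b / R (b + 1)`.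
Apply the induction hypothesis at `x + b v` to `W b = u + σ b • α l - σ (b - 1) • β l`.
* `∑_b W b · G b = u · G + ∑_{b < hi} σ b (G_α b - G_β (b + 1))`, and by Cauchy–Schwarz the last sum is
  at most `√ (∑ T b) √ ehat` with `T b = Sm b ² / R (b + 1)`;
* `SN.local` for `h` at `x - e (β l)` with `u₀ = 0`, multiplied by `psi` and summed by parts:
  `∑ T b ≤ qhat … l`;
* for `l' ∈ J`: `∑_b qhat (W b) l' ≤ qhat u l'` (the linear terms telescope, the quadratic terms give
  `∑ R' (b + 1) (σ b - σ (b - 1))² ≥ 0`), `∑_b ehat = ehat`, Cauchy–Schwarz. -/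
theorem SN.key_core {e : ι → X} {S : Finset ι} {f : X → ℝ} (h : SN e S f) {α β : κ → ι}
    {J : Finset κ} (hα : ∀ l ∈ J, α l ∈ S) (hβ : ∀ l ∈ J, β l ∈ S) {lo hi : κ → ℤ}
    (hl : ∀ l ∈ J, lo l ≤ hi l) (g : X → ℝ) (x : X) (u : ι → ℝ)
    (hu : ∑ p ∈ S, u p * ∑ a ∈ boxJ J lo hi, f (nd e α β x a + e p) = 0) :
    (∀ l ∈ J, 0 ≤ qhat e S f α β J lo hi x u l) ∧
      |∑ p ∈ S, u p * ∑ a ∈ boxJ J lo hi, f (nd e α β x a + e p) * g (nd e α β x a)| ≤
        ∑ l ∈ J, √(qhat e S f α β J lo hi x u l * ehat e f g α β J lo hi x l) := by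
  induction J using Finset.induction_on generalizing x u with
  | empty =>
    refine ⟨by simp, ?_⟩
    have h1 : ∀ p, ∑ a ∈ boxJ (∅ : Finset κ) lo hi, f (nd e α β x a + e p) = f (x + e p) :=
      fun p => sum_boxJ_empty e α β lo hi x fun y => f (y + e p)
    have h2 : ∀ p, ∑ a ∈ boxJ (∅ : Finset κ) lo hi, f (nd e α β x a + e p) * g (nd e α β x a) =
        f (x + e p) * g x := fun p => sum_boxJ_empty e α β lo hi x fun y => f (y + e p) * g y
    simp only [h1] at hu
    simp only [h2, ← mul_assoc, ← Finset.sum_mul, hu]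
    simp
  | insert l J hlJ ih =>
    have hαJ : ∀ k ∈ J, α k ∈ S := fun k hk => hα k (mem_insert_of_mem hk)
    have hβJ : ∀ k ∈ J, β k ∈ S := fun k hk => hβ k (mem_insert_of_mem hk)
    have hlJ' : ∀ k ∈ J, lo k ≤ hi k := fun k hk => hl k (mem_insert_of_mem hk)
    have hαl := hα l (mem_insert_self _ _)
    have hβl := hβ l (mem_insert_self _ _)
    have hll := hl l (mem_insert_self _ _)
    have hf0 : ∀ y, 0 ≤ f y := fun y => (h.1 y).le
    have hH := h.conS hαJ hβJ hlJ'
    set v := e (α l) - e (β l) with hv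
    set H : X → ℝ := fun y => ∑ a ∈ boxJ J lo hi, f (nd e α β y a) with hHdef
    have hHe : ∀ y z, ∑ a ∈ boxJ J lo hi, f (nd e α β y a + z) = H (y + z) := fun y z => by
      simp only [hHdef, key_nd_add]
    let P : ℤ → ℝ := fun b => ∑ p ∈ S, u p * H (x + b • v + e p)
    let Sm : ℤ → ℝ := fun b => ∑ j ∈ Icc (lo l) b, P j
    let R : ℤ → ℝ := fun b => H (x + b • v + e (β l))
    have hR : ∀ b, 0 < R b := fun b => hH.1 _
    have hαβ : ∀ b : ℤ, x + b • v + e (α l) = x + (b + 1) • v + e (β l) := fun b => by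
      rw [add_smul, one_smul, hv]; abel
    have hSm : ∀ b, lo l ≤ b → Sm b - Sm (b - 1) = P b := fun b hb => by
      have := key_sum_Icc_succ P (lo := lo l) (b := b - 1) (by omega)
      rw [sub_add_cancel] at this
      simp only [Sm]
      rw [this]; ring
    have hSm0 : Sm (lo l - 1) = 0 := by
      simp only [Sm]
      rw [Finset.Icc_eq_empty (by omega), Finset.sum_empty]
    have hSm1 : Sm (hi l) = 0 := by
      rw [← hu]
      simp only [Sm, P]
      rw [Finset.sum_comm]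
      refine Finset.sum_congr rfl fun p _ => ?_
      rw [← Finset.mul_sum, key_split e α β x hlJ lo hi (fun _ y => f (y + e p))]
      simp only [hHe, hv]
    let σ : ℤ → ℝ := fun b => -Sm b / R (b + 1)
    have hσ0 : σ (lo l - 1) = 0 := by simp only [σ, hSm0, neg_zero, zero_div]
    have hσ1 : σ (hi l) = 0 := by simp only [σ, hSm1, neg_zero, zero_div]
    let W : ℤ → ι → ℝ := fun b => keyW u (α l) (β l) (σ b) (σ (b - 1))
    have hW : ∀ b ∈ Icc (lo l) (hi l),
        ∑ p ∈ S, W b p * ∑ a ∈ boxJ J lo hi, f (nd e α β (x + b • v) a + e p) = 0 := by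
      intro b hb
      simp only [hHe, W]
      rw [key_lin u hαl hβl, hαβ]
      change P b + σ b * R (b + 1) - σ (b - 1) * R b = 0
      simp only [σ, sub_add_cancel]
      rw [div_mul_cancel₀ _ (hR _).ne', div_mul_cancel₀ _ (hR _).ne', ← hSm b (mem_Icc.1 hb).1]
      ring
    have IH := fun b hb => ih hαJ hβJ hlJ' (x + b • v) (W b) (hW b hb)
    -- the new pair
    let T : ℤ → ℝ := fun b => Sm b ^ 2 / R (b + 1)
    have hT0 : ∀ b, 0 ≤ T b := fun b => div_nonneg (sq_nonneg _) (hR _).le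
    have hTq : ∑ b ∈ Icc (lo l) (hi l), T b ≤ qhat e S f α β (insert l J) lo hi x u l := by
      rw [key_qhat_insert_self e S f α β lo hi x u hlJ]
      refine key_psi_sum hll T _ (by simp [T, hSm0]) (by simp [T, hSm1]) fun a ha => ?_
      have hloc := hH.local hαl hβl (x - e (β l)) 0 u Sm a (by
        intro j hj
        have hj' : lo l ≤ j := by
          have := (mem_Icc.1 ha).1
          omega
        rw [hSm j hj', zero_mul, zero_add]
        refine Finset.sum_congr rfl fun p _ => ?_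
        congr 2
        rw [hv]; abel)
      have e1 : ∀ j : ℤ, x - e (β l) + j • (e (α l) - e (β l)) + e (β l) + e (β l) =
          x + j • v + e (β l) := fun j => by rw [hv]; abel
      simp only [e1] at hloc
      simp only [T, R, sub_add_cancel, show a + 1 + 1 = a + 2 by ring]
      simpa using hloc
    -- the old pairs
    have hq : ∀ k ∈ J, ∑ b ∈ Icc (lo l) (hi l), qhat e S f α β J lo hi (x + b • v) (W b) k ≤
        qhat e S f α β (insert l J) lo hi x u k := by
      intro k hk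
      rw [key_qhat_insert e S f α β lo hi x u hlJ hk, ← sub_nonneg, ← Finset.sum_sub_distrib]
      set K := keyH e f α β J lo hi k with hK
      refine le_of_le_of_eq (key_quad_sum hll σ
        (fun b => ∑ p ∈ S, u p * K (x + b • v + e (β l) + e p))
        (fun b => K (x + b • v + e (β l) + e (β l))) hσ0 hσ1
        (fun b => key_H_nonneg hf0 α β lo hi hk _)) (Finset.sum_congr rfl fun b _ => ?_)
      rw [key_qhat_eq, key_qhat_eq, ← hK]
      simp only [W]
      rw [key_quad u hαl hβl _ _ (fun p q => K (x + b • v + e p + e q))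
        (fun p q => by rw [add_right_comm])]
      have e2 : x + b • v + e (α l) + e (α l) = x + (b + 2) • v + e (β l) + e (β l) := by
        rw [add_smul, two_smul, hv]; abel
      rw [e2]
      simp only [hαβ]
      ring
    have hq0 : ∀ k ∈ J, ∀ b ∈ Icc (lo l) (hi l), 0 ≤ qhat e S f α β J lo hi (x + b • v) (W b) k :=
      fun k hk b hb => (IH b hb).1 k hk
    refine ⟨fun k hk => ?_, ?_⟩
    · rcases mem_insert.1 hk with rfl | hk
      · exact (Finset.sum_nonneg fun b _ => hT0 b).trans hTq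
      · exact (Finset.sum_nonneg (hq0 k hk)).trans (hq k hk)
    let G : ℤ → ι → ℝ := fun b p =>
      ∑ a ∈ boxJ J lo hi, f (nd e α β (x + b • v) a + e p) * g (nd e α β (x + b • v) a)
    have hG : ∑ p ∈ S, u p * ∑ a ∈ boxJ (insert l J) lo hi,
        f (nd e α β x a + e p) * g (nd e α β x a) =
        ∑ b ∈ Icc (lo l) (hi l), ∑ p ∈ S, W b p * G b p -
          ∑ b ∈ Icc (lo l) (hi l), σ b * (G b (α l) - G (b + 1) (β l)) := by
      have ht := key_tele (fun b => σ b * G (b + 1) (β l)) (lo := lo l) (hi := hi l) (by omega)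
      simp only [hσ0, hσ1, zero_mul, sub_zero, sub_add_cancel] at ht
      have e3 : ∑ p ∈ S, u p * ∑ a ∈ boxJ (insert l J) lo hi,
          f (nd e α β x a + e p) * g (nd e α β x a) =
          ∑ b ∈ Icc (lo l) (hi l), ∑ p ∈ S, u p * G b p := by
        rw [Finset.sum_comm]
        refine Finset.sum_congr rfl fun p _ => ?_
        rw [← Finset.mul_sum, key_split e α β x hlJ lo hi (fun _ y => f (y + e p) * g y)]
      rw [e3, ← add_zero (∑ b ∈ Icc (lo l) (hi l), ∑ p ∈ S, u p * G b p), ← ht,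
        ← Finset.sum_add_distrib, ← Finset.sum_sub_distrib]
      refine Finset.sum_congr rfl fun b _ => ?_
      simp only [W]
      rw [key_lin u hαl hβl]
      ring
    have hD : |∑ b ∈ Icc (lo l) (hi l), σ b * (G b (α l) - G (b + 1) (β l))| ≤
        √(qhat e S f α β (insert l J) lo hi x u l * ehat e f g α β (insert l J) lo hi x l) := by
      refine le_trans ?_ (Real.sqrt_le_sqrt (mul_le_mul_of_nonneg_right hTq
        (key_ehat_nonneg hf0 g α β _ lo hi x l)))
      rw [key_ehat_insert_self e f g α β lo hi x hlJ]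
      refine key_cs _ (fun b _ => hT0 b) (fun b _ => ?_) fun b hb => ?_
      · split_ifs
        · exact Finset.sum_nonneg fun _ _ => mul_nonneg (hf0 _) (sq_nonneg _)
        · exact le_rfl
      · split_ifs with hb'
        · have e4 : G b (α l) - G (b + 1) (β l) = ∑ a ∈ boxJ J lo hi,
              f (nd e α β (x + b • v) a + e (α l)) *
                (g (nd e α β (x + b • v) a) - g (nd e α β (x + b • v) a + v)) := by
            simp only [G]
            rw [← Finset.sum_sub_distrib]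
            refine Finset.sum_congr rfl fun a _ => ?_
            rw [← key_nd_add e α β (x + (b + 1) • v), ← hαβ, key_nd_add e α β (x + b • v),
              add_smul, one_smul, ← add_assoc, key_nd_add e α β (x + b • v) v]
            ring
          have e5 := key_cs_w (boxJ J lo hi) (w := fun a => f (nd e α β (x + b • v) a + e (α l)))
            (fun a _ => hf0 _)
            (fun a => g (nd e α β (x + b • v) a) - g (nd e α β (x + b • v) a + v))
          rw [← e4, hHe, hαβ] at e5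
          change _ ≤ R (b + 1) * _ at e5
          rw [mul_pow]
          refine (mul_le_mul_of_nonneg_left e5 (sq_nonneg _)).trans (le_of_eq ?_)
          rw [← mul_assoc]
          congr 1
          simp only [σ, T]
          have := (hR (b + 1)).ne'
          field_simp
        · have : b = hi l := le_antisymm (mem_Icc.1 hb).2 (not_lt.1 hb')
          rw [this, hσ1]
          simp
    rw [hG, Finset.sum_insert hlJ, add_comm]
    refine (abs_sub _ _).trans (add_le_add ?_ hD)
    refine (Finset.abs_sum_le_sum_abs _ _).trans ?_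
    refine (Finset.sum_le_sum fun b hb => (IH b hb).2).trans ?_
    rw [Finset.sum_comm]
    refine Finset.sum_le_sum fun k hk => ?_
    refine (key_cs' _ (hq0 k hk) fun b _ => key_ehat_nonneg hf0 g α β J lo hi _ k).trans ?_
    rw [key_ehat_insert e f g α β lo hi x hlJ hk]
    exact Real.sqrt_le_sqrt (mul_le_mul_of_nonneg_right (hq k hk)
      (Finset.sum_nonneg fun b _ => key_ehat_nonneg hf0 g α β J lo hi _ k))

/-- total weight of the states `node + e p` -/
noncomputable def kZ (e : ι → X) (f : X → ℝ) (α β : κ → ι) (J : Finset κ) (lo hi : κ → ℤ) (x : X)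
    (p : ι) : ℝ := ∑ a ∈ boxJ J lo hi, f (nd e α β x a + e p)

/-- weighted sum of `F` over the states `node + e p` -/
noncomputable def kG (e : ι → X) (f F : X → ℝ) (α β : κ → ι) (J : Finset κ) (lo hi : κ → ℤ) (x : X)
    (p : ι) : ℝ := ∑ a ∈ boxJ J lo hi, f (nd e α β x a + e p) * F (nd e α β x a + e p)

/-- energy between the states `node + e p` and the nodes -/
noncomputable def kE (e : ι → X) (f F gb : X → ℝ) (α β : κ → ι) (J : Finset κ) (lo hi : κ → ℤ)
    (x : X) (p : ι) : ℝ :=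
  ∑ a ∈ boxJ J lo hi, f (nd e α β x a + e p) * (F (nd e α β x a + e p) - gb (nd e α β x a)) ^ 2

/-- total weight of the states with a hole at `l` -/
noncomputable def kX (e : ι → X) (f : X → ℝ) (α β : κ → ι) (J : Finset κ) (lo hi : κ → ℤ) (x : X)
    (p₁ p₂ : ι) (l : κ) : ℝ := ∑ a ∈ boxJ J lo hi, f (nd e α β x a - e (β l) + e p₁ + e p₂)

/-- Both sides are continuous in `f` (`DL.le_of_continuous`).  For `SN f` use `SN.key_core` with
`g = gb`, `u = Z₂ • p₁ - Z₁ • p₂` (trivial if `p₁ = p₂`); `qhat ≤ L² / 8 * 2 Z₁ Z₂ X`,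
`ehat ≤ 2 (kE α + kE β)`, `|kG p - ∑ f gb| ≤ √(kZ p * kE p)`. -/
theorem DL.key {e : ι → X} {S : Finset ι} {f : X → ℝ} (h : DL e S f) {α β : κ → ι} {J : Finset κ}
    (hα : ∀ l ∈ J, α l ∈ S) (hβ : ∀ l ∈ J, β l ∈ S) {lo hi : κ → ℤ} (hl : ∀ l ∈ J, lo l ≤ hi l)
    {L : ℝ} (hL : ∀ l ∈ J, ((hi l - lo l + 1 : ℤ) : ℝ) ≤ L) (F gb : X → ℝ) (x : X) {p₁ p₂ : ι}
    (h₁ : p₁ ∈ S) (h₂ : p₂ ∈ S) :
    |kZ e f α β J lo hi x p₂ * kG e f F α β J lo hi x p₁ -
        kZ e f α β J lo hi x p₁ * kG e f F α β J lo hi x p₂| ≤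
      kZ e f α β J lo hi x p₂ * √(kZ e f α β J lo hi x p₁ * kE e f F gb α β J lo hi x p₁) +
      kZ e f α β J lo hi x p₁ * √(kZ e f α β J lo hi x p₂ * kE e f F gb α β J lo hi x p₂) +
      ∑ l ∈ J, L * √(kZ e f α β J lo hi x p₁ * kZ e f α β J lo hi x p₂ *
        kX e f α β J lo hi x p₁ p₂ l *
          (kE e f F gb α β J lo hi x (α l) + kE e f F gb α β J lo hi x (β l))) := by
  refine h.le_of_continuous (Φ := fun f => |kZ e f α β J lo hi x p₂ * kG e f F α β J lo hi x p₁ -
        kZ e f α β J lo hi x p₁ * kG e f F α β J lo hi x p₂|)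
    (Ψ := fun f =>
      kZ e f α β J lo hi x p₂ * √(kZ e f α β J lo hi x p₁ * kE e f F gb α β J lo hi x p₁) +
      kZ e f α β J lo hi x p₁ * √(kZ e f α β J lo hi x p₂ * kE e f F gb α β J lo hi x p₂) +
      ∑ l ∈ J, L * √(kZ e f α β J lo hi x p₁ * kZ e f α β J lo hi x p₂ *
        kX e f α β J lo hi x p₁ p₂ l *
          (kE e f F gb α β J lo hi x (α l) + kE e f F gb α β J lo hi x (β l)))) ?_ ?_ ?_
  · unfold kZ kG
    fun_prop
  · unfold kZ kE kX
    fun_prop
  clear h f
  intro f h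
  have hf0 : ∀ y, 0 ≤ f y := fun y => (h.1 y).le
  set Z : ι → ℝ := kZ e f α β J lo hi x with hZ
  set E : ι → ℝ := kE e f F gb α β J lo hi x with hE
  have hZ0 : ∀ p, 0 ≤ Z p := fun p => Finset.sum_nonneg fun _ _ => hf0 _
  have hE0 : ∀ p, 0 ≤ E p := fun p =>
    Finset.sum_nonneg fun _ _ => mul_nonneg (hf0 _) (sq_nonneg _)
  let Γ : ι → ℝ := fun p => ∑ a ∈ boxJ J lo hi, f (nd e α β x a + e p) * gb (nd e α β x a)
  have hcore := (h.key_core hα hβ hl gb x (keyW 0 p₁ p₂ (Z p₂) (Z p₁)) (by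
    rw [key_lin 0 h₁ h₂]
    simp only [Pi.zero_apply, zero_mul, Finset.sum_const_zero, zero_add]
    change Z p₂ * Z p₁ - Z p₁ * Z p₂ = 0
    ring)).2
  rw [key_lin 0 h₁ h₂] at hcore
  simp only [Pi.zero_apply, zero_mul, Finset.sum_const_zero, zero_add] at hcore
  change |Z p₂ * Γ p₁ - Z p₁ * Γ p₂| ≤ _ at hcore
  have hΓ : ∀ p, |kG e f F α β J lo hi x p - Γ p| ≤ √(Z p * E p) := fun p => by
    refine Real.abs_le_sqrt (le_of_eq_of_le ?_ (key_cs_w (boxJ J lo hi)
      (w := fun a => f (nd e α β x a + e p)) (fun _ _ => hf0 _)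
      (fun a => F (nd e α β x a + e p) - gb (nd e α β x a))))
    congr 1
    simp only [kG, Γ]
    rw [← Finset.sum_sub_distrib]
    exact Finset.sum_congr rfl fun a _ => by ring
  have hsum : ∀ l ∈ J, √(qhat e S f α β J lo hi x (keyW 0 p₁ p₂ (Z p₂) (Z p₁)) l *
      ehat e f gb α β J lo hi x l) ≤
      L * √(Z p₁ * Z p₂ * kX e f α β J lo hi x p₁ p₂ l * (E (α l) + E (β l))) := by
    intro l hlJ
    have hL0 : 0 ≤ L := le_trans (by exact_mod_cast (by have := hl l hlJ; omega)) (hL l hlJ)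
    have hX0 : 0 ≤ kX e f α β J lo hi x p₁ p₂ l := Finset.sum_nonneg fun _ _ => hf0 _
    have hZZ : 0 ≤ Z p₁ * Z p₂ := mul_nonneg (hZ0 _) (hZ0 _)
    have hq : qhat e S f α β J lo hi x (keyW 0 p₁ p₂ (Z p₂) (Z p₁)) l ≤
        L ^ 2 / 4 * (Z p₁ * Z p₂ * kX e f α β J lo hi x p₁ p₂ l) := by
      unfold qhat kX
      rw [← Finset.sum_neg_distrib, Finset.mul_sum, Finset.mul_sum]
      refine Finset.sum_le_sum fun a ha => ?_
      rw [key_quad 0 h₁ h₂ _ _ (fun p q => f (nd e α β x a - e (β l) + e p + e q))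
        (fun p q => by rw [add_right_comm])]
      simp only [Pi.zero_apply, zero_mul, Finset.sum_const_zero, zero_add, mul_zero, sub_zero]
      have hp0 := key_psi_nonneg (key_mem_box ha hlJ).1 (key_mem_box ha hlJ).2
      have hp1 := key_psi_le (a := a l) (hl l hlJ) (hL l hlJ)
      have i1 := mul_nonneg hp0 (mul_nonneg (sq_nonneg (Z p₂))
        (hf0 (nd e α β x a - e (β l) + e p₁ + e p₁)))
      have i2 := mul_nonneg hp0 (mul_nonneg (sq_nonneg (Z p₁))
        (hf0 (nd e α β x a - e (β l) + e p₂ + e p₂)))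
      have i3 := mul_le_mul_of_nonneg_right hp1
        (mul_nonneg hZZ (hf0 (nd e α β x a - e (β l) + e p₁ + e p₂)))
      nlinarith
    have he : ehat e f gb α β J lo hi x l ≤ 2 * (E (α l) + E (β l)) := by
      have j1 : ∑ a ∈ (boxJ J lo hi).filter (fun a => a l < hi l), f (nd e α β x a + e (α l)) *
          (F (nd e α β x a + e (α l)) - gb (nd e α β x a)) ^ 2 ≤ E (α l) :=
        Finset.sum_le_sum_of_subset_of_nonneg (Finset.filter_subset _ _)
          fun _ _ _ => mul_nonneg (hf0 _) (sq_nonneg _)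
      have j2 : ∑ a ∈ (boxJ J lo hi).filter (fun a => a l < hi l), f (nd e α β x a + e (α l)) *
          (F (nd e α β x a + e (α l)) - gb (nd e α β x a + (e (α l) - e (β l)))) ^ 2 ≤
          E (β l) := by
        have j3 := Finset.sum_image (s := (boxJ J lo hi).filter (fun a => a l < hi l))
          (g := fun a : κ → ℤ => a + Pi.single l 1)
          (f := fun a => f (nd e α β x a + e (β l)) *
            (F (nd e α β x a + e (β l)) - gb (nd e α β x a)) ^ 2)
          (fun a _ b _ hab => add_right_cancel hab)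
        simp only [key_nd_single, add_assoc, sub_add_cancel] at j3
        rw [← j3]
        refine Finset.sum_le_sum_of_subset_of_nonneg ?_
          fun _ _ _ => mul_nonneg (hf0 _) (sq_nonneg _)
        intro a ha
        obtain ⟨b, hb, rfl⟩ := Finset.mem_image.1 ha
        exact key_mem_box_single (Finset.mem_filter.1 hb).1 hlJ (Finset.mem_filter.1 hb).2
      refine le_trans ?_ (mul_le_mul_of_nonneg_left (add_le_add j1 j2) zero_le_two)
      unfold ehat
      rw [← Finset.sum_add_distrib, Finset.mul_sum]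
      refine Finset.sum_le_sum fun a _ => ?_
      have := mul_nonneg (hf0 (nd e α β x a + e (α l)))
        (sq_nonneg (2 * F (nd e α β x a + e (α l)) - gb (nd e α β x a) -
          gb (nd e α β x a + (e (α l) - e (β l)))))
      nlinarith
    rw [← Real.sqrt_sq hL0, ← Real.sqrt_mul (sq_nonneg L)]
    refine Real.sqrt_le_sqrt ?_
    refine (mul_le_mul hq he (key_ehat_nonneg hf0 gb α β J lo hi x l) (by positivity)).trans ?_
    have := mul_nonneg (sq_nonneg L) (mul_nonneg (mul_nonneg hZZ hX0)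
      (add_nonneg (hE0 (α l)) (hE0 (β l))))
    nlinarith
  have e1 : Z p₂ * kG e f F α β J lo hi x p₁ - Z p₁ * kG e f F α β J lo hi x p₂ =
      Z p₂ * (kG e f F α β J lo hi x p₁ - Γ p₁) - Z p₁ * (kG e f F α β J lo hi x p₂ - Γ p₂) +
        (Z p₂ * Γ p₁ - Z p₁ * Γ p₂) := by ring
  rw [e1]
  refine (abs_add_le _ _).trans (add_le_add ((abs_sub _ _).trans (add_le_add ?_ ?_))
    (hcore.trans (Finset.sum_le_sum hsum)))
  · rw [abs_mul, abs_of_nonneg (hZ0 _)]
    exact mul_le_mul_of_nonneg_left (hΓ _) (hZ0 _)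
  · rw [abs_mul, abs_of_nonneg (hZ0 _)]
    exact mul_le_mul_of_nonneg_left (hΓ _) (hZ0 _)

end Crest.Agent.R302
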