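import Crest.Agent.R302.Contr

/-!
Row 302, part A3: auxiliary lemmas for the key flow inequality.
-/

set_option autoImplicit false
set_option linter.unusedSectionVars false

namespace Crest.Agent.R302

open Finset

lemma key_sum_Icc_succ (K : ℤ → ℝ) {lo b : ℤ} (h : lo ≤ b + 1) :
    ∑ j ∈ Icc lo (b + 1), K j = ∑ j ∈ Icc lo b, K j + K (b + 1) := by
  rw [← Finset.insert_Icc_right_eq_Icc_add_one h, Finset.sum_insert (by simp), add_comm]

lemma key_tele (K : ℤ → ℝ) {lo hi : ℤ} (h : lo - 1 ≤ hi) :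
    ∑ b ∈ Icc lo hi, (K b - K (b - 1)) = K hi - K (lo - 1) := by
  induction hi, h using Int.leInduction with
  | base => rw [Finset.Icc_eq_empty (by omega)]; simp
  | succ n hn ih => rw [key_sum_Icc_succ _ (by omega), ih, add_sub_cancel_right]; ring

lemma key_cs {ι : Type*} (s : Finset ι) {r f g : ι → ℝ} (hf : ∀ i ∈ s, 0 ≤ f i)
    (hg : ∀ i ∈ s, 0 ≤ g i) (h : ∀ i ∈ s, r i ^ 2 ≤ f i * g i) :
    |∑ i ∈ s, r i| ≤ √((∑ i ∈ s, f i) * ∑ i ∈ s, g i) :=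
  Real.abs_le_sqrt (Finset.sum_sq_le_sum_mul_sum_of_sq_le_mul s hf hg h)

lemma key_cs' {ι : Type*} (s : Finset ι) {f g : ι → ℝ} (hf : ∀ i ∈ s, 0 ≤ f i)
    (hg : ∀ i ∈ s, 0 ≤ g i) :
    ∑ i ∈ s, √(f i * g i) ≤ √((∑ i ∈ s, f i) * ∑ i ∈ s, g i) :=
  (le_abs_self _).trans (key_cs s hf hg fun i hi =>
    (Real.sq_sqrt (mul_nonneg (hf i hi) (hg i hi))).le)

/-- weighted Cauchy–Schwarz -/
lemma key_cs_w {ι : Type*} (s : Finset ι) {w : ι → ℝ} (hw : ∀ i ∈ s, 0 ≤ w i) (d : ι → ℝ) :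
    (∑ i ∈ s, w i * d i) ^ 2 ≤ (∑ i ∈ s, w i) * ∑ i ∈ s, w i * d i ^ 2 :=
  Finset.sum_sq_le_sum_mul_sum_of_sq_le_mul s hw
    (fun i hi => mul_nonneg (hw i hi) (sq_nonneg _)) fun i _ => le_of_eq (by ring)

open Classical in
/-- `u + s • α - t • β` -/
noncomputable def keyW {ι : Type} (u : ι → ℝ) (α β : ι) (s t : ℝ) : ι → ℝ :=
  fun p => u p + (if p = α then s else 0) - (if p = β then t else 0)

lemma key_lin {ι : Type} {S : Finset ι} (u : ι → ℝ) {α β : ι} (hα : α ∈ S) (hβ : β ∈ S) (s t : ℝ)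
    (φ : ι → ℝ) :
    ∑ p ∈ S, keyW u α β s t p * φ p = ∑ p ∈ S, u p * φ p + s * φ α - t * φ β := by
  classical
  unfold keyW
  simp only [add_mul, sub_mul, Finset.sum_add_distrib, Finset.sum_sub_distrib, ite_mul, zero_mul]
  rw [Finset.sum_ite_eq', Finset.sum_ite_eq', if_pos hα, if_pos hβ]

lemma key_quad {ι : Type} {S : Finset ι} (u : ι → ℝ) {α β : ι} (hα : α ∈ S) (hβ : β ∈ S) (s t : ℝ)
    (Φ : ι → ι → ℝ) (hΦ : ∀ p q, Φ p q = Φ q p) :
    ∑ p ∈ S, ∑ q ∈ S, keyW u α β s t p * keyW u α β s t q * Φ p q =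
      ∑ p ∈ S, ∑ q ∈ S, u p * u q * Φ p q + 2 * s * ∑ p ∈ S, u p * Φ α p -
        2 * t * ∑ p ∈ S, u p * Φ β p + s ^ 2 * Φ α α - 2 * s * t * Φ α β + t ^ 2 * Φ β β := by
  have h1 : ∀ v : ι → ℝ, ∑ p ∈ S, ∑ q ∈ S, v p * v q * Φ p q =
      ∑ p ∈ S, v p * ∑ q ∈ S, v q * Φ p q := fun v =>
    Finset.sum_congr rfl fun p _ => by
      rw [Finset.mul_sum]
      exact Finset.sum_congr rfl fun q _ => by ring
  rw [h1, h1]
  simp only [key_lin u hα hβ]
  have h2 : ∑ p ∈ S, u p * (∑ q ∈ S, u q * Φ p q + s * Φ p α - t * Φ p β) =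
      ∑ p ∈ S, u p * ∑ q ∈ S, u q * Φ p q + s * ∑ p ∈ S, u p * Φ α p -
        t * ∑ p ∈ S, u p * Φ β p := by
    rw [Finset.mul_sum, Finset.mul_sum, ← Finset.sum_add_distrib, ← Finset.sum_sub_distrib]
    refine Finset.sum_congr rfl fun p _ => ?_
    rw [hΦ α p, hΦ β p]
    ring
  rw [h2, hΦ β α]
  ring

variable {X : Type} [AddCommGroup X] {ι κ : Type} [Fintype κ] [DecidableEq κ]

lemma key_nd_add (e : ι → X) (α β : κ → ι) (y z : X) (a : κ → ℤ) :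
    nd e α β (y + z) a = nd e α β y a + z := by
  unfold nd
  abel

lemma key_nd_single (e : ι → X) (α β : κ → ι) (y : X) (a : κ → ℤ) (l : κ) :
    nd e α β y (a + Pi.single l 1) = nd e α β y a + (e (α l) - e (β l)) := by
  unfold nd
  simp only [Pi.add_apply, add_smul, Finset.sum_add_distrib]
  rw [Finset.sum_eq_single l (f := fun k => (Pi.single l 1 : κ → ℤ) k • (e (α k) - e (β k)))
    (fun b _ hb => by simp [Pi.single_eq_of_ne hb]) (by simp)]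
  simp [add_assoc]

lemma key_mem_box {J : Finset κ} {lo hi a : κ → ℤ} (ha : a ∈ boxJ J lo hi) {l : κ} (hl : l ∈ J) :
    lo l ≤ a l ∧ a l ≤ hi l := by
  unfold boxJ at ha
  have := Fintype.mem_piFinset.1 ha l
  rwa [if_pos hl, Finset.mem_Icc] at this

lemma key_mem_box_single {J : Finset κ} {lo hi a : κ → ℤ} (ha : a ∈ boxJ J lo hi) {l : κ}
    (hl : l ∈ J) (h : a l < hi l) : a + Pi.single l 1 ∈ boxJ J lo hi := by
  have h1 := key_mem_box ha hl
  unfold boxJ at ha ⊢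
  refine Fintype.mem_piFinset.2 fun k => ?_
  by_cases hk : k = l
  · subst hk
    rw [if_pos hl, Finset.mem_Icc, Pi.add_apply, Pi.single_eq_same]
    omega
  · rw [Pi.add_apply, Pi.single_eq_of_ne hk, add_zero]
    exact Fintype.mem_piFinset.1 ha k

/-- splitting a sum over the box of `insert l J` -/
lemma key_split (e : ι → X) (α β : κ → ι) (x : X) {J : Finset κ} {l : κ} (hl : l ∉ J)
    (lo hi : κ → ℤ) (Φ : (κ → ℤ) → X → ℝ) :
    ∑ a ∈ boxJ (insert l J) lo hi, Φ a (nd e α β x a) =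
      ∑ b ∈ Icc (lo l) (hi l), ∑ a ∈ boxJ J lo hi,
        Φ (Function.update a l b) (nd e α β (x + b • (e (α l) - e (β l))) a) := by
  rw [sum_boxJ_insert hl]
  exact Finset.sum_congr rfl fun b _ => Finset.sum_congr rfl fun a ha => by
    rw [nd_update e α β x hl ha]

end Crest.Agent.R302
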