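import Crest.Agent.R302.StrAux2

/-!
Row 302, part C: construction of the multi-scale structure in polynomial time.

First level: `root j p` = the least element of the `R j`-class of `p`; `g` is active if
`g ≠ root 0 g`, `lv g` = the largest `j` with `g ≠ root j g`, `par g = root (lv g) g`,
`S g` = the `R (lv g + 1)`-class of `g`, `b g = e_g - e_{par g}`.  Then `(b h) (S g) = [g = h]`, and the
`b g` with `j ≤ lv g` span the vectors with zero sums on the `R j`-classes.
Second level: Kruskal's algorithm on `E` for the edges `(g.1, (par g).1)` by decreasing level; the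
chosen edges are the tree indices.  `U g` = the side of the tree edge `g` that does not contain the
root of the component, `v g = ± b g` for tree indices, and `v h = b h - ∑_{g tree} ℓ (b h) (U g) • v g`
for the others (only tree edges of level `≥ lv h` occur).
-/

set_option autoImplicit false

namespace Crest.Agent.R302

open Crest.Agent.Lib.PT

lemma str_ix_inj {m : ℕ} {p q : Fin m × Bool} : ix p = ix q ↔ p = q := by
  refine ⟨fun h => ?_, fun h => h ▸ rfl⟩
  obtain ⟨e, b⟩ := p
  obtain ⟨e', b'⟩ := q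
  cases b <;> cases b' <;> simp [ix] at h ⊢ <;> omega

lemma str_exists_ix {m i : ℕ} (h : i < 2 * m) : ∃ p : Fin m × Bool, ix p = i := by
  refine ⟨(⟨i / 2, by omega⟩, decide (i % 2 = 1)), ?_⟩
  unfold ix
  by_cases hi : i % 2 = 1 <;> simp [hi] <;> omega

lemma str_ix_div {m : ℕ} (p : Fin m × Bool) : ix p / 2 = p.1 := by
  have := Bool.toNat_le p.2
  unfold ix
  omega

lemma str_sum_ix (m : ℕ) (f : ℕ → ℤ) :
    ∑ t ∈ Finset.range (2 * m), f t = ∑ p : Fin m × Bool, f (ix p) := by
  refine (Finset.sum_bij (fun p _ => ix p) (fun p _ => Finset.mem_range.2 (ix_lt p))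
    (fun p _ q _ h => str_ix_inj.1 h) (fun i hi => ?_) fun _ _ => rfl).symm
  obtain ⟨p, hp⟩ := str_exists_ix (Finset.mem_range.1 hi)
  exact ⟨p, Finset.mem_univ p, hp⟩

lemma str_getD_map {β : Type} (f : ℕ → β) {n x : ℕ} (d : β) (hx : x < n) :
    ((List.range n).map f).getD x d = f x := by
  simp [List.getD_eq_getElem?_getD, hx]

lemma str_findIdx (n : ℕ) (P : ℕ → Bool) :
    (List.range n).findIdx P ≤ n ∧
      ((List.range n).findIdx P < n → P ((List.range n).findIdx P) = true) ∧
      ∀ k < n, P k = true → (List.range n).findIdx P ≤ k := by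
  refine ⟨by simpa using List.findIdx_le_length (p := P) (xs := List.range n), fun h => ?_,
    fun k hk h => ?_⟩
  · have := List.findIdx_getElem (p := P) (xs := List.range n) (w := by simpa using h)
    rwa [List.getElem_range] at this
  · by_contra hn
    have := List.not_of_lt_findIdx (p := P) (xs := List.range n) (not_le.1 hn)
    rw [List.getElem_range, h] at this
    exact absurd this (by simp)

lemma str_lev (I : StrI) {R : ℕ → Fin I.1.length × Bool → Fin I.1.length × Bool → Prop}
    (h1 : ∀ j, Equivalence (R j)) (h2 : ∀ j p q, R (j + 1) p q → R j p q)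
    (h3 : ∀ j < I.2.length, ∀ p q, R j p q ↔ strTb I j (ix p) (ix q) = true)
    (h4 : ∀ p q, R I.2.length p q → p = q) :
    ∃ rt, (∀ j p, ix (rt j p) = strRtN I j (ix p)) ∧ StrLev R rt fun g => strLN I (ix g) := by
  have mono : ∀ j k, j ≤ k → ∀ p q, R k p q → R j p q := fun j k hjk p q h => by
    induction k, hjk using Nat.le_induction with
    | base => exact h
    | succ k _ ih => exact ih (h2 k p q h)
  have key : ∀ j (p : Fin I.1.length × Bool), ∃ r, ix r = strRtN I j (ix p) ∧ R j p r ∧
      ∀ q, R j p q → ix r ≤ ix q := fun j p => by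
    unfold strRtN
    split_ifs with hj
    · obtain ⟨-, a2, a3⟩ := str_findIdx (2 * I.1.length) fun b => strTb I j (ix p) b
      have a4 := (a3 _ (ix_lt p) ((h3 j hj p p).1 ((h1 j).refl p))).trans_lt (ix_lt p)
      obtain ⟨r, hr⟩ := str_exists_ix a4
      refine ⟨r, hr, (h3 j hj p r).2 (hr ▸ a2 a4), fun q hq => ?_⟩
      rw [hr]
      exact a3 _ (ix_lt q) ((h3 j hj p q).1 hq)
    · exact ⟨p, rfl, (h1 j).refl p, fun q hq => by rw [h4 p q (mono _ _ (not_lt.1 hj) p q hq)]⟩
  choose rt e1 e2 e3 using key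
  have up : ∀ j k, j ≤ k → ∀ g, rt j g = g → rt k g = g := fun j k hjk g h => by
    have a1 := e3 j g _ (mono j k hjk _ _ (e2 k g))
    rw [h] at a1
    exact str_ix_inj.1 (le_antisymm (e3 k g g ((h1 k).refl g)) a1)
  have top : ∀ j, I.2.length ≤ j → ∀ g, rt j g = g := fun j hj g =>
    (h4 _ _ (mono _ _ hj _ _ (e2 j g))).symm
  refine ⟨rt, e1, h1, h2, e2, fun j p q h => str_ix_inj.1 (le_antisymm
    (e3 j p _ ((h1 j).trans h (e2 j q))) (e3 j q _ ((h1 j).trans ((h1 j).symm h) (e2 j p)))),
    fun j g => ?_⟩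
  obtain ⟨a1, a2, a3⟩ := str_findIdx I.2.length fun j => decide (strRtN I j (ix g) = ix g)
  refine ⟨fun h => ?_, fun h => up _ j h g ?_⟩
  · rcases lt_or_ge j I.2.length with hj | hj
    · exact a3 j hj (by rw [← e1, h]; simp)
    · exact a1.trans hj
  · rcases a1.eq_or_lt with a4 | a4
    · exact top _ a4.ge g
    · exact str_ix_inj.1 ((e1 _ g).trans (of_decide_eq_true (a2 a4)))

/-- the list state represents the abstract state -/
def StrKRep (m : ℕ) (st : StrSt) (s : (Fin m → Fin m) × (Fin m → Fin m × Bool → ℤ)) : Prop :=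
  (∀ e : Fin m, st.1.getD e 0 = s.1 e) ∧ ∀ (e : Fin m) t, strX st e (ix t) = s.2 e t

lemma StrKRep.step {I : StrI} {st : StrSt} {par : Fin I.1.length × Bool → Fin I.1.length × Bool}
    {s : (Fin I.1.length → Fin I.1.length) × (Fin I.1.length → Fin I.1.length × Bool → ℤ)}
    (h : StrKRep I.1.length st s) (hpar : ∀ g, ix (par g) = strParN I (ix g))
    (g : Fin I.1.length × Bool) :
    StrKRep I.1.length (strStepN I st (ix g)) (strStep Prod.fst (fun g => (par g).1) s g) := by
  obtain ⟨h1, h2⟩ := h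
  unfold strStepN strStep
  rw [← hpar, str_ix_div, str_ix_div, h1, h1]
  by_cases hc : s.1 g.1 = s.1 (par g).1
  · rw [if_pos hc, if_pos (congrArg Fin.val hc)]
    exact ⟨h1, h2⟩
  · rw [if_neg hc, if_neg (fun h => hc (Fin.ext h))]
    refine ⟨fun x => ?_, fun x t => ?_⟩
    · dsimp only
      rw [str_getD_map _ _ x.2, h1]
      simp only [Fin.val_inj]
      split_ifs <;> rfl
    · rw [strX]
      dsimp only
      rw [str_getD_map _ _ x.2, str_getD_map _ _ (ix_lt t), h1, h2, h2, h2]
      simp only [Fin.val_inj, Pi.add_apply, str_ix_inj]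
      split_ifs with hx ht
      · simp [ht]
      · simp [ht]
      · rfl

lemma str_fold {I : StrI} {par : Fin I.1.length × Bool → Fin I.1.length × Bool}
    (hpar : ∀ g, ix (par g) = strParN I (ix g)) (l : List ℕ) (hl : ∀ a ∈ l, a < 2 * I.1.length)
    (hs : l.Pairwise fun a b => strLN I b ≤ strLN I a) :
    ∀ (L : Set (Fin I.1.length × Bool)) (st : StrSt)
      (s : (Fin I.1.length → Fin I.1.length) × (Fin I.1.length → Fin I.1.length × Bool → ℤ)),
      StrKRep I.1.length st s →
      StrInv Prod.fst (fun g => (par g).1) (fun g => strLN I (ix g)) L s →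
      (∀ a ∈ l, ∀ t ∈ L, strLN I a ≤ strLN I (ix t)) →
      ∃ s', StrKRep I.1.length (l.foldl (strStepN I) st) s' ∧
        StrInv Prod.fst (fun g => (par g).1) (fun g => strLN I (ix g)) (L ∪ {g | ix g ∈ l}) s' := by
  induction l with
  | nil => intro L st s h1 h2 _; exact ⟨s, h1, by simpa using h2⟩
  | cons a l ih =>
    intro L st s h1 h2 h3
    rw [List.pairwise_cons] at hs
    obtain ⟨g, rfl⟩ := str_exists_ix (hl a (by simp))
    obtain ⟨s', h4, h5⟩ := ih (fun f hf => hl f (by simp [hf])) hs.2 (insert g L) _ _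
      (h1.step hpar g) (h2.step (h := g) (h3 _ (by simp))) (by
        rintro f hf t (rfl | ht)
        · exact hs.1 f hf
        · exact h3 f (by simp [hf]) t ht)
    refine ⟨s', h4, ?_⟩
    convert h5 using 1
    ext t
    simp only [Set.mem_union, Set.mem_ofPred_eq, List.mem_cons, Set.mem_insert_iff, str_ix_inj]
    tauto

lemma str_main (I : StrI) {R : ℕ → Fin I.1.length × Bool → Fin I.1.length × Bool → Prop}
    (h1 : ∀ j, Equivalence (R j)) (h2 : ∀ j p q, R (j + 1) p q → R j p q)
    (h3 : ∀ j < I.2.length, ∀ p q, R j p q ↔ strTb I j (ix p) (ix q) = true)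
    (h4 : ∀ p q, R I.2.length p q → p = q) :
    ∃ σ : Str (Fin I.1.length), σ.Valid R ∧ σ.Rep (strOut I (strFin I)) := by
  obtain ⟨rt, e1, H⟩ := str_lev I h1 h2 h3 h4
  have hpar : ∀ g, ix (strPar rt (fun g => strLN I (ix g)) g) = strParN I (ix g) := fun g => e1 _ g
  have : Std.Total fun a b => strLN I b ≤ strLN I a := ⟨fun _ _ => le_total _ _⟩
  have : IsTrans ℕ fun a b => strLN I b ≤ strLN I a := ⟨fun _ _ _ h h' => h'.trans h⟩
  obtain ⟨s, k1, k2⟩ := str_fold hpar (strOrd I)
    (fun a ha => by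
      simp only [strOrd, List.mem_insertionSort, List.mem_filter, List.mem_range] at ha
      exact ha.1)
    (List.pairwise_insertionSort _ _) ∅ (List.range I.1.length, []) (id, 0)
    ⟨fun x => by simp [List.getD_eq_getElem?_getD], fun x t => by simp [strX]⟩
    (strInv_init _ _ _) (fun _ _ t ht => ht.elim)
  have hL : (∅ ∪ {g | ix g ∈ strOrd I} : Set (Fin I.1.length × Bool)) =
      {g | 0 < strLN I (ix g)} := by
    ext g
    simp [strOrd, ix_lt g]
  rw [hL] at k2
  change StrKRep _ (strFin I) s at k1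
  have tr : ∀ g, strTr I (strFin I) (ix g) = true ↔ ∃ e, s.2 e g ≠ 0 := fun g => by
    simp only [strTr, List.any_eq_true, List.mem_range, decide_eq_true_eq]
    exact ⟨fun ⟨e, he, h⟩ => ⟨⟨e, he⟩, by rwa [← k1.2]⟩, fun ⟨e, h⟩ => ⟨e, e.2, by rwa [k1.2]⟩⟩
  refine ⟨strMk rt (fun g => strLN I (ix g)) s, strMk_valid H k2, fun g => ?_, fun g => ?_,
    fun g => ?_, fun g e => ?_, k1.1⟩
  · rw [strOut, str_getD_map _ _ (ix_lt g)]
    simp [strMk]
  · rw [strOut]
    dsimp only
    rw [str_getD_map _ _ (ix_lt g), tr]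
    simp [strMk]
  · funext p
    rw [strOut, vec]
    dsimp only
    rw [str_getD_map _ _ (ix_lt g), str_getD_map _ _ (ix_lt p), str_sum_ix]
    simp only [strMk, Finset.sum_apply, Pi.smul_apply, smul_eq_mul]
    refine Finset.sum_congr rfl fun t _ => ?_
    congr 1
    · simp only [strKN, strK, tr, ← hpar, str_ix_div, k1.2, str_ix_inj]
      congr
    · simp only [strBN, strB, ← hpar, str_ix_inj, Pi.sub_apply, Pi.single_apply]
  · rw [strOut]
    dsimp only
    rw [str_getD_map _ _ (ix_lt g), str_getD_map _ _ e.2, k1.2]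
    simp [strMk]

/-- The input is `m` and the table `tab[j][ix p][ix q]` of the relations. -/
theorem exists_build : ∃ build : ℕ × List (List (List Bool)) → StrL,
    PT (fun p : List Unit × List (List (List Bool)) => build (p.1.length, p.2)) ∧
    ∀ (m : ℕ) (tab : List (List (List Bool))) (R : ℕ → Fin m × Bool → Fin m × Bool → Prop),
      (∀ j, Equivalence (R j)) → (∀ j p q, R (j + 1) p q → R j p q) →
      (∀ j < tab.length, ∀ p q, R j p q ↔ ((tab.getD j []).getD (ix p) []).getD (ix q) false = true) →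
      (∀ p q, R tab.length p q → p = q) →
      ∃ σ : Str (Fin m), σ.Valid R ∧ σ.Rep (build (m, tab)) := by
  have hu : ∀ u : List Unit, List.replicate u.length () = u := fun u =>
    (List.eq_replicate_iff.2 ⟨rfl, fun _ _ => rfl⟩).symm
  refine ⟨fun x => strOut (List.replicate x.1 (), x.2) (strFin (List.replicate x.1 (), x.2)), ?_,
    fun m tab R h1 h2 h3 h4 => ?_⟩
  · have : PT fun I : StrI => strOut I (strFin I) := by fun_prop
    exact this.congr fun p => by simp only [hu]
  · obtain ⟨u, rfl⟩ : ∃ u : List Unit, u.length = m := ⟨List.replicate m (), by simp⟩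
    simp only [hu]
    exact str_main (u, tab) h1 h2 h3 h4

theorem exists_str {m : ℕ} (R : ℕ → Fin m × Bool → Fin m × Bool → Prop) (h1 : ∀ j, Equivalence (R j))
    (h2 : ∀ j p q, R (j + 1) p q → R j p q) {J : ℕ} (h3 : ∀ p q, R J p q → p = q) :
    ∃ σ : Str (Fin m), σ.Valid R := by
  classical
  obtain ⟨build, -, h⟩ := exists_build
  obtain ⟨σ, hσ, -⟩ := h m ((List.range J).map fun j => (List.range (2 * m)).map fun a =>
    (List.range (2 * m)).map fun b => decide (∃ p q, ix p = a ∧ ix q = b ∧ R j p q)) R h1 h2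
    (fun j hj p q => by
      have hi : ∀ p q : Fin m × Bool, ix p = ix q → p = q := fun p q h => by
        obtain ⟨e, b⟩ := p
        obtain ⟨e', b'⟩ := q
        cases b <;> cases b' <;> simp [ix] at h ⊢ <;> omega
      simp only [List.length_map, List.length_range] at hj
      simp only [List.getD_eq_getElem?_getD, List.getElem?_map, List.getElem?_range hj,
        List.getElem?_range (ix_lt p), List.getElem?_range (ix_lt q), Option.map_some,
        Option.getD_some, decide_eq_true_eq]
      exact ⟨fun h => ⟨p, q, rfl, rfl, h⟩, fun ⟨p', q', e1, e2, h⟩ => hi _ _ e1 ▸ hi _ _ e2 ▸ h⟩)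
    (by simpa using h3)
  exact ⟨σ, hσ⟩

end Crest.Agent.R302
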