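import Crest.Agent.R302.Conc
import Crest.Agent.R302.Anneal
import Crest.Agent.R302.AlgOC
import Crest.Agent.R302.Str
import Crest.Agent.R309.Boost

/-!
Row 302, part E11: the FPRAS as an oracle polynomial time function of the input and the random bits.
-/

set_option autoImplicit false

namespace Crest.Agent.R302

open Finset Crest.Polymatroid Crest.Agent.Lib.PT Crest.Agent.R309

/-- the size parameter -/
def mainS (x : List ℕ) : ℕ :=
  2 ^ (20 + Nat.size (x.getD 0 0 + Nat.size (x.getD 1 0) + x.getD 3 0 / x.getD 2 0 + 2))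

/-- the number of repetitions -/
def mainK (x : List ℕ) : ℕ := Nat.size (x.getD 5 0) + 1

/-- the number of bits of one run -/
def mainT (x : List ℕ) : ℕ :=
  (alg (fun _ => false) (fun _ => ([], [], [], [], [])) (x.getD 0 0) (x.getD 1 0) (mainS x)).rTot

/-- the clamped size parameter -/
def mainS' (a : List ℕ × List Bool) : ℕ := min (mainS a.1) a.2.length

/-- the clamped number of elements -/
def mainN' (a : List ℕ × List Bool) : ℕ := min (a.1.getD 0 0) (mainS' a)

/-- the boosted estimate -/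
def mainF (sfm : Bool × List ℤ × ℤ × ℕ → Bool) (build : ℕ × List (List (List Bool)) → StrL)
    (a : List ℕ × List Bool) : ℚ :=
  med ((chunks (mainK a.1) (mainT a.1) a.2).map
    (alg sfm build (mainN' a) (a.1.getD 1 0) (mainS' a)).est)

lemma main_pt_S : PT mainS := by unfold mainS; fun_prop

lemma main_pt_K : PT mainK := by unfold mainK; fun_prop

lemma main_pb_K : PB mainK := by unfold mainK; fun_prop

section
variable {α : Type} [Enc α] {n R S : α → ℕ}

lemma main_pt_sT (hS : PT S) : PT fun a => sT (S a) := by unfold sT sJ sU; fun_prop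

lemma main_pb_sT (hS : PB S) : PB fun a => sT (S a) := by unfold sT sJ sU; fun_prop

lemma main_pt_rI (hn : PT n) (hR : PT R) (hS : PT S) : PT fun a => rI (n a) (R a) (S a) := by
  unfold rI sb; fun_prop

lemma main_pb_rI (hn : PB n) (hR : PT R) (hS : PT S) : PB fun a => rI (n a) (R a) (S a) := by
  unfold rI sb; fun_prop

lemma main_pt_tot (hn : PT n) (hn' : PB n) (hR : PT R) (hS : PT S) :
    PT fun a => 2 ^ (sb (R a) * n a) * (2 * S a ^ 3) := by
  unfold sb; fun_prop

end

lemma main_pt_T : PT mainT := by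
  have hS := main_pt_S
  refine pt_rTot (A := fun x : List ℕ =>
    alg (fun _ => false) (fun _ => ([], [], [], [], [])) (x.getD 0 0) (x.getD 1 0) (mainS x))
    ?_ hS ?_ ?_
  · change PT fun x : List ℕ => x.getD 0 0 + 2
    fun_prop
  · exact main_pt_sT hS
  · exact main_pt_rI (n := fun x : List ℕ => x.getD 0 0) (R := fun x : List ℕ => x.getD 1 0)
      (by fun_prop) (by fun_prop) hS

lemma main_oc_est {α : Type} [Enc α] {n R S : α → ℕ} {ω : α → List Bool}
    {sfm : Orc → Bool × List ℤ × ℤ × ℕ → Bool} (hs : OC sfm)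
    {build : ℕ × List (List (List Bool)) → StrL}
    (hb : PT fun p : List Unit × List (List (List Bool)) => build (p.1.length, p.2))
    (hn : PT n) (hn' : PB n) (hR : PT R) (hS : PT S) (hS' : PB S) (hω : PT ω) :
    OC fun O a => (alg (sfm O) build (n a) (R a) (S a)).est (ω a) := by
  obtain ⟨B, hB, hsz⟩ := sz_memL hn' hR hS'
  exact oc_est (m := fun a => n a + 2) (S := S) (Tn := fun a => sT (S a))
    (rI := fun a => rI (n a) (R a) (S a))
    (tot := fun a => 2 ^ (sb (R a) * n a) * (2 * S a ^ 3)) (B := B)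
    (mem := fun O a => memL (sfm O) (n a) (R a) (S a)) (wex := fun a => wexL (n a) (S a))
    (init := fun a => initL (n a) (R a)) (ω := ω)
    (hn.add (PT.const 2)) (hn'.add (PB.const 2)) hS hS' (main_pt_sT hS) (main_pb_sT hS')
    (main_pt_rI hn hR hS) (main_pb_rI hn' hR hS) (main_pt_tot hn hn' hR hS)
    (oc_memL hs hn hn' hR hS hS') (pt_wexL hn hS) hb
    (pt_initL hn hn' hR) hB (fun O a t l => hsz (sfm O) a t l) hω

lemma main_oc_med {α : Type} [Enc α] {n R S K T : α → ℕ} {ω : α → List Bool}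
    {sfm : Orc → Bool × List ℤ × ℤ × ℕ → Bool} (hs : OC sfm)
    {build : ℕ × List (List (List Bool)) → StrL}
    (hb : PT fun p : List Unit × List (List (List Bool)) => build (p.1.length, p.2))
    (hn : PT n) (hn' : PB n) (hR : PT R) (hS : PT S) (hS' : PB S) (hK : PT K) (hK' : PB K)
    (hT : PT T) (hω : PT ω) :
    OC fun O a => med ((chunks (K a) (T a) (ω a)).map
      (alg (sfm O) build (n a) (R a) (S a)).est) := by
  have h1 : OC fun O (p : α × List Bool) =>
      (alg (sfm O) build (n p.1) (R p.1) (S p.1)).est p.2 :=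
    main_oc_est (n := fun p : α × List Bool => n p.1) (R := fun p => R p.1) (S := fun p => S p.1)
      (ω := fun p => p.2) hs hb (hn.comp PT.id.fst) (hn'.comp PT.id.fst) (hR.comp PT.id.fst)
      (hS.comp PT.id.fst) (hS'.comp PT.id.fst) PT.id.snd
  have h3 : PT med := by unfold med; fun_prop
  exact OC.pt h3 (OC.map (f := fun O a u => (alg (sfm O) build (n a) (R a) (S a)).est u) h1
    (OC.pure (PT.chunks hK hK' hT hω)))

lemma main_oc {sfm : Orc → Bool × List ℤ × ℤ × ℕ → Bool} (hs : OC sfm)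
    {build : ℕ × List (List (List Bool)) → StrL}
    (hb : PT fun p : List Unit × List (List (List Bool)) => build (p.1.length, p.2)) :
    OC fun O a => mainF (sfm O) build a := by
  have hS : PT mainS' := PT.min (main_pt_S.comp PT.id.fst) (PT.length PT.id.snd)
  have hS' : PB mainS' := PB.min_right _ (PB.length PT.id.snd)
  have hn : PT mainN' :=
    PT.min (n := fun a : List ℕ × List Bool => a.1.getD 0 0) (by fun_prop) hS
  have hn' : PB mainN' := PB.min_right _ hS'
  have hR : PT fun a : List ℕ × List Bool => a.1.getD 1 0 := by fun_prop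
  have hK : PT fun a : List ℕ × List Bool => mainK a.1 := main_pt_K.comp PT.id.fst
  have hK' : PB fun a : List ℕ × List Bool => mainK a.1 := main_pb_K.comp PT.id.fst
  have hT : PT fun a : List ℕ × List Bool => mainT a.1 := main_pt_T.comp PT.id.fst
  have hω : PT fun a : List ℕ × List Bool => a.2 := PT.id.snd
  exact main_oc_med hs hb hn hn' hR hS hS' hK hK' hT hω

lemma main_nonneg (sfm : Bool × List ℤ × ℤ × ℕ → Bool) (build : ℕ × List (List (List Bool)) → StrL)
    (a : List ℕ × List Bool) : 0 ≤ mainF sfm build a := by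
  rcases med_mem_or _ with h | h
  · obtain ⟨u, -, e⟩ := List.mem_map.1 h
    exact (Alg.est_nonneg _ u).trans_eq e
  · exact h.ge

lemma main_lt_S (x : List ℕ) :
    x.getD 0 0 + Nat.size (x.getD 1 0) + x.getD 3 0 / x.getD 2 0 + 2 < mainS x :=
  (Nat.lt_size_self _).trans_le (Nat.pow_le_pow_right (by norm_num) (Nat.le_add_left _ _))

lemma main_szIn (x : List ℕ) : SzIn (x.getD 0 0) (x.getD 1 0) (mainS x) := by
  have := main_lt_S x
  refine ⟨⟨_, Nat.le_add_right _ _, rfl⟩, ?_, ?_⟩
  · generalize x.getD 3 0 / x.getD 2 0 = y at this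
    omega
  · unfold sb
    generalize x.getD 3 0 / x.getD 2 0 = y at this
    omega

lemma main_S_le (x : List ℕ) : mainS x ≤
    2 ^ 21 * (x.getD 0 0 + Nat.size (x.getD 1 0) + x.getD 3 0 / x.getD 2 0 + 2) := by
  unfold mainS
  generalize hm : x.getD 0 0 + Nat.size (x.getD 1 0) + x.getD 3 0 / x.getD 2 0 + 2 = m
  have h0 : 0 < m := by rw [← hm]; exact Nat.succ_pos _
  have h1 : 0 < Nat.size m := Nat.size_pos.2 h0
  have h2 : 2 ^ (Nat.size m - 1) ≤ m := Nat.lt_size.1 (by omega)
  rw [show 20 + Nat.size m = 21 + (Nat.size m - 1) by omega, pow_add]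
  exact Nat.mul_le_mul_left _ h2

lemma main_size_le (R : ℕ) : Nat.size R ≤ Nat.clog 2 (R + 2) :=
  Nat.size_le.2 (lt_of_lt_of_le (by omega) (Nat.le_pow_clog (by norm_num) (R + 2)))

lemma main_S_le_T (x : List ℕ) : mainS x ≤ mainT x := by
  have := (main_szIn x).n_le
  refine le_rTot (A := alg (fun _ => false) (fun _ => ([], [], [], [], [])) (x.getD 0 0)
    (x.getD 1 0) (mainS x)) ?_ ?_
  · change 1 ≤ mainS x
    omega
  · change 1 ≤ sT (mainS x)
    unfold sT
    omega

lemma main_T_le : ∃ e : ℕ, ∀ x : List ℕ, mainT x ≤ mainS x ^ e := by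
  refine ⟨10 ^ 7, fun x => ?_⟩
  have h := main_szIn x
  have h3 : 4 ≤ mainS x := by
    obtain ⟨k, hk, e⟩ := h.pow
    rw [e]
    exact le_trans (by norm_num) (Nat.pow_le_pow_right (by norm_num) (show 2 ≤ k by omega))
  refine rTot_le (A := alg (fun _ => false) (fun _ => ([], [], [], [], [])) (x.getD 0 0)
    (x.getD 1 0) (mainS x)) ?_ h.n_le h.sT_le ?_
  · change 2 ≤ mainS x
    omega
  · change rI (x.getD 0 0) (x.getD 1 0) (mainS x) ≤ mainS x ^ 3
    have h1 := h.n_le
    have h2 := h.b_le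
    have h4 : Nat.log 2 (mainS x) ≤ mainS x := Nat.log_le_self _ _
    have h5 : x.getD 0 0 * sb (x.getD 1 0) ≤ mainS x * mainS x :=
      Nat.mul_le_mul (by omega) h2
    unfold rI
    generalize mainS x = S at *
    have h6 : 4 * S ≤ S * S := Nat.mul_le_mul_right _ h3
    have h7 : 4 * (S * S) ≤ S * (S * S) := Nat.mul_le_mul_right _ h3
    have h8 : S ^ 3 = S * (S * S) := by ring
    omega

lemma main_F_eq (sfm : Bool × List ℤ × ℤ × ℕ → Bool) (build : ℕ × List (List (List Bool)) → StrL)
    {x : List ℕ} {ω : List Bool} (h : ω.length = mainK x * mainT x) :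
    mainF sfm build (x, ω) = med ((chunks (mainK x) (mainT x) ω).map
      (alg sfm build (x.getD 0 0) (x.getD 1 0) (mainS x)).est) := by
  have h1 : mainS x ≤ ω.length := by
    rw [h]
    exact (main_S_le_T x).trans (Nat.le_mul_of_pos_left _ (Nat.succ_pos _))
  have h2 : mainS' (x, ω) = mainS x := min_eq_left h1
  have h3 : mainN' (x, ω) = x.getD 0 0 := by
    rw [mainN', h2]
    have := (main_szIn x).n_le
    exact min_eq_left (by simp only; omega)
  rw [mainF, h2, h3]

lemma main_boost {A : Alg} {a b : ℚ} (k : ℕ) {P : List Bool → Prop}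
    (h : Pr A.rTot (fun u => ¬ P u) ≤ 1 / 16) (hP : ∀ u, P u → a ≤ A.est u ∧ A.est u ≤ b) :
    Pr (k * A.rTot) (fun ω => ¬ (a ≤ med ((chunks k A.rTot ω).map A.est) ∧
      med ((chunks k A.rTot ω).map A.est) ≤ b)) ≤ (1 / 2) ^ k := by
  refine (Pr_mono fun ω _ h => not_lt.1 fun c => h (med_between ?_)).trans (Pr_majority k _ _ h)
  have := List.length_eq_countP_add_countP (fun u => decide (a ≤ A.est u ∧ A.est u ≤ b))
    (l := chunks k A.rTot ω)
  rw [List.length_map, List.countP_map]
  simp only [length_chunks, decide_eq_true_eq, Function.comp_def] at this c ⊢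
  have h3 : (chunks k A.rTot ω).countP (fun u => decide ¬ (a ≤ A.est u ∧ A.est u ≤ b)) ≤ _ :=
    List.countP_mono_left (q := fun u => @decide (¬ P u) (Classical.propDecidable _))
      fun u _ e => @decide_eq_true _ (_) fun p => (of_decide_eq_true e) (hP u p)
  omega

/-- For `x = [n, R, εn, εd, δn, δd]` let `S x = 2 ^ (20 + clog 2 (n + size R + ⌈εd / εn⌉ + 2))`,
`k x = size δd + 1`, `len x = k x * rTot (alg n R (S x))`, and
`f O (x, ω) = med ((chunks k rTot ω).map (est (alg (sfm O) build n' R S')))` with `S' = min (S x) |ω|`,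
`n' = min n S'` (so that `S'`, `n'` are `PB`; nothing changes when `|ω| = len x`, `le_rTot`).
`exists_sfm`, `exists_build`, `oc_est`, `OC.map`; `alg_spec`, `est_good`, `IsFam.final`, `Pr_majority`,
`med_between` (as in `R309.TSz.best_good`), `1 / S ≤ ε`, `(1 / 2) ^ k ≤ δ`; `est_zero`, `memL_zero`,
`med_mem_or`. -/
theorem exists_fpras : ∃ (len : List ℕ → ℕ) (f : Orc → List ℕ × List Bool → ℚ) (C d : ℕ),
    PT len ∧ OC f ∧ (∀ O a, 0 ≤ f O a) ∧
    ∀ (n R : ℕ) (r₁ r₂ : Finset (Fin n) → ℕ) (ε δ : ℚ) (O : Orc),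
      IsPolymatroidRank r₁ → IsPolymatroidRank r₂ → r₁ univ = R → r₂ univ = R →
      0 < ε → ε < 1 → 0 < δ → δ < 1 →
      (∀ A, O (false, mask A) = r₁ A) → (∀ A, O (true, mask A) = r₂ A) →
      n ≤ len (countInput n R ε δ) ∧ len (countInput n R ε δ) ≤ C * (sizeParam n R ε δ + 1) ^ d ∧
      (numCommonIntBases R r₁ r₂ = 0 → ∀ ω : List Bool, ω.length = len (countInput n R ε δ) →
        f O (countInput n R ε δ, ω) = 0) ∧
      1 - (δ : ℝ) ≤ Pr (len (countInput n R ε δ)) fun ω =>
        (1 - ε) * numCommonIntBases R r₁ r₂ ≤ f O (countInput n R ε δ, ω) ∧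
          f O (countInput n R ε δ, ω) ≤ (1 + ε) * numCommonIntBases R r₁ r₂ := by
  obtain ⟨sfm, hsfm, hsfm'⟩ := exists_sfm
  obtain ⟨build, hbuild, hbuild'⟩ := exists_build
  obtain ⟨e, he⟩ := main_T_le
  refine ⟨fun x => mainK x * mainT x, fun O a => mainF (sfm O) build a, (2 ^ 22) ^ e, e + 1,
    main_pt_K.mul main_pt_T, main_oc hsfm hbuild, fun O a => main_nonneg _ _ a, ?_⟩
  intro n R r₁ r₂ ε δ O h₁ h₂ e₁ e₂ hε0 hε1 hδ0 hδ1 hO₁ hO₂
  have hS : SzIn n R (mainS (countInput n R ε δ)) := main_szIn (countInput n R ε δ)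
  have hlt : n + Nat.size R + ε.den / ε.num.natAbs + 2 < mainS (countInput n R ε δ) :=
    main_lt_S (countInput n R ε δ)
  have hle : mainS (countInput n R ε δ) ≤ 2 ^ 21 * (n + Nat.size R + ε.den / ε.num.natAbs + 2) :=
    main_S_le (countInput n R ε δ)
  have hK : mainK (countInput n R ε δ) = Nat.size δ.den + 1 := rfl
  have hF : ∀ ω : List Bool, ω.length = mainK (countInput n R ε δ) * mainT (countInput n R ε δ) →
      mainF (sfm O) build (countInput n R ε δ, ω) =
        med ((chunks (mainK (countInput n R ε δ))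
          (alg (sfm O) build n R (mainS (countInput n R ε δ))).rTot ω).map
          (alg (sfm O) build n R (mainS (countInput n R ε δ))).est) :=
    fun ω h => main_F_eq (sfm O) build h
  have hT : mainT (countInput n R ε δ) =
      (alg (sfm O) build n R (mainS (countInput n R ε δ))).rTot := rfl
  have hST := main_S_le_T (countInput n R ε δ)
  have heT := he (countInput n R ε δ)
  have hok : SfmOk (sfm O) r₁ r₂ R := by
    intro b y c
    cases b
    · exact hsfm' O false n r₁ y c R h₁ hO₁ e₁.le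
    · exact hsfm' O true n r₂ y c R h₂ hO₂ e₂.le
  have hnum : 0 < ε.num := Rat.num_pos.2 hε0
  have hεq : ε⁻¹ = (ε.den : ℚ) / (ε.num.natAbs : ℚ) := by
    rw [Nat.cast_natAbs, abs_of_pos hnum, ← inv_div, Rat.num_div_den]
  have hnum' : 0 < ε.num.natAbs := Int.natAbs_pos.2 hnum.ne'
  beta_reduce
  generalize mainS (countInput n R ε δ) = S at *
  generalize mainT (countInput n R ε δ) = T at *
  generalize mainK (countInput n R ε δ) = K at *
  have hzero : numCommonIntBases R r₁ r₂ = 0 → ∀ ω : List Bool, ω.length = K * T →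
      mainF (sfm O) build (countInput n R ε δ, ω) = 0 := by
    intro h0 ω hω
    rw [hF ω hω]
    rcases med_mem_or _ with h | h
    · obtain ⟨u, -, e⟩ := List.mem_map.1 h
      refine e.symm.trans (Alg.est_zero _ (Nat.succ_pos _) (fun z => ?_) u)
      exact (memL_zero hok e₁ h0 build z).resolve_right (not_not.2 hS)
    · exact h
  refine ⟨?_, ?_, hzero, ?_⟩
  · have := hS.n_le
    have h3 : T ≤ K * T := Nat.le_mul_of_pos_left _ (by omega)
    omega
  · have h3 : ε.den / ε.num.natAbs ≤ ⌈ε⁻¹⌉₊ := by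
      have h4 : ((ε.den / ε.num.natAbs : ℕ) : ℚ) ≤ (⌈ε⁻¹⌉₊ : ℚ) :=
        (Nat.cast_div_le.trans hεq.ge).trans (Nat.le_ceil _)
      exact_mod_cast h4
    have h4 := main_size_le R
    have h5 := main_size_le δ.den
    have h6 : K ≤ sizeParam n R ε δ + 1 := by unfold sizeParam; omega
    have h7 : S ≤ 2 ^ 22 * (sizeParam n R ε δ + 1) := by
      have h8 : n + Nat.size R + ε.den / ε.num.natAbs + 2 ≤ 2 * (sizeParam n R ε δ + 1) := by
        unfold sizeParam
        generalize ε.den / ε.num.natAbs = y at *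
        omega
      refine hle.trans ((Nat.mul_le_mul_left _ h8).trans_eq ?_)
      ring
    calc K * T ≤ (sizeParam n R ε δ + 1) * (2 ^ 22 * (sizeParam n R ε δ + 1)) ^ e :=
          Nat.mul_le_mul h6 (heT.trans (Nat.pow_le_pow_left h7 e))
      _ = (2 ^ 22) ^ e * (sizeParam n R ε δ + 1) ^ (e + 1) := by
          rw [mul_pow, pow_succ _ e]
          ac_rfl
  · have hδ0' : (0 : ℝ) < δ := by exact_mod_cast hδ0
    by_cases h0 : numCommonIntBases R r₁ r₂ = 0
    · rw [Pr_congr (Q := fun _ => True) fun ω hω => by simp [hzero h0 ω hω, h0], Pr_true]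
      linarith
    have hI : Inp r₁ r₂ R := ⟨h₁, h₂, e₁, e₂, h0⟩
    obtain ⟨I, hfam⟩ := hI.exists_fam S
    have hspec := alg_spec hfam hI hS hok (build := build) (hbuild' (n + 2))
    have hgood : Pr (alg (sfm O) build n R S).rTot (fun ω =>
        ¬ ((1 - 1 / (S : ℝ)) * (I (sT S)).Z 0 ≤ (alg (sfm O) build n R S).est ω ∧
          ((alg (sfm O) build n R S).est ω : ℝ) ≤ (1 + 1 / (S : ℝ)) * (I (sT S)).Z 0)) ≤ 1 / 16 :=
      Alg.est_good hspec
    rw [hfam.final hI hS] at hgood
    have hSε : 1 / (S : ℝ) ≤ ε := by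
      have h3 : ε⁻¹ ≤ (S : ℚ) := by
        rw [hεq, div_le_iff₀ (by exact_mod_cast hnum')]
        have h4 : ε.den < (ε.den / ε.num.natAbs + 1) * ε.num.natAbs := by
          rw [mul_comm]
          exact Nat.lt_mul_div_succ _ hnum'
        have h5 : (ε.den / ε.num.natAbs + 1) * ε.num.natAbs ≤ S * ε.num.natAbs :=
          Nat.mul_le_mul_right _ (by
            generalize ε.den / ε.num.natAbs = y at *
            omega)
        exact_mod_cast (h4.trans_le h5).le
      have h4 : (S : ℚ)⁻¹ ≤ ε := inv_le_of_inv_le₀ hε0 h3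
      have h5 : (((S : ℚ)⁻¹ : ℚ) : ℝ) ≤ (ε : ℝ) := Rat.cast_le.2 h4
      rwa [Rat.cast_inv, Rat.cast_natCast, ← one_div] at h5
    have hN : (0 : ℝ) ≤ numCommonIntBases R r₁ r₂ := Nat.cast_nonneg _
    have hb := main_boost (a := (1 - ε) * numCommonIntBases R r₁ r₂)
      (b := (1 + ε) * numCommonIntBases R r₁ r₂) K hgood fun u hu => by
        have h3 : (1 - (ε : ℝ)) * numCommonIntBases R r₁ r₂ ≤ (alg (sfm O) build n R S).est u :=
          le_trans (by gcongr) hu.1
        have h4 : ((alg (sfm O) build n R S).est u : ℝ) ≤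
            (1 + (ε : ℝ)) * numCommonIntBases R r₁ r₂ := hu.2.trans (by gcongr)
        exact ⟨by exact_mod_cast h3, by exact_mod_cast h4⟩
    have hKδ : (1 / 2 : ℝ) ^ K ≤ δ := by
      have h3 : δ.den ≤ 2 ^ K := by
        rw [hK]
        exact (Nat.lt_size_self _).le.trans (Nat.pow_le_pow_right (by norm_num) (Nat.le_succ _))
      have h4 : (1 : ℝ) ≤ δ.num := by exact_mod_cast Rat.num_pos.2 hδ0
      have h5 : (0 : ℝ) < δ.den := by exact_mod_cast δ.den_pos
      rw [Rat.cast_def, one_div_pow]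
      exact div_le_div₀ (by linarith) h4 h5 (by exact_mod_cast h3)
    rw [Pr_not, ← hT] at hb
    rw [Pr_congr fun ω hω => by rw [hF ω hω, ← hT]]
    linarith

end Crest.Agent.R302
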