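import Crest.Agent.R309.Markov

/-!
Row 302, part E1: an abstract Metropolis chain with dyadic weights, and repeated trials.
-/

set_option autoImplicit false

namespace Crest.Agent.R302

open Finset Crest.Agent.Lib.PT Crest.Agent.R309

variable {α : Type}

/-- One Metropolis step: laziness bit, sign bit, `r` bits for the move, `A` acceptance bits. -/
def metro (r A : ℕ) (prop : ℕ → Bool → α → α) (ok : α → Bool) (lw : α → ℤ) (a : α) (ω : List Bool) :
    α :=
  if ω.getD 0 false && ok a && ok (prop (ofBits ((ω.drop 2).take r)) (ω.getD 1 false) a) &&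
      (((ω.drop (2 + r)).take A).take
        (lw a - lw (prop (ofBits ((ω.drop 2).take r)) (ω.getD 1 false) a)).toNat).all (fun b => !b)
  then prop (ofBits ((ω.drop 2).take r)) (ω.getD 1 false) a else a

lemma metro_mem {Ω : Finset α} {r A : ℕ} {prop : ℕ → Bool → α → α} {ok : α → Bool} {lw : α → ℤ}
    (hok : ∀ a, ok a = true ↔ a ∈ Ω) {a : α} (ha : a ∈ Ω) (ω : List Bool) :
    metro r A prop ok lw a ω ∈ Ω := by
  unfold metro
  split_ifs with h
  · simp only [Bool.and_eq_true] at h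
    exact (hok _).1 h.1.2
  · exact ha

lemma metro_min (x y : ℤ) :
    (2 : ℝ) ^ x * (1 / 2 ^ (x - y).toNat) = min ((2 : ℝ) ^ x) ((2 : ℝ) ^ y) := by
  rcases le_total x y with h | h
  · rw [Int.toNat_eq_zero.2 (by omega), min_eq_left (zpow_le_zpow_right₀ one_le_two h)]
    simp
  · rw [min_eq_right (zpow_le_zpow_right₀ one_le_two h), ← zpow_natCast,
      Int.toNat_of_nonneg (by omega), zpow_sub₀ two_ne_zero]
    field_simp

/-- The acceptance probability. -/
noncomputable def metroAcc (ok : α → Bool) (lw : α → ℤ) (a a' : α) : ℝ :=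
  if ok a' = true then 1 / 2 ^ (lw a - lw a').toNat else 0

lemma metroAcc_nonneg (ok : α → Bool) (lw : α → ℤ) (a a' : α) : 0 ≤ metroAcc ok lw a a' := by
  unfold metroAcc
  split_ifs <;> positivity

lemma metroAcc_le_one (ok : α → Bool) (lw : α → ℤ) (a a' : α) : metroAcc ok lw a a' ≤ 1 := by
  unfold metroAcc
  split_ifs
  · exact div_le_one_of_le₀ (one_le_pow₀ one_le_two) (by positivity)
  · exact zero_le_one

lemma metro_Ex {Ω : Finset α} {r A : ℕ} {prop : ℕ → Bool → α → α} {ok : α → Bool} {lw : α → ℤ}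
    (hok : ∀ a, ok a = true ↔ a ∈ Ω) (hA : ∀ a ∈ Ω, ∀ a' ∈ Ω, lw a - lw a' ≤ A) {a : α}
    (ha : a ∈ Ω) (φ : α → ℝ) :
    Ex (2 + r + A) (fun ω => φ (metro r A prop ok lw a ω)) = φ a +
      (∑ i ∈ range (2 ^ r), ∑ b : Bool,
        metroAcc ok lw a (prop i b a) * (φ (prop i b a) - φ a)) / 2 ^ (r + 2) := by
  have inner : ∀ a', Ex A (fun v => φ (if (ok a' && ((v.take A).take (lw a - lw a').toNat).all
      (fun b => !b)) = true then a' else a)) = φ a + metroAcc ok lw a a' * (φ a' - φ a) := by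
    intro a'
    unfold metroAcc
    split_ifs with h
    · have hk : (lw a - lw a').toNat ≤ A := by
        have := hA a ha a' ((hok a').1 h)
        omega
      rw [← Pr_allFalse hk, tape_Pr, ← Ex_mul_right, ← Ex_const A (φ a), ← Ex_add]
      refine Ex_congr fun v hv => ?_
      rw [List.take_of_length_le hv.le, Ex_const]
      simp only [h, Bool.true_and, tapeInd]
      split_ifs <;> ring
    · simp [h, Ex_const]
  have key : ∀ b, Ex (r + A) (fun l => φ (metro r A prop ok lw a (true :: b :: l))) = φ a +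
      (∑ i ∈ range (2 ^ r), metroAcc ok lw a (prop i b a) * (φ (prop i b a) - φ a)) / 2 ^ r := by
    intro b
    have e := Ex_split r A fun u v => φ (if (ok (prop (ofBits u) b a) &&
      ((v.take A).take (lw a - lw (prop (ofBits u) b a)).toNat).all (fun b => !b)) = true then
        prop (ofBits u) b a else a)
    simp only [inner] at e
    rw [Ex_add, Ex_const, Ex_ofBits r fun i =>
      metroAcc ok lw a (prop i b a) * (φ (prop i b a) - φ a)] at e
    rw [← e]
    refine Ex_congr fun l _ => ?_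
    simp [metro, (hok a).2 ha, add_comm 2 r]
  have lazy : ∀ l, metro r A prop ok lw a (false :: l) = a := fun l => by simp [metro]
  rw [show 2 + r + A = r + A + 1 + 1 by ring, Ex_succ, Ex_succ (r + A), Ex_succ (r + A), key, key]
  simp only [lazy, Ex_const, Fintype.sum_bool, sum_add_distrib]
  field_simp
  ring

/-- For `a ≠ a'` in `Ω`: `Pr (step a = a') = ∑_{i < 2 ^ r, b, prop i b a = a'} 2 ^ (-(r + 2)) 2 ^ (-(lw a - lw a')⁺)`
(`Ex_succ`, `Ex_split`, `Ex_ofBits`, `Pr_allFalse`); the involution `(i, b) ↦ (i, !b)`.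
Compare `R309/Chain.lean`. -/
theorem metro_rev {Ω : Finset α} {r A : ℕ} {prop : ℕ → Bool → α → α} {ok : α → Bool} {lw : α → ℤ}
    (hok : ∀ a, ok a = true ↔ a ∈ Ω)
    (hinv : ∀ i b, ∀ a ∈ Ω, prop i b a ∈ Ω → prop i (!b) (prop i b a) = a)
    (hA : ∀ a ∈ Ω, ∀ a' ∈ Ω, lw a - lw a' ≤ A) :
    Rev Ω (fun a => (2 : ℝ) ^ lw a) (2 + r + A) (metro r A prop ok lw) := by
  refine ⟨fun x _ => by positivity, fun x hx ω => metro_mem hok hx ω, fun x hx y hy => ?_,
    fun x hx => ?_⟩
  · by_cases hxy : x = y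
    · rw [hxy]
    have key : ∀ x ∈ Ω, ∀ y ∈ Ω, x ≠ y →
        (2 : ℝ) ^ lw x * Pr (2 + r + A) (fun ω => metro r A prop ok lw x ω = y) =
          (∑ i ∈ range (2 ^ r), ∑ b : Bool, tapeInd (prop i b x = y)) *
            min ((2 : ℝ) ^ lw x) ((2 : ℝ) ^ lw y) / 2 ^ (r + 2) := by
      intro x hx y hy hxy
      have h0 : tapeInd (x = y) = 0 := by simp [tapeInd, hxy]
      rw [tape_Pr, metro_Ex hok hA hx fun z => tapeInd (z = y), h0, zero_add, ← mul_div_assoc,
        mul_sum, sum_mul]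
      congr 1
      refine sum_congr rfl fun i _ => ?_
      rw [mul_sum, sum_mul]
      refine sum_congr rfl fun b _ => ?_
      by_cases h : prop i b x = y
      · rw [h, metroAcc, if_pos ((hok y).2 hy), ← metro_min]
        ring
      · simp [tapeInd, h]
    rw [key x hx y hy hxy, key y hy x hx (Ne.symm hxy), min_comm]
    have sw : ∀ i b, prop i b x = y ↔ prop i (!b) y = x := fun i b =>
      ⟨fun h => h ▸ hinv i b x hx (h ▸ hy), fun h => by
        have := hinv i (!b) y hy (h ▸ hx)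
        rwa [h, Bool.not_not] at this⟩
    simp only [Fintype.sum_bool, sw, Bool.not_true, Bool.not_false, add_comm]
  · rw [tape_Pr, metro_Ex hok hA hx fun z => tapeInd (z = x)]
    have h1 : tapeInd (x = x) = 1 := by simp [tapeInd]
    have h2 : ∑ _i ∈ range (2 ^ r), ∑ _b : Bool, (-1 : ℝ) ≤ ∑ i ∈ range (2 ^ r), ∑ b : Bool,
        metroAcc ok lw x (prop i b x) * (tapeInd (prop i b x = x) - tapeInd (x = x)) :=
      sum_le_sum fun i _ => sum_le_sum fun b _ => by
        have := metroAcc_nonneg ok lw x (prop i b x)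
        have := metroAcc_le_one ok lw x (prop i b x)
        have := tapeInd_nonneg (prop i b x = x)
        rw [h1]
        nlinarith
    have h3 := div_le_div_of_nonneg_right h2 (by positivity : (0 : ℝ) ≤ 2 ^ (r + 2))
    have h4 : (∑ _i ∈ range (2 ^ r), ∑ _b : Bool, (-1 : ℝ)) / 2 ^ (r + 2) = -(1 / 2) := by
      simp only [sum_const, card_range, card_univ, Fintype.card_bool, nsmul_eq_mul]
      push_cast
      field_simp
      ring
    rw [h4] at h3
    refine le_trans ?_ (add_le_add h1.ge h3)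
    norm_num

theorem metro_en [DecidableEq α] {Ω : Finset α} {r A : ℕ} {prop : ℕ → Bool → α → α} {ok : α → Bool}
    {lw : α → ℤ} (hok : ∀ a, ok a = true ↔ a ∈ Ω) (hA : ∀ a ∈ Ω, ∀ a' ∈ Ω, lw a - lw a' ≤ A)
    (f : α → ℝ) {i : ℕ} (hi : i < 2 ^ r) (b : Bool) :
    ∑ a ∈ Ω.filter (fun a => prop i b a ∈ Ω),
      min ((2 : ℝ) ^ lw a) ((2 : ℝ) ^ lw (prop i b a)) * (f (prop i b a) - f a) ^ 2 ≤
      2 ^ (r + 2) * En Ω (fun a => (2 : ℝ) ^ lw a) (2 + r + A) (metro r A prop ok lw) f := by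
  have key : ∀ a ∈ Ω, (if prop i b a ∈ Ω then
      min ((2 : ℝ) ^ lw a) ((2 : ℝ) ^ lw (prop i b a)) * (f (prop i b a) - f a) ^ 2 else 0) ≤
      2 ^ (r + 2) * ∑ y ∈ Ω, (2 : ℝ) ^ lw a *
        Pr (2 + r + A) (fun ω => metro r A prop ok lw a ω = y) * (f a - f y) ^ 2 := by
    intro a ha
    simp only [mul_assoc]
    rw [← mul_sum, ← Ex_comp _ Ω _ (fun l _ => metro_mem hok ha l) fun y => (f a - f y) ^ 2,
      metro_Ex hok hA ha fun y => (f a - f y) ^ 2]
    simp only [sub_self, ne_eq, OfNat.ofNat_ne_zero, not_false_eq_true, zero_pow, sub_zero,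
      zero_add]
    have h0 : ∀ j c, 0 ≤ metroAcc ok lw a (prop j c a) * (f a - f (prop j c a)) ^ 2 := fun j c =>
      mul_nonneg (metroAcc_nonneg _ _ _ _) (sq_nonneg _)
    have h1 : metroAcc ok lw a (prop i b a) * (f a - f (prop i b a)) ^ 2 ≤
        ∑ j ∈ range (2 ^ r), ∑ c : Bool,
          metroAcc ok lw a (prop j c a) * (f a - f (prop j c a)) ^ 2 :=
      (single_le_sum (fun c _ => h0 i c) (mem_univ b)).trans
        (single_le_sum (f := fun j => ∑ c : Bool,
          metroAcc ok lw a (prop j c a) * (f a - f (prop j c a)) ^ 2)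
          (fun j _ => sum_nonneg fun c _ => h0 j c) (mem_range.2 hi))
    rw [mul_left_comm, mul_div_cancel₀ _ (by positivity)]
    refine le_trans (le_of_eq ?_) (mul_le_mul_of_nonneg_left h1 (by positivity))
    unfold metroAcc
    simp only [hok]
    split_ifs
    · rw [← metro_min]
      ring
    · simp
  rw [sum_filter, En, mul_sum]
  exact sum_le_sum key

/-- The result of the first successful trial. -/
def retry (R r : ℕ) (trial : α → List Bool → Option α) (z : α) (ω : List Bool) : α :=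
  ((chunks R r ω).findSome? (trial z)).getD z

lemma metro_retry_succ (R r : ℕ) (trial : α → List Bool → Option α) (z : α) (φ : α → ℝ) :
    Ex ((R + 1) * r) (fun ω => φ (retry (R + 1) r trial z ω)) =
      Ex r (fun ω => (trial z ω).elim 0 φ) +
        (1 - Ex r fun ω => (trial z ω).elim 0 fun _ => 1) *
          Ex (R * r) fun ω => φ (retry R r trial z ω) := by
  unfold retry
  rw [Ex_chunks_succ R r fun L => φ ((L.findSome? (trial z)).getD z), ← Ex_const r 1, ← Ex_sub,
    ← Ex_mul_right, ← Ex_add]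
  refine Ex_congr fun u _ => ?_
  cases h : trial z u <;> simp [h, Ex_const]

/-- With `G z = Ex r (φ ∘ trial z)` (failure counts `0`) and `p z` the same for `φ = 1`:
`Ex (φ ∘ retry z) = G z ∑_{i < R} (1 - p z) ^ i + (1 - p z) ^ R φ z` (`Ex_chunks_succ`), and
`|(1 - p z) ^ i - (1 - p) ^ i| ≤ i |p z - p|`. -/
theorem retry_near {Ω : Finset α} {π : α → ℝ} (hπ : ∀ z ∈ Ω, 0 ≤ π z) (hs : 0 < ∑ z ∈ Ω, π z)
    {c : (α → ℝ) → ℝ} (hc : ∀ φ, Unit01 φ → 0 ≤ c φ ∧ c φ ≤ 1) (hc1 : c (fun _ => 1) = 1)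
    {p κ : ℝ} (hp0 : 0 ≤ p) (hp1 : p ≤ 1) {R r : ℕ} {trial : α → List Bool → Option α}
    (h : ∀ φ, Unit01 φ →
      ∑ z ∈ Ω, π z * |Ex r (fun ω => (trial z ω).elim 0 φ) - p * c φ| ≤ κ * ∑ z ∈ Ω, π z)
    {φ : α → ℝ} (hφ : Unit01 φ) :
    |avg Ω π (fun z => Ex (R * r) fun ω => φ (retry R r trial z ω)) - c φ| ≤
      3 * R ^ 2 * κ + 2 * (1 - p) ^ R := by
  have h1 := h (fun _ => 1) fun _ => ⟨zero_le_one, le_rfl⟩
  have h2 := h φ hφ
  rw [hc1, mul_one] at h1
  have hκ : 0 ≤ κ := nonneg_of_mul_nonneg_left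
    ((sum_nonneg fun z hz => mul_nonneg (hπ z hz) (abs_nonneg _)).trans h2) hs
  obtain ⟨c0, c1⟩ := hc φ hφ
  have key : ∑ z ∈ Ω, π z * |(Ex (R * r) fun ω => φ (retry R r trial z ω)) - c φ| ≤
      (2 * R * κ + (1 - p) ^ R) * ∑ z ∈ Ω, π z := by
    induction R with
    | zero =>
      simp only [zero_mul, Ex_zero, Nat.cast_zero, mul_zero, pow_zero, zero_add, one_mul]
      refine sum_le_sum fun z hz => mul_le_of_le_one_right (hπ z hz) ?_
      have := hφ (retry 0 r trial z [])
      rw [abs_le]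
      constructor <;> linarith [this.1, this.2]
    | succ R ih =>
      have step : ∀ z ∈ Ω,
          π z * |(Ex ((R + 1) * r) fun ω => φ (retry (R + 1) r trial z ω)) - c φ| ≤
          π z * |Ex r (fun ω => (trial z ω).elim 0 φ) - p * c φ| +
            π z * |(Ex r fun ω => (trial z ω).elim 0 fun _ => 1) - p| +
            (1 - p) * (π z * |(Ex (R * r) fun ω => φ (retry R r trial z ω)) - c φ|) := by
        intro z hz
        have a0 : 0 ≤ Ex (R * r) fun ω => φ (retry R r trial z ω) := Ex_nonneg fun _ _ => (hφ _).1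
        have a1 : (Ex (R * r) fun ω => φ (retry R r trial z ω)) ≤ 1 :=
          (Ex_mono fun _ _ => (hφ _).2).trans (Ex_const _ 1).le
        rw [metro_retry_succ, mul_left_comm, ← mul_add, ← mul_add]
        refine mul_le_mul_of_nonneg_left ?_ (hπ z hz)
        generalize (Ex (R * r) fun ω => φ (retry R r trial z ω)) = H at a0 a1
        generalize (Ex r fun ω => (trial z ω).elim 0 fun _ => (1 : ℝ)) = q
        generalize (Ex r fun ω => (trial z ω).elim 0 φ) = G
        rw [show G + (1 - q) * H - c φ = (G - p * c φ) + -((q - p) * H) + (1 - p) * (H - c φ) by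
          ring]
        refine (abs_add_three _ _ _).trans (add_le_add (add_le_add le_rfl ?_) (le_of_eq ?_))
        · rw [abs_neg, abs_mul, abs_of_nonneg a0]
          exact mul_le_of_le_one_right (abs_nonneg _) a1
        · rw [abs_mul, abs_of_nonneg (by linarith : 0 ≤ 1 - p)]
      refine (sum_le_sum step).trans ?_
      rw [sum_add_distrib, sum_add_distrib, ← mul_sum]
      have a2 := mul_le_mul_of_nonneg_left ih (by linarith : 0 ≤ 1 - p)
      have a3 : 0 ≤ p * (2 * R * κ) * ∑ z ∈ Ω, π z := by positivity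
      push_cast
      rw [pow_succ]
      nlinarith
  have e : avg Ω π (fun z => Ex (R * r) fun ω => φ (retry R r trial z ω)) - c φ =
      (∑ z ∈ Ω, π z * ((Ex (R * r) fun ω => φ (retry R r trial z ω)) - c φ)) / ∑ z ∈ Ω, π z := by
    simp only [avg, mul_sub, sum_sub_distrib, ← sum_mul]
    field_simp
  rw [e, abs_div, abs_of_pos hs, div_le_iff₀ hs]
  refine (abs_sum_le_sum_abs _ _).trans ((le_of_eq (sum_congr rfl fun z hz => ?_)).trans
    (key.trans (mul_le_mul_of_nonneg_right ?_ hs.le)))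
  · rw [abs_mul, abs_of_nonneg (hπ z hz)]
  · have a1 : (R : ℝ) ≤ R ^ 2 := by exact_mod_cast Nat.le_self_pow two_ne_zero R
    have a2 : 0 ≤ (1 - p) ^ R := pow_nonneg (by linarith) _
    nlinarith [mul_le_mul_of_nonneg_right a1 hκ, mul_nonneg (sq_nonneg (R : ℝ)) hκ]

end Crest.Agent.R302
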