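import Crest.Agent.R302.PenAux

/-!
Row 302, part D3: the penalty.  Every `val r i` is an affine function of the point.
-/

set_option autoImplicit false
set_option linter.unusedSectionVars false

namespace Crest.Agent.R302

open Finset

variable {E : Type} [Fintype E] [DecidableEq E]

namespace Sys.Ok

variable {Y : Sys E}

lemma Hc_convex (Y : Sys E) (r : E) (a b : E × Bool → ℤ) :
    2 * Y.Hc r a ≤ Y.Hc r (a + b) + Y.Hc r (a - b) := by
  obtain ⟨i, -, hi⟩ := Finset.exists_mem_eq_sup' (⟨.inl ∅, mem_univ _⟩ : (univ : Finset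
    (Finset (E × Bool) ⊕ ((E × Bool) × Bool) ⊕ ((E × Bool) × Bool))).Nonempty) fun i => Y.val r i a
  have h0 : Y.Hc r a = Y.val r i a := hi
  have h1 := pen_le_Hc Y r i (a + b)
  have h2 := pen_le_Hc Y r i (a + -b)
  rw [pen_val_add] at h1 h2
  rw [pen_lin_neg] at h2
  rw [sub_eq_add_neg]
  linarith

/-- `Valid.U_sub`, `Valid.root_R`. -/
lemma Hc_loc (h : Y.Ok) (r : E) {a b : E × Bool → ℤ} (hab : ∀ p, Y.σ.root p.1 = r → a p = b p) :
    Y.Hc r a = Y.Hc r b := by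
  have key : ∀ i, Y.val r i a = Y.val r i b := by
    rintro (S | ⟨g, t⟩ | ⟨p, t⟩)
    · simp only [val]
      split_ifs with hc
      · rw [sum_congr rfl fun p hp => congrArg Int.cast (hab p (hc.1 p hp).2)]
      · rfl
    · simp only [val]
      split_ifs with hc
      · have e : Y.σ.coef g a = Y.σ.coef g b := by
          simp only [Str.coef, if_pos hc.1]
          refine sum_congr rfl fun e he => ?_
          have he' := ((h.valid.U_sub g hc.1 e he).1).trans hc.2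
          rw [ell_apply, ell_apply, hab (e, false) he', hab (e, true) he']
        rw [e]
      · rfl
    · simp only [val]
      split_ifs with hc
      · have e : ∀ q ∈ Y.kcl p, (a q : ℝ) = b q := fun q hq => by
          simp only [kcl, mem_filter, mem_univ, true_and] at hq
          rw [hab q ((h.valid.root_R q p ((Y.key_eq q p).1 hq)).trans hc)]
        rw [sum_congr rfl e]
      · rfl
  unfold Hc
  simp only [key]

lemma canon_supp (h : Y.Ok) {p q : E × Bool} (hq : Y.canon (uv p) q ≠ 0) :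
    Y.σ.root q.1 = Y.σ.root p.1 := by
  by_cases hqp : q = p
  · rw [hqp]
  have h1 : uv p q = 0 := by simp [uv, hqp]
  simp only [canon, ov, Pi.sub_apply, Finset.sum_apply, Pi.smul_apply, smul_eq_mul, h1, zero_sub,
    ne_eq, neg_eq_zero] at hq
  obtain ⟨g, hg, hne⟩ := exists_ne_zero_of_sum_ne_zero hq
  have hg' := H_sub Y hg
  rw [h.valid.v_sub g hg' q (right_ne_zero_of_mul hne)]
  have h2 := left_ne_zero_of_mul hne
  unfold Str.coef at h2
  split_ifs at h2 with ht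
  · obtain ⟨e, he, hne'⟩ := exists_ne_zero_of_sum_ne_zero h2
    have e1 : e = p.1 := by
      by_contra hc
      apply hne'
      rw [ell_apply]
      have a1 : (e, false) ≠ p := fun x => hc (by rw [← x])
      have a2 : (e, true) ≠ p := fun x => hc (by rw [← x])
      simp [uv, a1, a2]
    rw [← e1, (h.valid.U_sub g ht e he).1]
  · obtain ⟨x, hx, hne'⟩ := exists_ne_zero_of_sum_ne_zero h2
    have e1 : x = p := by
      by_contra hc
      exact hne' (by simp [uv, hc])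
    rw [← e1, h.valid.S_sub g hg' x hx]

lemma Hc_nonroot (h : Y.Ok) {r : E} (hr : Y.σ.root r ≠ r) (a : E × Bool → ℤ) :
    Y.Hc r a = -(2 * pT Y.s) := by
  have hne : ∀ e, Y.σ.root e ≠ r := fun e he => hr (by rw [← he, h.valid.root_idem])
  have key : ∀ i, Y.val r i a = -(2 * pT Y.s) := by
    rintro (S | ⟨g, t⟩ | ⟨p, t⟩)
    · simp only [val]
      refine if_neg fun hc => ?_
      obtain ⟨p, q, -, hp, -⟩ := pen_exists_split (fun _ _ => (Y.R_equiv _).symm) hc.2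
      exact hne _ (hc.1 p hp).2
    · simp only [val]
      exact if_neg fun hc => hne _ hc.2
    · simp only [val]
      exact if_neg (hne _)
  unfold Hc
  simp only [key, sup'_const]

/-- `‖canon (uv p)‖₁ ≤ 3 s²` and all margins are at least `pw / (2 pT)`. -/
lemma Hc_canon (h : Y.Ok) (r : E) (a : E × Bool → ℤ) (p : E × Bool) :
    |Y.Hc r (a + Y.canon (uv p)) - Y.Hc r a| ≤ 6 * Y.s ^ 2 * pT Y.s / pw Y.s := by
  refine pen_Hc_lip a fun i => (h.pen_lin_le r i (h.pen_norm_canon p)).trans_eq ?_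
  generalize (pw Y.s : ℝ) = w
  generalize (pT Y.s : ℝ) = T
  ring

/-- A thick constraint `S` that sees `v g` has `lv g ≤ pl S` (`Valid.cls`, `pl_spec`), and
`Δ g * pw = pθ (lv g)` for cycles; the leak constraints only see tree indices (`Δ = 1`); the class
margins see nothing. -/
lemma Hc_v (h : Y.Ok) (r : E) (a : E × Bool → ℤ) {g : E × Bool} (hg : g ∈ Y.H) {ρ : ℤ}
    (hρ : |ρ| ≤ Y.Δ g) :
    |Y.Hc r (a + ρ • Y.σ.v g) - Y.Hc r a| ≤ 6 * Y.s ^ 2 * pT Y.s / pw Y.s := by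
  refine pen_Hc_lip a fun i => (h.pen_lin_smul_v r i (H_sub Y hg) zero_le_one
    (by rw [one_mul]; exact_mod_cast hρ)).trans ?_
  have hT := h.pen_T_pos
  have hw := h.pen_w_pos
  have hs := h.pen_s
  rw [one_mul]
  refine div_le_div_of_nonneg_right (mul_le_mul_of_nonneg_right ?_ hT.le) hw.le
  nlinarith

lemma Hc_ov (h : Y.Ok) (r : E) (a : E × Bool → ℤ) {ρ : E × Bool → ℤ}
    (hρ : ∀ g ∈ Y.H, |ρ g| ≤ 2 * Y.Δ g) : |Y.Hc r (a + Y.ov ρ) - Y.Hc r a| ≤ 1 / Y.s ^ 20 := by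
  refine pen_Hc_lip a fun i => ?_
  have hs := h.pen_s
  have hs0 : (0 : ℝ) < Y.s := by linarith
  have h1 : ∀ g ∈ Y.H, |Y.penLin r i (ρ g • Y.σ.v g)| ≤ 2 * (4 * Y.s * pT Y.s / pw Y.s) :=
    fun g hg => h.pen_lin_smul_v r i (H_sub Y hg) zero_le_two (by exact_mod_cast hρ g hg)
  have h2 : (Y.H.card : ℝ) * (2 * (4 * Y.s * pT Y.s / pw Y.s)) ≤
      Y.s * (2 * (4 * Y.s * pT Y.s / pw Y.s)) :=
    mul_le_mul_of_nonneg_right (h.pen_card_le _) (by positivity)
  have h3 : (Y.s : ℝ) * (2 * (4 * Y.s * pT Y.s / pw Y.s)) ≤ 1 / Y.s ^ 20 := by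
    have h4 := h.pen_pow_lt (a := 33) (b := 330) (by norm_num)
    have h5 : (0 : ℝ) < (Y.s : ℝ) ^ 33 := by positivity
    have hw := h.pen_w_pos
    rw [← pen_pw] at h4
    rw [pen_pT]
    generalize (pw Y.s : ℝ) = w at *
    rw [le_div_iff₀ (by positivity)]
    calc _ = 8 * (Y.s : ℝ) ^ 33 / w := by ring
      _ ≤ 1 := (div_le_one hw).2 (by linarith)
  unfold ov
  rw [pen_lin_sum]
  calc _ ≤ ∑ g ∈ Y.H, |Y.penLin r i (ρ g • Y.σ.v g)| := abs_sum_le_sum_abs _ _
    _ ≤ Y.H.card • (2 * (4 * Y.s * pT Y.s / pw Y.s) : ℝ) := sum_le_card_nsmul _ _ _ h1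
    _ ≤ _ := by
      rw [nsmul_eq_mul]
      exact h2.trans h3

lemma pen_inv (h : Y.Ok) : (1 : ℝ) / Y.s ^ 20 ≤ 1 / 4 := by
  have := h.pen_pow_lt (a := 0) (b := 20) (by norm_num)
  rw [pow_zero] at this
  exact one_div_le_one_div_of_le (by norm_num) (by linarith)

lemma pen_cellOf (h : Y.Ok) (r : E) (a : E × Bool → ℤ) :
    Y.Hc r (Y.pt (Y.cellOf a)) ≤ Y.Hc r a + 1 / Y.s ^ 20 := by
  have h1 := h.Hc_ov r (Y.pt (Y.cellOf a)) (ρ := Y.offOf a) fun g hg => by
    have := (mem_Off.1 (offOf_mem Y a)).1 g hg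
    rw [abs_of_nonneg this.1]
    linarith [this.1, this.2]
  rw [h.pt_cellOf] at h1
  linarith [(abs_le.1 h1).1]

/-- `range_le` at level `0` for `pred j` and `kcl p`, with `norm_ell_le`. -/
theorem Hc_Om (h : Y.Ok) (r : E) {a : E × Bool → ℤ} (ha : a ∈ Y.Om) : Y.Hc r a ≤ 0 := by
  have hT := h.pen_T_pos
  have hw := h.pen_w_pos
  have hD := h.pen_D_pos
  have ha' := ha
  simp only [Om, mem_filter, Inst.mem_N] at ha'
  obtain ⟨hB, -, hL⟩ := ha'
  have hdev : ∀ S, Cls (Y.R 0) S → |∑ p ∈ S, (a p : ℝ) - ∑ p ∈ S, Y.c p| ≤ pD1 Y.s := by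
    intro S hS
    refine (h.range_le hB (h.norm_ell_le ha) hS).trans ?_
    have h1 := h.pen_pow_lt (a := 349) (b := 350) (by norm_num)
    have h2 := h.pen_pow_le (a := 332) (b := 349) (by norm_num)
    have hs := h.pen_s
    have h3 : (0 : ℝ) < (Y.s : ℝ) ^ 349 := by positivity
    have e1 : (Y.s : ℝ) ^ 349 = Y.s ^ 4 * Y.s ^ 345 := pow_add _ 4 345
    have e2 : (Y.s : ℝ) ^ 332 = Y.s ^ 2 * Y.s ^ 330 := pow_add _ 2 330
    push_cast
    rw [pen_pθ, pen_pw, pen_pD1, pow_zero, mul_one]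
    generalize (Y.s : ℝ) ^ 350 = x1 at *
    generalize (Y.s : ℝ) ^ 349 = x2 at *
    generalize (Y.s : ℝ) ^ 345 = x3 at *
    generalize (Y.s : ℝ) ^ 332 = x4 at *
    generalize (Y.s : ℝ) ^ 330 = x5 at *
    nlinarith
  refine pen_Hc_le ?_
  rintro (S | ⟨g, t⟩ | ⟨p, t⟩)
  · simp only [val]
    split_ifs with hc
    · have hθ := h.pen_θ_pos (Y.pl S)
      refine div_nonpos_of_nonpos_of_nonneg ?_ (div_nonneg hθ.le (by linarith))
      have h1 := hB.1 (Y.pred (S.sup Y.key) ∪ S)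
      rw [sum_union (pen_disj fun p hp => (hc.1 p hp).1)] at h1
      have h2 : ∑ p ∈ Y.pred (S.sup Y.key), (a p : ℝ) + ∑ p ∈ S, (a p : ℝ) ≤
          Y.F (Y.pred (S.sup Y.key) ∪ S) := by exact_mod_cast h1
      have h3 := (abs_le.1 (hdev _ (pen_cls_pred Y 0 (S.sup Y.key)))).1
      linarith
    · linarith
  · simp only [val]
    split_ifs with hc
    · refine div_nonpos_of_nonpos_of_nonneg ?_ (by positivity)
      have h1 := hL g hc.1
      have h2 : |(Y.σ.coef g a : ℝ)| ≤ pw Y.s := by exact_mod_cast abs_le.2 ⟨h1.1, h1.2.le⟩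
      linarith [pen_sg_le t (Y.σ.coef g a : ℝ)]
    · linarith
  · simp only [val]
    split_ifs with hc
    · refine div_nonpos_of_nonpos_of_nonneg ?_ (div_nonneg hD.le (by linarith))
      have h1 := hdev _ (pen_cls_kcl Y 0 p)
      linarith [pen_sg_le t (∑ q ∈ Y.kcl p, (a q : ℝ) - ∑ q ∈ Y.kcl p, Y.c q)]
    · linarith

/-- `pred j ∪ S` splits the same class of level `pl S` as `S`; roots are not in `U g`. -/
theorem Hc_near (h : Y.Ok) (r : E) {a : E × Bool → ℤ} {i k : E} (hτ : ell a = Y.τ i k)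
    (ha : ∀ p, |(a p : ℝ) - Y.c p| ≤ 3) : Y.Hc r a ≤ -(2 * pT Y.s) + 1 := by
  have hT := h.pen_T_pos
  have hw := h.pen_w_pos
  have hD := h.pen_D_pos
  have hs := h.pen_s
  have hdev : ∀ S : Finset (E × Bool), |∑ p ∈ S, (a p : ℝ) - ∑ p ∈ S, Y.c p| ≤ 3 * Y.s := by
    intro S
    rw [← sum_sub_distrib]
    calc _ ≤ ∑ p ∈ S, |(a p : ℝ) - Y.c p| := abs_sum_le_sum_abs _ _
      _ ≤ S.card • (3 : ℝ) := sum_le_card_nsmul _ _ _ fun p _ => ha p
      _ ≤ _ := by
        rw [nsmul_eq_mul]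
        linarith [h.pen_card_le S]
  have hD1 : 6 * Y.s * (pT Y.s : ℝ) ≤ pD1 Y.s := by
    have h1 := h.pen_pow_lt (a := 12) (b := 350) (by norm_num)
    rw [← pen_pD1] at h1
    have h2 : (0 : ℝ) < (Y.s : ℝ) ^ 12 := by positivity
    rw [pen_pT]
    generalize (pD1 Y.s : ℝ) = D at *
    nlinarith
  have hT1 : (1 : ℝ) ≤ pT Y.s := by
    rw [pen_pT]
    exact one_le_pow₀ (by linarith)
  refine pen_Hc_le ?_
  rintro (S | ⟨g, t⟩ | ⟨p, t⟩)
  · simp only [val]
    split_ifs with hc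
    · have hθ := h.pen_θ_pos (Y.pl S)
      obtain ⟨p, q, hpq, hp, hq⟩ :=
        pen_exists_split (fun _ _ => (Y.R_equiv _).symm) (h.pl_spec hc.2).2.1
      have hq' : q ∉ Y.pred (S.sup Y.key) ∪ S := by
        simp only [mem_union, pred, mem_filter, mem_univ, true_and, hq, or_false, not_lt]
        rw [← pen_key_of_R hpq, (hc.1 p hp).1]
      have h1 := le_slack_of_not_cls (pen_not_cls hpq (mem_union_right _ hp) hq')
      unfold slack at h1
      rw [sum_union (pen_disj fun p hp => (hc.1 p hp).1)] at h1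
      have h2 := (abs_le.1 (hdev S)).2
      refine pen_div_le_of hT hθ ?_
      have h3 : 0 ≤ (pθ Y.s (Y.pl S) : ℝ) / (2 * pT Y.s) := div_nonneg hθ.le (by linarith)
      have h4 : 3 * Y.s ≤ (pD1 Y.s : ℝ) := by nlinarith
      linarith
    · linarith
  · simp only [val]
    split_ifs with hc
    · have e : Y.σ.coef g a = 0 := by
        simp only [Str.coef, if_pos hc.1, hτ]
        refine sum_eq_zero fun e he => ?_
        have h1 := (h.valid.U_sub g hc.1 e he).2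
        have a1 : ∀ x, e ≠ Y.σ.root x := fun x hx => h1 (by rw [hx, h.valid.root_idem])
        simp [τ, a1]
      refine pen_div_le_of hT hw ?_
      have h3 : 0 ≤ (pw Y.s : ℝ) / (2 * pT Y.s) := by positivity
      rw [e, Int.cast_zero, mul_zero]
      linarith
    · linarith
  · simp only [val]
    split_ifs with hc
    · refine pen_div_le_of hT hD ?_
      have h1 := hdev (Y.kcl p)
      have h3 : 3 * Y.s ≤ (pD1 Y.s : ℝ) / (2 * pT Y.s) := by
        rw [le_div_iff₀ (by positivity)]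
        linarith
      linarith [pen_sg_le t (∑ q ∈ Y.kcl p, (a q : ℝ) - ∑ q ∈ Y.kcl p, Y.c q)]
    · linarith

/-- If `S` is a union of classes of level `jK` use `Flab`.  Otherwise `chain_le` for `key`:
`slack S a ≥ ∑ j, (F (A j ∪ S j) - F (A j) - a (S j))`, `A j = pred j` is closed
(`slack_closed`: `slack (A j) c ≤ s² pθ 0`), `|a (A j) - c (A j)| ≤ s pD1` by the class margins.  A
term with `S j` a union of classes of level `jK` is `≥ a (A j) - F (A j) ≥ - s pD1 - s² pθ 0`; any other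
term is `≥ pθ (pl (S j)) / (8 pT) - pD1 - s² pθ 0`, and the pair of level `j₀` split by `S` lies in
one class `j`, so `pl (S j) ≥ j₀` there. -/
theorem real (h : Y.Ok) {a : E × Bool → ℤ} (hβ : InB Y.Flab (agg Y.lab a))
    (hH : ∀ r, Y.Hc r a ≤ -(1 / 4)) : InB Y.F a ∧ Y.Leak a ∧ Y.Good 16 a := by
  have hT := h.pen_T_pos
  have hw := h.pen_w_pos
  have hD := h.pen_D_pos
  have hv : ∀ r i, Y.val r i a ≤ -(1 / 4) := fun r i => (pen_le_Hc Y r i a).trans (hH r)
  have hG : Y.Good 16 a := h.pen_good hβ hv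
  refine ⟨⟨fun S => ?_, ?_⟩, fun g hg => ?_, hG⟩
  · by_cases hS : Cls (Y.R (jK Y.s)) S
    · exact pen_cls_le hβ hS
    · have h1 := hG S _ le_rfl hS
      have h2 := h.pen_θ_pos (jK Y.s)
      have h3 : 0 ≤ slack Y.F S (toR a) := le_trans (div_nonneg h2.le (by linarith)) h1
      unfold slack toR at h3
      exact_mod_cast sub_nonneg.1 h3
  · have h1 := hβ.2
    have e : pre Y.lab univ = univ := by simp [pre]
    rwa [sum_agg, Flab, e] at h1
  · have h1 := hv (Y.σ.root g.1) (.inr (.inl (g, true)))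
    have h2 := hv (Y.σ.root g.1) (.inr (.inl (g, false)))
    simp only [val, hg, and_self, if_true, sg, one_mul, Bool.false_eq_true, if_false] at h1 h2
    have h3 := pen_le_of_div hT hw h1
    have h4 := pen_le_of_div hT hw h2
    have h5 : (0 : ℝ) < pw Y.s / (8 * pT Y.s) := by positivity
    have h6 : -(pw Y.s : ℝ) ≤ Y.σ.coef g a := by linarith
    have h7 : (Y.σ.coef g a : ℝ) < pw Y.s := by linarith
    exact ⟨by exact_mod_cast h6, by exact_mod_cast h7⟩

theorem deep_mem (h : Y.Ok) {x : (E × Bool → ℤ) × (E × Bool → ℤ)} (hx : x ∈ Y.Deep (1 / 2))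
    {ρ : E × Bool → ℤ} (hρ : ∀ g ∈ Y.H, |ρ g| ≤ 2 * Y.Δ g) :
    Y.pt x + Y.ov ρ ∈ Y.Om ∧ Y.Good 16 (Y.pt x + Y.ov ρ) := by
  simp only [Deep, TCells, Cells, mem_filter] at hx
  obtain ⟨⟨⟨-, hβ, -⟩, i, k, hτ⟩, hH⟩ := hx
  have h1 : InB Y.Flab (agg Y.lab (Y.pt x + Y.ov ρ)) := by
    rwa [h.agg_pt (h.agg_of_Flab hβ)]
  have h2 := h.pen_inv
  obtain ⟨h3, h4, h5⟩ := h.real h1 fun r => by
    have := (abs_le.1 (h.Hc_ov r (Y.pt x) hρ)).2
    linarith [hH r]
  refine ⟨?_, h5⟩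
  simp only [Om, mem_filter, Inst.mem_N]
  exact ⟨h3, ⟨i, k, (h.ty_pt x ρ).trans hτ⟩, h4⟩

theorem Hc_cellOf (h : Y.Ok) (r : E) {a : E × Bool → ℤ} (ha : a ∈ Y.Om) :
    Y.Hc r (Y.pt (Y.cellOf a)) ≤ 1 / Y.s ^ 20 := by
  linarith [h.pen_cellOf r a, h.Hc_Om r ha]

/-- A feasible type has a very deep cell (`exists_of_Flab`, `exists_deep`, `Hc_near`). -/
theorem exists_deep_cell (h : Y.Ok) {x : (E × Bool → ℤ) × (E × Bool → ℤ)} (hx : x ∈ Y.Cells) {i k : E}
    (hτ : Y.ty x.1 = Y.τ i k) : ∃ y ∈ Y.Deep (pT Y.s), Y.ty y.1 = Y.τ i k := by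
  simp only [Cells, mem_filter] at hx
  obtain ⟨a, ha, hab⟩ := h.exists_of_Flab hx.2.1
  obtain ⟨b, hb, h1, h2, h3⟩ := h.exists_deep ha (i := i) (k := k) (by rw [← h.ty_agg, hab, hτ])
  refine ⟨Y.cellOf b, ?_, (h.ty_agg b).trans h2⟩
  simp only [Deep, mem_filter]
  refine ⟨h.cellOf_mem hb, fun r => ?_⟩
  have h4 := h.pen_cellOf r b
  have h5 := h.Hc_near r h1 h3
  have h6 := h.pen_inv
  have h7 : (2 : ℝ) ≤ pT Y.s := by
    have := h.pen_pow_lt (a := 0) (b := 11) (by norm_num)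
    rw [pen_pT]
    linarith [pow_zero (Y.s : ℝ)]
  linarith

end Sys.Ok

end Crest.Agent.R302
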