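import Crest.Agent.R302.Cell

/-!
Row 302, part D3 (auxiliary): the linear parts of the constraints of the penalty.
-/

set_option autoImplicit false
set_option linter.unusedSectionVars false

namespace Crest.Agent.R302

open Finset

variable {E : Type} [Fintype E] [DecidableEq E]

namespace Sys

variable (Y : Sys E)

open Classical in
/-- the linear part of `val` -/
noncomputable def penLin (r : E) :
    Finset (E × Bool) ⊕ ((E × Bool) × Bool) ⊕ ((E × Bool) × Bool) → (E × Bool → ℤ) → ℝ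
  | .inl S, a =>
    if (∀ p ∈ S, Y.key p = S.sup Y.key ∧ Y.σ.root p.1 = r) ∧ ¬ Cls (Y.R (jK Y.s)) S then
      ((∑ p ∈ S, a p : ℤ) : ℝ) / (pθ Y.s (Y.pl S) / (2 * pT Y.s))
    else 0
  | .inr (.inl (g, b)), a =>
    if g ∈ Y.σ.tree ∧ Y.σ.root g.1 = r then
      sg b * (Y.σ.coef g a : ℝ) / (pw Y.s / (2 * pT Y.s))
    else 0
  | .inr (.inr (p, b)), a =>
    if Y.σ.root p.1 = r then
      sg b * ((∑ q ∈ Y.kcl p, a q : ℤ) : ℝ) / (pD1 Y.s / (2 * pT Y.s))
    else 0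

variable {Y}

lemma pen_ell_add (a b : E × Bool → ℤ) (e : E) : ell (a + b) e = ell a e + ell b e := by
  simp only [ell_apply, Pi.add_apply]
  ring

lemma pen_ell_smul (t : ℤ) (a : E × Bool → ℤ) (e : E) : ell (t • a) e = t * ell a e := by
  simp only [ell_apply, Pi.smul_apply, smul_eq_mul]
  ring

lemma pen_coef_add (Y : Sys E) (g : E × Bool) (a b : E × Bool → ℤ) :
    Y.σ.coef g (a + b) = Y.σ.coef g a + Y.σ.coef g b := by
  unfold Str.coef
  split_ifs
  · simp only [pen_ell_add, sum_add_distrib]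
  · simp only [Pi.add_apply, sum_add_distrib]

lemma pen_coef_smul (Y : Sys E) (g : E × Bool) (t : ℤ) (a : E × Bool → ℤ) :
    Y.σ.coef g (t • a) = t * Y.σ.coef g a := by
  unfold Str.coef
  split_ifs
  · simp only [pen_ell_smul, mul_sum]
  · simp only [Pi.smul_apply, smul_eq_mul, mul_sum]

lemma pen_val_add (Y : Sys E) (r : E) (i) (a d : E × Bool → ℤ) :
    Y.val r i (a + d) = Y.val r i a + Y.penLin r i d := by
  rcases i with S | ⟨g, b⟩ | ⟨p, b⟩
  · simp only [val, penLin]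
    split_ifs
    · simp only [Pi.add_apply, Int.cast_add, sum_add_distrib, Int.cast_sum]
      ring
    · simp
  · simp only [val, penLin]
    split_ifs
    · rw [pen_coef_add]
      push_cast
      ring
    · simp
  · simp only [val, penLin]
    split_ifs
    · simp only [Pi.add_apply, Int.cast_add, sum_add_distrib, Int.cast_sum]
      ring
    · simp

lemma pen_lin_add (Y : Sys E) (r : E) (i) (a d : E × Bool → ℤ) :
    Y.penLin r i (a + d) = Y.penLin r i a + Y.penLin r i d := by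
  have h1 := pen_val_add Y r i 0 (a + d)
  have h2 := pen_val_add Y r i (0 + a) d
  have h3 := pen_val_add Y r i 0 a
  rw [add_assoc] at h2
  linarith

lemma pen_lin_smul (Y : Sys E) (r : E) (i) (t : ℤ) (d : E × Bool → ℤ) :
    Y.penLin r i (t • d) = t * Y.penLin r i d := by
  rcases i with S | ⟨g, b⟩ | ⟨p, b⟩
  · simp only [penLin]
    split_ifs
    · simp only [Pi.smul_apply, smul_eq_mul, ← mul_sum, Int.cast_mul]
      ring
    · simp
  · simp only [penLin]
    split_ifs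
    · rw [pen_coef_smul]
      push_cast
      ring
    · simp
  · simp only [penLin]
    split_ifs
    · simp only [Pi.smul_apply, smul_eq_mul, ← mul_sum, Int.cast_mul]
      ring
    · simp

lemma pen_lin_zero (Y : Sys E) (r : E) (i) : Y.penLin r i 0 = 0 := by
  have := pen_lin_smul Y r i 0 0
  simpa using this

lemma pen_lin_neg (Y : Sys E) (r : E) (i) (d : E × Bool → ℤ) :
    Y.penLin r i (-d) = -Y.penLin r i d := by
  have := pen_lin_smul Y r i (-1) d
  simpa using this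

lemma pen_lin_sum (Y : Sys E) (r : E) (i) {κ : Type} (J : Finset κ) (d : κ → E × Bool → ℤ) :
    Y.penLin r i (∑ g ∈ J, d g) = ∑ g ∈ J, Y.penLin r i (d g) := by
  classical
  induction J using Finset.induction_on with
  | empty => simp [pen_lin_zero]
  | insert g J hg ih => rw [sum_insert hg, sum_insert hg, pen_lin_add, ih]

lemma pen_le_Hc (Y : Sys E) (r : E) (i) (a : E × Bool → ℤ) : Y.val r i a ≤ Y.Hc r a :=
  Finset.le_sup' (fun i => Y.val r i a) (mem_univ i)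

lemma pen_Hc_le {r : E} {a : E × Bool → ℤ} {t : ℝ} (h : ∀ i, Y.val r i a ≤ t) : Y.Hc r a ≤ t :=
  Finset.sup'_le _ _ fun i _ => h i

lemma pen_Hc_lip {r : E} (a : E × Bool → ℤ) {d : E × Bool → ℤ} {t : ℝ}
    (h : ∀ i, |Y.penLin r i d| ≤ t) : |Y.Hc r (a + d) - Y.Hc r a| ≤ t := by
  have h1 : Y.Hc r (a + d) ≤ Y.Hc r a + t := pen_Hc_le fun i => by
    have := pen_le_Hc Y r i a
    have := (abs_le.1 (h i)).2
    rw [pen_val_add]
    linarith
  have h2 : Y.Hc r a ≤ Y.Hc r (a + d) + t := pen_Hc_le fun i => by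
    have h3 := pen_le_Hc Y r i (a + d)
    have := (abs_le.1 (h i)).1
    rw [pen_val_add] at h3
    linarith
  exact abs_le.2 ⟨by linarith, by linarith⟩

lemma pen_abs_sg (b : Bool) : |(sg b : ℝ)| = 1 := by cases b <;> simp [sg]

lemma pen_sg_le (b : Bool) (x : ℝ) : sg b * x ≤ |x| := by
  have := le_abs_self (sg b * x)
  rwa [abs_mul, pen_abs_sg, one_mul] at this

lemma pen_abs_sum_le (S : Finset (E × Bool)) (d : E × Bool → ℤ) : |∑ p ∈ S, d p| ≤ ∑ p, |d p| :=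
  (abs_sum_le_sum_abs _ _).trans
    (sum_le_sum_of_subset_of_nonneg (subset_univ _) fun _ _ _ => abs_nonneg _)

lemma pen_abs_coef_le (Y : Sys E) (g : E × Bool) (a : E × Bool → ℤ) :
    |Y.σ.coef g a| ≤ ∑ p, |a p| := by
  unfold Str.coef
  split_ifs
  · unfold ell
    rw [sum_agg]
    exact pen_abs_sum_le _ _
  · exact pen_abs_sum_le _ _

lemma pen_exists_split {R : E × Bool → E × Bool → Prop} (hR : ∀ p q, R p q → R q p)
    {S : Finset (E × Bool)} (hS : ¬ Cls R S) : ∃ p q, R p q ∧ p ∈ S ∧ q ∉ S := by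
  simp only [Cls, not_forall] at hS
  obtain ⟨p, q, hpq, h⟩ := hS
  by_cases hp : p ∈ S
  · exact ⟨p, q, hpq, hp, fun hq => h ⟨fun _ => hq, fun _ => hp⟩⟩
  · exact ⟨q, p, hR _ _ hpq, by tauto, hp⟩

lemma pen_not_cls {R : E × Bool → E × Bool → Prop} {S : Finset (E × Bool)} {p q : E × Bool}
    (hpq : R p q) (hp : p ∈ S) (hq : q ∉ S) : ¬ Cls R S := fun h => hq ((h p q hpq).1 hp)

lemma pen_key_of_R {j : ℕ} {p q : E × Bool} (h : Y.R j p q) : Y.key p = Y.key q :=
  (Y.key_eq p q).2 (R_mono (Nat.zero_le j) h)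

lemma pen_cls_pred (Y : Sys E) (l j : ℕ) : Cls (Y.R l) (Y.pred j) := fun p q h => by
  simp only [pred, mem_filter, mem_univ, true_and, pen_key_of_R h]

lemma pen_cls_kcl (Y : Sys E) (l : ℕ) (p : E × Bool) : Cls (Y.R l) (Y.kcl p) := fun q q' h => by
  simp only [kcl, mem_filter, mem_univ, true_and, pen_key_of_R h]

lemma pen_cls_union {R : E × Bool → E × Bool → Prop} {A B : Finset (E × Bool)} (hA : Cls R A)
    (hB : Cls R B) : Cls R (A ∪ B) := fun p q h => by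
  simp only [mem_union, hA p q h, hB p q h]

lemma pen_disj {S : Finset (E × Bool)} {j : ℕ} (hS : ∀ p ∈ S, Y.key p = j) :
    Disjoint (Y.pred j) S := by
  rw [Finset.disjoint_left]
  intro p hp hp'
  simp only [pred, mem_filter, mem_univ, true_and] at hp
  have := hS p hp'
  omega

lemma pen_div_cyc {T w θ Δ x s : ℝ} (hT : 0 < T) (hw : 0 < w) (hθ : 0 < θ) (hΔ : 0 < Δ)
    (h : Δ * w ≤ θ) (hx : |x| ≤ 2 * s) : Δ * |x / (θ / (2 * T))| ≤ 4 * s * T / w := by
  have hs : 0 ≤ 2 * s := (abs_nonneg _).trans hx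
  rw [abs_div, abs_of_pos (by positivity : (0 : ℝ) < θ / (2 * T)), div_div_eq_mul_div,
    le_div_iff₀ hw]
  calc Δ * (|x| * (2 * T) / θ) * w = |x| * (2 * T) * ((Δ * w) / θ) := by ring
    _ ≤ 2 * s * (2 * T) * 1 := by
      gcongr
      exact (div_le_one hθ).2 h
    _ = _ := by ring

lemma pen_div_le_of {T m x : ℝ} (hT : 0 < T) (hm : 0 < m) (h : x ≤ -m + m / (2 * T)) :
    x / (m / (2 * T)) ≤ -(2 * T) + 1 := by
  rw [div_le_iff₀ (by positivity)]
  have : (-(2 * T) + 1) * (m / (2 * T)) = -m + m / (2 * T) := by field_simp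
  linarith

lemma pen_le_of_div {T m x : ℝ} (hT : 0 < T) (hm : 0 < m) (h : x / (m / (2 * T)) ≤ -(1 / 4)) :
    x ≤ -(m / (8 * T)) := by
  rw [div_le_iff₀ (by positivity)] at h
  have : -(1 / 4) * (m / (2 * T)) = -(m / (8 * T)) := by
    field_simp
    norm_num
  linarith

namespace Ok

lemma pen_s (h : Y.Ok) : (1048576 : ℝ) ≤ Y.s := by
  have := h.sz.big
  norm_num at this
  exact_mod_cast this

lemma pen_n (h : Y.Ok) : (Fintype.card (E × Bool) : ℝ) ≤ Y.s := by exact_mod_cast h.sz.card.le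

lemma pen_pT (Y : Sys E) : (pT Y.s : ℝ) = (Y.s : ℝ) ^ 11 := by simp [pT]

lemma pen_pw (Y : Sys E) : (pw Y.s : ℝ) = (Y.s : ℝ) ^ 330 := by simp [pw]

lemma pen_pD1 (Y : Sys E) : (pD1 Y.s : ℝ) = (Y.s : ℝ) ^ 350 := by simp [pD1]

lemma pen_pθ (Y : Sys E) (j : ℕ) : (pθ Y.s j : ℝ) = (Y.s : ℝ) ^ 345 * 2 ^ j := by simp [pθ]

lemma pen_T_pos (h : Y.Ok) : (0 : ℝ) < pT Y.s := by
  have := h.pen_s
  rw [pen_pT]
  positivity

lemma pen_w_pos (h : Y.Ok) : (0 : ℝ) < pw Y.s := by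
  have := h.pen_s
  rw [pen_pw]
  positivity

lemma pen_D_pos (h : Y.Ok) : (0 : ℝ) < pD1 Y.s := by
  have := h.pen_s
  rw [pen_pD1]
  positivity

lemma pen_θ_pos (h : Y.Ok) (j : ℕ) : (0 : ℝ) < pθ Y.s j := by
  have := h.pen_s
  rw [pen_pθ]
  positivity

lemma pen_pow_le (h : Y.Ok) {a b : ℕ} (hab : a ≤ b) : (Y.s : ℝ) ^ a ≤ (Y.s : ℝ) ^ b :=
  pow_le_pow_right₀ (by linarith [h.pen_s]) hab

lemma pen_pow_lt (h : Y.Ok) {a b : ℕ} (hab : a < b) : 1048576 * (Y.s : ℝ) ^ a ≤ (Y.s : ℝ) ^ b := by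
  have h1 := h.pen_s
  have h2 := h.pen_pow_le (Nat.succ_le_of_lt hab)
  rw [pow_succ] at h2
  have h3 : (0 : ℝ) ≤ (Y.s : ℝ) ^ a := by positivity
  nlinarith

lemma pen_θ_mono (Y : Sys E) {j j' : ℕ} (hj : j ≤ j') : (pθ Y.s j : ℝ) ≤ pθ Y.s j' := by
  unfold pθ
  exact_mod_cast Nat.mul_le_mul_left _ (Nat.pow_le_pow_right two_pos hj)

lemma pen_w_le_θ (h : Y.Ok) (j : ℕ) : (pw Y.s : ℝ) ≤ pθ Y.s j := by
  refine le_trans ?_ (pen_θ_mono Y (Nat.zero_le j))
  rw [pen_pw, pen_pθ, pow_zero, mul_one]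
  exact h.pen_pow_le (by norm_num)

lemma pen_w_le_D (h : Y.Ok) : (pw Y.s : ℝ) ≤ pD1 Y.s := by
  rw [pen_pw, pen_pD1]
  exact h.pen_pow_le (by norm_num)

lemma pen_div_le (h : Y.Ok) {x N m : ℝ} (hx : |x| ≤ N) (hm : (pw Y.s : ℝ) ≤ m) :
    |x / (m / (2 * pT Y.s))| ≤ 2 * N * pT Y.s / pw Y.s := by
  have hT := h.pen_T_pos
  have hw := h.pen_w_pos
  have hm0 : 0 < m := hw.trans_le hm
  have hN : 0 ≤ N := (abs_nonneg _).trans hx
  rw [abs_div, abs_of_pos (by positivity : 0 < m / (2 * pT Y.s)), div_div_eq_mul_div]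
  calc |x| * (2 * pT Y.s) / m ≤ N * (2 * pT Y.s) / pw Y.s := by gcongr
    _ = _ := by ring

/-- All margins are at least `pw / (2 pT)`. -/
lemma pen_lin_le (h : Y.Ok) (r : E) (i) {d : E × Bool → ℤ} {N : ℝ}
    (hN : ((∑ p, |d p| : ℤ) : ℝ) ≤ N) : |Y.penLin r i d| ≤ 2 * N * pT Y.s / pw Y.s := by
  have hT := h.pen_T_pos
  have hw := h.pen_w_pos
  have hN0 : 0 ≤ N := le_trans (by exact_mod_cast sum_nonneg fun p _ => abs_nonneg (d p)) hN
  have hS : ∀ S : Finset (E × Bool), |((∑ p ∈ S, d p : ℤ) : ℝ)| ≤ N := fun S =>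
    le_trans (by exact_mod_cast pen_abs_sum_le S d) hN
  rcases i with S | ⟨g, b⟩ | ⟨p, b⟩
  · simp only [penLin]
    split_ifs
    · exact h.pen_div_le (hS S) (h.pen_w_le_θ _)
    · rw [abs_zero]
      positivity
  · simp only [penLin]
    split_ifs
    · refine h.pen_div_le ?_ le_rfl
      rw [abs_mul, pen_abs_sg, one_mul]
      exact le_trans (by exact_mod_cast pen_abs_coef_le Y g d) hN
    · rw [abs_zero]
      positivity
  · simp only [penLin]
    split_ifs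
    · refine h.pen_div_le ?_ h.pen_w_le_D
      rw [abs_mul, pen_abs_sg, one_mul]
      exact hS _
    · rw [abs_zero]
      positivity

lemma pen_norm_v (h : Y.Ok) {g : E × Bool} (hg : g ∈ Y.σ.act) :
    ((∑ p, |Y.σ.v g p| : ℤ) : ℝ) ≤ 2 * Y.s := by
  have h1 : ((∑ p, |Y.σ.v g p| : ℤ) : ℝ) ≤ 2 * Fintype.card (E × Bool) := by
    exact_mod_cast h.valid.norm g hg
  linarith [h.pen_n]

lemma pen_lin_v (h : Y.Ok) (r : E) (i) {g : E × Bool} (hg : g ∈ Y.σ.act) :
    (Y.Δ g : ℝ) * |Y.penLin r i (Y.σ.v g)| ≤ 4 * Y.s * pT Y.s / pw Y.s := by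
  have hT := h.pen_T_pos
  have hw := h.pen_w_pos
  have hs := h.pen_s
  by_cases ht : g ∈ Y.σ.tree
  · have e : Y.Δ g = 1 := by simp [Sys.Δ, Sys.dl, ht]
    rw [e, Int.cast_one, one_mul]
    have := h.pen_lin_le r i (h.pen_norm_v hg)
    calc _ ≤ _ := this
      _ = _ := by ring
  have h0 : (Y.Δ g : ℝ) * |(0 : ℝ)| ≤ 4 * Y.s * pT Y.s / pw Y.s := by
    rw [abs_zero, mul_zero]
    positivity
  rcases i with S | ⟨g', b⟩ | ⟨p, b⟩
  · simp only [penLin]
    split_ifs with hc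
    · obtain ⟨-, -, h3⟩ := h.pl_spec hc.2
      by_cases hl : Y.σ.lv g ≤ Y.pl S
      · have hΔ : (Y.Δ g : ℝ) * pw Y.s = pθ Y.s (Y.σ.lv g) := by exact_mod_cast h.Δ_mul ht
        have hθ := pen_θ_mono Y hl
        have hθ0 := h.pen_θ_pos (Y.pl S)
        have hΔ0 : (0 : ℝ) < Y.Δ g := by exact_mod_cast Δ_pos Y g
        have hx : |((∑ p ∈ S, Y.σ.v g p : ℤ) : ℝ)| ≤ 2 * Y.s :=
          le_trans (by exact_mod_cast pen_abs_sum_le S _) (h.pen_norm_v hg)
        exact pen_div_cyc hT hw hθ0 hΔ0 (hΔ.trans_le hθ) hx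
      · rw [h.valid.cls g hg S (cls_mono (by omega) h3), Int.cast_zero, zero_div]
        exact h0
    · exact h0
  · simp only [penLin]
    split_ifs with hc
    · rw [h.valid.dual g' (h.valid.tree_sub hc.1) g hg, if_neg (fun e : g' = g => ht (e ▸ hc.1)),
        Int.cast_zero, mul_zero, zero_div]
      exact h0
    · exact h0
  · simp only [penLin]
    split_ifs with hc
    · rw [h.valid.cls g hg _ (pen_cls_kcl Y _ p), Int.cast_zero, mul_zero, zero_div]
      exact h0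
    · exact h0

lemma pen_lin_smul_v (h : Y.Ok) (r : E) (i) {g : E × Bool} (hg : g ∈ Y.σ.act) {ρ : ℤ} {K : ℝ}
    (hK : 0 ≤ K) (hρ : |(ρ : ℝ)| ≤ K * Y.Δ g) :
    |Y.penLin r i (ρ • Y.σ.v g)| ≤ K * (4 * Y.s * pT Y.s / pw Y.s) := by
  rw [pen_lin_smul, abs_mul]
  calc |(ρ : ℝ)| * |Y.penLin r i (Y.σ.v g)| ≤ K * Y.Δ g * |Y.penLin r i (Y.σ.v g)| := by gcongr
    _ = K * (Y.Δ g * |Y.penLin r i (Y.σ.v g)|) := by ring
    _ ≤ _ := by gcongr; exact h.pen_lin_v r i hg

lemma pen_card_le (h : Y.Ok) (J : Finset (E × Bool)) : (J.card : ℝ) ≤ Y.s :=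
  le_trans (by exact_mod_cast card_le_univ J) h.pen_n

lemma pen_norm_canon (h : Y.Ok) (p : E × Bool) :
    ((∑ q, |Y.canon (uv p) q| : ℤ) : ℝ) ≤ 3 * (Y.s : ℝ) ^ 2 := by
  have hs := h.pen_s
  have hu : ∑ q, |uv p q| = 1 := by
    have : ∀ q, |uv p q| = uv p q := fun q => abs_of_nonneg (by
      unfold uv
      rw [Pi.single_apply]
      split_ifs <;> norm_num)
    simp only [this]
    simp [uv]
  have h1 : ∀ q, |Y.canon (uv p) q| ≤ |uv p q| + ∑ g ∈ Y.H, |Y.σ.v g q| := fun q => by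
    simp only [canon, ov, Pi.sub_apply, Finset.sum_apply, Pi.smul_apply, smul_eq_mul]
    refine (abs_sub _ _).trans (add_le_add le_rfl ((abs_sum_le_sum_abs _ _).trans
      (sum_le_sum fun g _ => ?_)))
    rw [abs_mul]
    have := pen_abs_coef_le Y g (uv p)
    rw [hu] at this
    exact mul_le_of_le_one_left (abs_nonneg _) this
  have h2 : ∑ q, |Y.canon (uv p) q| ≤ 1 + ∑ g ∈ Y.H, ∑ q, |Y.σ.v g q| := by
    rw [sum_comm, ← hu, ← sum_add_distrib]
    exact sum_le_sum fun q _ => h1 q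
  have h3 : ((∑ g ∈ Y.H, ∑ q, |Y.σ.v g q| : ℤ) : ℝ) ≤ Y.H.card * (2 * Y.s) := by
    rw [Int.cast_sum, ← nsmul_eq_mul]
    exact sum_le_card_nsmul _ _ _ fun g hg => h.pen_norm_v (H_sub Y hg)
  have h4 := h.pen_card_le Y.H
  have h5 : ((∑ q, |Y.canon (uv p) q| : ℤ) : ℝ) ≤ 1 + ((∑ g ∈ Y.H, ∑ q, |Y.σ.v g q| : ℤ) : ℝ) := by
    exact_mod_cast h2
  nlinarith

/-- Unions of classes of level `jK` are controlled by the aggregated function. -/
lemma pen_cls_le {a : E × Bool → ℤ} (hβ : InB Y.Flab (agg Y.lab a)) {S : Finset (E × Bool)}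
    (hS : Cls (Y.R (jK Y.s)) S) : ∑ p ∈ S, a p ≤ Y.F S := by
  have e : pre Y.lab S = S := by
    ext p
    simp only [pre, mem_filter, mem_univ, true_and]
    exact hS _ _ (Y.lab_R p)
  have := hβ.1 S
  rwa [sum_agg, Flab, e] at this

lemma pen_slack_pred (h : Y.Ok) (j : ℕ) :
    slack Y.F (Y.pred j) Y.c ≤ (Y.s : ℝ) ^ 347 := by
  have h1 := slack_closed h.sz.sub h.sz.empty h.mem (h.pen_θ_pos 0).le (A := Y.pred j)
    fun p hp q hpq => by
      simp only [pred, mem_filter, mem_univ, true_and] at hp ⊢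
      exact (key_le hpq).trans_lt hp
  have h2 := h.pen_n
  have hs := h.pen_s
  rw [pen_pθ, pow_zero, mul_one] at h1
  calc _ ≤ _ := h1
    _ ≤ (Y.s : ℝ) ^ 2 * (Y.s : ℝ) ^ 345 := by gcongr
    _ = _ := by ring

lemma pen_dev_pred (h : Y.Ok) {d : E × Bool → ℝ} {D : ℝ} (hD : 0 ≤ D)
    (hd : ∀ p, |∑ q ∈ Y.kcl p, d q| ≤ D) (j : ℕ) : |∑ q ∈ Y.pred j, d q| ≤ Y.s * D := by
  rw [← sum_fiberwise_of_maps_to (s := Y.pred j) (t := univ.image Y.key) (g := Y.key)
    (fun p _ => mem_image_of_mem _ (mem_univ p))]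
  have h1 : ∀ l ∈ univ.image Y.key, |∑ q ∈ (Y.pred j).filter (fun q => Y.key q = l), d q| ≤ D := by
    intro l hl
    obtain ⟨p, -, rfl⟩ := mem_image.1 hl
    by_cases hp : Y.key p < j
    · have e : (Y.pred j).filter (fun q => Y.key q = Y.key p) = Y.kcl p := by
        ext q
        simp only [pred, kcl, mem_filter, mem_univ, true_and]
        omega
      rw [e]
      exact hd p
    · have e : (Y.pred j).filter (fun q => Y.key q = Y.key p) = ∅ := by
        ext q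
        simp only [pred, mem_filter, mem_univ, true_and, notMem_empty, iff_false]
        omega
      rw [e, sum_empty, abs_zero]
      exact hD
  have h2 : ((univ.image Y.key).card : ℝ) ≤ Y.s :=
    le_trans (by exact_mod_cast card_image_le) (h.pen_card_le univ)
  calc _ ≤ ∑ l ∈ univ.image Y.key, |∑ q ∈ (Y.pred j).filter (fun q => Y.key q = l), d q| :=
        abs_sum_le_sum_abs _ _
    _ ≤ (univ.image Y.key).card • D := sum_le_card_nsmul _ _ _ h1
    _ ≤ _ := by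
      rw [nsmul_eq_mul]
      gcongr

/-- The chain argument. -/
lemma pen_good (h : Y.Ok) {a : E × Bool → ℤ} (hβ : InB Y.Flab (agg Y.lab a))
    (hv : ∀ r i, Y.val r i a ≤ -(1 / 4)) : Y.Good 16 a := by
  intro S j₀ hj₀ hS
  have hT := h.pen_T_pos
  have hD := h.pen_D_pos
  have hs := h.pen_s
  have hmar : ∀ p, |∑ q ∈ Y.kcl p, ((a q : ℝ) - Y.c q)| ≤ pD1 Y.s := fun p => by
    have h1 := hv (Y.σ.root p.1) (.inr (.inr (p, true)))
    have h2 := hv (Y.σ.root p.1) (.inr (.inr (p, false)))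
    simp only [val, if_true, sg, one_mul, Bool.false_eq_true, if_false] at h1 h2
    have h3 := pen_le_of_div hT hD h1
    have h4 := pen_le_of_div hT hD h2
    have h5 : (0 : ℝ) < pD1 Y.s / (8 * pT Y.s) := by positivity
    rw [sum_sub_distrib]
    exact abs_le.2 ⟨by linarith, by linarith⟩
  have hsD : (pD1 Y.s : ℝ) ≤ Y.s * pD1 Y.s := le_mul_of_one_le_left hD.le (by linarith)
  -- the terms of the chain
  set t : ℕ → ℝ := fun j => (Y.F (Y.pred j ∪ S.filter fun p => Y.key p = j) : ℝ) - Y.F (Y.pred j) -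
    ∑ p ∈ S.filter (fun p => Y.key p = j), (a p : ℝ) with ht
  set B : ℝ := Y.s * pD1 Y.s + (Y.s : ℝ) ^ 347 with hB
  have hthick : ∀ j, ¬ Cls (Y.R (jK Y.s)) (S.filter fun p => Y.key p = j) →
      (pθ Y.s (Y.pl (S.filter fun p => Y.key p = j)) : ℝ) / (8 * pT Y.s) - B ≤ t j := by
    intro j hj
    obtain ⟨p, q, -, hp, -⟩ := pen_exists_split (fun _ _ => (Y.R_equiv _).symm) hj
    have hsup : (S.filter fun p => Y.key p = j).sup Y.key = j :=
      le_antisymm (Finset.sup_le fun x hx => (mem_filter.1 hx).2.le)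
        ((mem_filter.1 hp).2.symm.trans_le (Finset.le_sup hp))
    have hc : (∀ x ∈ S.filter fun p => Y.key p = j,
        Y.key x = (S.filter fun p => Y.key p = j).sup Y.key ∧ Y.σ.root x.1 = Y.σ.root p.1) ∧
        ¬ Cls (Y.R (jK Y.s)) (S.filter fun p => Y.key p = j) := by
      refine ⟨fun x hx => ⟨by rw [hsup]; exact (mem_filter.1 hx).2, ?_⟩, hj⟩
      exact h.valid.root_R x p
        ((Y.key_eq x p).1 ((mem_filter.1 hx).2.trans (mem_filter.1 hp).2.symm))
    have h1 := hv (Y.σ.root p.1) (.inl (S.filter fun p => Y.key p = j))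
    simp only [val] at h1
    rw [if_pos hc, hsup] at h1
    have h2 := pen_le_of_div hT (h.pen_θ_pos _) h1
    have h3 := h.pen_slack_pred j
    unfold slack at h3
    simp only [ht, hB]
    linarith
  have hall : ∀ j, -B ≤ t j := by
    intro j
    by_cases hj : Cls (Y.R (jK Y.s)) (S.filter fun p => Y.key p = j)
    · have h1 := pen_cls_le hβ (pen_cls_union (pen_cls_pred Y _ j) hj)
      rw [sum_union (pen_disj fun p hp => (mem_filter.1 hp).2)] at h1
      have h2 : ∑ p ∈ Y.pred j, (a p : ℝ) + ∑ p ∈ S.filter (fun p => Y.key p = j), (a p : ℝ) ≤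
          Y.F (Y.pred j ∪ S.filter fun p => Y.key p = j) := by exact_mod_cast h1
      have h3 := h.pen_slack_pred j
      have h4 := (abs_le.1 (h.pen_dev_pred hD.le hmar j)).1
      rw [sum_sub_distrib] at h4
      unfold slack at h3
      simp only [ht, hB]
      linarith
    · have h1 := hthick j hj
      have h2 := h.pen_θ_pos (Y.pl (S.filter fun p => Y.key p = j))
      have h3 : (0 : ℝ) ≤ pθ Y.s (Y.pl (S.filter fun p => Y.key p = j)) / (8 * pT Y.s) :=
        div_nonneg h2.le (by linarith)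
      linarith
  have hchain : ∑ j ∈ univ.image Y.key, t j ≤ slack Y.F S (toR a) := by
    have h1 := chain_le h.sz.sub h.sz.empty Y.key S
    have h2 : ∑ j ∈ univ.image Y.key,
        ((Y.F (Y.pred j ∪ S.filter fun p => Y.key p = j) : ℝ) - Y.F (Y.pred j)) ≤ Y.F S := by
      exact_mod_cast h1
    have h3 := sum_fiberwise_of_maps_to (s := S) (t := univ.image Y.key) (g := Y.key)
      (fun p _ => mem_image_of_mem _ (mem_univ p)) fun p => (a p : ℝ)
    simp only [ht]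
    rw [sum_sub_distrib, h3]
    unfold slack toR
    linarith
  obtain ⟨p, q, hpq, hp, hq⟩ := pen_exists_split (fun _ _ => (Y.R_equiv _).symm) hS
  have hsp : ¬ Cls (Y.R j₀) (S.filter fun x => Y.key x = Y.key p) :=
    pen_not_cls hpq (mem_filter.2 ⟨hp, rfl⟩) fun hx => hq (mem_filter.1 hx).1
  have h1 := hthick (Y.key p) fun hc => hsp (cls_mono hj₀ hc)
  have h2 := pen_θ_mono Y (h.pl_spec hsp).1
  have h3 : (pθ Y.s j₀ : ℝ) / (8 * pT Y.s) ≤
      pθ Y.s (Y.pl (S.filter fun x => Y.key x = Y.key p)) / (8 * pT Y.s) :=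
    div_le_div_of_nonneg_right h2 (by positivity)
  have h4 : t (Y.key p) + B ≤ ∑ j ∈ univ.image Y.key, (t j + B) :=
    single_le_sum (f := fun j => t j + B) (fun j _ => by linarith [hall j])
      (mem_image_of_mem _ (mem_univ p))
  rw [sum_add_distrib, sum_const, nsmul_eq_mul] at h4
  have h5 : ((univ.image Y.key).card : ℝ) ≤ Y.s :=
    le_trans (by exact_mod_cast card_image_le) (h.pen_card_le univ)
  have hB0 : 0 ≤ B := by positivity
  have h6 : ((univ.image Y.key).card : ℝ) * B ≤ Y.s * B := mul_le_mul_of_nonneg_right h5 hB0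
  have h7 : Y.s * B ≤ (pθ Y.s j₀ : ℝ) / (16 * pT Y.s) := by
    have a1 := pen_θ_mono Y hj₀
    have a2 : (pθ Y.s (jK Y.s) : ℝ) = (Y.s : ℝ) ^ 366 := by exact_mod_cast h.sz.pθ_jK
    have a3 := h.pen_pow_lt (a := 363) (b := 366) (by norm_num)
    have a4 := h.pen_pow_le (a := 359) (b := 363) (by norm_num)
    have a5 : (Y.s : ℝ) ^ 363 = Y.s ^ 13 * Y.s ^ 350 := pow_add _ 13 350
    have a6 : (Y.s : ℝ) ^ 359 = Y.s ^ 12 * Y.s ^ 347 := pow_add _ 12 347
    have a7 : (0 : ℝ) < (Y.s : ℝ) ^ 363 := by positivity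
    rw [le_div_iff₀ (by positivity), hB, pen_pD1, pen_pT]
    refine le_trans ?_ (a2.symm.trans_le a1)
    generalize (Y.s : ℝ) ^ 366 = x1 at *
    generalize (Y.s : ℝ) ^ 363 = x2 at *
    generalize (Y.s : ℝ) ^ 359 = x3 at *
    generalize (Y.s : ℝ) ^ 350 = x4 at *
    generalize (Y.s : ℝ) ^ 347 = x5 at *
    calc _ = 16 * (Y.s ^ 13 * x4) + 16 * (Y.s ^ 12 * x5) := by ring
      _ ≤ x1 := by linarith
  have h8 : (pθ Y.s j₀ : ℝ) / (8 * pT Y.s) = 2 * (pθ Y.s j₀ / (16 * pT Y.s)) := by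
    generalize (pθ Y.s j₀ : ℝ) = x
    generalize (pT Y.s : ℝ) = T
    ring
  linarith

end Ok

end Sys

end Crest.Agent.R302
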