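import Crest.Agent.R302.OC
import Crest.Agent.R309.RamComp
import Crest.Prelude.Def_OracleRAM

/-!
Row 302: the oracle word-RAM program (machine-level part of `R302.Ram`).

Registers (besides those of `R309.RamCompA`–`D`): `8` the fixed part of the input, `9` the table,
`10` the query, `15`, `18` flags, `16` the start of the written words, `17` the second answer.
-/

set_option autoImplicit false

namespace Crest.Agent.R302

open Crest.WordRAM Crest.Agent.Lib.PT Crest.Agent.R309 Crest.Agent.R309.Ram Crest.OracleRAM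

variable {w : ℕ} {ρ : ℕ → ℕ}

/-- a run of the base program that does not halt is a run of the oracle program -/
lemma ram_osim (P : OProgram) (n : ℕ) (O : Bool → Finset (Fin n) → ℕ) (t : ℕ) :
    ∀ (c : Cfg P.numRegs) (k : ℕ), ((step (baseProgram P) w ρ)^[t] c).halted = false →
      (ostep P n O w ρ)^[t] ⟨c, k⟩ = ⟨(step (baseProgram P) w ρ)^[t] c, k⟩ := by
  induction t with
  | zero => intro c k _; rfl
  | succ t ih =>
    intro c k h
    rw [Function.iterate_succ_apply] at h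
    rw [Function.iterate_succ_apply, Function.iterate_succ_apply, ← ih _ k h]
    congr 1
    have fix : ∀ c' : Cfg (baseProgram P).numRegs, c'.halted = true →
        step (baseProgram P) w ρ c' = c' := fun c' h' => by simp [step, h']
    have stop : ∀ c' : Cfg (baseProgram P).numRegs, ((baseProgram P).code[c'.pc]? = none ∨
        (baseProgram P).code[c'.pc]? = some .halt) →
        (step (baseProgram P) w ρ c').halted = true := by
      rintro c' (h' | h') <;> cases h'' : c'.halted <;> simp [step, h', h'']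
    have h1 : ¬ (step (baseProgram P) w ρ c).halted = true := by
      intro h2
      rw [Function.iterate_fixed (fix _ h2) t, h2] at h
      exact absurd h (by simp)
    have h2 : c.halted = false := by
      by_contra h2
      have h3 : c.halted = true := by simpa using h2
      rw [fix c h3] at h1
      exact h1 h3
    have h3 : (baseProgram P).code[c.pc]? = (P.code[c.pc]?).map OInstr.toBase :=
      List.getElem?_map ..
    cases hc : P.code[c.pc]? with
    | none => exact absurd (stop c (Or.inl (by rw [hc] at h3; exact h3))) h1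
    | some i =>
      cases i with
      | base i => simp [ostep, h2, hc]
      | query b a d =>
        exact absurd (stop c (Or.inr (by rw [hc] at h3; exact h3))) h1

lemma ram_ev {code : List (OInstr 20)} {n : ℕ} (O : Bool → Finset (Fin n) → ℕ) {c : Cm} {s s' : St}
    {t : ℕ} (h : Ev w ρ c s s' t) (b : ℕ) (hb : At (code.map OInstr.toBase) b (c.code b)) (k : ℕ) :
    (ostep ⟨20, code⟩ n O w ρ)^[t] ⟨s.cfg b, k⟩ = ⟨s'.cfg (b + c.len), k⟩ := by
  have h1 := h.sim b hb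
  have h2 := ram_osim (w := w) (ρ := ρ) ⟨20, code⟩ n O t (s.cfg b) k (by
    change ((step ⟨20, code.map OInstr.toBase⟩ w ρ)^[t] (s.cfg b)).halted = false
    rw [h1]; rfl)
  rw [h2]
  exact congrArg (fun c => OCfg.mk c k) h1

/-- Count the word length in unary. -/
def ramWLoop : Cm := .wnz 12 (.seq (.blk [.add 12 12 12]) (alloc 17 19 17))

lemma ram_run_wLoop (d : ℕ) : ∀ (i : ℕ) (s : St), i + d = w → Ok w s (2 * d) → s.regs 19 = 0 →
    s.regs 12 = 2 ^ i % 2 ^ w → Rep s.mem (s.regs 1) (enc (List.replicate i ())) (s.regs 17) →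
    Ram.Run w ρ ramWLoop s (8 * d + 1) fun s' => Fw [1, 12, 17] s s' (2 * d) ∧
      Rep s'.mem (s'.regs 1) (enc (List.replicate w ())) (s'.regs 17) := by
  induction d with
  | zero =>
    intro i s hi _ _ h12 hr
    obtain rfl : i = w := hi
    exact Ram.Run.wz (by simpa using h12) ⟨Fw.refl _ _ _, hr⟩ (by simp)
  | succ d ih =>
    intro i s hi hs h19 h12 hr
    have hlt : 2 ^ i < 2 ^ w := Nat.pow_lt_pow_right (by norm_num) (by omega)
    rw [Nat.mod_eq_of_lt hlt] at h12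
    refine Ram.Run.wn (m := 6) (n := 8 * d + 1) (Q := fun s₂ => Fw [1, 12, 17] s s₂ 2 ∧
      s₂.regs 12 = 2 ^ (i + 1) % 2 ^ w ∧
      Rep s₂.mem (s₂.regs 1) (enc (List.replicate (i + 1) ())) (s₂.regs 17))
      (by rw [h12]; positivity) ?_ (fun s₂ ⟨f2, e2, r2⟩ => ?_) (by omega)
    · refine Ram.Run.seq (n := 5) (run_blk [12] _ s) (fun s₁ ⟨e, f1, _, _⟩ => ?_) le_rfl
      have e12 : s₁.regs 12 = 2 ^ (i + 1) % 2 ^ w := by
        simp [e, Op.exe, St.set, writeReg, h12, pow_succ, mul_two]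
      have z : Rep s₁.mem (s₁.regs 1) .nil (s₁.regs 19) := (f1.regs 19 (by decide)).trans h19
      exact (run_cons (hs.fw f1 (by omega)) z (f1.rep hr)).mono le_rfl
        fun s₂ ⟨f2, _, r2⟩ => ⟨f1.trans f2 le_rfl, (f2.regs 12 (by decide)).trans e12, r2⟩
    · exact (ih (i + 1) s₂ (by omega) (hs.fw f2 (by omega)) ((f2.regs 19 (by decide)).trans h19)
        e2 r2).mono le_rfl fun s₃ ⟨f3, r3⟩ => ⟨f2.trans f3 (by omega), r3⟩

/-- Second part of the setup. -/
def ramSetup₂ : Cm :=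
  .seq (.blk [.copy 1 10, .copy 11 9, .const 13 0, .const 19 0, .copy 12 4, .const 17 0])
    (.seq drawLoop (.seq ramWLoop (.seq (alloc 13 17 13) (.seq (alloc 13 9 13)
      (.seq (alloc 8 8 13) (.blk [.const 9 0]))))))

/-- The type of the fixed part of the input. -/
abbrev RamIn : Type := List (List Bool) × List Unit × List Unit × List Bool
/-- The type of raw tables. -/
abbrev RamTab : Type := List (Qy × List Bool)
/-- The type of the results of a round. -/
abbrev RamOut : Type := Option Unit × Option Unit × Qy × List (List Bool)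

/-- The invariant at the loop head. -/
structure RamInv (w : ℕ) (A : RamIn) (T : RamTab) (n : ℕ) (s : St) : Prop where
  g : G w s n
  inp : Rep s.mem (s.regs 1) (enc A) (s.regs 8)
  tab : Rep s.mem (s.regs 1) (enc T) (s.regs 9)

lemma ram_run_setup₂ {x : List ℕ} {len H n : ℕ} {s : St} (hs : Inv x len H s) (hd : s.drawn = 0)
    (hw : H + (2 * len + 2 * w + 6 + n) < 2 ^ w) (hw0 : 0 < w) :
    Ram.Run w ρ ramSetup₂ s (13 * len + 8 * w + 24) fun s' =>
      RamInv w (raw x, List.replicate len (), List.replicate w (), (bitsAt w ρ 0 len).reverse)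
        [] n s' := by
  have hH := hs.le
  refine Ram.Run.seq (m := 6) (n := 13 * len + 8 * w + 18) (Q := fun s₁ => Inv x len H s₁ ∧
    s₁.regs 1 = s₁.regs 10 ∧ s₁.regs 11 = s₁.regs 9 ∧ s₁.regs 13 = 0 ∧ s₁.regs 19 = 0 ∧
    s₁.regs 12 = 1 ∧ s₁.regs 17 = 0 ∧ s₁.drawn = 0)
    (Ram.Run.blk le_rfl ⟨⟨?_, ?_, ?_, ?_, ?_, ?_, ?_, ?_⟩, ?_, ?_, ?_, ?_, ?_, ?_, hd⟩)
    (fun s₁ ⟨i1, a1, a11, a13, a19, a12, a17, d1⟩ => ?_) (by omega)
  · simpa [Op.exe, St.set, writeReg] using hs.one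
  · simpa [Op.exe, St.set, writeReg] using hs.two
  · simpa [Op.exe, St.set, writeReg] using hs.pos
  · simpa [Op.exe, St.set, writeReg] using hs.le
  · simpa [Op.exe, St.set, writeReg] using hs.ff
  · simpa [Op.exe, St.set, writeReg] using hs.tt
  · simpa [Op.exe, St.set, writeReg] using hs.inp
  · simpa [Op.exe, St.set, writeReg] using hs.un
  · simp [Op.exe, St.set, writeReg]
  · simp [Op.exe, St.set, writeReg]
  · simp [Op.exe, St.set, writeReg]
  · simp [Op.exe, St.set, writeReg]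
  · simpa [Op.exe, St.set, writeReg] using hs.one
  · simp [Op.exe, St.set, writeReg]
  have hH1 := i1.le
  have g1 : G w s₁ (2 * len + 2 * w + 6 + n) :=
    ⟨⟨i1.one, a1 ▸ i1.pos, by omega⟩, i1.two, a1 ▸ i1.ff, a1 ▸ i1.tt⟩
  have r8 : Rep s₁.mem (s₁.regs 1) (enc (raw x)) (s₁.regs 8) := a1 ▸ i1.inp
  have r9 : Rep s₁.mem (s₁.regs 1) (enc (List.replicate len ())) (s₁.regs 9) := a1 ▸ i1.un
  refine Ram.Run.seq (n := 8 * w + 17) (run_drawLoop len [] s₁ (g1.fw (Fw.refl [] _ 0) (by omega))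
    (by rw [a11]; exact r9) a13) (fun s₂ ⟨f2, _, r2⟩ => ?_) (by omega)
  rw [List.append_nil, d1] at r2
  have h1 : 2 ^ 0 % 2 ^ w = 1 := Nat.mod_eq_of_lt (Nat.one_lt_two_pow (by omega))
  refine Ram.Run.seq (n := 16) (ram_run_wLoop w 0 s₂ (by omega) (g1.fw f2 (by omega)).ok
    ((f2.regs 19 (by decide)).trans a19) (by rw [h1, f2.regs 12 (by decide), a12])
    ((f2.regs 17 (by decide)).trans a17)) (fun s₃ ⟨f3, r3⟩ => ?_) (by omega)
  have f13 : Fw [1, 11, 12, 13, 14, 17] s₁ s₃ (2 * len + 2 * w) := f2.trans f3 le_rfl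
  refine Ram.Run.seq (n := 11) (run_cons (g1.fw f13 (by omega)).ok r3 (f3.rep r2))
    (fun s₄ ⟨f4, _, r4⟩ => ?_) le_rfl
  have f14 : Fw [1, 11, 12, 13, 14, 17] s₁ s₄ (2 * len + 2 * w + 2) := f13.trans f4 le_rfl
  refine Ram.Run.seq (n := 6) (run_cons (g1.fw f14 (by omega)).ok (f14.rep r9) r4)
    (fun s₅ ⟨f5, _, r5⟩ => ?_) le_rfl
  have f15 : Fw [1, 11, 12, 13, 14, 17] s₁ s₅ (2 * len + 2 * w + 4) := f14.trans f5 le_rfl
  refine Ram.Run.seq (n := 1) (run_cons (g1.fw f15 (by omega)).ok (f15.rep r8) r5)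
    (fun s₆ ⟨f6, _, r6⟩ => ?_) le_rfl
  have f16 : Fw [1, 8, 11, 12, 13, 14, 17] s₁ s₆ (2 * len + 2 * w + 6) := f15.trans f6 le_rfl
  refine (run_blk [9] _ s₆).mono le_rfl fun s₇ ⟨e7, f7, _, _⟩ =>
    ⟨(g1.fw f16 (k := n) le_rfl).fw f7 (by omega), f7.rep r6, ?_⟩
  change s₇.regs 9 = 0
  simp [e7, Op.exe, St.set, writeReg]

/-- First half of a round: run the program, write the words. -/
def ramPre (p : Prog) : Cm :=
  .seq (alloc 0 8 9) (.seq (cp p) (.seq (.blk [.load 15 0, .add 0 0 4, .load 0 0, .load 18 0,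
    .add 0 0 4, .load 0 0, .load 10 0, .add 0 0 4, .load 11 0, .copy 16 1])
      (.seq outLoop (.ifz 15 (.blk [.sub 0 1 16, .copy 1 16]) (.blk [])))))

lemma ram_run_pre {p : Prog} {A : RamIn} {T : RamTab} {N n : ℕ} {s : St} {f g : Option Unit} {q : Qy}
    {y : List ℕ} (hs : RamInv w A T ((kp p + 3) * N + n) s)
    (hp : EvalLe p (enc (A, T)) (enc ((f, g, q, raw y) : RamOut)) N) (hy : ∀ a ∈ y, a < 2 ^ w) :
    Ram.Run w ρ (ramPre p) s ((kp p + 24) * N) fun s' =>
      (f = none → s'.regs 15 = 0 ∧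
        (List.range (s'.regs 0)).map (fun i => s'.mem (s'.regs 1 + i)) = y) ∧
      (f ≠ none → s'.regs 15 ≠ 0 ∧ RamInv w A T n s' ∧ (s'.regs 18 = 0 ↔ g = none) ∧
        Rep s'.mem (s'.regs 1) (enc q) (s'.regs 10) ∧
        (List.range y.length).map (fun i => s'.mem (s'.regs 16 + i)) = y) := by
  have hO : sz ((f, g, q, raw y) : RamOut) ≤ N := hp.size_out_le
  simp only [sz_pair, sz_raw] at hO
  have hyl := length_lt_sz y
  rw [add_mul] at hs ⊢
  have hc := comp_of_evalLe (w := w) (ρ := ρ) hp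
  generalize kp p * N = M at *
  have g0 := hs.g
  refine Ram.Run.seq (n := M + 5 * sz y + 14) (run_cons (g0.ok.mono (by omega)) hs.inp hs.tab)
    (fun s₁ ⟨f1, _, r1⟩ => ?_) (by omega)
  refine Ram.Run.seq (n := 5 * sz y + 14) (hc s₁ (g0.fw f1 (by omega)).ok r1)
    (fun s₂ ⟨f2, r2⟩ => ?_) (by omega)
  have f02 : Fw [0, 1, 2, 3] s s₂ (M + 2) := f1.trans f2.fw (by omega)
  have g2 : G w s₂ (N + n) := g0.fw f02 (by omega)
  obtain ⟨-, p2, p3, -, p5, p6, -, p8, p9, p10⟩ : Rep s₂.mem (s₂.regs 1)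
    (.cons (enc f) (.cons (enc g) (.cons (enc q) (enc (raw y))))) (s₂.regs 0) := r2
  have hlt := g2.ok.lt
  have e1 : (s₂.regs 0 + 1) % 2 ^ w = s₂.regs 0 + 1 := Nat.mod_eq_of_lt (by omega)
  have e2 : (s₂.mem (s₂.regs 0 + 1) + 1) % 2 ^ w = s₂.mem (s₂.regs 0 + 1) + 1 :=
    Nat.mod_eq_of_lt (by omega)
  have e3 : (s₂.mem (s₂.mem (s₂.regs 0 + 1) + 1) + 1) % 2 ^ w =
      s₂.mem (s₂.mem (s₂.regs 0 + 1) + 1) + 1 := Nat.mod_eq_of_lt (by omega)
  refine Ram.Run.seq (n := 5 * sz y + 4) (run_blk [0, 10, 11, 15, 16, 18] _ s₂)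
    (fun s₃ ⟨e, f3, h3, m3⟩ => ?_) (by simp; omega)
  have b15 : s₃.regs 15 = s₂.mem (s₂.regs 0) := by simp [e, Op.exe, St.set, writeReg]
  have b18 : s₃.regs 18 = s₂.mem (s₂.mem (s₂.regs 0 + 1)) := by
    simp [e, Op.exe, St.set, writeReg, g2.ok.one, e1]
  have b10 : s₃.regs 10 = s₂.mem (s₂.mem (s₂.mem (s₂.regs 0 + 1) + 1)) := by
    simp [e, Op.exe, St.set, writeReg, g2.ok.one, e1, e2]
  have b11 : s₃.regs 11 = s₂.mem (s₂.mem (s₂.mem (s₂.regs 0 + 1) + 1) + 1) := by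
    simp [e, Op.exe, St.set, writeReg, g2.ok.one, e1, e2, e3]
  have b16 : s₃.regs 16 = s₃.regs 1 := by simp [e, Op.exe, St.set, writeReg]
  have g3 : G w s₃ (N + n) := g2.fw f3 (by omega)
  refine Ram.Run.seq (n := 4) (run_outLoop y s₃ (g3.ok.mono (by omega)) hy
    (by rw [b11]; exact f3.gw.rep p10)) (fun s₄ ⟨f4, h4, o4⟩ => ?_) le_rfl
  have c16 : s₄.regs 16 = s₃.regs 1 := (f4.regs 16 (by decide)).trans b16
  have c15 : s₄.regs 15 = s₂.mem (s₂.regs 0) := (f4.regs 15 (by decide)).trans b15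
  cases f with
  | none =>
    have c0 : s₄.regs 15 = 0 := c15.trans p3
    refine Ram.Run.ifz (n := 2) c0 (Ram.Run.blk le_rfl ⟨fun _ => ⟨?_, ?_⟩, fun h => absurd rfl h⟩)
      le_rfl
    · simpa [Op.exe, St.set, writeReg] using c0
    · simpa [Op.exe, St.set, writeReg, c16, h4] using o4
  | some u =>
    have c0 : s₄.regs 15 ≠ 0 := by rw [c15]; exact p3.1.ne'
    have f04 : Fw [0, 1, 2, 3, 10, 11, 12, 13, 14, 15, 16, 18] s s₄ (M + 2 + y.length) :=
      (f02.trans (L'' := [0, 1, 2, 3, 10, 11, 15, 16, 18]) f3 le_rfl).trans f4 le_rfl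
    refine Ram.Run.ifn (n := 0) c0 (Ram.Run.blk le_rfl ⟨fun h => by simp at h, fun _ =>
      ⟨c0, ⟨g0.fw f04 (by omega), f04.rep hs.inp, f04.rep hs.tab⟩, ?_, ?_, ?_⟩⟩) (by omega)
    · change s₄.regs 18 = 0 ↔ _
      rw [f4.regs 18 (by decide), b18]
      cases g with
      | none => exact ⟨fun _ => rfl, fun _ => p6⟩
      | some v => exact ⟨fun h => absurd h p6.1.ne', fun h => by simp at h⟩
    · exact f4.rep (by rw [b10]; exact f3.gw.rep p9)
    · change (List.range y.length).map (fun i => s₄.mem (s₄.regs 16 + i)) = y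
      rw [c16]; exact o4

/-- Second half of a round: store the answer in the table. -/
def ramPost : Cm :=
  .seq (.ifz 18 (.blk [.const 13 0]) (.blk [.copy 12 17, .const 13 0]))
    (.seq bitLoop (.seq (alloc 13 10 13) (alloc 9 13 9)))

lemma ram_run_post {A : RamIn} {T : RamTab} {n : ℕ} {s : St} {q : Qy} {a : ℕ}
    (hs : RamInv w A T (2 * w + 4 + n) s) (hq : Rep s.mem (s.regs 1) (enc q) (s.regs 10))
    (ha : (if s.regs 18 = 0 then s.regs 12 else s.regs 17) = a) (haw : a < 2 ^ w) :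
    Ram.Run w ρ ramPost s (11 * w + 15) fun s' => RamInv w A ((q, a.bits.reverse) :: T) n s' := by
  have hl : a.bits.length ≤ w := by rw [Nat.size_eq_bits_len]; exact Nat.size_le.2 haw
  refine Ram.Run.seq (m := 4) (n := 11 * w + 11) (Q := fun s₁ => Fw [12, 13] s s₁ 0 ∧
    s₁.regs 12 = a ∧ s₁.regs 13 = 0) ?_ (fun s₁ ⟨f1, a12, a13⟩ => ?_) (by omega)
  · by_cases h : s.regs 18 = 0
    · rw [if_pos h] at ha
      refine Ram.Run.ifz (n := 1) h ((run_blk [12, 13] _ s).mono le_rfl fun s₁ ⟨e, f1, _, _⟩ =>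
        ⟨f1, ?_, ?_⟩) (by omega) <;> simp [e, Op.exe, St.set, writeReg, ha]
    · rw [if_neg h] at ha
      refine Ram.Run.ifn (n := 2) h ((run_blk [12, 13] _ s).mono le_rfl fun s₁ ⟨e, f1, _, _⟩ =>
        ⟨f1, ?_, ?_⟩) (by omega) <;> simp [e, Op.exe, St.set, writeReg, ha]
  refine Ram.Run.seq (n := 10) (run_bitLoop a [] s₁ (hs.g.fw f1 (by omega)) a12 a13)
    (fun s₂ ⟨f2, _, r2⟩ => ?_) (by omega)
  rw [List.append_nil] at r2
  have f02 : Fw [1, 12, 13, 14] s s₂ (2 * w) := f1.trans f2 (by omega)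
  refine Ram.Run.seq (n := 5) (run_cons (hs.g.fw f02 (by omega)).ok (f02.rep hq) r2)
    (fun s₃ ⟨f3, _, r3⟩ => ?_) le_rfl
  have f03 : Fw [1, 12, 13, 14] s s₃ (2 * w + 2) := f02.trans f3 le_rfl
  refine (run_cons (hs.g.fw f03 (by omega)).ok r3 (f03.rep hs.tab)).mono le_rfl
    fun s₄ ⟨f4, _, r4⟩ => ?_
  have f04 : Fw [1, 9, 12, 13, 14] s s₄ (2 * w + 4) := f03.trans f4 le_rfl
  exact ⟨hs.g.fw f04 le_rfl, f04.rep hs.inp, r4⟩

/-- The whole setup. -/
def ramSetup (p₀ : Prog) : Cm := .seq (setup p₀) ramSetup₂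

/-- The oracle program. -/
def ramCode (p₀ p : Prog) : List (OInstr 20) :=
  ((ramSetup p₀).code 0 ++ ((ramPre p).code (ramSetup p₀).len ++
    [Instr.jumpIfZero 15 ((ramSetup p₀).len + (ramPre p).len + ramPost.len + 4)])).map OInstr.base ++
  (OInstr.query false 16 12 :: OInstr.query true 16 17 ::
    (ramPost.code ((ramSetup p₀).len + (ramPre p).len + 3) ++
      [Instr.jump (ramSetup p₀).len]).map OInstr.base)

lemma ram_base (p₀ p : Prog) : (ramCode p₀ p).map OInstr.toBase =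
    (ramSetup p₀).code 0 ++ ((ramPre p).code (ramSetup p₀).len ++
    (Instr.jumpIfZero 15 ((ramSetup p₀).len + (ramPre p).len + ramPost.len + 4) :: .halt :: .halt ::
    (ramPost.code ((ramSetup p₀).len + (ramPre p).len + 3) ++ [Instr.jump (ramSetup p₀).len]))) := by
  simp [ramCode, Function.comp_def, OInstr.toBase]

lemma ram_one {code : List (OInstr 20)} {n : ℕ} (O : Bool → Finset (Fin n) → ℕ) {s : St} {b t : ℕ}
    (h : step ⟨20, code.map OInstr.toBase⟩ w ρ (s.cfg b) = s.cfg t) (k : ℕ) :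
    ostep ⟨20, code⟩ n O w ρ ⟨s.cfg b, k⟩ = ⟨s.cfg t, k⟩ := by
  have h2 := ram_osim (w := w) (ρ := ρ) ⟨20, code⟩ n O 1 (s.cfg b) k (by
    change (step ⟨20, code.map OInstr.toBase⟩ w ρ (s.cfg b)).halted = false
    rw [h]; rfl)
  exact h2.trans (congrArg (fun c => OCfg.mk c k) h)

lemma ram_query {code : List (OInstr 20)} {n : ℕ} (O : Bool → Finset (Fin n) → ℕ) (s : St) {b : ℕ}
    {c : Bool} {a d : Fin 20} (h : code[b]? = some (.query c a d)) (k : ℕ) :
    ostep ⟨20, code⟩ n O w ρ ⟨s.cfg b, k⟩ = ⟨(s.set d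
      (O c (Finset.univ.filter fun j : Fin n => s.mem (s.regs a + j.val) ≠ 0) % 2 ^ w)).cfg (b + 1),
        k + 1⟩ := by
  simp [ostep, St.cfg, h, St.set]

/-- The loop. -/
theorem ram_loop (p₀ p : Prog) {n : ℕ} (O : Bool → Finset (Fin n) → ℕ) (hO : ∀ b S, O b S < 2 ^ w)
    (A : RamIn) (N : ℕ) (hN : w + 2 ≤ N) (y : List ℕ) (hy : ∀ a ∈ y, a < 2 ^ w)
    (good : ℕ → RamTab → Prop)
    (hstep : ∀ r T, good r T →
      (∃ g q, EvalLe p (enc (A, T)) (enc ((none, g, q, raw y) : RamOut)) N) ∨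
      ∃ (r' : ℕ) (q : Qy) (z : List ℕ) (S : Finset (Fin n)), r = r' + 1 ∧
        EvalLe p (enc (A, T)) (enc ((some (), if q.1 = true then some () else none, q, raw z) :
          RamOut)) N ∧ (∀ a ∈ z, a < 2 ^ w) ∧ n ≤ z.length ∧
        (∀ j : Fin n, z.getD j 0 ≠ 0 ↔ j ∈ S) ∧ good r' ((q, (O q.1 S).bits.reverse) :: T)) :
    ∀ (r : ℕ) (T : RamTab) (s : St) (k : ℕ), good r T → RamInv w A T ((r + 1) * ((kp p + 5) * N)) s →
      ∃ t, t ≤ (r + 1) * ((kp p + 50) * N) ∧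
        ((ostep ⟨20, ramCode p₀ p⟩ n O w ρ)^[t] ⟨s.cfg (ramSetup p₀).len, k⟩).cfg.halted = true ∧
        ((ostep ⟨20, ramCode p₀ p⟩ n O w ρ)^[t] ⟨s.cfg (ramSetup p₀).len, k⟩).cfg.output = y := by
  have a0 : At ((ramCode p₀ p).map OInstr.toBase) 0 ((ramCode p₀ p).map OInstr.toBase) :=
    ⟨[], [], by simp, rfl⟩
  conv at a0 => arg 3; rw [ram_base]
  have a1 := a0.right
  rw [Cm.length_code, zero_add] at a1
  have a2 := a1.right
  rw [Cm.length_code] at a2
  have a3 := a2.tail.tail.tail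
  have a4 := a3.right
  rw [Cm.length_code] at a4
  have q1 : (ramCode p₀ p)[(ramSetup p₀).len + (ramPre p).len + 1]? = some (.query false 16 12) := by
    rw [ramCode, List.getElem?_append_right (by simp [Cm.length_code, add_assoc])]
    simp [Cm.length_code, add_assoc]
  have q2 : (ramCode p₀ p)[(ramSetup p₀).len + (ramPre p).len + 1 + 1]? =
      some (.query true 16 17) := by
    rw [ramCode, List.getElem?_append_right (by simp [Cm.length_code]; omega)]
    have : (ramSetup p₀).len + (ramPre p).len + 1 + 1 - ((ramSetup p₀).len + ((ramPre p).len + 1)) =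
      1 := by omega
    simp [Cm.length_code, this]
  have q3 : (ramCode p₀ p)[(ramSetup p₀).len + (ramPre p).len + ramPost.len + 4]? = none := by
    rw [List.getElem?_eq_none_iff]
    simp [ramCode, Cm.length_code]
    omega
  have fin : ∀ (T : RamTab) (s : St) (k m : ℕ) g q,
      EvalLe p (enc (A, T)) (enc ((none, g, q, raw y) : RamOut)) N →
      RamInv w A T ((kp p + 3) * N + m) s → ∃ t, t ≤ (kp p + 50) * N ∧
        ((ostep ⟨20, ramCode p₀ p⟩ n O w ρ)^[t] ⟨s.cfg (ramSetup p₀).len, k⟩).cfg.halted = true ∧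
        ((ostep ⟨20, ramCode p₀ p⟩ n O w ρ)^[t] ⟨s.cfg (ramSetup p₀).len, k⟩).cfg.output = y := by
    intro T s k m g q hp hs
    obtain ⟨s', t, ht, ev, h1, -⟩ := ram_run_pre (ρ := ρ) hs hp hy
    obtain ⟨h2, h3⟩ := h1 rfl
    refine ⟨t + 2, by nlinarith, ?_⟩
    rw [Function.iterate_succ_apply', Function.iterate_succ_apply', ram_ev O ev _ a1.left,
      ram_one O ((step_jz a2.head s').trans (by rw [if_pos h2]))]
    simp only [ostep, St.cfg, q3, Bool.false_eq_true, if_false]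
    exact ⟨trivial, h3⟩
  intro r
  induction r with
  | zero =>
    intro T s k hg hs
    rcases hstep 0 T hg with ⟨g, q, hp⟩ | ⟨r', q, z, S, hr, -⟩
    · rw [zero_add, one_mul] at hs ⊢
      exact fin T s k (2 * N) g q hp (by rwa [show (kp p + 3) * N + 2 * N = (kp p + 5) * N by ring])
    · omega
  | succ r ih =>
    intro T s k hg hs
    rcases hstep _ T hg with ⟨g, q, hp⟩ | ⟨r', q, z, S, hr, hp, hz, hn, hS, hg'⟩
    · obtain ⟨t, ht, h⟩ := fin T s k (2 * N + (r + 1) * ((kp p + 5) * N)) g q hp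
        (by rwa [show (kp p + 3) * N + (2 * N + (r + 1) * ((kp p + 5) * N)) =
          (r + 1 + 1) * ((kp p + 5) * N) by ring])
      exact ⟨t, ht.trans (Nat.le_mul_of_pos_left _ (by omega)), h⟩
    · obtain rfl : r = r' := by omega
      obtain ⟨s₁, t₁, ht₁, ev₁, -, h1⟩ := ram_run_pre (ρ := ρ)
        (n := 2 * N + (r + 1) * ((kp p + 5) * N)) (s := s)
        (by rwa [show (kp p + 3) * N + (2 * N + (r + 1) * ((kp p + 5) * N)) =
          (r + 1 + 1) * ((kp p + 5) * N) by ring]) hp hz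
      obtain ⟨h2, h3, h4, h5, h6⟩ := h1 (by simp)
      have hS' : (Finset.univ.filter fun j : Fin n => s₁.mem (s₁.regs 16 + j.val) ≠ 0) = S := by
        ext j
        rw [Finset.mem_filter, ← hS, ← h6]
        have : j.val < z.length := j.isLt.trans_le hn
        simp [this]
      let s₂ : St := (s₁.set 12 (O false S)).set 17 (O true S)
      have f2 : Fw [12, 17] s₁ s₂ 0 := by
        refine ⟨Gw.of_eq _ ?_ rfl, fun j hj => ?_⟩
        · simp [s₂, St.set, writeReg]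
        · simp only [List.mem_cons, List.not_mem_nil, or_false, not_or] at hj
          simp [s₂, St.set, writeReg, hj.1, hj.2]
      obtain ⟨s₃, t₃, ht₃, ev₃, h7⟩ := ram_run_post (ρ := ρ) (A := A) (T := T) (s := s₂) (q := q)
        (a := O q.1 S) (n := (r + 1) * ((kp p + 5) * N))
        ⟨h3.g.fw f2 (by omega), f2.rep h3.inp, f2.rep h3.tab⟩ (f2.rep h5) (by
          rw [f2.regs 18 (by decide)]
          cases hq : q.1 <;> simp [hq] at h4 <;> simp [h4, s₂, St.set, writeReg]) (hO _ _)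
      obtain ⟨t, ht, h8⟩ := ih _ s₃ (k + 1 + 1) hg' h7
      refine ⟨t + (1 + (t₃ + (1 + (1 + (1 + t₁))))), by nlinarith, ?_⟩
      have e2 : ostep ⟨20, ramCode p₀ p⟩ n O w ρ (ostep ⟨20, ramCode p₀ p⟩ n O w ρ
          ⟨s₁.cfg ((ramSetup p₀).len + (ramPre p).len + 1), k⟩) =
          ⟨s₂.cfg ((ramSetup p₀).len + (ramPre p).len + 1 + 1 + 1), k + 1 + 1⟩ := by
        rw [ram_query O _ q1, ram_query O _ q2, hS', Nat.mod_eq_of_lt (hO _ _)]
        have : ((s₁.set 12 (O false S)).regs 16) = s₁.regs 16 := by simp [St.set, writeReg]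
        rw [this]
        change OCfg.mk (St.cfg (St.set _ 17 (O true (Finset.univ.filter
          fun j : Fin n => s₁.mem (s₁.regs 16 + j.val) ≠ 0) % 2 ^ w)) _) _ = _
        rw [hS', Nat.mod_eq_of_lt (hO _ _)]
      simp only [Function.iterate_add_apply, Function.iterate_one]
      rw [ram_ev O ev₁ _ a1.left, ram_one O ((step_jz a2.head s₁).trans (by rw [if_neg h2])), e2,
        ram_ev O ev₃ _ a3.left, ram_one O (step_jump a4.head s₃)]
      exact h8

/-- The whole run. -/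
theorem ram_whole (p₀ p : Prog) {n : ℕ} (O : Bool → Finset (Fin n) → ℕ) (hO : ∀ b S, O b S < 2 ^ w)
    {x : List ℕ} (hx : ∀ a ∈ x, a < 2 ^ w) {len : ℕ} (N : ℕ) (hN : len + w + 2 ≤ N) (hw0 : 0 < w)
    (h₀ : EvalLe p₀ (enc (raw x)) (enc (List.replicate len ())) N)
    (y : List ℕ) (hy : ∀ a ∈ y, a < 2 ^ w) (good : ℕ → RamTab → Prop)
    (hstep : ∀ r T, good r T →
      (∃ g q, EvalLe p (enc (((raw x, List.replicate len (), List.replicate w (),
        (bitsAt w ρ 0 len).reverse) : RamIn), T)) (enc ((none, g, q, raw y) : RamOut)) N) ∨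
      ∃ (r' : ℕ) (q : Qy) (z : List ℕ) (S : Finset (Fin n)), r = r' + 1 ∧
        EvalLe p (enc (((raw x, List.replicate len (), List.replicate w (),
          (bitsAt w ρ 0 len).reverse) : RamIn), T))
          (enc ((some (), if q.1 = true then some () else none, q, raw z) :
          RamOut)) N ∧ (∀ a ∈ z, a < 2 ^ w) ∧ n ≤ z.length ∧
        (∀ j : Fin n, z.getD j 0 ≠ 0 ↔ j ∈ S) ∧ good r' ((q, (O q.1 S).bits.reverse) :: T))
    (r : ℕ) (hg : good r []) (hw : (r + 1) * ((kp p₀ + kp p + 100) * N) < 2 ^ w) (t : ℕ)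
    (ht : (r + 1) * ((kp p₀ + kp p + 100) * N) ≤ t) :
    (orun ⟨20, ramCode p₀ p⟩ n O w ρ x t).cfg.halted = true ∧
      (orun ⟨20, ramCode p₀ p⟩ n O w ρ x t).cfg.output = y := by
  have a0 : At ((ramCode p₀ p).map OInstr.toBase) 0 ((ramCode p₀ p).map OInstr.toBase) :=
    ⟨[], [], by simp, rfl⟩
  conv at a0 => arg 3; rw [ram_base]
  have hb : (kp p₀ + 50) * N + (r + 1) * ((kp p + 50) * N) ≤
      (r + 1) * ((kp p₀ + kp p + 100) * N) := by
    have : (kp p₀ + 50) * N ≤ (r + 1) * ((kp p₀ + 50) * N) := Nat.le_mul_of_pos_left _ (by omega)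
    nlinarith
  have hb2 : (r + 1) * ((kp p + 5) * N) ≤ (r + 1) * ((kp p + 50) * N) := by gcongr; omega
  obtain ⟨s₁, t₁, ht₁, ev₁, hs₁⟩ : Ram.Run w ρ (ramSetup p₀) (st0 w x) ((kp p₀ + 50) * N) fun s =>
      RamInv w (raw x, List.replicate len (), List.replicate w (), (bitsAt w ρ 0 len).reverse)
        [] ((r + 1) * ((kp p + 5) * N)) s :=
    Ram.Run.seq (run_setup h₀ (by nlinarith) hx)
      (fun s ⟨h1, h2⟩ => ram_run_setup₂ h2 h1 (by nlinarith) hw0) (by nlinarith)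
  obtain ⟨t₂, ht₂, h1, h2⟩ := ram_loop (ρ := ρ) p₀ p O hO _ N (by omega) y hy good hstep r [] s₁ 0
    hg hs₁
  have e1 := ram_ev O ev₁ 0 a0.left 0
  rw [zero_add] at e1
  obtain ⟨u, rfl⟩ : ∃ u, t = u + (t₂ + t₁) := ⟨t - (t₂ + t₁), by omega⟩
  have e2 : orun ⟨20, ramCode p₀ p⟩ n O w ρ x (u + (t₂ + t₁)) =
      (ostep ⟨20, ramCode p₀ p⟩ n O w ρ)^[t₂] ⟨s₁.cfg (ramSetup p₀).len, 0⟩ := by
    rw [orun, Function.iterate_add_apply, Function.iterate_add_apply]
    change (ostep ⟨20, ramCode p₀ p⟩ n O w ρ)^[u] ((ostep ⟨20, ramCode p₀ p⟩ n O w ρ)^[t₂]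
      ((ostep ⟨20, ramCode p₀ p⟩ n O w ρ)^[t₁] ⟨(st0 w x).cfg 0, 0⟩)) = _
    rw [e1]
    exact Function.iterate_fixed (by rw [ostep, if_pos h1]) u
  rw [e2]
  exact ⟨h1, h2⟩

end Crest.Agent.R302
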