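import Crest.Agent.R302.OC
import Crest.Agent.R309.RamComp
import Crest.Agent.R309.RamProb
import Crest.Prelude.Def_OracleRAM
import Crest.Agent.R302.RamAux

/-!
Row 302, part G2: compiling an `OC` function to the oracle word RAM.

Plan (helper files `Ram*.lean`; reuse `R309.RamCompA`–`D`).
1. Simulation: while the program counter points to a `base` instruction, `ostep` is `step` of
   `baseProgram`; so `Ev.sim` transfers to code blocks without queries.
2. Setup: read the input (`inLoop`), compute `w` by doubling a register until it overflows to `0`,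
   run the program for `x ↦ replicate (len x) ()`, draw `len x` bits (`drawLoop`), start with the empty
   table.
3. Loop: run the compiled `PT` function `m` on `((w, x, ω), T)`.  If it returns a query `(b, q)`, write
   `q ++ replicate (len x) false` as `0/1` words (`outLoop`), execute the `query` instruction, convert the
   answer to bits (`bitLoop`), cons `((b, q), answer)` to the table and repeat; at most `n a + 1` rounds.
   Otherwise write the output words (digits of numerator and denominator in base `2 ^ w`; compute them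
   with base `2 ^ min w (size)` so that this is `PT`) and halt.
-/

set_option autoImplicit false

namespace Crest.Agent.R302

open Crest.Agent.Lib.PT Crest.Agent.R309 Crest.OracleRAM

/-- The oracle of the machine as a function of indicator strings. -/
def orcOf {n : ℕ} (O : Bool → Finset (Fin n) → ℕ) : Orc :=
  fun q => O q.1 (Finset.univ.filter fun j : Fin n => q.2.getD j false = true)

/-- `N` digits in base `2 ^ w`. -/
def ramDig (w N a : ℕ) : List ℕ := (List.range N).map fun i => a / 2 ^ (w * min i N) % 2 ^ w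

/-- The output words for a rational number. -/
def ramOut (w : ℕ) (r : ℚ) : List ℕ :=
  (Nat.size r.num.natAbs + Nat.size r.den) ::
    (ramDig w (Nat.size r.num.natAbs + Nat.size r.den) r.num.natAbs ++
      ramDig w (Nat.size r.num.natAbs + Nat.size r.den) r.den)

lemma ram_wordsVal (w N : ℕ) : ∀ a : ℕ,
    wordsVal w ((List.range N).map fun i => a / 2 ^ (w * i) % 2 ^ w) = a % 2 ^ (w * N) := by
  induction N with
  | zero => intro a; simp [wordsVal, Nat.mod_one]
  | succ N ih =>
    intro a
    rw [List.range_succ_eq_map, List.map_cons, List.map_map, wordsVal, mul_add, mul_one, pow_add,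
      mul_comm (2 ^ (w * N)), Nat.mod_mul, ← ih]
    congr 1
    · simp
    · congr 2
      refine List.map_congr_left fun i _ => ?_
      simp only [Function.comp_apply, Nat.succ_eq_add_one, mul_add, mul_one, pow_add,
        Nat.div_div_eq_div_mul, mul_comm (2 ^ w)]

lemma ram_wordsVal_dig {w N a : ℕ} (hw : 0 < w) (ha : Nat.size a ≤ N) :
    wordsVal w (ramDig w N a) = a := by
  have h1 : ramDig w N a = (List.range N).map fun i => a / 2 ^ (w * i) % 2 ^ w :=
    List.map_congr_left fun i hi => by rw [min_eq_left (List.mem_range.1 hi).le]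
  rw [h1, ram_wordsVal, Nat.mod_eq_of_lt]
  exact (Nat.size_le.1 ha).trans_le
    (Nat.pow_le_pow_right (by norm_num) (Nat.le_mul_of_pos_left _ hw))

lemma ram_decode {w : ℕ} (hw : 0 < w) {r : ℚ} (hr : 0 ≤ r) : decodeRat w (ramOut w r) = some r := by
  have hl : ∀ N a, (ramDig w N a).length = N := fun N a => by simp [ramDig]
  rw [ramOut, decodeRat, List.drop_left' (hl _ _), List.take_left' (hl _ _),
    ram_wordsVal_dig hw (Nat.le_add_left _ _), ram_wordsVal_dig hw (Nat.le_add_right _ _),
    if_neg r.den_ne_zero]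
  congr 1
  rw [Nat.cast_natAbs, abs_of_nonneg (Rat.num_nonneg.2 hr), Rat.num_div_den]

lemma ram_out_lt {w : ℕ} {r : ℚ} (h : sz r < 2 ^ w) : ∀ a ∈ ramOut w r, a < 2 ^ w := by
  intro a ha
  have key : ∀ N b, a ∈ ramDig w N b → a < 2 ^ w := by
    intro N b hb
    obtain ⟨i, -, rfl⟩ := List.mem_map.1 hb
    exact Nat.mod_lt _ (by positivity)
  rcases List.mem_cons.1 ha with rfl | ha
  · rw [sz_rat, sz_int, sz_nat, sz_nat] at h
    omega
  · rcases List.mem_append.1 ha with ha | ha <;> exact key _ _ ha

/-- Decoding a raw table. -/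
def ramDec (T : RamTab) : Tab := T.map fun e => (e.1, ofBits e.2.reverse)

/-- The function computed in each round. -/
def ramF (m : (List ℕ × List Bool) × Tab → ℚ ⊕ Qy) (a : RamIn × RamTab) : RamOut :=
  Sum.elim (fun r => (none, none, (false, []), Ram.raw (ramOut a.1.2.2.1.length r)))
    (fun q => (some (), if q.1 = true then some () else none, q,
      Ram.raw ((q.2 ++ a.1.2.1.map fun _ => false).map Bool.toNat)))
    (m ((unraw a.1.1, a.1.2.2.2.reverse), ramDec a.2))

lemma ram_pt_out : PT fun p : List Unit × ℚ => ramOut p.1.length p.2 := by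
  unfold ramOut ramDig
  fun_prop

lemma ram_pt {m : (List ℕ × List Bool) × Tab → ℚ ⊕ Qy} (hm : PT m) : PT (ramF m) := by
  have hu : PT unraw := by unfold unraw; fun_prop
  have hr : PT Ram.raw := by unfold Ram.raw; fun_prop
  have hd : PT ramDec := by unfold ramDec; fun_prop
  have ho : PT fun p : (RamIn × RamTab) × ℚ => ramOut p.1.1.2.2.1.length p.2 :=
    ram_pt_out.comp (f := fun p : (RamIn × RamTab) × ℚ => (p.1.1.2.2.1, p.2)) (by fun_prop)
  unfold ramF
  refine PT.sumElim (by fun_prop) ?_ (by fun_prop)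
  exact (PT.const _).pair ((PT.const _).pair ((PT.const _).pair (hr.comp ho)))

lemma ram_unary {len : List ℕ → ℕ} (hlen : PT len) : ∃ (p : Prog) (c k : ℕ), ∀ x,
    EvalLe p (enc (Ram.raw x)) (enc (List.replicate (len x) ()))
      (c * (sz x + 2 * len x + 1) ^ k) := by
  have hu : PT unraw := by unfold unraw; fun_prop
  obtain ⟨c, k, p, hp⟩ := TimeF.of_pad (m := fun r => Nat.size (len (unraw r))) (by fun_prop)
    (G := fun a : List (List Bool) × List Unit => a.2.take (len (unraw a.1))) (by fun_prop)
  refine ⟨p, c, k, fun x => ?_⟩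
  have h := hp (Ram.raw x)
  simp only [unraw_raw, List.take_replicate, Ram.sz_raw,
    min_eq_left (Nat.lt_size_self (len x)).le] at h
  refine h.mono (Nat.mul_le_mul_left _ (Nat.pow_le_pow_left ?_ _))
  rcases Nat.eq_zero_or_pos (Nat.size (len x)) with h0 | h0
  · rw [h0]; omega
  · obtain ⟨s, hs⟩ : ∃ s, Nat.size (len x) = s + 1 := ⟨_, (Nat.succ_pred_eq_of_pos h0).symm⟩
    have := Nat.lt_size.1 (show s < Nat.size (len x) by omega)
    rw [hs, pow_succ]
    omega

lemma ram_countP {α : Type} {l : List α} {p p' : α → Bool} (h : ∀ x, p x = true → p' x = true)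
    {q : α} (hq : q ∈ l) (h1 : p q = false) (h2 : p' q = true) : l.countP p < l.countP p' := by
  obtain ⟨u, v, rfl⟩ := List.append_of_mem hq
  have a1 : u.countP p ≤ u.countP p' := List.countP_mono_left fun x _ => h x
  have a2 : v.countP p ≤ v.countP p' := List.countP_mono_left fun x _ => h x
  simp only [List.countP_append, List.countP_cons, h1, h2, if_true, Bool.false_eq_true, if_false]
  omega

theorem exists_oprog (len : List ℕ → ℕ) (hlen : PT len) (f : Orc → List ℕ × List Bool → ℚ)
    (hf : OC f) (h0 : ∀ O a, 0 ≤ f O a) : ∃ (P : OProgram) (K k : ℕ),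
      ∀ (n : ℕ) (O : Bool → Finset (Fin n) → ℕ) (w : ℕ) (x : List ℕ), n ≤ len x →
        (∀ a ∈ x, a < 2 ^ w) → (∀ b A, O b A < 2 ^ w) → K * (sz x + len x + w) ^ k < 2 ^ w →
        ∀ (ρ : ℕ → ℕ) (T : ℕ), K * (sz x + len x + w) ^ k ≤ T →
          (orun P n O w ρ x T).cfg.halted = true ∧
            decodeRat w (orun P n O w ρ x T).cfg.output =
              some (f (orcOf O) (x, bitsAt w ρ 0 (len x))) := by
  obtain ⟨m, nb, hm, ⟨c0, k0, hnb⟩, hf⟩ := hf
  obtain ⟨c1, k1, p, hp⟩ := (ram_pt hm).exists_bound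
  obtain ⟨p₀, c2, k2, hp₀⟩ := ram_unary hlen
  obtain ⟨c3, k3, hP⟩ : PB fun u : List Unit => (c0 * (8 * u.length) ^ k0 + 1) *
      ((Ram.kp p₀ + Ram.kp p + 100) * (c1 * (8 * u.length + 8 + c0 * (8 * u.length) ^ k0 *
        (c0 * (8 * u.length) ^ k0 + 6 * u.length + 3)) ^ k1 + c2 * (2 * u.length + 1) ^ k2 +
        u.length + 2)) := by fun_prop
  refine ⟨⟨20, ramCode p₀ p⟩, c3 * 3 ^ k3, k3, fun n O w x hn hx hO hw ρ T hT => ?_⟩
  have hx1 := sz_pos x
  obtain ⟨S, hS⟩ : ∃ S, S = sz x + len x + w := ⟨_, rfl⟩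
  rw [← hS] at hw hT
  have hP1 := hP (List.replicate S ())
  simp only [List.length_replicate, sz_unitList] at hP1
  have hP2 : c3 * (2 * S + 1) ^ k3 ≤ c3 * 3 ^ k3 * S ^ k3 := by
    rw [mul_assoc, ← mul_pow]
    gcongr
    omega
  obtain ⟨ω, hω⟩ : ∃ ω, ω = bitsAt w ρ 0 (len x) := ⟨_, rfl⟩
  have hωl : ω.length = len x := by simp [hω, bitsAt]
  obtain ⟨hsz, Qs, hQs, hf⟩ := hf (orcOf O) (x, ω)
  have hB : nb (x, ω) ≤ c0 * (8 * S) ^ k0 := by
    refine (hnb _).trans (Nat.mul_le_mul_left _ (Nat.pow_le_pow_left ?_ _))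
    rw [sz_pair, sz_boolList, hωl]
    omega
  generalize c0 * (8 * S) ^ k0 = B at hB hP1
  obtain ⟨N, hN⟩ : ∃ N, N = c1 * (8 * S + 8 + B * (B + 6 * S + 3)) ^ k1 + c2 * (2 * S + 1) ^ k2 +
    S + 2 := ⟨_, rfl⟩
  rw [← hN] at hP1
  have hN1 : S + 2 ≤ N := by omega
  have hBX : B + 1 ≤ (B + 1) * ((Ram.kp p₀ + Ram.kp p + 100) * N) :=
    Nat.le_mul_of_pos_right _ (Nat.mul_pos (by omega) (by omega))
  have hw0 : 0 < w := by
    rcases Nat.eq_zero_or_pos w with h | h
    · rw [h] at hw; omega
    · exact h
  have hR : Qs.length ≤ B := (length_le_sz Qs).trans (hQs.trans hB)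
  have hRX : (Qs.length + 1) * ((Ram.kp p₀ + Ram.kp p + 100) * N) ≤
      (B + 1) * ((Ram.kp p₀ + Ram.kp p + 100) * N) := by gcongr
  have key := ram_whole (ρ := ρ) p₀ p O hO hx (len := len x) N (by omega) hw0
    ((hp₀ x).mono (by
      have : c2 * (sz x + 2 * len x + 1) ^ k2 ≤ c2 * (2 * S + 1) ^ k2 := by gcongr; omega
      omega))
    (ramOut w (f (orcOf O) (x, ω))) (ram_out_lt (by omega))
    (fun r T => Cons (orcOf O) (ramDec T) ∧
      Qs.countP (fun q => ((ramDec T).lookup q).isNone) ≤ r ∧
      sz T + r * (B + 6 * S + 3) ≤ 1 + B * (B + 6 * S + 3)) ?_ Qs.length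
    ⟨fun q v h => by simp [ramDec] at h, List.countP_le_length, by
      rw [sz_nil]; gcongr⟩ (by omega) T (by omega)
  · refine ⟨key.1, ?_⟩
    rw [key.2, ← hω]
    exact ram_decode hw0 (h0 _ _)
  rintro r T ⟨g1, g2, g3⟩
  rw [← hω]
  have h1 := (hp ((Ram.raw x, List.replicate (len x) (), List.replicate w (), ω.reverse), T)).mono
    (n' := N) (by
      have : sz (((Ram.raw x, List.replicate (len x) (), List.replicate w (), ω.reverse) : RamIn), T)
          ≤ 8 * S + 8 + B * (B + 6 * S + 3) := by
        simp only [sz_pair, Ram.sz_raw, sz_unitList, sz_boolList, List.length_replicate,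
          List.length_reverse, hωl]
        omega
      have := Nat.mul_le_mul_left c1 (Nat.pow_le_pow_left this k1)
      beta_reduce
      omega)
  simp only [ramF, unraw_raw, List.reverse_reverse, List.length_replicate] at h1
  rcases hf _ g1 with h2 | ⟨q, hq, h2, h3⟩
  · rw [h2] at h1
    exact Or.inl ⟨_, _, h1⟩
  · rw [h3] at h1
    have e : ramDec ((q, (orcOf O q).bits.reverse) :: T) = (q, orcOf O q) :: ramDec T := by
      simp [ramDec]
    have h4 : Qs.countP (fun q' => (((q, orcOf O q) :: ramDec T).lookup q').isNone) <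
        Qs.countP (fun q' => ((ramDec T).lookup q').isNone) := by
      refine ram_countP (fun q' h => ?_) hq (by simp) (by simp [h2])
      rw [List.lookup_cons] at h
      split at h
      · simp at h
      · exact h
    obtain ⟨r', rfl⟩ : ∃ r', r = r' + 1 := ⟨r - 1, by omega⟩
    refine Or.inr ⟨r', q, _, Finset.univ.filter fun j : Fin n => q.2.getD j false = true, rfl, h1,
      fun a ha => ?_, by simp; omega, fun j => ?_, ?_, ?_, ?_⟩
    · obtain ⟨b, -, rfl⟩ := List.mem_map.1 ha
      exact (Bool.toNat_le b).trans_lt (Nat.one_lt_two_pow (by omega))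
    · have hj : j.val < len x := j.isLt.trans_le hn
      rw [Finset.mem_filter]
      rcases Nat.lt_or_ge j.val q.2.length with h | h
      · simp [List.getElem?_append_left, h]
      · simp [List.getElem?_append_right, h, List.getElem?_replicate]
        split_ifs <;> simp
    · change Cons _ (ramDec ((q, (orcOf O q).bits.reverse) :: T))
      rw [e]
      intro q' v h
      rw [List.lookup_cons] at h
      split at h
      · rename_i h'
        rw [beq_iff_eq.1 h']
        simpa using h
      · exact g1 q' v h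
    · change Qs.countP (fun q' => ((ramDec ((q, (orcOf O q).bits.reverse) :: T)).lookup q').isNone)
        ≤ r'
      rw [e]
      omega
    · change sz ((q, (orcOf O q).bits.reverse) :: T) + _ ≤ _
      have a1 : sz q ≤ B := (sz_le_of_mem hq).trans (hQs.trans hB)
      have a2 : (orcOf O q).bits.length ≤ w := by
        rw [Nat.size_eq_bits_len]; exact Nat.size_le.2 (hO _ _)
      rw [sz_cons, sz_pair, sz_boolList, List.length_reverse]
      rw [add_mul] at g3
      omega

/-- `ramprob_indep`, `ramprob_TE_*` of `R309.RamProb`. -/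
theorem oprob_eq (P : OProgram) (n : ℕ) (O : Bool → Finset (Fin n) → ℕ) {w : ℕ} (hw : 0 < w)
    (x : List ℕ) {T len : ℕ} (hT : len ≤ T) (E : OCfg P.numRegs → Prop) (G : List Bool → Prop)
    (h : ∀ ρ, E (orun P n O w ρ x T) ↔ G (bitsAt w ρ 0 len)) :
    oprobAfter P n O w x T E = Pr len G := by
  classical
  obtain ⟨N, rfl⟩ := Nat.exists_eq_add_of_le hT
  have h1 := ramprob_indep hw N (fun _ => 1) len fun l => if G l then 1 else 0
  rw [ramprob_TE_const (by positivity), mul_one] at h1
  simp only [mul_one] at h1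
  have h2 : Pr len G = Ex len fun l => if G l then 1 else 0 := by
    rw [Pr]
  rw [h2, ← h1]
  unfold oprobAfter Crest.FinProb.uniformProb ramprobTE
  rw [Finset.sum_boole]
  simp only [Fintype.card_fun, Fintype.card_fin, Nat.cast_pow, Set.mem_setOf_eq, h]

end Crest.Agent.R302
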