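import Crest.Agent.R302.Sched

/-!
Row 302, part E9: consecutive partition functions differ by a factor at most four.
-/

set_option autoImplicit false

namespace Crest.Agent.R302

open Finset Crest.Polymatroid

variable {n R S : ℕ} {r₁ r₂ : Finset (Fin n) → ℕ} {I : ℕ → Inst (Fin (n + 2))}

/-- the number of common points of the two sides -/
noncomputable def cntP (r₁ r₂ : Finset (Fin n) → ℕ) (R S d₁ d₂ T : ℕ) : ℕ :=
  Set.ncard {y | Side r₁ R (sb R) d₁ (sU S) 0 T y ∧ Side r₂ R (sb R) d₂ (sU S) 0 T y}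

lemma cntP_comm (r₁ r₂ : Finset (Fin n) → ℕ) (R S d₁ d₂ T : ℕ) :
    cntP r₁ r₂ R S d₁ d₂ T = cntP r₂ r₁ R S d₂ d₁ T := by
  unfold cntP
  simp only [and_comm]

lemma ratio_sum (y : Fin (n + 2) → ℤ) : ∑ e, y e = ∑ e, y (eo e) + y (eτ n) + y (eσ n) := by
  rw [Fin.sum_univ_castSucc, Fin.sum_univ_castSucc]
  rfl

lemma ratio_cases (e : Fin (n + 2)) : (∃ e', e = eo e') ∨ e = eτ n ∨ e = eσ n := by
  obtain ⟨e, he⟩ := e
  rcases Nat.lt_or_ge e n with h | h
  · exact Or.inl ⟨⟨e, h⟩, rfl⟩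
  · rcases Nat.eq_or_lt_of_le h with h | h
    · subst h
      exact Or.inr (Or.inl rfl)
    · obtain rfl : e = n + 1 := by omega
      exact Or.inr (Or.inr rfl)

lemma ratio_oτ (e : Fin n) : eo e ≠ eτ n := by
  intro h
  have := congrArg Fin.val h
  have := e.2
  simp [eo, eτ] at *
  omega

lemma ratio_oσ (e : Fin n) : eo e ≠ eσ n := by
  intro h
  have := congrArg Fin.val h
  have := e.2
  simp [eo, eσ] at *
  omega

lemma ratio_τσ : eτ n ≠ eσ n := by
  intro h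
  have := congrArg Fin.val h
  simp [eτ, eσ] at this

lemma ratio_oo {e e' : Fin n} (h : eo e = eo e') : e = e' := by
  have := congrArg Fin.val h
  exact Fin.ext this

lemma ratio_S (hS : SzIn n R S) : 2 ^ 20 ≤ S := by
  obtain ⟨k, hk, rfl⟩ := hS.pow
  exact Nat.pow_le_pow_right (by norm_num) hk

/-- the points in the box -/
def ratioBox (n R S : ℕ) : Set (Fin (n + 2) → ℤ) :=
  {y | (∀ e : Fin n, 0 ≤ y (eo e) ∧ y (eo e) < 2 ^ sb R) ∧ (-(sU S : ℤ) ≤ y (eτ n) ∧ y (eτ n) ≤ 0) ∧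
    ∑ e, y e = R}

lemma ratio_box (hS : SzIn n R S) :
    (ratioBox n R S).Finite ∧ (ratioBox n R S).ncard ≤ 2 ^ (S ^ 2 + S) := by
  classical
  let T : Finset ((Fin n → ℤ) × ℤ) :=
    Fintype.piFinset (fun _ : Fin n => Finset.Ico (0 : ℤ) (2 ^ sb R)) ×ˢ Finset.Icc (-(sU S : ℤ)) 0
  let f : (Fin (n + 2) → ℤ) → (Fin n → ℤ) × ℤ := fun y => (fun e => y (eo e), y (eτ n))
  have hf : ∀ y ∈ ratioBox n R S, f y ∈ (T : Set ((Fin n → ℤ) × ℤ)) := by
    rintro y ⟨h1, h2, -⟩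
    simp only [T, f, coe_product, Set.mem_prod, mem_coe, Fintype.mem_piFinset, mem_Ico, mem_Icc]
    exact ⟨h1, h2⟩
  have hi : Set.InjOn f (ratioBox n R S) := by
    rintro y ⟨-, -, h1⟩ z ⟨-, -, h2⟩ h
    have e1 : ∀ e, y (eo e) = z (eo e) := fun e => congrFun (congrArg Prod.fst h) e
    have e2 : y (eτ n) = z (eτ n) := congrArg Prod.snd h
    rw [ratio_sum] at h1 h2
    simp only [e1] at h1
    funext e
    rcases ratio_cases e with ⟨e, rfl⟩ | rfl | rfl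
    · exact e1 e
    · exact e2
    · omega
  refine ⟨Set.Finite.of_injOn (f := f) hf hi T.finite_toSet, ?_⟩
  refine (Set.ncard_le_ncard_of_injOn f hf hi T.finite_toSet).trans ?_
  rw [Set.ncard_coe_finset]
  have hs := ratio_S hS
  have h3 : 1 ≤ S ^ 3 := Nat.one_le_pow _ _ (by omega)
  have hc : T.card = (2 ^ sb R) ^ n * (2 * S ^ 3) := by
    simp only [T, card_product, Fintype.card_piFinset, Int.card_Ico, Int.card_Icc, prod_const,
      card_univ, Fintype.card_fin]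
    have e1 : ((2 : ℤ) ^ sb R - 0).toNat = 2 ^ sb R := by
      rw [sub_zero]
      exact_mod_cast Int.toNat_natCast (2 ^ sb R)
    have e2 : (0 + 1 - -(sU S : ℤ)).toNat = 2 * S ^ 3 := by
      unfold sU
      omega
    rw [e1, e2]
  rw [hc, ← pow_mul]
  have h4 : S ≤ 2 ^ S := Nat.lt_two_pow_self.le
  have h5 : 2 * S ≤ 2 ^ S := by
    obtain ⟨m, rfl⟩ : ∃ m, S = m + 1 := ⟨S - 1, by omega⟩
    have := @Nat.lt_two_pow_self m
    rw [pow_succ]
    omega
  have h6 : 2 * S ^ 3 ≤ 2 ^ (3 * S) := by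
    calc 2 * S ^ 3 = 2 * S * S * S := by ring
      _ ≤ 2 ^ S * 2 ^ S * 2 ^ S := by gcongr
      _ = 2 ^ (3 * S) := by rw [← pow_add, ← pow_add]; congr 1; ring
  have h7 : sb R * n + 3 * S ≤ S ^ 2 + S := by
    have := hS.n_le
    have := hS.b_le
    nlinarith [Nat.mul_le_mul_right n hS.b_le]
  calc 2 ^ (sb R * n) * (2 * S ^ 3) ≤ 2 ^ (sb R * n) * 2 ^ (3 * S) := by gcongr
    _ = 2 ^ (sb R * n + 3 * S) := by rw [pow_add]
    _ ≤ _ := Nat.pow_le_pow_right (by norm_num) h7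

lemma ratio_side_box {r : Finset (Fin n) → ℕ} {d T : ℕ} {y : Fin (n + 2) → ℤ}
    (h : Side r R (sb R) d (sU S) 0 T y) : y ∈ ratioBox n R S :=
  ⟨h.1, ⟨h.2.1.1, by exact_mod_cast h.2.1.2⟩, h.2.2.2.1⟩

lemma cntP_le (hS : SzIn n R S) (d₁ d₂ T : ℕ) : cntP r₁ r₂ R S d₁ d₂ T ≤ 2 ^ (S ^ 2 + S) := by
  exact (Set.ncard_le_ncard (fun y hy => ratio_side_box hy.1) (ratio_box hS).1).trans (ratio_box hS).2

/-- The partition function as a sum over the points of the second side. -/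
lemma ratio_Z {E : Type} [Fintype E] [DecidableEq E] (J : Inst E) {P Q : (E → ℤ) → Prop}
    (hm : ∀ a, InB J.F a ↔ P (fun e => a (e, false)) ∧ Q (fun e => -a (e, true)))
    {w : (E → ℤ) → ℕ} (hw : ∀ a, J.wx a = w (fun e => a (e, false))) (γ : E → ℤ) :
    ∃ T : Finset (E → ℤ), (∀ z, z ∈ T ↔ P (z + γ) ∧ Q z) ∧
      J.Z γ = ∑ z ∈ T, (1 / 2 : ℝ) ^ w (z + γ) := by
  classical
  have key : ∀ a : E × Bool → ℤ, ell a = γ →
      (fun e => -a (e, true)) + γ = fun e => a (e, false) := by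
    rintro a rfl
    funext e
    simp [ell_apply]
  refine ⟨(J.N.filter fun a => ell a = γ).image fun a e => -a (e, true), fun z => ?_, ?_⟩
  · simp only [mem_image, mem_filter, Inst.mem_N]
    constructor
    · rintro ⟨a, ⟨h1, h2⟩, rfl⟩
      rw [key a h2]
      exact (hm a).1 h1
    · rintro ⟨h1, h2⟩
      refine ⟨fun p => if p.2 then -z p.1 else z p.1 + γ p.1, ⟨(hm _).2 ⟨?_, ?_⟩, ?_⟩, ?_⟩
      · exact h1
      · simpa using h2
      · funext e
        simp [ell_apply]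
      · funext e
        simp
  · rw [Finset.sum_image]
    · refine Finset.sum_congr rfl fun a ha => ?_
      rw [key a (mem_filter.1 ha).2, Inst.W, hw]
    · intro a ha b hb h
      have h1 := key a (mem_filter.1 ha).2
      have h2 := key b (mem_filter.1 hb).2
      have h3 : (fun e => -a (e, true)) = fun e => -b (e, true) := h
      rw [h3, h2] at h1
      funext ⟨e, c⟩
      cases c
      · exact (congrFun h1 e).symm
      · exact neg_injective (congrFun h3 e)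

lemma ratio_Z_card {E : Type} [Fintype E] [DecidableEq E] (J : Inst E) {P Q : (E → ℤ) → Prop}
    (hm : ∀ a, InB J.F a ↔ P (fun e => a (e, false)) ∧ Q (fun e => -a (e, true)))
    (hw : ∀ a, J.wx a = 0) (γ : E → ℤ) :
    {z | P (z + γ) ∧ Q z}.Finite ∧ J.Z γ = {z | P (z + γ) ∧ Q z}.ncard := by
  obtain ⟨T, h1, h2⟩ := ratio_Z J hm (w := fun _ => 0) hw γ
  have : {z | P (z + γ) ∧ Q z} = (T : Set (E → ℤ)) := Set.ext fun z => (h1 z).symm
  rw [this, Set.ncard_coe_finset, h2]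
  exact ⟨T.finite_toSet, by simp⟩

lemma ratio_base (h : Inp r₁ r₂ R) : ∃ x : Fin n → ℕ, (∀ e, x e ≤ R) ∧ ∑ e, x e = R ∧
    ∀ A : Finset (Fin n), ∑ e ∈ A, x e ≤ r₁ A ∧ ∑ e ∈ A, x e ≤ r₂ A := by
  obtain ⟨x, hx⟩ := Finset.card_ne_zero.1 h.pos
  obtain ⟨-, h1, h2⟩ := mem_filter.1 hx
  exact ⟨fun e => x e, fun e => Nat.lt_succ_iff.1 (x e).2, h1, h2⟩

lemma ratio_symm (h : Inp r₁ r₂ R) : Inp r₂ r₁ R := by
  refine ⟨h.h₂, h.h₁, h.e₂, h.e₁, ?_⟩
  have := h.pos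
  unfold numCommonIntBases at this ⊢
  simpa only [and_comm (a := _ ≤ r₂ _)] using this

lemma ratio_shift (z : Fin (n + 2) → ℤ) (j : ℤ) :
    (∀ e, (z + (0 + j • (uv (eτ n) - uv (eσ n)))) (eo e) = z (eo e)) ∧
      (z + (0 + j • (uv (eτ n) - uv (eσ n)))) (eτ n) = z (eτ n) + j ∧
      (z + (0 + j • (uv (eτ n) - uv (eσ n)))) (eσ n) = z (eσ n) - j := by
  refine ⟨fun e => ?_, ?_, ?_⟩
  · simp [uv, ratio_oτ e, ratio_oσ e]
  · simp [uv, ratio_τσ]
  · simp [uv, ratio_τσ.symm, sub_eq_add_neg]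

/-- Take `F` from `Inp.exists_F` with the sides `(d₁, sU, d₁, sU)` and `(d₂, sU, 0, sU)` and trivial
weights; `ψ j = Z (j • (uv τ - uv σ))` is `DL1` (`Inst.Z_dl`, `DL.root`), equals
`cntP (d₁ - j) d₂` for `0 ≤ j ≤ d₁`, and is at least `1` at `j = d₁ + sU` (use `(x, d₁, -d₁)` and
`(x, -sU, sU)` for a common base `x`); `DL1.near` with `B = S² + S`. -/
theorem cntP_cool (h : Inp r₁ r₂ R) (hS : SzIn n R S) (d₁ d₂ : ℕ) :
    cntP r₁ r₂ R S d₁ d₂ (sU S) ≤ 2 * cntP r₁ r₂ R S (cool S d₁) d₂ (sU S) := by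
  have hb : R < 2 ^ sb R := by have := lt_two_pow_sb R; omega
  obtain ⟨F, h1, h2, -, h4⟩ := h.exists_F hb d₁ (sU S) d₁ (sU S) d₂ (sU S) 0 (sU S)
  let J : Inst (Fin (n + 2)) := ⟨F, fun _ _ => 0⟩
  have hw : ∀ a, J.wx a = 0 := fun a => by simp [Inst.wx, J]
  have hψ := (J.Z_dl h1 h2 fun _ _ => le_rfl).root (mem_univ (eτ n)) (mem_univ (eσ n)) 0
  have hZ := fun j : ℤ => ratio_Z_card J h4 hw (0 + j • (uv (eτ n) - uv (eσ n)))
  have hcnt : ∀ j : ℕ, j ≤ d₁ → J.Z (0 + (j : ℤ) • (uv (eτ n) - uv (eσ n))) =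
      cntP r₁ r₂ R S (d₁ - j) d₂ (sU S) := by
    intro j hj
    rw [(hZ j).2, cntP]
    congr 2
    ext z
    obtain ⟨s1, s2, s3⟩ := ratio_shift z j
    simp only [Set.mem_ofPred_eq]
    refine and_congr_left fun hz => ?_
    obtain ⟨-, ⟨q1, q2⟩, q3, q4, -⟩ := hz
    unfold Side
    rw [ratio_sum, ratio_sum z]
    rw [ratio_sum] at q4
    simp only [s1, s2, s3]
    push_cast [Nat.cast_sub hj] at q2 ⊢
    refine and_congr_right fun _ => ⟨fun H => ⟨⟨q1, q2⟩, q3, q4, fun A => ?_⟩,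
      fun H => ⟨⟨by omega, by omega⟩, by omega, by omega, fun A => ?_⟩⟩
    · have := H.2.2.2 A
      omega
    · have := H.2.2.2 A
      omega
  have hs := ratio_S hS
  have h3 : 1 ≤ S ^ 3 := Nat.one_le_pow _ _ (by omega)
  have hU : 1 ≤ sU S := by unfold sU; omega
  have hfar : 1 ≤ J.Z (0 + ((d₁ + sU S : ℕ) : ℤ) • (uv (eτ n) - uv (eσ n))) := by
    rw [(hZ _).2]
    obtain ⟨x, x1, x2, x3⟩ := ratio_base h
    let z : Fin (n + 2) → ℤ := fun e => if he : (e : ℕ) < n then (x ⟨e, he⟩ : ℤ) else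
      if (e : ℕ) = n then -(sU S : ℤ) else sU S
    have z1 : ∀ e, z (eo e) = x e := fun e => by simp [z, eo]
    have z2 : z (eτ n) = -(sU S : ℤ) := by simp [z, eτ]
    have z3 : z (eσ n) = sU S := by simp [z, eσ]
    have x4 : ∀ e, (0 : ℤ) ≤ x e ∧ (x e : ℤ) < 2 ^ sb R := fun e =>
      ⟨by positivity, by exact_mod_cast (x1 e).trans_lt hb⟩
    have x5 : ∑ e, (x e : ℤ) = R := by exact_mod_cast x2
    have x6 : ∀ A : Finset (Fin n), ∑ e ∈ A, (x e : ℤ) ≤ r₁ A ∧ ∑ e ∈ A, (x e : ℤ) ≤ r₂ A :=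
      fun A => ⟨by exact_mod_cast (x3 A).1, by exact_mod_cast (x3 A).2⟩
    have : 0 < Set.ncard _ := (Set.ncard_pos (hZ ((d₁ + sU S : ℕ) : ℤ)).1).2 ⟨z, ?_, ?_⟩
    · exact_mod_cast this
    · obtain ⟨s1, s2, s3⟩ := ratio_shift z ((d₁ + sU S : ℕ) : ℤ)
      unfold Side
      rw [ratio_sum]
      simp only [s1, s2, s3, z1, z2, z3, x5]
      push_cast
      refine ⟨x4, ⟨by omega, by omega⟩, by omega, by omega, fun A => ?_⟩
      have := (x6 A).1
      omega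
    · unfold Side
      rw [ratio_sum]
      simp only [z1, z2, z3, x5]
      push_cast
      refine ⟨x4, ⟨by omega, by omega⟩, by omega, by omega, fun A => ?_⟩
      have := (x6 A).2
      omega
  have h0 := hcnt 0 (Nat.zero_le _)
  rw [Nat.sub_zero, Nat.cast_zero] at h0
  set d := min d₁ ((d₁ + sU S) / S ^ 3) with hd
  have hc : cool S d₁ = d₁ - d := by unfold cool; omega
  have hn := hψ.near (B := S ^ 2 + S) (T := d₁ + sU S) (d := d) (by omega) (by omega) (by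
    rw [h0]
    have : ((cntP r₁ r₂ R S d₁ d₂ (sU S) : ℕ) : ℝ) ≤ 2 ^ (S ^ 2 + S) := by
      exact_mod_cast cntP_le hS d₁ d₂ (sU S)
    exact this.trans (le_mul_of_one_le_right (by positivity) hfar))
  rw [h0, hcnt d (min_le_left _ _), ← hc] at hn
  have hq : ((S ^ 2 + S : ℕ) : ℝ) * d / (d₁ + sU S : ℕ) ≤ 1 / 2 := by
    rw [div_le_div_iff₀ (by exact_mod_cast (by omega : 0 < d₁ + sU S)) (by norm_num)]
    have e1 : d * S ^ 3 ≤ d₁ + sU S :=
      (Nat.mul_le_mul_right _ (min_le_right _ _)).trans (Nat.div_mul_le_self _ _)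
    have e2 : (S ^ 2 + S) * 2 ≤ S ^ 3 := by nlinarith [Nat.mul_le_mul hs (le_refl (S ^ 2))]
    have e3 : (S ^ 2 + S) * d * 2 ≤ 1 * (d₁ + sU S) := by nlinarith [Nat.mul_le_mul_left d e2]
    exact_mod_cast e3
  have hp : (0 : ℝ) ≤ cntP r₁ r₂ R S d₁ d₂ (sU S) := Nat.cast_nonneg _
  have : (cntP r₁ r₂ R S d₁ d₂ (sU S) : ℝ) ≤ 2 * cntP r₁ r₂ R S (cool S d₁) d₂ (sU S) := by
    nlinarith
  exact_mod_cast this

lemma ratio_wx (hF : IsFam r₁ r₂ R S I) (t : ℕ) (a : Fin (n + 2) × Bool → ℤ) :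
    (I t).wx a = sφ S (sj S t) (-a (eτ n, false)) + sφ S (sj S t) (a (eσ n, false)) := by
  have hne : (eτ n, false) ≠ (eσ n, false) := fun h => ratio_τσ (congrArg Prod.fst h)
  unfold Inst.wx
  rw [hF.wt, Finset.sum_eq_add_of_mem (eτ n, false) (eσ n, false) (mem_univ _) (mem_univ _) hne]
  · simp only [sw, if_true, if_neg hne.symm]
  · rintro p - ⟨h1, h2⟩
    simp only [sw, if_neg h1, if_neg h2]

lemma IsFam.Z_eq_cntP (hF : IsFam r₁ r₂ R S I) (hS : SzIn n R S) {t : ℕ} (ht : t ≤ S ^ 5 + 1) :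
    (I t).Z 0 = cntP r₁ r₂ R S (sd n R S t) (sd n R S t) (st R S t) := by
  have hj : sj S t = 0 := by unfold sj; omega
  have hu : su S t = sU S := if_pos (by unfold sT; omega)
  have hw : ∀ a, (I t).wx a = 0 := fun a => by rw [ratio_wx hF, hj]; simp [sφ]
  rw [(ratio_Z_card (I t) (hF.mem t) hw 0).2, hu, cntP]
  simp only [add_zero]

lemma ratio_side_big {r : Finset (Fin n) → ℕ} {T : ℕ} {y : Fin (n + 2) → ℤ} (h : y ∈ ratioBox n R S)
    (hT : y (eσ n) ≤ T) : Side r R (sb R) (n * 2 ^ sb R) (sU S) 0 T y := by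
  obtain ⟨h1, h2, h3⟩ := h
  refine ⟨h1, ⟨h2.1, by exact_mod_cast h2.2⟩, hT, h3, fun A => ?_⟩
  have e1 : ∑ e ∈ A, y (eo e) ≤ ∑ e, y (eo e) :=
    Finset.sum_le_sum_of_subset_of_nonneg (subset_univ _) fun e _ _ => (h1 e).1
  have e2 : ∑ e, y (eo e) ≤ ∑ _e : Fin n, (2 : ℤ) ^ sb R := Finset.sum_le_sum fun e _ => (h1 e).2.le
  simp only [sum_const, card_univ, Fintype.card_fin, nsmul_eq_mul] at e2
  have := h2.2
  push_cast
  omega

lemma ratio_first (h : Inp r₁ r₂ R) (hS : SzIn n R S) (d T : ℕ) : cntP r₁ r₂ R S d d T ≤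
    2 * cntP r₁ r₂ R S (n * 2 ^ sb R) (n * 2 ^ sb R) (sU S) := by
  refine (Set.ncard_le_ncard (fun y hy => ratio_side_box hy.1) (ratio_box hS).1).trans ?_
  unfold cntP
  set A := {y | Side r₁ R (sb R) (n * 2 ^ sb R) (sU S) 0 (sU S) y ∧
    Side r₂ R (sb R) (n * 2 ^ sb R) (sU S) 0 (sU S) y} with hA
  have hfin : A.Finite := (ratio_box hS).1.subset fun y hy => ratio_side_box hy.1
  have hin : ∀ y ∈ ratioBox n R S, (R : ℤ) ≤ ∑ e, y (eo e) → y ∈ A := by
    intro y hy hR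
    have h3 := hy.2.2
    have h2 := hy.2.1.1
    rw [ratio_sum] at h3
    exact ⟨ratio_side_big hy (by omega), ratio_side_big hy (by omega)⟩
  rcases Nat.eq_zero_or_pos n with rfl | hn
  · have hR : R = 0 := h.e₁.symm.trans h.h₁.1
    refine (Set.ncard_le_ncard (fun y hy => hin y hy (by simp [hR])) hfin).trans (by omega)
  let e₀ : Fin n := ⟨0, hn⟩
  let ρ : (Fin (n + 2) → ℤ) → Fin (n + 2) → ℤ := fun y =>
    y + (2 ^ sb R - 1 - 2 * y (eo e₀)) • (uv (eo e₀) - uv (eσ n))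
  have ρ1 : ∀ y, ρ y (eo e₀) = 2 ^ sb R - 1 - y (eo e₀) := fun y => by
    simp [ρ, uv, ratio_oσ e₀]
    ring
  have ρ2 : ∀ y e, e ≠ e₀ → ρ y (eo e) = y (eo e) := fun y e he => by
    have : eo e ≠ eo e₀ := fun h => he (ratio_oo h)
    simp [ρ, uv, ratio_oσ e, this]
  have ρ3 : ∀ y, ρ y (eτ n) = y (eτ n) := fun y => by
    simp [ρ, uv, ratio_τσ, (ratio_oτ e₀).symm]
  have ρ4 : ∀ y, ∑ e, ρ y e = ∑ e, y e := fun y => by
    simp [ρ, uv, Finset.sum_add_distrib, ← Finset.mul_sum, Finset.sum_sub_distrib]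
  have ρ5 : ∀ y, ρ (ρ y) = y := fun y => by
    change ρ y + (2 ^ sb R - 1 - 2 * ρ y (eo e₀)) • (uv (eo e₀) - uv (eσ n)) = y
    rw [ρ1]
    simp only [ρ]
    rw [add_assoc, ← add_smul]
    convert add_zero y using 2
    convert zero_smul ℤ _ using 2
    ring
  have hsub : ratioBox n R S ⊆ A ∪ ρ '' A := by
    intro y hy
    by_cases hR : (R : ℤ) ≤ y (eo e₀)
    · exact Or.inl (hin y hy (hR.trans
        (Finset.single_le_sum (f := fun e => y (eo e)) (fun e _ => (hy.1 e).1) (mem_univ e₀))))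
    · have hb : ∀ e, 0 ≤ ρ y (eo e) ∧ ρ y (eo e) < 2 ^ sb R := fun e => by
        by_cases he : e = e₀
        · rw [he, ρ1]
          have := hy.1 e₀
          omega
        · rw [ρ2 y e he]
          exact hy.1 e
      refine Or.inr ⟨ρ y, hin _ ⟨hb, by rw [ρ3]; exact hy.2.1, by rw [ρ4]; exact hy.2.2⟩ ?_, ρ5 y⟩
      refine le_trans ?_
        (Finset.single_le_sum (f := fun e => ρ y (eo e)) (fun e _ => (hb e).1) (mem_univ e₀))
      have : (2 * R : ℤ) < 2 ^ sb R := by exact_mod_cast lt_two_pow_sb R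
      simp only [ρ1]
      omega
  refine (Set.ncard_le_ncard hsub (hfin.union (hfin.image ρ))).trans ?_
  refine (Set.ncard_union_le _ _).trans ?_
  have := Set.ncard_image_le (f := ρ) hfin
  omega

lemma ratio_σ {r : Finset (Fin n) → ℕ} (hr : r univ = R) {b U T : ℕ} {y : Fin (n + 2) → ℤ}
    (h : Side r R b 0 U 0 T y) : 0 ≤ y (eσ n) := by
  have h1 := h.2.2.2.1
  have h2 := h.2.2.2.2 univ
  rw [ratio_sum] at h1
  rw [hr] at h2
  omega

lemma ratio_Zw (hF : IsFam r₁ r₂ R S I) (hS : SzIn n R S) {t : ℕ} (ht : S ^ 5 + 1 ≤ t) :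
    ∃ T : Finset (Fin (n + 2) → ℤ), (∀ z, z ∈ T ↔ Side r₁ R (sb R) 0 (su S t) 0 (su S t) z ∧
      Side r₂ R (sb R) 0 (su S t) 0 (su S t) z) ∧ (I t).Z 0 =
        ∑ z ∈ T, (1 / 2 : ℝ) ^ (sφ S (sj S t) (-z (eτ n)) + sφ S (sj S t) (z (eσ n))) := by
  obtain ⟨T, h1, h2⟩ := ratio_Z (I t) (hF.mem t)
    (w := fun y => sφ S (sj S t) (-y (eτ n)) + sφ S (sj S t) (y (eσ n))) (ratio_wx hF t) 0
  have hst : st R S t = su S t := if_neg (by omega)
  rw [hS.sd_eq_zero ht, hst] at h1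
  simp only [add_zero] at h1 h2
  exact ⟨T, h1, h2⟩

/-- Four cases.  `t = 0`: if `n = 0` then `R = 0` and nothing changes; otherwise reflect the first
coordinate, `x₀ ↦ 2 ^ b - 1 - x₀` (adjusting `σ`): one of the two values is at least `R`.
`1 ≤ t ≤ S ^ 5`: `cntP_cool` twice.  Weight steps: `sφ_succ`.  Last step: a base without leak that is not a
common base has weight at most `2 ^ (-(S³ + 1))` and there are at most `2 ^ (S² + S)` of them. -/
theorem IsFam.ratio (hF : IsFam r₁ r₂ R S I) (h : Inp r₁ r₂ R) (hS : SzIn n R S) {t : ℕ}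
    (ht : t < sT S) : (I t).Z 0 ≤ 4 * (I (t + 1)).Z 0 := by
  classical
  have hs := ratio_S hS
  have h3 : 1 ≤ S ^ 3 := Nat.one_le_pow _ _ (by omega)
  have hU : 1 ≤ sU S := by unfold sU; omega
  rcases Nat.lt_or_ge (S ^ 5) t with h5 | h5
  swap
  · rw [hF.Z_eq_cntP hS (t := t) (by omega), hF.Z_eq_cntP hS (t := t + 1) (by omega)]
    have hst : st R S (t + 1) = sU S := by
      rw [st, if_neg (by omega), su, if_pos (by unfold sT; omega)]
    rw [hst]
    rcases Nat.eq_zero_or_pos t with rfl | h0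
    · have := ratio_first h hS (sd n R S 0) (st R S 0)
      have e : sd n R S (0 + 1) = n * 2 ^ sb R := by simp [sd]
      rw [e]
      exact_mod_cast (by omega)
    · have hst' : st R S t = sU S := by
        rw [st, if_neg (by omega), su, if_pos ht]
      have e : sd n R S (t + 1) = cool S (sd n R S t) := by
        unfold sd
        rw [show min (t + 1 - 1) (S ^ 5) = min (t - 1) (S ^ 5) + 1 by omega,
          Function.iterate_succ_apply']
      rw [hst', e]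
      have e1 := cntP_cool h hS (sd n R S t) (sd n R S t)
      have e2 := cntP_cool (ratio_symm h) hS (sd n R S t) (cool S (sd n R S t))
      rw [cntP_comm r₂, cntP_comm r₂] at e2
      exact_mod_cast (by omega)
  obtain ⟨T, a1, a2⟩ := ratio_Zw hF hS (t := t) h5
  obtain ⟨T', b1, b2⟩ := ratio_Zw hF hS (t := t + 1) (by omega)
  rw [su, if_pos ht] at a1
  rcases Nat.lt_or_ge (t + 1) (sT S) with h6 | h6
  · rw [su, if_pos h6] at b1
    obtain rfl : T = T' := Finset.ext fun z => (a1 z).trans (b1 z).symm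
    have hj : sj S (t + 1) = sj S t + 1 := by unfold sj; unfold sT at h6; omega
    rw [a2, b2, hj, Finset.mul_sum]
    refine Finset.sum_le_sum fun z hz => ?_
    have c := ((a1 z).1 hz).1
    have c1 := c.2.1
    have c2 := (sφ_succ (S := S) (by omega) (sj S t) (y := -z (eτ n)) (by omega) (by omega)).2
    have c3 := (sφ_succ (S := S) (by omega) (sj S t) (ratio_σ h.e₁ c) c.2.2.1).2
    have c4 := pow_le_pow_of_le_one (a := (1 / 2 : ℝ)) (by norm_num) (by norm_num)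
      (show sφ S (sj S t + 1) (-z (eτ n)) + sφ S (sj S t + 1) (z (eσ n)) ≤
        sφ S (sj S t) (-z (eτ n)) + sφ S (sj S t) (z (eσ n)) + 2 by omega)
    rw [pow_add] at c4
    linarith
  · have hT : t + 1 = sT S := by omega
    have hj : sj S t = sJ S := by unfold sj; unfold sT at hT; omega
    have hj' : sj S (t + 1) = sJ S := by unfold sj; unfold sT at hT; omega
    have h1 : 1 ≤ (I (t + 1)).Z 0 := by
      rw [hT, hF.final h hS]
      exact_mod_cast Nat.one_le_iff_ne_zero.2 h.pos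
    rw [su, if_neg (by omega)] at b1
    rw [hj'] at b2
    rw [a2, hj, ← Finset.sum_filter_add_sum_filter_not T fun z => z ∈ T']
    have d1 : ∑ z ∈ T.filter (fun z => z ∈ T'),
        (1 / 2 : ℝ) ^ (sφ S (sJ S) (-z (eτ n)) + sφ S (sJ S) (z (eσ n))) ≤ (I (t + 1)).Z 0 := by
      rw [b2]
      exact Finset.sum_le_sum_of_subset_of_nonneg (fun z hz => (mem_filter.1 hz).2)
        fun _ _ _ => by positivity
    have hφ : ∀ y : ℤ, 1 ≤ y → S ^ 3 + 1 ≤ sφ S (sJ S) y := fun y hy => by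
      have : sJ S ≠ 0 := by unfold sJ; positivity
      rw [sφ, if_neg this, sJ, Nat.mul_div_cancel_left _ hU]
      have : 1 ≤ y.toNat := by omega
      nlinarith [Nat.zero_le (y - ((sU S - sU S * (S ^ 3 + 1) % sU S : ℕ) : ℤ)).toNat]
    have d2 : ∑ z ∈ T.filter (fun z => z ∉ T'),
        (1 / 2 : ℝ) ^ (sφ S (sJ S) (-z (eτ n)) + sφ S (sJ S) (z (eσ n))) ≤
          ∑ _z ∈ T.filter (fun z => z ∉ T'), (1 / 2 : ℝ) ^ (S ^ 2 + S) := by
      refine Finset.sum_le_sum fun z hz => pow_le_pow_of_le_one (by norm_num) (by norm_num) ?_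
      obtain ⟨hz1, hz2⟩ := mem_filter.1 hz
      obtain ⟨c, c'⟩ := (a1 z).1 hz1
      have c1 := c.2.1
      have c2 := ratio_σ h.e₁ c
      have e2 : S ^ 2 + S ≤ S ^ 3 + 1 := by nlinarith [Nat.mul_le_mul hs (le_refl (S ^ 2))]
      by_cases c3 : 1 ≤ -z (eτ n)
      · have := hφ _ c3
        omega
      by_cases c4 : 1 ≤ z (eσ n)
      · have := hφ _ c4
        omega
      exact absurd ((b1 z).2 ⟨⟨c.1, ⟨by omega, c1.2⟩, by omega, c.2.2.2⟩,
        ⟨c'.1, ⟨by omega, c1.2⟩, by omega, c'.2.2.2⟩⟩) hz2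
    have d3 : (T.filter fun z => z ∉ T').card ≤ 2 ^ (S ^ 2 + S) := by
      rw [← Set.ncard_coe_finset]
      refine (Set.ncard_le_ncard (fun y hy => ?_) (ratio_box hS).1).trans (ratio_box hS).2
      exact ratio_side_box ((a1 y).1 (mem_filter.1 hy).1).1
    have d4 : ((T.filter fun z => z ∉ T').card : ℝ) * (1 / 2) ^ (S ^ 2 + S) ≤ 1 := by
      have : ((T.filter fun z => z ∉ T').card : ℝ) ≤ 2 ^ (S ^ 2 + S) := by exact_mod_cast d3
      refine (mul_le_mul_of_nonneg_right this (by positivity)).trans ?_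
      rw [← mul_pow]
      norm_num
    rw [sum_const, nsmul_eq_mul] at d2
    linarith

end Crest.Agent.R302
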