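import Mathlib

/-!
Row 302, part F (mathematics): submodular function minimisation.

An approximate minimiser is found by averaging greedy vertices (dual averaging for the Lovász
extension); the reduction of Iwata, Fleischer and Fujishige turns it into an exact method: one keeps
a closure system for which all minimisers are closed and finds a new implication in each round.
-/

set_option autoImplicit false
set_option linter.unusedSectionVars false

namespace Crest.Agent.R302.SFMAux

open Finset

variable {V : Type} [Fintype V] [LinearOrder V]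

/-- Submodularity. -/
def Submod (h : Finset V → ℤ) : Prop := ∀ A B, h (A ∪ B) + h (A ∩ B) ≤ h A + h B

/-- The elements before `v` in the order of increasing `Y`. -/
def bef (Y : V → ℤ) (v : V) : Finset V := univ.filter fun u => Y u < Y v ∨ (Y u = Y v ∧ u < v)

/-- The greedy vertex. -/
def gr (h : Finset V → ℤ) (Y : V → ℤ) (v : V) : ℤ := h (insert v (bef Y v)) - h (bef Y v)

lemma mem_bef {Y : V → ℤ} {u v : V} : u ∈ bef Y v ↔ toLex (Y u, u) < toLex (Y v, v) := by
  simp [bef, Prod.Lex.toLex_lt_toLex]

lemma gr_aux {h : Finset V → ℤ} (hh : Submod h) (Y : V → ℤ) (S : Finset V) :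
    ∑ v ∈ S, gr h Y v ≤ h S - h ∅ ∧
      ((∀ v ∈ S, bef Y v ⊆ S) → ∑ v ∈ S, gr h Y v = h S - h ∅) := by
  induction S using Finset.induction_on_max_value (fun v => toLex (Y v, v)) with
  | empty => simp
  | insert v S hv hmax ih =>
    have hS : S ⊆ bef Y v := fun u hu => mem_bef.2 (lt_of_le_of_ne (hmax u hu) fun h' => by
      have : u = v := (Prod.ext_iff.1 (toLex.injective h')).2
      exact hv (this ▸ hu))
    have hvb : v ∉ bef Y v := fun h' => lt_irrefl _ (mem_bef.1 h')
    rw [sum_insert hv]
    constructor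
    · have h1 := hh (bef Y v) (insert v S)
      have e1 : bef Y v ∪ insert v S = insert v (bef Y v) := by
        rw [union_insert, union_eq_left.2 hS]
      have e2 : bef Y v ∩ insert v S = S := by
        rw [inter_insert_of_notMem hvb, inter_eq_right.2 hS]
      rw [e1, e2] at h1
      have := ih.1
      unfold gr at this ⊢
      linarith
    · intro hd
      have e : bef Y v = S := by
        refine Subset.antisymm (fun u hu => ?_) hS
        rcases mem_insert.1 (hd v (mem_insert_self _ _) hu) with rfl | h'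
        · exact absurd hu hvb
        · exact h'
      have := ih.2 fun u hu w hw => by
        rw [← e]
        exact mem_bef.2 ((mem_bef.1 hw).trans (mem_bef.1 (hS hu)))
      rw [this, gr, e]
      ring

lemma gr_sum_le {h : Finset V → ℤ} (hh : Submod h) (Y : V → ℤ) (S : Finset V) :
    ∑ v ∈ S, gr h Y v ≤ h S - h ∅ := (gr_aux hh Y S).1

lemma gr_sum_eq {h : Finset V → ℤ} (hh : Submod h) (Y : V → ℤ) (S : Finset V)
    (hS : ∀ v ∈ S, bef Y v ⊆ S) : ∑ v ∈ S, gr h Y v = h S - h ∅ := (gr_aux hh Y S).2 hS

lemma gr_abs_le {h : Finset V → ℤ} (hh : Submod h) {L : ℤ} (hL : 0 ≤ L)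
    (h1 : ∀ v, h {v} - h ∅ ≤ L) (h2 : h ∅ - h univ ≤ L) (Y : V → ℤ) (v : V) :
    |gr h Y v| ≤ Fintype.card V * L := by
  have hu : ∀ u, gr h Y u ≤ L := fun u => by
    have := gr_sum_le hh Y {u}
    rw [sum_singleton] at this
    exact this.trans (h1 u)
  have hc : (1 : ℤ) ≤ Fintype.card V := by
    exact_mod_cast Fintype.card_pos_iff.2 ⟨v⟩
  rw [abs_le]
  constructor
  · have e := gr_sum_eq hh Y univ fun _ _ => subset_univ _
    rw [← add_sum_erase _ _ (mem_univ v)] at e
    have := sum_le_card_nsmul (univ.erase v) (gr h Y) L fun u _ => hu u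
    rw [card_erase_of_mem (mem_univ v), card_univ, nsmul_eq_mul,
      Nat.cast_sub (by exact_mod_cast hc)] at this
    push_cast at this
    linarith
  · have := hu v
    nlinarith

/-- Projection to `[0, N]`. -/
def clip (N : ℕ) (z : ℤ) : ℤ := max 0 (min z N)

lemma clip_eq_sum (N : ℕ) (z : ℤ) :
    clip N z = ∑ t ∈ range N, if (t : ℤ) < z then 1 else 0 := by
  induction N with
  | zero => simp [clip]
  | succ N ih =>
    rw [sum_range_succ, ← ih]
    unfold clip
    push_cast
    split_ifs <;> omega

lemma gr_clip {h : Finset V → ℤ} (hh : Submod h) {μ : ℤ} (hμ : ∀ S, μ ≤ h S - h ∅) (N : ℕ)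
    (Y : V → ℤ) : N * μ ≤ ∑ v, gr h Y v * clip N (-Y v) := by
  simp_rw [clip_eq_sum, mul_sum]
  rw [sum_comm]
  have : ∀ t ∈ range N, μ ≤ ∑ v, gr h Y v * if (t : ℤ) < -Y v then 1 else 0 := by
    intro t _
    simp_rw [mul_ite, mul_one, mul_zero]
    rw [← sum_filter, gr_sum_eq hh]
    · exact hμ _
    · intro v hv u hu
      simp only [bef, mem_filter, mem_univ, true_and] at hv hu ⊢
      omega
  simpa using card_nsmul_le_sum _ _ _ this

/-- The potential of dual averaging. -/
def pot (N : ℕ) (z : ℤ) : ℤ := 2 * z * clip N z - clip N z ^ 2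

lemma pot_add (N : ℕ) (z d : ℤ) : pot N (z + d) ≤ pot N z + 2 * d * clip N z + d ^ 2 := by
  have h1 : (clip N (z + d) - clip N z) * (z - clip N z) ≤ 0 := by
    rcases lt_trichotomy z (clip N z) with h | h | h
    · exact mul_nonpos_of_nonneg_of_nonpos (by unfold clip at *; omega) (by omega)
    · rw [← h]; simp
    · exact mul_nonpos_of_nonpos_of_nonneg (by unfold clip at *; omega) (by omega)
  unfold pot
  nlinarith [sq_nonneg (d - (clip N (z + d) - clip N z))]

lemma pot_ge (N : ℕ) (z u : ℤ) (h0 : 0 ≤ u) (hN : u ≤ N) : 2 * z * u - u ^ 2 ≤ pot N z := by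
  have h1 : (u - clip N z) * (z - clip N z) ≤ 0 := by
    rcases lt_trichotomy z (clip N z) with h | h | h
    · exact mul_nonpos_of_nonneg_of_nonpos (by unfold clip at *; omega) (by omega)
    · rw [← h]; simp
    · exact mul_nonpos_of_nonpos_of_nonneg (by unfold clip at *; omega) (by omega)
  unfold pot
  nlinarith [sq_nonneg (u - clip N z)]

/-- The sum of the first `t` greedy vertices. -/
def desc (h : Finset V → ℤ) : ℕ → V → ℤ
  | 0 => fun _ => 0
  | t + 1 => fun v => desc h t v + gr h (desc h t) v

lemma desc_sum_le {h : Finset V → ℤ} (hh : Submod h) (t : ℕ) (S : Finset V) :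
    ∑ v ∈ S, desc h t v ≤ t * (h S - h ∅) := by
  induction t with
  | zero => simp [desc]
  | succ t ih =>
    simp only [desc, sum_add_distrib]
    have := gr_sum_le hh (desc h t) S
    push_cast
    linarith

lemma desc_pot {h : Finset V → ℤ} (hh : Submod h) {μ K : ℤ} (hμ : ∀ S, μ ≤ h S - h ∅)
    (hK : ∀ Y v, |gr h Y v| ≤ K) (N t : ℕ) :
    ∑ v, pot N (-desc h t v) + 2 * (t * (N * μ)) ≤ t * (Fintype.card V * K ^ 2) := by
  induction t with
  | zero => simp [desc, pot, clip]
  | succ t ih =>
    have h1 : ∀ v ∈ (univ : Finset V), pot N (-desc h (t + 1) v) ≤ pot N (-desc h t v) +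
        (-2) * (gr h (desc h t) v * clip N (-desc h t v)) + K ^ 2 := by
      intro v _
      have := pot_add N (-desc h t v) (-gr h (desc h t) v)
      have h2 := sq_le_sq' (abs_le.1 (hK (desc h t) v)).1 (abs_le.1 (hK (desc h t) v)).2
      simp only [desc, neg_add]
      nlinarith
    have h2 := sum_le_sum h1
    rw [sum_add_distrib, sum_add_distrib, ← mul_sum, sum_const, card_univ, nsmul_eq_mul] at h2
    have h3 := gr_clip hh hμ N (desc h t)
    push_cast
    nlinarith

/-- An element with a very negative coordinate lies in every minimiser. -/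
lemma desc_sound {h : Finset V → ℤ} (hh : Submod h) {K : ℤ} (hK : ∀ Y v, |gr h Y v| ≤ K)
    (N t : ℕ) {S : Finset V} (hS : ∀ T, h S ≤ h T) {w : V} (hw : w ∉ S) :
    2 * N * (-desc h t w) ≤ Fintype.card V * N ^ 2 + t * (Fintype.card V * K ^ 2) := by
  have h1 := desc_pot hh (μ := h S - h ∅) (fun T => by linarith [hS T]) hK N t
  have h2 : ∀ v ∈ (univ : Finset V),
      (-2 * N) * (if v ∈ insert w S then desc h t v else 0) - N ^ 2 ≤ pot N (-desc h t v) := by
    intro v _
    split_ifs
    · have := pot_ge N (-desc h t v) N (by positivity) le_rfl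
      linarith
    · have := pot_ge N (-desc h t v) 0 le_rfl (by positivity)
      nlinarith [sq_nonneg (N : ℤ)]
  have h3 := sum_le_sum h2
  rw [sum_sub_distrib, ← mul_sum, sum_ite_mem, univ_inter, sum_insert hw, sum_const, card_univ,
    nsmul_eq_mul] at h3
  have h4 := mul_le_mul_of_nonneg_left (desc_sum_le hh t S) (show (0 : ℤ) ≤ N by positivity)
  nlinarith

/-- If the minimum is small, some coordinate is very negative. -/
lemma desc_complete {h : Finset V → ℤ} (hh : Submod h) {L : ℤ} (hL : 0 < L) {S : Finset V}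
    (hS : 2 * (h S - h ∅) ≤ -L) {t : ℕ} (ht : 0 < t) :
    ∃ w ∈ S, t * L ≤ 2 * Fintype.card V * (-desc h t w) := by
  by_contra hc
  push Not at hc
  have h1 := desc_sum_le hh t S
  have ht' : (0 : ℤ) < t := by exact_mod_cast ht
  rcases S.eq_empty_or_nonempty with rfl | hne
  · simp at hS; omega
  have h2 := sum_lt_sum_of_nonempty hne hc
  rw [← mul_sum, sum_const, nsmul_eq_mul, sum_neg_distrib] at h2
  have h3 : (S.card : ℤ) ≤ Fintype.card V := by exact_mod_cast card_le_univ S
  have h4 : 0 ≤ t * L := by positivity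
  have h5 : t * L ≤ -2 * ∑ v ∈ S, desc h t v := by nlinarith
  nlinarith

/-! ### closure systems -/

/-- `S` respects the implications. -/
def Cl (up : V → Finset V) (S : Finset V) : Prop := ∀ x ∈ S, up x ⊆ S

/-- A closure system: `F` is the smallest member, `up v` the smallest member containing `v`. -/
structure Sys (F : Finset V) (up : V → Finset V) : Prop where
  refl : ∀ v, v ∈ up v
  trans : ∀ v, Cl up (up v)
  sub : ∀ v, F ⊆ up v
  cl : Cl up F

/-- `up v` without the class of `v`. -/
def low (F : Finset V) (up : V → Finset V) (v : V) : Finset V :=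
  univ.filter fun x => x ∈ up v ∧ (x ∈ F ∨ v ∉ up x)

lemma Sys.low_cl {F : Finset V} {up : V → Finset V} (hs : Sys F up) (v : V) :
    Cl up (low F up v) := by
  intro x hx y hy
  simp only [low, mem_filter, mem_univ, true_and] at hx ⊢
  refine ⟨hs.trans v x hx.1 hy, hx.2.imp (fun h => hs.cl x h hy) fun h h' => h ?_⟩
  exact hs.trans x y hy h'

lemma Sys.sub_low {F : Finset V} {up : V → Finset V} (hs : Sys F up) (v : V) :
    F ⊆ low F up v := fun x hx => by
  simp only [low, mem_filter, mem_univ, true_and]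
  exact ⟨hs.sub v hx, Or.inl hx⟩

lemma Sys.anti {F : Finset V} {up : V → Finset V} (hs : Sys F up) {g : Finset V → ℤ}
    (hg : Submod g) {L : ℤ} (hL : 0 ≤ L) (hη : ∀ v, g (up v) - g (low F up v) ≤ L)
    {T : Finset V} (hT : Cl up T) (k : ℕ) : ∀ S, Cl up S → F ⊆ S → S ⊆ T → (T \ S).card ≤ k →
      g T - L * T.card ≤ g S - L * S.card := by
  induction k with
  | zero =>
    intro S _ _ hST hk
    have : T ⊆ S := sdiff_eq_empty_iff_subset.1 (card_eq_zero.1 (by omega))
    rw [Subset.antisymm this hST]
  | succ k ih =>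
    intro S hS hF hST hk
    rcases (T \ S).eq_empty_or_nonempty with he | hne
    · rw [Subset.antisymm (sdiff_eq_empty_iff_subset.1 he) hST]
    obtain ⟨v, hv, hmin⟩ := exists_min_image _ (fun v => (up v).card) hne
    rw [mem_sdiff] at hv
    have e : S ∩ up v = low F up v := by
      ext x
      simp only [low, mem_inter, mem_filter, mem_univ, true_and]
      constructor
      · rintro ⟨h1, h2⟩
        exact ⟨h2, Or.inr fun h' => hv.2 (hS x h1 h')⟩
      · rintro ⟨h1, h2 | h2⟩
        · exact ⟨hF h2, h1⟩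
        · refine ⟨?_, h1⟩
          by_contra h3
          have h4 := hmin x (mem_sdiff.2 ⟨hT v hv.1 h1, h3⟩)
          have h5 := eq_of_subset_of_card_le (hs.trans v x h1) h4
          exact h2 (h5 ▸ hs.refl v)
    have hlt : S.card < (S ∪ up v).card :=
      card_lt_card ⟨subset_union_left, fun h' => hv.2 (h' (mem_union_right _ (hs.refl v)))⟩
    have hsub : S ∪ up v ⊆ T := union_subset hST (hT v hv.1)
    have h1 := ih (S ∪ up v)
      (fun x hx => (mem_union.1 hx).elim (fun h => (hS x h).trans subset_union_left)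
        fun h => (hs.trans v x h).trans subset_union_right)
      (hF.trans subset_union_left) hsub (by
        rw [card_sdiff_of_subset hsub]
        rw [card_sdiff_of_subset hST] at hk
        omega)
    have h2 := hg S (up v)
    rw [e] at h2
    have h3 := hη v
    have h4 : (S.card : ℤ) + 1 ≤ (S ∪ up v).card := by exact_mod_cast hlt
    nlinarith

/-- The largest closed subset of `U ∪ B`. -/
def int (up : V → Finset V) (B U : Finset V) : Finset V :=
  univ.filter fun x => up x ⊆ U ∪ B

/-- The extension of `g` from closed supersets of `B` to all sets. -/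
def ext (g : Finset V → ℤ) (up : V → Finset V) (B : Finset V) (L : ℤ) (U : Finset V) : ℤ :=
  g (int up B U) + L * ((U ∪ B).card - (int up B U).card)

/-- The situation in which the descent is run. -/
structure Ctx (g : Finset V → ℤ) (F : Finset V) (up : V → Finset V) (B : Finset V) (L : ℤ) :
    Prop where
  sub : Submod g
  sys : Sys F up
  clB : Cl up B
  FB : F ⊆ B
  nonneg : 0 ≤ L
  eta : ∀ v, g (up v) - g (low F up v) ≤ L
  top : g B - g univ ≤ L

section
variable {g : Finset V → ℤ} {F : Finset V} {up : V → Finset V} {B : Finset V} {L : ℤ}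

lemma mem_int {U : Finset V} {x : V} : x ∈ int up B U ↔ up x ⊆ U ∪ B := by simp [int]

lemma Ctx.int_cl (c : Ctx g F up B L) (U : Finset V) : Cl up (int up B U) :=
  fun x hx y hy => mem_int.2 ((c.sys.trans x y hy).trans (mem_int.1 hx))

lemma Ctx.sub_int (c : Ctx g F up B L) (U : Finset V) : B ⊆ int up B U :=
  fun x hx => mem_int.2 ((c.clB x hx).trans subset_union_right)

lemma Ctx.int_sub (c : Ctx g F up B L) (U : Finset V) : int up B U ⊆ U ∪ B :=
  fun x hx => mem_int.1 hx (c.sys.refl x)

lemma Ctx.anti (c : Ctx g F up B L) {S T : Finset V} (hS : Cl up S) (hT : Cl up T) (hB : B ⊆ S)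
    (h : S ⊆ T) : g T - L * T.card ≤ g S - L * S.card :=
  c.sys.anti c.sub c.nonneg c.eta hT _ S hS (c.FB.trans hB) h le_rfl

lemma Ctx.ext_eq (c : Ctx g F up B L) {U : Finset V} (hU : Cl up (U ∪ B)) :
    ext g up B L U = g (U ∪ B) := by
  have : int up B U = U ∪ B :=
    Subset.antisymm (c.int_sub U) fun x hx => mem_int.2 (hU x hx)
  simp [ext, this]

lemma Ctx.ext_empty (c : Ctx g F up B L) : ext g up B L ∅ = g B := by
  rw [c.ext_eq] <;> simp [c.clB]

lemma Ctx.ext_univ (c : Ctx g F up B L) : ext g up B L univ = g univ := by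
  have e : univ ∪ B = univ := union_eq_left.2 (subset_univ _)
  rw [c.ext_eq (by rw [e]; exact fun _ _ => subset_univ _), e]

lemma Ctx.le_ext (c : Ctx g F up B L) (U : Finset V) : g (int up B U) ≤ ext g up B L U := by
  have : ((int up B U).card : ℤ) ≤ (U ∪ B).card := by exact_mod_cast card_le_card (c.int_sub U)
  have := mul_nonneg c.nonneg (sub_nonneg.2 this)
  unfold ext
  linarith

lemma Ctx.ext_sub (c : Ctx g F up B L) : Submod (ext g up B L) := by
  intro U W
  have e1 : int up B (U ∩ W) = int up B U ∩ int up B W := by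
    ext x
    simp only [mem_inter, mem_int, inter_union_distrib_right, subset_inter_iff]
  have h1 : int up B U ∪ int up B W ⊆ int up B (U ∪ W) := by
    intro x hx
    rcases mem_union.1 hx with h | h
    · exact mem_int.2 ((mem_int.1 h).trans (union_subset_union_left subset_union_left))
    · exact mem_int.2 ((mem_int.1 h).trans (union_subset_union_left subset_union_right))
  have h2 := c.anti (S := int up B U ∪ int up B W)
    (fun x hx => (mem_union.1 hx).elim (fun h => (c.int_cl U x h).trans subset_union_left)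
      fun h => (c.int_cl W x h).trans subset_union_right) (c.int_cl (U ∪ W))
    ((c.sub_int U).trans subset_union_left) h1
  have h3 := c.sub (int up B U) (int up B W)
  have h4 : ((int up B U ∪ int up B W).card : ℤ) + (int up B U ∩ int up B W).card =
      (int up B U).card + (int up B W).card := by exact_mod_cast card_union_add_card_inter _ _
  have h5 : ((U ∪ W ∪ B).card : ℤ) + (U ∩ W ∪ B).card = (U ∪ B).card + (W ∪ B).card := by
    rw [union_union_distrib_right, inter_union_distrib_right]
    exact_mod_cast card_union_add_card_inter _ _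
  unfold ext
  rw [e1]
  have h6 := congrArg (L * ·) h4
  have h7 := congrArg (L * ·) h5
  linarith

lemma Ctx.gr_abs (c : Ctx g F up B L) (Y : V → ℤ) (v : V) :
    |gr (ext g up B L) Y v| ≤ Fintype.card V * L := by
  refine gr_abs_le c.ext_sub c.nonneg (fun u => ?_) ?_ Y v
  · rw [c.ext_empty]
    have h1 := c.anti c.clB (c.int_cl {u}) subset_rfl (c.sub_int {u})
    have h2 : ((({u} : Finset V) ∪ B).card : ℤ) ≤ B.card + 1 := by
      have := card_union_le {u} B
      rw [card_singleton] at this
      exact_mod_cast this.trans_eq (add_comm _ _)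
    have h3 := mul_le_mul_of_nonneg_left h2 c.nonneg
    unfold ext
    linarith
  · rw [c.ext_empty, c.ext_univ]; exact c.top

end

/-- The test for a new implication; `n` is the size of the ground set, `y` the coordinate. -/
def test (n : ℕ) (L y : ℤ) : Prop :=
  n * (2 * n ^ 4 * L) ^ 2 + (4 * n ^ 6 + 1) * (n * (n * L) ^ 2) < 2 * (2 * n ^ 4 * L) * (-y)

instance (n : ℕ) (L y : ℤ) : Decidable (test n L y) := by unfold test; infer_instance

section
variable {g : Finset V → ℤ} {F : Finset V} {up : V → Finset V} {B : Finset V} {L : ℤ}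

lemma Ctx.sound (c : Ctx g F up B L) {w : V}
    (hw : test (Fintype.card V) L (desc (ext g up B L) (4 * Fintype.card V ^ 6 + 1) w))
    {S : Finset V} (hS : ∀ T, g S ≤ g T) (hc : Cl up S) (hB : B ⊆ S) : w ∈ S := by
  by_contra h
  have e : S ∪ B = S := union_eq_left.2 hB
  have h1 := desc_sound c.ext_sub c.gr_abs (2 * Fintype.card V ^ 4 * L.toNat)
    (4 * Fintype.card V ^ 6 + 1) (S := S) (fun T => by
      rw [c.ext_eq (by rwa [e]), e]; exact (hS _).trans (c.le_ext T)) h
  unfold test at hw
  push_cast at h1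
  rw [Int.toNat_of_nonneg c.nonneg] at h1
  linarith

lemma Ctx.complete (c : Ctx g F up B L) (hL : 0 < L) {S : Finset V} (hc : Cl up S) (hB : B ⊆ S)
    (hS : 2 * (g S - g B) ≤ -L) : ∃ w, w ∉ B ∧
      test (Fintype.card V) L (desc (ext g up B L) (4 * Fintype.card V ^ 6 + 1) w) := by
  have e : S \ B ∪ B = S := sdiff_union_of_subset hB
  obtain ⟨w, hw, h1⟩ := desc_complete c.ext_sub hL (S := S \ B)
    (by rw [c.ext_eq (by rwa [e]), e, c.ext_empty]; exact hS)
    (t := 4 * Fintype.card V ^ 6 + 1) (by omega)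
  refine ⟨w, (mem_sdiff.1 hw).2, ?_⟩
  have hn : (0 : ℤ) < Fintype.card V := by exact_mod_cast Fintype.card_pos_iff.2 ⟨w⟩
  unfold test
  push_cast at h1
  generalize (Fintype.card V : ℤ) = n at *
  generalize -desc _ _ w = y at *
  have h2 := mul_le_mul_of_nonneg_left h1 (show 0 ≤ 2 * n ^ 3 * L by positivity)
  have h3 : 0 < n ^ 3 * L ^ 2 := by positivity
  nlinarith

end

/-- Adding the implication `B ⟹ U`. -/
def upd (B U S : Finset V) : Finset V := univ.filter fun x => x ∈ S ∨ (B ⊆ S ∧ x ∈ U)

lemma mem_upd {B U S : Finset V} {x : V} : x ∈ upd B U S ↔ x ∈ S ∨ (B ⊆ S ∧ x ∈ U) := by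
  simp [upd]

lemma sub_upd (B U S : Finset V) : S ⊆ upd B U S := fun _ hx => mem_upd.2 (Or.inl hx)

/-- The invariant: all minimisers belong to the closure system. -/
structure Inv (g : Finset V → ℤ) (F : Finset V) (up : V → Finset V) : Prop where
  sys : Sys F up
  mins : ∀ S, (∀ T, g S ≤ g T) → F ⊆ S ∧ Cl up S

/-- The progress measure. -/
def meas (F : Finset V) (up : V → Finset V) : ℕ := F.card + ∑ v, (up v).card

lemma meas_le (F : Finset V) (up : V → Finset V) :
    meas F up ≤ Fintype.card V * (Fintype.card V + 1) := by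
  have h1 := card_le_univ F
  have h2 := sum_le_card_nsmul univ (fun v => (up v).card) _ fun v _ => card_le_univ (up v)
  rw [card_univ, smul_eq_mul] at h2
  unfold meas
  nlinarith

lemma Inv.init (g : Finset V → ℤ) : Inv g ∅ fun v => {v} :=
  ⟨⟨fun v => mem_singleton_self v, fun v x hx => by rw [mem_singleton.1 hx], fun _ => empty_subset _,
    fun x hx => absurd hx (notMem_empty x)⟩,
    fun S _ => ⟨empty_subset _, fun x hx => singleton_subset_iff.2 hx⟩⟩

lemma cl_upd {up : V → Finset V} (B : Finset V) {U S : Finset V} (hU : Cl up U) (hS : Cl up S) :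
    Cl (fun v => upd B U (up v)) (upd B U S) := by
  intro x hx y hy
  rw [mem_upd] at hx hy ⊢
  rcases hx with hx | ⟨h1, hx⟩
  · exact hy.imp (fun h => hS x hx h) fun h => ⟨h.1.trans (hS x hx), h.2⟩
  · exact Or.inr ⟨h1, hy.elim (fun h => hU x hx h) fun h => h.2⟩

lemma Inv.step {g : Finset V → ℤ} {F : Finset V} {up : V → Finset V} (hi : Inv g F up)
    {B : Finset V} {w : V} (hw : ∀ S, (∀ T, g S ≤ g T) → Cl up S → B ⊆ S → w ∈ S) :
    Inv g (upd B (up w) F) fun v => upd B (up w) (up v) := by
  refine ⟨⟨fun v => sub_upd _ _ _ (hi.sys.refl v),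
    fun v => cl_upd B (hi.sys.trans w) (hi.sys.trans v), fun v x hx => ?_,
    cl_upd B (hi.sys.trans w) hi.sys.cl⟩, fun S hS => ?_⟩
  · rw [mem_upd] at hx ⊢
    exact hx.imp (fun h => hi.sys.sub v h) fun h => ⟨h.1.trans (hi.sys.sub v), h.2⟩
  · obtain ⟨h1, h2⟩ := hi.mins S hS
    have key : ∀ T, T ⊆ S → upd B (up w) T ⊆ S := fun T hT x hx =>
      (mem_upd.1 hx).elim (fun h => hT h) fun h => h2 w (hw S hS h2 (h.1.trans hT)) h.2
    exact ⟨key F h1, fun x hx => key _ (h2 x hx)⟩

lemma meas_step {F : Finset V} {up : V → Finset V} (hs : Sys F up) {B : Finset V}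
    (hB : B = F ∨ ∃ v, B = up v) {w : V} (hw : w ∉ B) :
    meas F up < meas (upd B (up w) F) fun v => upd B (up w) (up v) := by
  have h1 : B.card < (upd B (up w) B).card :=
    card_lt_card ⟨sub_upd _ _ _, fun h => hw (h (mem_upd.2 (Or.inr ⟨subset_rfl, hs.refl w⟩)))⟩
  have h2 : ∀ S, S.card ≤ (upd B (up w) S).card := fun S => card_le_card (sub_upd _ _ _)
  unfold meas
  rcases hB with rfl | ⟨v, rfl⟩
  · exact add_lt_add_of_lt_of_le h1 (sum_le_sum fun v _ => h2 _)
  · exact add_lt_add_of_le_of_lt (h2 _) (sum_lt_sum (fun v _ => h2 _) ⟨v, mem_univ _, h1⟩)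

/-- `η` is the largest marginal value of a class. -/
structure IsEta (g : Finset V → ℤ) (F : Finset V) (up : V → Finset V) (η : ℤ) : Prop where
  nonneg : 0 ≤ η
  le : ∀ v, g (up v) - g (low F up v) ≤ η
  eq : η = 0 ∨ ∃ v, η = g (up v) - g (low F up v)

lemma IsEta.ctx {g : Finset V → ℤ} {F : Finset V} {up : V → Finset V} {η : ℤ}
    (hη : IsEta g F up η) (hg : Submod g) (hs : Sys F up) {B : Finset V}
    (hB : B = F ∨ ∃ v, B = up v) : Ctx g F up B (max η (g B - g univ)) where
  sub := hg
  sys := hs
  clB := by rcases hB with rfl | ⟨v, rfl⟩; exacts [hs.cl, hs.trans v]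
  FB := by rcases hB with rfl | ⟨v, rfl⟩; exacts [subset_rfl, hs.sub v]
  nonneg := hη.nonneg.trans (le_max_left _ _)
  eta v := (hη.le v).trans (le_max_left _ _)
  top := le_max_right _ _

/-- If no implication is found, the minimum is known. -/
lemma Inv.stop {g : Finset V → ℤ} {F : Finset V} {up : V → Finset V} (hi : Inv g F up)
    (hg : Submod g) {η : ℤ} (hη : IsEta g F up η) (hF : g univ ≤ g F)
    (hno : ∀ B, (B = F ∨ ∃ v, B = up v) → ∀ w, w ∉ B →
      ¬ test (Fintype.card V) (max η (g B - g univ))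
        (desc (ext g up B (max η (g B - g univ))) (4 * Fintype.card V ^ 6 + 1) w))
    (T : Finset V) : g univ ≤ g T := by
  have hu : Cl up univ := fun _ _ => subset_univ _
  rcases hη.nonneg.eq_or_lt with h0 | hpos
  · obtain ⟨S, -, hS⟩ := exists_min_image univ g univ_nonempty
    have hS' : ∀ T, g S ≤ g T := fun T => hS T (mem_univ _)
    obtain ⟨h1, h2⟩ := hi.mins S hS'
    have := hi.sys.anti hg le_rfl (fun v => (hη.le v).trans h0.ge) hu _ S h2 h1 (subset_univ _) le_rfl
    have := hS' T
    linarith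
  exfalso
  obtain ⟨v, hv⟩ := hη.eq.resolve_left hpos.ne'
  by_cases hc : η ≤ 2 * (g (up v) - g univ)
  · have c := hη.ctx hg hi.sys (B := up v) (Or.inr ⟨v, rfl⟩)
    obtain ⟨w, hw, ht⟩ := c.complete (hpos.trans_le (le_max_left _ _)) hu (subset_univ _)
      (by omega)
    exact hno _ (Or.inr ⟨v, rfl⟩) w hw ht
  · have c := hη.ctx hg hi.sys (B := F) (Or.inl rfl)
    by_cases hd : η ≤ g F - g univ
    · obtain ⟨w, hw, ht⟩ := c.complete (hpos.trans_le (le_max_left _ _)) hu (subset_univ _)
        (by omega)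
      exact hno _ (Or.inl rfl) w hw ht
    · obtain ⟨w, hw, ht⟩ := c.complete (hpos.trans_le (le_max_left _ _)) (hi.sys.low_cl v)
        (hi.sys.sub_low v) (by omega)
      exact hno _ (Or.inl rfl) w hw ht

/-- Lowering the value at the full set keeps submodularity. -/
lemma Submod.trunc {f : Finset V → ℤ} (hf : Submod f) (m : ℤ) :
    Submod fun S => if S = univ then min (f S) m else f S := by
  intro A B
  by_cases hA : A = univ
  · subst hA; rw [union_eq_left.2 (subset_univ _), univ_inter]
  by_cases hB : B = univ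
  · subst hB; rw [union_eq_right.2 (subset_univ _), inter_univ, add_comm]
  have hAB : A ∩ B ≠ univ := fun h => hA (univ_subset_iff.1 (h ▸ inter_subset_left))
  have := hf A B
  simp only [hA, hB, hAB, if_false]
  split_ifs <;> omega

end Crest.Agent.R302.SFMAux
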