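import Crest.Agent.R302.OC
import Crest.Agent.R302.SFMAuxA

/-!
Row 302, part F (implementation): the algorithm on lists, and its oracle complexity.
-/

set_option autoImplicit false

namespace Crest.Agent.R302.SFMAux

open Crest.Agent.Lib.PT

/-- The input: oracle name, vector, allowance, bound on the rank. -/
abbrev Inp : Type := Bool × List ℤ × ℤ × ℕ
/-- The state of the outer loop: the smallest set, and the closures of the elements. -/
abbrev St : Type := List Bool × List (List Bool)
/-- The data of one descent: input, closures, base set, scale. -/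
abbrev Cx : Type := Inp × List (List Bool) × List Bool × ℤ

/-- The ground set. -/
def rg (a : Inp) : List ℕ := List.range a.2.1.length

/-- The full set. -/
def full (a : Inp) : List Bool := (rg a).map fun _ => true

/-- `x S` -/
def xs (a : Inp) (S : List Bool) : ℤ :=
  ((rg a).map fun j => if S.getD j false = true then a.2.1.getD j 0 else 0).sum

/-- `r S - x S` -/
def fI (O : Orc) (p : Inp × List Bool) : ℤ :=
  ((min (O (p.1.1, p.2)) p.1.2.2.2 : ℕ) : ℤ) - xs p.1 p.2

/-- truncation at the full set -/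
def trI (p : Inp × List Bool) (z : ℤ) : ℤ :=
  if ((rg p.1).all fun j => p.2.getD j false) = true then min z (-p.1.2.2.1) else z

/-- the truncated function -/
def gI (O : Orc) (p : Inp × List Bool) : ℤ := trI p (fI O p)

/-- interior -/
def intI (c : Cx) (U : List Bool) : List Bool :=
  (rg c.1).map fun x => (rg c.1).all fun y =>
    !(c.2.1.getD x []).getD y false || U.getD y false || c.2.2.1.getD y false

/-- number of elements outside the interior -/
def crd (c : Cx) (U : List Bool) : ℤ :=
  (((rg c.1).countP fun y => U.getD y false || c.2.2.1.getD y false : ℕ) : ℤ) -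
    (((rg c.1).countP fun y => (intI c U).getD y false : ℕ) : ℤ)

/-- the extension -/
def extI (O : Orc) (p : Cx × List Bool) : ℤ :=
  gI O (p.1.1, intI p.1 p.2) + p.1.2.2.2 * crd p.1 p.2

/-- prefix sets -/
def befI (a : Inp) (Y : List ℤ) (v : ℕ) (e : Bool) : List Bool :=
  (rg a).map fun u => (e && decide (u = v)) ||
    decide (Y.getD u 0 < Y.getD v 0 ∨ (Y.getD u 0 = Y.getD v 0 ∧ u < v))

/-- clamp -/
def clampI (c : Cx) (z : ℤ) : ℤ :=
  max (-|(c.1.2.1.length : ℤ) * c.2.2.2|) (min z |(c.1.2.1.length : ℤ) * c.2.2.2|)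

/-- greedy vertex -/
def grI (O : Orc) (p : (Cx × List ℤ) × ℕ) : ℤ :=
  clampI p.1.1 (extI O (p.1.1, befI p.1.1.1 p.1.2 p.2 true) -
    extI O (p.1.1, befI p.1.1.1 p.1.2 p.2 false))

/-- one step of the descent -/
def stepI (O : Orc) (p : Cx × List ℤ) : List ℤ :=
  List.zipWith (· + ·) p.2 ((rg p.1.1).map fun v => grI O (p, v))

/-- the descent -/
def descI (O : Orc) (c : Cx) : List ℤ :=
  (List.range (4 * c.1.2.1.length ^ 6 + 1)).foldl (fun Y _ => stepI O (c, Y))
    ((rg c.1).map fun _ => 0)

/-- `low` -/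
def lowI (p : Inp × St) (v : ℕ) : List Bool :=
  (rg p.1).map fun x => (p.2.2.getD v []).getD x false &&
    (p.2.1.getD x false || !(p.2.2.getD x []).getD v false)

/-- the largest marginal value -/
def etaI (O : Orc) (p : Inp × St) : ℤ :=
  ((rg p.1).map fun v => gI O (p.1, p.2.2.getD v []) - gI O (p.1, lowI p v)).foldr max 0

/-- the scale -/
def scI (O : Orc) (p : (Inp × St) × List Bool) : ℤ :=
  max (etaI O p.1) (gI O (p.1.1, p.2) - gI O (p.1.1, full p.1.1))

/-- select an element that passes the test -/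
def selI (c : Cx) (Y : List ℤ) : Option ℕ :=
  (rg c.1).find? fun w => !c.2.2.1.getD w false && decide (test c.1.2.1.length c.2.2.2 (Y.getD w 0))

/-- search for an implication with a given base set -/
def fixI (O : Orc) (p : (Inp × St) × List Bool) : Option (List Bool × ℕ) :=
  (selI (p.1.1, p.1.2.2, p.2, scI O p) (descI O (p.1.1, p.1.2.2, p.2, scI O p))).map
    fun w => (p.2, w)

/-- add an implication -/
def updI (a : Inp) (B U S : List Bool) : List Bool :=
  (rg a).map fun x => S.getD x false ||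
    (((rg a).all fun y => !B.getD y false || S.getD y false) && U.getD x false)

/-- the new state -/
def newI (p : Inp × St) (l : List (Option (List Bool × ℕ))) : St :=
  (l.findSome? fun o => o).elim p.2 fun q => (updI p.1 q.1 (p.2.2.getD q.2 []) p.2.1,
    (rg p.1).map fun v => updI p.1 q.1 (p.2.2.getD q.2 []) (p.2.2.getD v []))

/-- one round -/
def outI (O : Orc) (p : Inp × St) : St := newI p ((p.2.1 :: p.2.2).map fun B => fixI O (p, B))

/-- initial state -/
def iniI (a : Inp) : St :=
  ((rg a).map fun _ => false, (rg a).map fun v => (rg a).map fun x => decide (x = v))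

/-- final state -/
def finI (O : Orc) (a : Inp) : St :=
  (fun s => outI O (a, s))^[a.2.1.length * (a.2.1.length + 1) + 1] (iniI a)

/-- the answer -/
def ansI (O : Orc) (a : Inp) : Bool :=
  decide (-a.2.2.1 ≤ gI O (a, (finI O a).1)) && decide (-a.2.2.1 ≤ gI O (a, full a))

section pt
variable {α : Type} [Enc α]

@[fun_prop] lemma pt_rg {a : α → Inp} (ha : PT a) : PT fun z => rg (a z) := by
  unfold rg; fun_prop

@[fun_prop] lemma pt_full {a : α → Inp} (ha : PT a) : PT fun z => full (a z) := by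
  unfold full; fun_prop

@[fun_prop] lemma pt_intI {c : α → Cx} {U : α → List Bool} (hc : PT c) (hU : PT U) :
    PT fun z => intI (c z) (U z) := by
  have : PT fun p : Cx × List Bool => intI p.1 p.2 := by unfold intI; fun_prop
  exact this.comp₂ hc hU

@[fun_prop] lemma pt_befI {a : α → Inp} {Y : α → List ℤ} {v : α → ℕ} (e : Bool) (ha : PT a)
    (hY : PT Y) (hv : PT v) : PT fun z => befI (a z) (Y z) (v z) e := by
  have : PT fun p : Inp × List ℤ × ℕ => befI p.1 p.2.1 p.2.2 e := by unfold befI; fun_prop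
  exact this.comp (f := fun z => (a z, Y z, v z)) (by fun_prop)

@[fun_prop] lemma pt_updI {a : α → Inp} {B U S : α → List Bool} (ha : PT a)
    (hB : PT B) (hU : PT U) (hS : PT S) : PT fun z => updI (a z) (B z) (U z) (S z) := by
  have : PT fun p : Inp × List Bool × List Bool × List Bool =>
      updI p.1 p.2.1 p.2.2.1 p.2.2.2 := by unfold updI; fun_prop
  exact this.comp (f := fun z => (a z, B z, U z, S z)) (by fun_prop)

lemma pt_lowI : PT fun p : (Inp × St) × ℕ => lowI p.1 p.2 := by unfold lowI; fun_prop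

lemma pt_selI : PT fun p : Cx × List ℤ => selI p.1 p.2 := by
  have h : PT fun q : (Cx × List ℤ) × ℕ =>
      decide (test q.1.1.1.2.1.length q.1.1.2.2.2 (q.1.2.getD q.2 0)) := by
    refine PT.congr (g := fun q : (Cx × List ℤ) × ℕ =>
      decide ((q.1.1.1.2.1.length : ℤ) * (2 * (q.1.1.1.2.1.length : ℤ) ^ 4 * q.1.1.2.2.2) ^ 2 +
        (4 * (q.1.1.1.2.1.length : ℤ) ^ 6 + 1) * ((q.1.1.1.2.1.length : ℤ) *
          ((q.1.1.1.2.1.length : ℤ) * q.1.1.2.2.2) ^ 2) <
        2 * (2 * (q.1.1.1.2.1.length : ℤ) ^ 4 * q.1.1.2.2.2) * (-q.1.2.getD q.2 0)))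
      (by fun_prop) fun q => ?_
    exact decide_eq_decide.2 Iff.rfl
  unfold selI
  exact PT.find? (by fun_prop) (PT.and (by fun_prop) h)

lemma pt_newI : PT fun p : (Inp × St) × List (Option (List Bool × ℕ)) => newI p.1 p.2 := by
  unfold newI; fun_prop

end pt

lemma oc_fI : OC fI := by
  have h : OC fun O (p : Inp × List Bool) => min (O (p.1.1, p.2)) p.1.2.2.2 :=
    OC.query (by fun_prop) (by fun_prop)
  exact OC.pt₂ (g := fun (p : Inp × List Bool) (m : ℕ) => (m : ℤ) - xs p.1 p.2)
    (by unfold xs; fun_prop) h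

lemma oc_gI : OC gI := OC.pt₂ (g := trI) (by unfold trI; fun_prop) oc_fI

lemma oc_extI : OC extI :=
  OC.pt₂ (g := fun (p : Cx × List Bool) (z : ℤ) => z + p.1.2.2.2 * crd p.1 p.2)
    (by unfold crd; fun_prop)
    (oc_gI.precomp (f := fun p : Cx × List Bool => (p.1.1, intI p.1 p.2)) (by fun_prop))

lemma oc_sub {α : Type} [Enc α] {f g : Orc → α → ℤ} (hf : OC f) (hg : OC g) :
    OC fun O a => f O a - g O a :=
  OC.pt (g := fun p : ℤ × ℤ => p.1 - p.2) (by fun_prop) (hf.pair hg)

lemma oc_grI : OC grI :=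
  OC.pt₂ (g := fun (p : (Cx × List ℤ) × ℕ) (z : ℤ) => clampI p.1.1 z)
    (by unfold clampI; fun_prop)
    (oc_sub
      (oc_extI.precomp (f := fun p : (Cx × List ℤ) × ℕ => (p.1.1, befI p.1.1.1 p.1.2 p.2 true))
        (by fun_prop))
      (oc_extI.precomp (f := fun p : (Cx × List ℤ) × ℕ => (p.1.1, befI p.1.1.1 p.1.2 p.2 false))
        (by fun_prop)))

lemma oc_stepI : OC stepI :=
  OC.pt₂ (g := fun (p : Cx × List ℤ) (q : List ℤ) => List.zipWith (· + ·) p.2 q) (by fun_prop)
    (OC.map (f := fun O (p : Cx × List ℤ) (v : ℕ) => grI O (p, v)) oc_grI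
      (OC.pure (g := fun p : Cx × List ℤ => rg p.1.1) (by fun_prop)))

lemma sz_zipWith_add : ∀ (l m : List ℤ), sz (List.zipWith (· + ·) l m) ≤ sz l + sz m
  | [], m => by simp
  | _ :: _, [] => by simp
  | x :: l, y :: m => by
      have h1 := sz_zipWith_add l m
      have h2 := sz_int_add_le x y
      simp only [List.zipWith_cons_cons, sz_cons]
      omega

lemma oc_descI : OC descI := by
  refine OC.foldl_add (f := fun O (c : Cx) (Y : List ℤ) (_ : ℕ) => stepI O (c, Y))
    (l := fun _ c => List.range (4 * c.1.2.1.length ^ 6 + 1))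
    (ini := fun _ c => (rg c.1).map fun _ => 0)
    (fun p : Cx × ℕ => (rg p.1.1).length * (sz ((p.1.1.2.1.length : ℤ) * p.1.2.2.2) + 1) + 1)
    (oc_stepI.precomp (f := fun p : Cx × List ℤ × ℕ => (p.1, p.2.1)) (by fun_prop))
    (OC.pure (by fun_prop)) (OC.pure (by fun_prop)) (by fun_prop) fun O c Y _ => ?_
  refine (sz_zipWith_add _ _).trans (Nat.add_le_add_left ?_ _)
  refine (sz_list_le _ (sz ((c.1.2.1.length : ℤ) * c.2.2.2)) fun z hz => ?_).trans
    (by simp [mul_comm])
  obtain ⟨v, -, rfl⟩ := List.mem_map.1 hz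
  refine sz_int_mono ?_
  unfold grI clampI
  dsimp only
  generalize (c.1.2.1.length : ℤ) * c.2.2.2 = K
  generalize extI O _ - extI O _ = z
  rcases abs_cases K with h | h <;> omega

lemma oc_etaI : OC etaI :=
  OC.pt (g := fun l : List ℤ => l.foldr max 0)
    (PT.foldr_select (f := fun _ => max) (by fun_prop) PT.id (by fun_prop)
      fun _ x y => by omega)
    (OC.map (f := fun O (p : Inp × St) (v : ℕ) =>
        gI O (p.1, p.2.2.getD v []) - gI O (p.1, lowI p v))
      (oc_sub
        (oc_gI.precomp (f := fun q : (Inp × St) × ℕ => (q.1.1, q.1.2.2.getD q.2 [])) (by fun_prop))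
        (oc_gI.precomp (f := fun q : (Inp × St) × ℕ => (q.1.1, lowI q.1 q.2))
          (PT.pair (by fun_prop) pt_lowI)))
      (OC.pure (g := fun p : Inp × St => rg p.1) (by fun_prop)))

lemma oc_max {α : Type} [Enc α] {f g : Orc → α → ℤ} (hf : OC f) (hg : OC g) :
    OC fun O a => max (f O a) (g O a) :=
  OC.pt (g := fun p : ℤ × ℤ => max p.1 p.2) (by fun_prop) (hf.pair hg)

lemma oc_scI : OC scI := by
  have h1 : OC fun O (p : (Inp × St) × List Bool) => etaI O p.1 :=
    oc_etaI.precomp (by fun_prop)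
  have h2 : OC fun O (p : (Inp × St) × List Bool) => gI O (p.1.1, p.2) :=
    oc_gI.precomp (by fun_prop)
  have h3 : OC fun O (p : (Inp × St) × List Bool) => gI O (p.1.1, full p.1.1) :=
    oc_gI.precomp (by fun_prop)
  exact (oc_max h1 (oc_sub h2 h3)).congr fun _ _ => rfl

lemma oc_fixI : OC fixI := by
  have h1 : OC fun O (c : Cx) => selI c (descI O c) := OC.pt₂ (g := selI) pt_selI oc_descI
  have h2 : OC fun O (p : (Inp × St) × List Bool) => ((p.1.1, p.1.2.2, p.2, scI O p) : Cx) :=
    OC.pt₂ (g := fun (p : (Inp × St) × List Bool) (L : ℤ) => ((p.1.1, p.1.2.2, p.2, L) : Cx))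
      (by fun_prop) oc_scI
  exact OC.pt₂ (g := fun (p : (Inp × St) × List Bool) (o : Option ℕ) => o.map fun w => (p.2, w))
    (by fun_prop) (h1.comp h2)

lemma oc_outI : OC outI :=
  OC.pt₂ (g := newI) pt_newI
    (OC.map (f := fun O (p : Inp × St) (B : List Bool) => fixI O (p, B)) oc_fixI
      (OC.pure (g := fun p : Inp × St => p.2.1 :: p.2.2) (by fun_prop)))

lemma sz_pair_le (a : Inp) (P : ℕ → Bool) (Q : ℕ → ℕ → Bool) :
    sz (((rg a).map P, (rg a).map fun v => (rg a).map (Q v)) : St) ≤
      ((rg a).length + 1) * (6 * (rg a).length + 2) + 1 := by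
  have h := sz_list_le ((rg a).map fun v => (rg a).map (Q v)) (6 * (rg a).length + 1)
    fun z hz => by
      obtain ⟨v, -, rfl⟩ := List.mem_map.1 hz
      rw [sz_boolList, List.length_map]
  rw [sz_prod, sz_boolList]
  simp only [List.length_map] at h ⊢
  nlinarith

lemma oc_finI : OC finI := by
  refine OC.iterate_inv (f := fun O (a : Inp) (s : St) => outI O (a, s))
    (k := fun a => a.2.1.length * (a.2.1.length + 1) + 1) (ini := fun _ a => iniI a)
    (fun _ a s => sz s ≤ ((rg a).length + 1) * (6 * (rg a).length + 2) + 1)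
    (fun a => ((rg a).length + 1) * (6 * (rg a).length + 2) + 1) oc_outI (by fun_prop)
    (by fun_prop) (OC.pure (by unfold iniI; fun_prop)) (by fun_prop)
    (fun _ a => sz_pair_le a _ _) (fun O a s hs => ?_) fun _ _ _ h => h
  unfold outI newI
  generalize List.findSome? _ _ = o
  cases o with
  | none => exact hs
  | some q => exact sz_pair_le a _ _

lemma oc_ansI : OC ansI :=
  OC.pt₂ (g := fun (a : Inp) (z : ℤ × ℤ) => decide (-a.2.2.1 ≤ z.1) && decide (-a.2.2.1 ≤ z.2))
    (by fun_prop)
    ((oc_gI.comp (OC.pt₂ (g := fun (a : Inp) (s : St) => (a, s.1)) (by fun_prop) oc_finI)).pair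
      (oc_gI.precomp (f := fun a : Inp => (a, full a)) (by fun_prop)))

end Crest.Agent.R302.SFMAux
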