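import Crest.Agent.R302.Flat
import Crest.Prelude.Def_Polymatroid

/-!
Row 302, part E8: the family of instances.  The ground set `Fin n` is extended by two slack elements
`τ = n` and `σ = n + 1`.
-/

set_option autoImplicit false

namespace Crest.Agent.R302

open Finset Crest.Polymatroid

/-- the original elements -/
def eo {n : ℕ} (e : Fin n) : Fin (n + 2) := Fin.castAdd 2 e
/-- the slack element `τ` -/
def eτ (n : ℕ) : Fin (n + 2) := ⟨n, by omega⟩
/-- the slack element `σ` -/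
def eσ (n : ℕ) : Fin (n + 2) := ⟨n + 1, by omega⟩

/-- One side: boxes, total `R`, and the rank constraints relaxed by `d`. -/
def Side {n : ℕ} (r : Finset (Fin n) → ℕ) (R b d U V T : ℕ) (y : Fin (n + 2) → ℤ) : Prop :=
  (∀ e : Fin n, 0 ≤ y (eo e) ∧ y (eo e) < 2 ^ b) ∧ (-(U : ℤ) ≤ y (eτ n) ∧ y (eτ n) ≤ V) ∧
    y (eσ n) ≤ T ∧ ∑ e, y e = R ∧ ∀ A : Finset (Fin n), ∑ e ∈ A, y (eo e) + y (eτ n) ≤ r A + d

/-- The hypotheses on the input: two polymatroids of rank `R` with a common integer base. -/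
structure Inp {n : ℕ} (r₁ r₂ : Finset (Fin n) → ℕ) (R : ℕ) : Prop where
  h₁ : IsPolymatroidRank r₁
  h₂ : IsPolymatroidRank r₂
  e₁ : r₁ univ = R
  e₂ : r₂ univ = R
  pos : numCommonIntBases R r₁ r₂ ≠ 0

/-- extension of a vector by the two slack coordinates -/
def schedExt {n : ℕ} (u : Fin n → ℤ) (s t : ℤ) : Fin (n + 2) → ℤ := Fin.append u ![s, t]

lemma sched_eτ (n : ℕ) : eτ n = Fin.natAdd n (0 : Fin 2) := rfl
lemma sched_eσ (n : ℕ) : eσ n = Fin.natAdd n (1 : Fin 2) := rfl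

@[simp] lemma schedExt_eo {n : ℕ} (u : Fin n → ℤ) (s t : ℤ) (e : Fin n) :
    schedExt u s t (eo e) = u e := Fin.append_left _ _ _

@[simp] lemma schedExt_eτ {n : ℕ} (u : Fin n → ℤ) (s t : ℤ) : schedExt u s t (eτ n) = s := by
  rw [sched_eτ]; exact Fin.append_right _ _ _

@[simp] lemma schedExt_eσ {n : ℕ} (u : Fin n → ℤ) (s t : ℤ) : schedExt u s t (eσ n) = t := by
  rw [sched_eσ]; exact Fin.append_right _ _ _

lemma sched_sum_univ {n : ℕ} {M : Type} [AddCommMonoid M] (y : Fin (n + 2) → M) :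
    ∑ p, y p = ∑ e, y (eo e) + y (eτ n) + y (eσ n) := by
  rw [Fin.sum_univ_add, Fin.sum_univ_two, add_assoc]
  rfl

lemma sched_cases {n : ℕ} (p : Fin (n + 2)) : (∃ e, p = eo e) ∨ p = eτ n ∨ p = eσ n := by
  by_cases h : p.1 < n
  · exact Or.inl ⟨⟨p.1, h⟩, rfl⟩
  · by_cases h' : p.1 = n
    · exact Or.inr (Or.inl (Fin.ext h'))
    · refine Or.inr (Or.inr (Fin.ext ?_))
      have := p.2
      simp only [eσ]
      omega

lemma sched_ext {n : ℕ} {y y' : Fin (n + 2) → ℤ} (h1 : ∀ e, y (eo e) = y' (eo e))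
    (h2 : y (eτ n) = y' (eτ n)) (h3 : y (eσ n) = y' (eσ n)) : y = y' := by
  funext p
  rcases sched_cases p with ⟨e, rfl⟩ | rfl | rfl
  exacts [h1 e, h2, h3]

lemma sched_eo_ne_τ {n : ℕ} (e : Fin n) : eo e ≠ eτ n := by
  intro h
  have := congrArg Fin.val h
  have h2 := e.2
  simp [eo, eτ] at this
  omega

lemma sched_eo_ne_σ {n : ℕ} (e : Fin n) : eo e ≠ eσ n := by
  intro h
  have := congrArg Fin.val h
  have h2 := e.2
  simp [eo, eσ] at this
  omega

lemma sched_τ_ne_σ (n : ℕ) : eτ n ≠ eσ n := by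
  intro h
  have := congrArg Fin.val h
  simp [eτ, eσ] at this

lemma sched_eo_inj {n : ℕ} : Function.Injective (eo : Fin n → Fin (n + 2)) :=
  Fin.castAdd_injective _ _

/-- the original part of a set -/
def schedO {n : ℕ} (A : Finset (Fin (n + 2))) : Finset (Fin n) := univ.filter fun e => eo e ∈ A

lemma sched_sum {n : ℕ} (y : Fin (n + 2) → ℤ) (A : Finset (Fin (n + 2))) :
    ∑ p ∈ A, y p = ∑ e ∈ schedO A, y (eo e) + (if eτ n ∈ A then y (eτ n) else 0) +
      (if eσ n ∈ A then y (eσ n) else 0) := by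
  have : ∑ p ∈ A, y p = ∑ p, if p ∈ A then y p else 0 := by simp
  rw [this, sched_sum_univ, schedO, sum_filter]

lemma schedO_union {n : ℕ} (A B : Finset (Fin (n + 2))) : schedO (A ∪ B) = schedO A ∪ schedO B := by
  ext e; simp [schedO]

lemma schedO_inter {n : ℕ} (A B : Finset (Fin (n + 2))) : schedO (A ∩ B) = schedO A ∩ schedO B := by
  ext e; simp [schedO]

/-- the function before the upper bounds are imposed -/
def schedG {n : ℕ} (r : Finset (Fin n) → ℕ) (R d U : ℕ) (A : Finset (Fin (n + 2))) : ℤ :=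
  (if eσ n ∈ A then (R + U : ℤ) else r (schedO A) + (if A = ∅ then 0 else (d + U : ℤ))) -
    if eτ n ∈ A then (U : ℤ) else 0

lemma schedG_submod {n : ℕ} {r : Finset (Fin n) → ℕ} (hr : IsPolymatroidRank r) (R d U : ℕ) :
    Submod (schedG r R d U) := by
  intro A B
  have hm : (if eτ n ∈ A ∪ B then (U : ℤ) else 0) + (if eτ n ∈ A ∩ B then (U : ℤ) else 0) =
      (if eτ n ∈ A then (U : ℤ) else 0) + (if eτ n ∈ B then (U : ℤ) else 0) := by
    by_cases h1 : eτ n ∈ A <;> by_cases h2 : eτ n ∈ B <;> simp [h1, h2]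
  have hs := hr.2.2 (schedO A) (schedO B)
  have hA := hr.2.1 (schedO A ∩ schedO B) (schedO A) inter_subset_left
  have hB := hr.2.1 (schedO A ∩ schedO B) (schedO B) inter_subset_right
  have eA : (if A ∩ B = ∅ then 0 else (d + U : ℤ)) ≤ if A = ∅ then 0 else (d + U : ℤ) := by
    by_cases h1 : A = ∅
    · simp [h1]
    · rw [if_neg h1]; split_ifs <;> omega
  have eB : (if A ∩ B = ∅ then 0 else (d + U : ℤ)) ≤ if B = ∅ then 0 else (d + U : ℤ) := by
    by_cases h1 : B = ∅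
    · simp [h1]
    · rw [if_neg h1]; split_ifs <;> omega
  have eU : (if A ∪ B = ∅ then 0 else (d + U : ℤ)) + (if A ∩ B = ∅ then 0 else (d + U : ℤ)) ≤
      (if A = ∅ then 0 else (d + U : ℤ)) + (if B = ∅ then 0 else (d + U : ℤ)) := by
    by_cases h1 : A = ∅
    · simp [h1]
    · by_cases h2 : B = ∅
      · simp [h2]
      · rw [if_neg h1, if_neg h2]; split_ifs <;> omega
  unfold schedG
  rw [schedO_union, schedO_inter]
  by_cases h1 : eσ n ∈ A <;> by_cases h2 : eσ n ∈ B <;>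
    simp only [mem_union, mem_inter, h1, h2, or_true, or_false, and_true, and_false,
      if_true, if_false] at hm ⊢ <;> omega

lemma schedG_inB {n : ℕ} {r : Finset (Fin n) → ℕ} (hr : IsPolymatroidRank r) (R d U : ℕ)
    (y : Fin (n + 2) → ℤ) : InB (schedG r R d U) y ↔ (∀ e, 0 ≤ y (eo e)) ∧ -(U : ℤ) ≤ y (eτ n) ∧
      ∑ e, y e = R ∧ ∀ A : Finset (Fin n), ∑ e ∈ A, y (eo e) + y (eτ n) ≤ r A + d := by
  have hu : schedG r R d U univ = R := by simp [schedG]
  unfold InB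
  rw [hu]
  constructor
  · rintro ⟨h1, h2⟩
    refine ⟨fun e => ?_, ?_, h2, fun A => ?_⟩
    · have h3 := h1 {eo e}ᶜ
      have h4 := Finset.sum_add_sum_compl {eo e} y
      simp only [schedG, mem_compl, mem_singleton, (sched_eo_ne_τ e).symm, (sched_eo_ne_σ e).symm,
        not_false_iff, if_true, sum_singleton] at h3 h4
      omega
    · have h3 := h1 {eτ n}ᶜ
      have h4 := Finset.sum_add_sum_compl {eτ n} y
      simp only [schedG, mem_compl, mem_singleton, (sched_τ_ne_σ n).symm,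
        not_false_iff, if_true, sum_singleton, not_true, if_false] at h3 h4
      omega
    · have h3 := h1 (insert (eτ n) (A.image eo))
      have hO : schedO (insert (eτ n) (A.image eo)) = A := by
        ext e
        simp [schedO, sched_eo_ne_τ e, sched_eo_inj.eq_iff]
      have hσ : eσ n ∉ insert (eτ n) (A.image eo) := by
        simp [(sched_τ_ne_σ n).symm, sched_eo_ne_σ]
      rw [sched_sum, schedG, hO, if_neg hσ, if_neg hσ, if_pos (mem_insert_self _ _),
        if_pos (mem_insert_self _ _), if_neg (insert_ne_empty _ _)] at h3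
      omega
  · rintro ⟨h1, h2, h3, h4⟩
    refine ⟨fun A => ?_, h3⟩
    have h5 : ∑ e ∈ schedO A, y (eo e) ≤ ∑ e, y (eo e) :=
      sum_le_sum_of_subset_of_nonneg (subset_univ _) fun e _ _ => h1 e
    have h6 := sched_sum_univ y
    have h7 := h4 (schedO A)
    by_cases hA : A = ∅
    · subst hA
      have : schedO (∅ : Finset (Fin (n + 2))) = ∅ := by simp [schedO]
      simp [schedG, this]
    · rw [sched_sum, schedG, if_neg hA]
      split_ifs <;> omega

/-- Let `A' = {e | eo e ∈ A}`, `G₀ A = if σ ∈ A then R + U [τ ∉ A] else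
r A' + (d + U) [A ≠ ∅] - U [τ ∈ A]` (add the modular function `U [τ ∈ A]`: on the sets without `σ` it is
monotone and submodular, on the others it is constant); then `exists_ub` with the feasible point
`(x, 0, 0)`. -/
theorem exists_side {n : ℕ} {r : Finset (Fin n) → ℕ} (hr : IsPolymatroidRank r) {R b : ℕ}
    (hb : R < 2 ^ b) {x : Fin n → ℕ} (hx : ∑ e, x e = R) (hx' : ∀ A, ∑ e ∈ A, x e ≤ r A)
    (d U V T : ℕ) : ∃ G : Finset (Fin (n + 2)) → ℤ, Submod G ∧ G ∅ = 0 ∧ G univ = R ∧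
      ∀ y, InB G y ↔ Side r R b d U V T y := by
  have h0 : schedG r R d U ∅ = 0 := by
    have : schedO (∅ : Finset (Fin (n + 2))) = ∅ := by simp [schedO]
    simp [schedG, this, hr.1]
  have hu : schedG r R d U univ = R := by simp [schedG]
  obtain ⟨G, g1, g2, g3, g4⟩ := exists_ub (schedG_submod hr R d U) h0
    (schedExt (fun _ => 2 ^ b - 1) V T) ⟨schedExt (fun e => x e) 0 0, by
      refine ⟨(schedG_inB hr R d U _).2 ⟨fun e => by simp, by simp, ?_, fun A => ?_⟩, fun p => ?_⟩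
      · rw [sched_sum_univ]
        simp only [schedExt_eo, schedExt_eτ, schedExt_eσ, add_zero]
        exact_mod_cast hx
      · simp only [schedExt_eo, schedExt_eτ, add_zero]
        have : ((∑ e ∈ A, x e : ℕ) : ℤ) ≤ r A := by exact_mod_cast hx' A
        push_cast at this
        omega
      · rcases sched_cases p with ⟨e, rfl⟩ | rfl | rfl
        · simp only [schedExt_eo]
          have h1 : x e ≤ ∑ e, x e := single_le_sum (fun _ _ => Nat.zero_le _) (mem_univ e)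
          have h2 : ((x e : ℕ) : ℤ) < ((2 ^ b : ℕ) : ℤ) := by exact_mod_cast (by omega)
          push_cast at h2
          omega
        · simp
        · simp⟩
  refine ⟨G, g1, g2, g3.trans hu, fun y => ?_⟩
  rw [g4, schedG_inB hr]
  constructor
  · rintro ⟨⟨h1, h2, h3, h4⟩, h5⟩
    refine ⟨fun e => ⟨h1 e, ?_⟩, ⟨h2, ?_⟩, ?_, h3, h4⟩
    · have := h5 (eo e)
      simp only [schedExt_eo] at this
      omega
    · simpa using h5 (eτ n)
    · simpa using h5 (eσ n)
  · rintro ⟨h1, h2, h3, h4, h5⟩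
    refine ⟨⟨fun e => (h1 e).1, h2.1, h4, h5⟩, fun p => ?_⟩
    rcases sched_cases p with ⟨e, rfl⟩ | rfl | rfl
    · simp only [schedExt_eo]
      have := (h1 e).2
      omega
    · simpa using h2.2
    · simpa using h3

lemma Inp.sched_exists {n : ℕ} {r₁ r₂ : Finset (Fin n) → ℕ} {R : ℕ} (h : Inp r₁ r₂ R) :
    ∃ x : Fin n → ℕ, ∑ e, x e = R ∧ (∀ A, ∑ e ∈ A, x e ≤ r₁ A) ∧ ∀ A, ∑ e ∈ A, x e ≤ r₂ A := by
  obtain ⟨x, hx⟩ := card_ne_zero.1 h.pos
  have := (mem_filter.1 hx).2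
  exact ⟨fun e => x e, this.1, fun A => (this.2 A).1, fun A => (this.2 A).2⟩

theorem Inp.exists_F {n : ℕ} {r₁ r₂ : Finset (Fin n) → ℕ} {R : ℕ} (h : Inp r₁ r₂ R) {b : ℕ}
    (hb : R < 2 ^ b) (d₁ U₁ V₁ T₁ d₂ U₂ V₂ T₂ : ℕ) :
    ∃ F : Finset (Fin (n + 2) × Bool) → ℤ, Submod F ∧ F ∅ = 0 ∧ F univ = 0 ∧ ∀ a, InB F a ↔
      Side r₁ R b d₁ U₁ V₁ T₁ (fun e => a (e, false)) ∧
        Side r₂ R b d₂ U₂ V₂ T₂ (fun e => -a (e, true)) := by
  obtain ⟨x, x1, x2, x3⟩ := h.sched_exists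
  obtain ⟨G₁, a1, a2, a3, a4⟩ := exists_side h.h₁ hb x1 x2 d₁ U₁ V₁ T₁
  obtain ⟨G₂, b1, b2, b3, b4⟩ := exists_side h.h₂ hb x1 x3 d₂ U₂ V₂ T₂
  obtain ⟨F, f1, f2, f3, f4⟩ := exists_pair a1 b1 a2 b2 (a3.trans b3.symm)
  exact ⟨F, f1, f2, f3, fun a => by rw [f4, a4, b4]⟩

/-! ### the schedule -/

/-- bits per coordinate -/
def sb (R : ℕ) : ℕ := Nat.size R + 1
/-- range of the slack elements -/
def sU (S : ℕ) : ℕ := 2 * S ^ 3 - 1
/-- one cooling step -/
def cool (S d : ℕ) : ℕ := d - (d + sU S) / S ^ 3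
/-- number of weight steps -/
def sJ (S : ℕ) : ℕ := sU S * (S ^ 3 + 1)
/-- number of stages -/
def sT (S : ℕ) : ℕ := S ^ 5 + sJ S + 2
/-- relaxation at stage `t` -/
def sd (n R S t : ℕ) : ℕ := (cool S)^[min (t - 1) (S ^ 5)] (n * 2 ^ sb R)
/-- range of `τ` at stage `t` -/
def su (S t : ℕ) : ℕ := if t < sT S then sU S else 0
/-- upper bound of `σ` at stage `t` -/
def st (R S t : ℕ) : ℕ := if t = 0 then R + sU S else su S t
/-- strength of the weight at stage `t` -/
def sj (S t : ℕ) : ℕ := min (t - (S ^ 5 + 1)) (sJ S)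
/-- the convex exponent -/
def sφ (S j : ℕ) (y : ℤ) : ℕ :=
  if j = 0 then 0 else j / sU S * y.toNat + (y - ((sU S - j % sU S : ℕ) : ℤ)).toNat
/-- the exponents of stage `t` -/
def sw (n S t : ℕ) (p : Fin (n + 2) × Bool) (y : ℤ) : ℕ :=
  if p = (eτ n, false) then sφ S (sj S t) (-y) else if p = (eσ n, false) then sφ S (sj S t) y else 0

/-- The sizes of the input are bounded by `S`. -/
structure SzIn (n R S : ℕ) : Prop where
  pow : ∃ k, 20 ≤ k ∧ S = 2 ^ k
  n_le : n + 2 ≤ S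
  b_le : sb R ≤ S

/-- `I` is the family of instances of the schedule. -/
structure IsFam {n : ℕ} (r₁ r₂ : Finset (Fin n) → ℕ) (R S : ℕ) (I : ℕ → Inst (Fin (n + 2))) :
    Prop where
  sub : ∀ t, Submod (I t).F
  empty : ∀ t, (I t).F ∅ = 0
  total : ∀ t, (I t).F univ = 0
  mem : ∀ t a, InB (I t).F a ↔
    Side r₁ R (sb R) (sd n R S t) (su S t) 0 (st R S t) (fun e => a (e, false)) ∧
      Side r₂ R (sb R) (sd n R S t) (su S t) 0 (st R S t) (fun e => -a (e, true))
  wt : ∀ t, (I t).φ = sw n S t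

variable {n R S : ℕ} {r₁ r₂ : Finset (Fin n) → ℕ} {I : ℕ → Inst (Fin (n + 2))}

lemma lt_two_pow_sb (R : ℕ) : 2 * R < 2 ^ sb R := by
  have := Nat.lt_size_self R
  unfold sb
  rw [pow_succ]
  omega

theorem Inp.exists_fam (h : Inp r₁ r₂ R) (S : ℕ) : ∃ I, IsFam r₁ r₂ R S I := by
  have hb : R < 2 ^ sb R := by have := lt_two_pow_sb R; omega
  choose F h1 h2 h3 h4 using fun t => h.exists_F hb (sd n R S t) (su S t) 0 (st R S t) (sd n R S t)
    (su S t) 0 (st R S t)
  exact ⟨fun t => ⟨F t, sw n S t⟩, h1, h2, h3, h4, fun _ => rfl⟩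

lemma SzIn.sched_big (h : SzIn n R S) : 2 ^ 20 ≤ S := by
  obtain ⟨k, hk, rfl⟩ := h.pow
  exact Nat.pow_le_pow_right (by norm_num) hk

lemma sched_sU_le (S : ℕ) : sU S ≤ 2 * S ^ 3 := Nat.sub_le _ _

lemma sched_sU_succ {S : ℕ} (hS : 1 ≤ S) : sU S + 1 = 2 * S ^ 3 := by
  have : 1 ≤ S ^ 3 := Nat.one_le_pow _ _ hS
  unfold sU
  omega

lemma SzIn.sched_sJ_le (h : SzIn n R S) : sJ S ≤ 4 * S ^ 6 := by
  have hS := h.sched_big
  have h1 : 1 ≤ S ^ 3 := Nat.one_le_pow _ _ (by omega)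
  calc sJ S ≤ (2 * S ^ 3) * (2 * S ^ 3) := Nat.mul_le_mul (sched_sU_le S) (by omega)
    _ = 4 * S ^ 6 := by ring

/-- all the sizes are below `2 ^ (5 S)` -/
lemma SzIn.sched_size (h : SzIn n R S) : (n + 1) * 2 ^ sb R + sU S ≤ 2 ^ (5 * S) := by
  have hS := h.sched_big
  have h1 : S < 2 ^ S := Nat.lt_two_pow_self
  have h2 : 2 ^ sb R ≤ 2 ^ S := Nat.pow_le_pow_right (by norm_num) h.b_le
  have h3 := h.n_le
  have h4 := sched_sU_le S
  have h5 : 2 ^ (5 * S) = (2 ^ S) ^ 5 := by rw [← pow_mul, mul_comm]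
  rw [h5]
  generalize 2 ^ S = X at *
  have h6 : (n + 1) * 2 ^ sb R ≤ X * X := Nat.mul_le_mul (by omega) h2
  have h7 : S ^ 3 ≤ X ^ 3 := Nat.pow_le_pow_left h1.le 3
  have h8 : 3 ≤ X := by omega
  have h9 : X * X ≤ X ^ 3 := by
    rw [← pow_two]; exact Nat.pow_le_pow_right (by omega) (by norm_num)
  have h10 : 3 * X ^ 3 ≤ X ^ 5 := by
    calc 3 * X ^ 3 ≤ X * X ^ 3 := Nat.mul_le_mul_right _ h8
      _ = X ^ 4 := by ring
      _ ≤ X ^ 5 := Nat.pow_le_pow_right (by omega) (by norm_num)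
  omega

lemma sched_cool {S : ℕ} (hS : 1 ≤ S) (d₀ k : ℕ) : (cool S)^[k] d₀ = 0 ∨
    (((cool S)^[k] d₀ + sU S : ℕ) : ℝ) ≤ (1 - 1 / (2 * (S : ℝ) ^ 3)) ^ k * (d₀ + sU S : ℕ) := by
  induction k with
  | zero => right; simp
  | succ k ih =>
    rw [Function.iterate_succ_apply']
    set d := (cool S)^[k] d₀
    rcases ih with ih | ih
    · left; rw [ih]; simp [cool]
    by_cases hc : cool S d = 0
    · exact Or.inl hc
    right
    have hU := sched_sU_succ hS
    have h3 : 1 ≤ S ^ 3 := Nat.one_le_pow _ _ hS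
    have hd : 1 ≤ d := by
      by_contra h0
      apply hc
      have : d = 0 := by omega
      rw [this]; simp [cool]
    set q := (d + sU S) / S ^ 3 with hq
    have hq1 : 1 ≤ q := by
      rw [hq, Nat.le_div_iff_mul_le (by omega)]; omega
    have hq2 : d + sU S < (q + 1) * S ^ 3 := by
      rw [hq, ← Nat.div_lt_iff_lt_mul (by omega)]; omega
    have hq3 : d + sU S ≤ 2 * S ^ 3 * q := by nlinarith
    have he : cool S d + sU S + q = d + sU S := by
      unfold cool at hc ⊢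
      omega
    have hS3 : (0 : ℝ) < 2 * (S : ℝ) ^ 3 := by
      have : (1 : ℝ) ≤ S := by exact_mod_cast hS
      positivity
    have hρ : (0 : ℝ) ≤ 1 - 1 / (2 * (S : ℝ) ^ 3) := by
      have : (1 : ℝ) ≤ (S : ℝ) ^ 3 := by exact_mod_cast h3
      rw [sub_nonneg, div_le_one hS3]; linarith
    have h1 : ((cool S d + sU S : ℕ) : ℝ) ≤ (1 - 1 / (2 * (S : ℝ) ^ 3)) * ((d + sU S : ℕ) : ℝ) := by
      have e1 : ((cool S d + sU S : ℕ) : ℝ) + q = ((d + sU S : ℕ) : ℝ) := by exact_mod_cast he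
      have e2 : ((d + sU S : ℕ) : ℝ) ≤ 2 * (S : ℝ) ^ 3 * q := by exact_mod_cast hq3
      have e3 : 1 / (2 * (S : ℝ) ^ 3) * ((d + sU S : ℕ) : ℝ) ≤ q := by
        rw [one_div, inv_mul_le_iff₀ hS3]; exact e2
      linarith [e1, e3]
    calc _ ≤ _ := h1
      _ ≤ (1 - 1 / (2 * (S : ℝ) ^ 3)) * ((1 - 1 / (2 * (S : ℝ) ^ 3)) ^ k * (d₀ + sU S : ℕ)) :=
          mul_le_mul_of_nonneg_left ih hρ
      _ = _ := by ring

lemma SzIn.sT_le (h : SzIn n R S) : sT S ≤ S ^ 8 := by
  have hS := h.sched_big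
  have h1 := h.sched_sJ_le
  have h2 : S ^ 5 ≤ S ^ 6 := Nat.pow_le_pow_right (by omega) (by norm_num)
  have h3 : 1 ≤ S ^ 6 := Nat.one_le_pow _ _ (by omega)
  have h4 : 7 * S ^ 6 ≤ S ^ 8 := by
    calc 7 * S ^ 6 ≤ S * S ^ 6 := Nat.mul_le_mul_right _ (by omega)
      _ = S ^ 7 := by ring
      _ ≤ S ^ 8 := Nat.pow_le_pow_right (by omega) (by norm_num)
  unfold sT
  omega

/-- `d + sU` shrinks by the factor `1 - 1 / (2 S³)` as long as `d > 0`, and `n 2 ^ b + sU ≤ 2 ^ (2 S)`. -/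
lemma SzIn.sd_eq_zero (h : SzIn n R S) {t : ℕ} (ht : S ^ 5 + 1 ≤ t) : sd n R S t = 0 := by
  have hS := h.sched_big
  have hm : min (t - 1) (S ^ 5) = S ^ 5 := by omega
  unfold sd
  rw [hm]
  rcases sched_cool (S := S) (by omega) (n * 2 ^ sb R) (S ^ 5) with h0 | h0
  · exact h0
  exfalso
  have hU := sched_sU_succ (S := S) (by omega)
  have h3 : 1 ≤ S ^ 3 := Nat.one_le_pow _ _ (by omega)
  have hSr : (2 : ℝ) ^ 20 ≤ S := by exact_mod_cast hS
  have hS0 : (0 : ℝ) < S := by linarith [show (0 : ℝ) < 2 ^ 20 by norm_num]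
  have h1 : (1 : ℝ) ≤ (((cool S)^[S ^ 5] (n * 2 ^ sb R) + sU S : ℕ) : ℝ) := by
    exact_mod_cast (by omega)
  have h2 : ((n * 2 ^ sb R + sU S : ℕ) : ℝ) ≤ Real.exp (5 * S) := by
    have e1 : n * 2 ^ sb R + sU S ≤ 2 ^ (5 * S) :=
      le_trans (Nat.add_le_add_right (Nat.mul_le_mul_right _ (Nat.le_succ n)) _) h.sched_size
    have e2 : (2 : ℝ) ≤ Real.exp 1 := by linarith [Real.add_one_le_exp (1 : ℝ)]
    calc ((n * 2 ^ sb R + sU S : ℕ) : ℝ) ≤ (2 : ℝ) ^ (5 * S) := by exact_mod_cast e1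
      _ ≤ Real.exp 1 ^ (5 * S) := pow_le_pow_left₀ (by norm_num) e2 _
      _ = Real.exp (5 * S) := by rw [← Real.exp_nat_mul]; push_cast; ring_nf
  have hρ : (0 : ℝ) ≤ 1 - 1 / (2 * (S : ℝ) ^ 3) := by
    have : (1 : ℝ) ≤ (S : ℝ) ^ 3 := by exact_mod_cast h3
    rw [sub_nonneg, div_le_one (by positivity)]; linarith
  have h4 : (1 - 1 / (2 * (S : ℝ) ^ 3)) ^ (S ^ 5) ≤ Real.exp (-((S : ℝ) ^ 2 / 2)) := by
    calc (1 - 1 / (2 * (S : ℝ) ^ 3)) ^ (S ^ 5) ≤ Real.exp (-(1 / (2 * (S : ℝ) ^ 3))) ^ (S ^ 5) :=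
          pow_le_pow_left₀ hρ (by linarith [Real.add_one_le_exp (-(1 / (2 * (S : ℝ) ^ 3)))]) _
      _ = _ := by
          rw [← Real.exp_nat_mul]; congr 1; push_cast; field_simp
  have h5 : (1 : ℝ) ≤ Real.exp (-((S : ℝ) ^ 2 / 2)) * Real.exp (5 * S) :=
    h1.trans (h0.trans (mul_le_mul h4 h2 (Nat.cast_nonneg _) (Real.exp_pos _).le))
  rw [← Real.exp_add, Real.one_le_exp_iff] at h5
  nlinarith

lemma sφ_conv (S j : ℕ) (y : ℤ) : 2 * sφ S j (y + 1) ≤ sφ S j y + sφ S j (y + 2) := by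
  unfold sφ
  split_ifs
  · omega
  · have h1 : 2 * (y + 1).toNat ≤ y.toNat + (y + 2).toNat := by omega
    have h2 := Nat.mul_le_mul_left (j / sU S) h1
    have h3 : 2 * (y + 1 - ((sU S - j % sU S : ℕ) : ℤ)).toNat ≤
        (y - ((sU S - j % sU S : ℕ) : ℤ)).toNat + (y + 2 - ((sU S - j % sU S : ℕ) : ℤ)).toNat := by
      omega
    nlinarith

lemma sφ_succ {S : ℕ} (hS : 1 ≤ S) (j : ℕ) {y : ℤ} (h0 : 0 ≤ y) (h1 : y ≤ sU S) :
    sφ S j y ≤ sφ S (j + 1) y ∧ sφ S (j + 1) y ≤ sφ S j y + 1 := by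
  have hU : 1 ≤ sU S := by
    have := sched_sU_succ hS
    have : 1 ≤ S ^ 3 := Nat.one_le_pow _ _ hS
    omega
  have key : ∀ i, sφ S i y = i / sU S * y.toNat + (y - ((sU S - i % sU S : ℕ) : ℤ)).toNat := by
    intro i
    unfold sφ
    split_ifs with hi
    · subst hi
      simp only [Nat.zero_div, zero_mul, Nat.zero_mod, Nat.sub_zero, zero_add]
      omega
    · rfl
  rw [key, key]
  generalize sU S = U at *
  have hm := Nat.mod_lt j (show U > 0 by omega)
  have hj := Nat.div_add_mod j U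
  by_cases hc : j % U + 1 < U
  · have e1 : (j + 1) / U = j / U := by
      rw [Nat.div_eq_iff (by omega), mul_comm]
      omega
    have e2 : (j + 1) % U = j % U + 1 := by
      have := Nat.div_add_mod (j + 1) U
      rw [e1] at this
      omega
    rw [e1, e2]
    omega
  · have e1 : (j + 1) / U = j / U + 1 := by
      have : j + 1 = U * (j / U + 1) := by rw [mul_add]; omega
      rw [this, Nat.mul_div_cancel_left _ (by omega)]
    have e2 : (j + 1) % U = 0 := by
      have := Nat.div_add_mod (j + 1) U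
      rw [e1, mul_add] at this
      omega
    rw [e1, e2, add_mul]
    omega

lemma sched_sφ_le {S : ℕ} (hS : 1 ≤ S) (j : ℕ) {y : ℤ} (h0 : 0 ≤ y) (h1 : y ≤ sU S) :
    sφ S j y ≤ j := by
  induction j with
  | zero => simp [sφ]
  | succ j ih => exact (sφ_succ hS j h0 h1).2.trans (by omega)

lemma sched_sφ_zero (S j : ℕ) : sφ S j 0 = 0 := by
  unfold sφ
  split_ifs
  · rfl
  · simp

lemma sched_su_le (S t : ℕ) : su S t ≤ sU S := by
  unfold su; split_ifs <;> omega

lemma sched_st_le (R S t : ℕ) : st R S t ≤ R + sU S := by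
  have := sched_su_le S t
  unfold st; split_ifs <;> omega

/-- after the cooling both slack coordinates lie in `[0, su]` -/
lemma sched_range {r : Finset (Fin n) → ℕ} (hr : r univ = R) (hS : SzIn n R S) {t : ℕ}
    (ht : S ^ 5 + 1 ≤ t) {y : Fin (n + 2) → ℤ}
    (hy : Side r R (sb R) (sd n R S t) (su S t) 0 (st R S t) y) :
    (0 ≤ -y (eτ n) ∧ -y (eτ n) ≤ su S t) ∧ 0 ≤ y (eσ n) ∧ y (eσ n) ≤ su S t := by
  obtain ⟨h1, h2, h3, h4, h5⟩ := hy
  have h6 := h5 univ
  rw [hS.sd_eq_zero ht, hr] at h6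
  rw [sched_sum_univ] at h4
  have h7 : st R S t = su S t := by unfold st; rw [if_neg (by omega)]
  rw [h7] at h3
  simp only [Nat.cast_zero] at h2 h6
  omega

lemma sched_sj_ne {t : ℕ} (h : sj S t ≠ 0) : S ^ 5 + 1 ≤ t := by
  unfold sj at h
  omega

lemma sched_sw_zero {t : ℕ} (h : sj S t = 0) (p : Fin (n + 2) × Bool) (y : ℤ) :
    sw n S t p y = 0 := by
  unfold sw
  rw [h]
  simp [sφ]

lemma sched_bound {r : Finset (Fin n) → ℕ} (hS : SzIn n R S) {t : ℕ} {y : Fin (n + 2) → ℤ}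
    (hy : Side r R (sb R) (sd n R S t) (su S t) 0 (st R S t) y) (p : Fin (n + 2)) :
    |y p| ≤ 2 ^ S ^ 20 := by
  obtain ⟨h1, h2, h3, h4, -⟩ := hy
  have hb := hS.sched_big
  have e1 : 2 ^ (5 * S) ≤ 2 ^ S ^ 20 := by
    refine Nat.pow_le_pow_right (by norm_num) ?_
    calc 5 * S ≤ S * S := Nat.mul_le_mul_right _ (by omega)
      _ = S ^ 2 := by ring
      _ ≤ S ^ 20 := Nat.pow_le_pow_right (by omega) (by norm_num)
  have e2 : (((n + 1) * 2 ^ sb R + sU S : ℕ) : ℤ) ≤ ((2 ^ S ^ 20 : ℕ) : ℤ) := by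
    exact_mod_cast hS.sched_size.trans e1
  have e3 : ((2 * R : ℕ) : ℤ) < ((2 ^ sb R : ℕ) : ℤ) := by exact_mod_cast lt_two_pow_sb R
  have e4 : ((su S t : ℕ) : ℤ) ≤ sU S := by exact_mod_cast sched_su_le S t
  have e5 : ((st R S t : ℕ) : ℤ) ≤ ((R + sU S : ℕ) : ℤ) := by exact_mod_cast sched_st_le R S t
  have e6 : ∑ e, y (eo e) ≤ n * 2 ^ sb R := by
    calc ∑ e, y (eo e) ≤ ∑ _e : Fin n, (2 : ℤ) ^ sb R := sum_le_sum fun e _ => (h1 e).2.le
      _ = n * 2 ^ sb R := by simp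
  rw [sched_sum_univ] at h4
  push_cast at e2 e3 e5
  rw [add_mul, one_mul] at e2
  have e7 : (0 : ℤ) ≤ n * 2 ^ sb R := by positivity
  generalize (n : ℤ) * 2 ^ sb R = N at *
  generalize (2 : ℤ) ^ S ^ 20 = B at *
  simp only [Nat.cast_zero] at h2
  rw [abs_le]
  rcases sched_cases p with ⟨e, rfl⟩ | rfl | rfl
  · have := h1 e
    generalize (2 : ℤ) ^ sb R = C at *
    omega
  · generalize (2 : ℤ) ^ sb R = C at *
    omega
  · generalize (2 : ℤ) ^ sb R = C at *
    omega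

lemma sched_side_mono {r : Finset (Fin n) → ℕ} {b d d' U U' T T' : ℕ} (hd : d ≤ d') (hU : U ≤ U')
    (hT : T ≤ T') {y : Fin (n + 2) → ℤ} (hy : Side r R b d U 0 T y) : Side r R b d' U' 0 T' y := by
  obtain ⟨h1, h2, h3, h4, h5⟩ := hy
  refine ⟨h1, ⟨by omega, h2.2⟩, by omega, h4, fun A => ?_⟩
  have := h5 A
  omega

/-- a vector and its negative -/
def schedDbl {E : Type} (y : E → ℤ) : E × Bool → ℤ := fun p => if p.2 then -y p.1 else y p.1

lemma sched_Z_card {J : Inst (Fin (n + 2))} (h : ∀ a, InB J.F a → J.wx a = 0) (γ : Fin (n + 2) → ℤ) :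
    J.Z γ = (J.N.filter fun a => ell a = γ).card := by
  unfold Inst.Z
  rw [card_eq_sum_ones, Nat.cast_sum]
  refine sum_congr rfl fun a ha => ?_
  rw [Inst.W, h a (J.mem_N.1 (mem_filter.1 ha).1)]
  simp

lemma sched_dbl_mem (hF : IsFam r₁ r₂ R S I) (t : ℕ) {y : Fin (n + 2) → ℤ}
    (h1 : Side r₁ R (sb R) (sd n R S t) (su S t) 0 (st R S t) y)
    (h2 : Side r₂ R (sb R) (sd n R S t) (su S t) 0 (st R S t) y) :
    schedDbl y ∈ (I t).N.filter fun a => ell a = 0 := by
  refine mem_filter.2 ⟨(I t).mem_N.2 ((hF.mem t _).2 ⟨?_, ?_⟩), ?_⟩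
  · simpa [schedDbl] using h1
  · simpa [schedDbl] using h2
  · funext e
    simp [ell_apply, schedDbl]

lemma sched_card_zero (hF : IsFam r₁ r₂ R S I) (t : ℕ) {α : Type} (X : Finset α)
    (g : α → Fin (n + 2) → ℤ) (hg : Set.InjOn g X)
    (hX : ∀ y, (Side r₁ R (sb R) (sd n R S t) (su S t) 0 (st R S t) y ∧
      Side r₂ R (sb R) (sd n R S t) (su S t) 0 (st R S t) y) ↔ ∃ x ∈ X, g x = y) :
    ((I t).N.filter fun a => ell a = 0).card = X.card := by
  symm
  refine card_bij (fun x _ => schedDbl (g x)) (fun x hx => ?_) (fun x hx x' hx' e => ?_)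
    (fun a ha => ?_)
  · have := (hX _).2 ⟨x, hx, rfl⟩
    exact sched_dbl_mem hF t this.1 this.2
  · refine hg hx hx' ?_
    funext p
    simpa [schedDbl] using congrFun e (p, false)
  · obtain ⟨a1, a2⟩ := mem_filter.1 ha
    obtain ⟨s1, s2⟩ := (hF.mem t a).1 ((I t).mem_N.1 a1)
    have e : ∀ p, -a (p, true) = a (p, false) := by
      intro p
      have := congrFun a2 p
      rw [ell_apply] at this
      simp only [Pi.zero_apply] at this
      omega
    simp only [e] at s2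
    obtain ⟨x, hx, hx'⟩ := (hX _).1 ⟨s1, s2⟩
    refine ⟨x, hx, ?_⟩
    funext ⟨p, b⟩
    cases b
    · simp [schedDbl, hx']
    · simp [schedDbl, hx', ← e]

lemma sched_side_base {r : Finset (Fin n) → ℕ} {x : Fin n → ℕ} (hx : ∑ e, x e = R)
    (hx' : ∀ A, ∑ e ∈ A, x e ≤ r A) (d U T : ℕ) :
    Side r R (sb R) d U 0 T (schedExt (fun e => x e) 0 0) := by
  refine ⟨fun e => ⟨by simp, ?_⟩, by simp, by simp, ?_, fun A => ?_⟩
  · simp only [schedExt_eo]
    have h1 : x e ≤ ∑ e, x e := single_le_sum (fun _ _ => Nat.zero_le _) (mem_univ e)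
    have h2 := lt_two_pow_sb R
    exact_mod_cast (by omega : x e < 2 ^ sb R)
  · rw [sched_sum_univ]
    simp only [schedExt_eo, schedExt_eτ, schedExt_eσ, add_zero]
    exact_mod_cast hx
  · simp only [schedExt_eo, schedExt_eτ, add_zero]
    have : ((∑ e ∈ A, x e : ℕ) : ℤ) ≤ r A := by exact_mod_cast hx' A
    push_cast at this
    omega

/-- If `sj S t ≠ 0` then `sd = 0`, so `- y τ` and `y σ` lie in `[0, sU]`. -/
theorem IsFam.sz (hF : IsFam r₁ r₂ R S I) (h : Inp r₁ r₂ R) (hS : SzIn n R S) (t : ℕ) :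
    (I t).Sz (S ^ 20) := by
  have hb := hS.sched_big
  have hU : (sU S : ℤ) ≤ ((S ^ 20 : ℕ) : ℤ) := by
    have : sU S ≤ S ^ 20 := by
      calc sU S ≤ 2 * S ^ 3 := sched_sU_le S
        _ ≤ S * S ^ 3 := Nat.mul_le_mul_right _ (by omega)
        _ = S ^ 4 := by ring
        _ ≤ S ^ 20 := Nat.pow_le_pow_right (by omega) (by norm_num)
    exact_mod_cast this
  have hsu : (su S t : ℤ) ≤ sU S := by exact_mod_cast sched_su_le S t
  refine ⟨hF.sub t, hF.empty t, hF.total t, ?_, ?_, fun a ha p => ?_, fun p j => ?_,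
    fun a ha p => ?_, fun p => ?_⟩
  · have h1 := hS.n_le
    simp only [Fintype.card_prod, Fintype.card_fin, Fintype.card_bool]
    calc (n + 2) * 2 ≤ S * 2 := Nat.mul_le_mul_right _ h1
      _ < S * S := Nat.mul_lt_mul_of_pos_left (by omega) (by omega)
      _ = S ^ 2 := by ring
      _ ≤ S ^ 20 := Nat.pow_le_pow_right (by omega) (by norm_num)
  · obtain ⟨k, hk, e⟩ := hS.pow
    exact ⟨k * 20, by omega, by rw [e, pow_mul]⟩
  · obtain ⟨s1, s2⟩ := (hF.mem t a).1 ha
    obtain ⟨p, b⟩ := p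
    cases b
    · exact sched_bound hS s1 p
    · simpa using sched_bound hS s2 p
  · rw [hF.wt t]
    unfold sw
    split_ifs
    · have := sφ_conv S (sj S t) (-(j + 2))
      rw [show -(j + 2) + 1 = -(j + 1) by ring, show -(j + 2) + 2 = -j by ring] at this
      omega
    · exact sφ_conv _ _ _
    · omega
  · rw [hF.wt t]
    by_cases hj : sj S t = 0
    · rw [sched_sw_zero hj]; exact Nat.zero_le _
    have hr := sched_range h.e₁ hS (sched_sj_ne hj) ((hF.mem t a).1 ha).1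
    have hj2 : sj S t ≤ S ^ 20 := by
      calc sj S t ≤ sJ S := min_le_right _ _
        _ ≤ sT S := by unfold sT; omega
        _ ≤ S ^ 8 := hS.sT_le
        _ ≤ S ^ 20 := Nat.pow_le_pow_right (by omega) (by norm_num)
    unfold sw
    split_ifs with h1 h2
    · subst h1
      exact (sched_sφ_le (by omega) _ hr.1.1 (hr.1.2.trans hsu)).trans hj2
    · subst h2
      exact (sched_sφ_le (by omega) _ hr.2.1 (hr.2.2.trans hsu)).trans hj2
    · exact Nat.zero_le _
  · rw [hF.wt t]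
    by_cases hj : sj S t = 0
    · exact Or.inl fun j => sched_sw_zero hj p j
    by_cases h1 : p = (eτ n, false)
    · right
      intro a a' ha ha'
      have hr := sched_range h.e₁ hS (sched_sj_ne hj) ((hF.mem t a).1 ha).1
      have hr' := sched_range h.e₁ hS (sched_sj_ne hj) ((hF.mem t a').1 ha').1
      subst h1
      omega
    by_cases h2 : p = (eσ n, false)
    · right
      intro a a' ha ha'
      have hr := sched_range h.e₁ hS (sched_sj_ne hj) ((hF.mem t a).1 ha).1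
      have hr' := sched_range h.e₁ hS (sched_sj_ne hj) ((hF.mem t a').1 ha').1
      subst h2
      omega
    · left
      intro j
      simp [sw, h1, h2]

theorem IsFam.mono (hF : IsFam r₁ r₂ R S I) (h : Inp r₁ r₂ R) (hS : SzIn n R S) (t : ℕ) :
    ∀ a, InB (I (t + 1)).F a → InB (I t).F a ∧ (I t).wx a ≤ (I (t + 1)).wx a := by
  intro a ha
  have hb := hS.sched_big
  obtain ⟨s1, s2⟩ := (hF.mem _ a).1 ha
  have hd : sd n R S (t + 1) ≤ sd n R S t := by
    unfold sd
    by_cases e : min (t + 1 - 1) (S ^ 5) = min (t - 1) (S ^ 5)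
    · rw [e]
    · rw [show min (t + 1 - 1) (S ^ 5) = min (t - 1) (S ^ 5) + 1 by omega,
        Function.iterate_succ_apply']
      exact Nat.sub_le _ _
  have hu : su S (t + 1) ≤ su S t := by
    unfold su; split_ifs <;> omega
  have hT : st R S (t + 1) ≤ st R S t := by
    have := sched_su_le S (t + 1)
    unfold st
    rw [if_neg (Nat.succ_ne_zero t)]
    split_ifs <;> omega
  refine ⟨(hF.mem t a).2 ⟨sched_side_mono hd hu hT s1, sched_side_mono hd hu hT s2⟩, ?_⟩
  unfold Inst.wx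
  rw [hF.wt, hF.wt]
  refine sum_le_sum fun p _ => ?_
  unfold sw
  by_cases e : sj S (t + 1) = sj S t
  · rw [e]
  have e' : sj S (t + 1) = sj S t + 1 := by unfold sj at e ⊢; omega
  have hr := sched_range h.e₁ hS (sched_sj_ne (t := t + 1) (by omega)) s1
  have hsu : (su S (t + 1) : ℤ) ≤ sU S := by exact_mod_cast sched_su_le S (t + 1)
  rw [e']
  split_ifs with h1 h2
  · subst h1
    exact (sφ_succ (by omega) _ hr.1.1 (hr.1.2.trans hsu)).1
  · subst h2
    exact (sφ_succ (by omega) _ hr.2.1 (hr.2.2.trans hsu)).1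
  · exact le_rfl

/-- The bases without leak and of weight one of the last stage are the common bases. -/
theorem IsFam.final (hF : IsFam r₁ r₂ R S I) (h : Inp r₁ r₂ R) (hS : SzIn n R S) :
    (I (sT S)).Z 0 = numCommonIntBases R r₁ r₂ := by
  have ht : S ^ 5 + 1 ≤ sT S := by unfold sT; omega
  have hsu : su S (sT S) = 0 := by simp [su]
  rw [sched_Z_card]
  · congr 1
    unfold numCommonIntBases
    refine sched_card_zero hF _ _ (fun x => schedExt (fun e => ((x e : ℕ) : ℤ)) 0 0)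
      (fun x _ x' _ e => ?_) fun y => ⟨fun hy => ?_, ?_⟩
    · funext i
      have := congrFun e (eo i)
      simp only [schedExt_eo] at this
      exact Fin.ext (by exact_mod_cast this)
    · have hr := sched_range h.e₁ hS ht hy.1
      rw [hsu] at hr
      obtain ⟨⟨a1, -, -, a4, a5⟩, -, -, -, -, b5⟩ := hy
      rw [hS.sd_eq_zero ht] at a5 b5
      rw [sched_sum_univ] at a4
      have hτ : y (eτ n) = 0 := by omega
      have hσ : y (eσ n) = 0 := by omega
      have hle : ∀ e, (y (eo e)).toNat < R + 1 := by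
        intro e
        have : y (eo e) ≤ ∑ e, y (eo e) :=
          single_le_sum (f := fun e => y (eo e)) (fun e _ => (a1 e).1) (mem_univ e)
        omega
      have hc : ∀ A : Finset (Fin n), ((∑ e ∈ A, (y (eo e)).toNat : ℕ) : ℤ) = ∑ e ∈ A, y (eo e) := by
        intro A
        push_cast
        exact sum_congr rfl fun e _ => Int.toNat_of_nonneg (a1 e).1
      refine ⟨fun e => ⟨(y (eo e)).toNat, hle e⟩, mem_filter.2 ⟨mem_univ _, ?_, fun A => ⟨?_, ?_⟩⟩, ?_⟩
      · have := hc univ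
        simp only
        omega
      · have := hc A
        have := a5 A
        simp only
        omega
      · have := hc A
        have := b5 A
        simp only
        omega
      · refine sched_ext (fun e => ?_) (by simp [hτ]) (by simp [hσ])
        simp only [schedExt_eo]
        exact Int.toNat_of_nonneg (a1 e).1
    · rintro ⟨x, hx, rfl⟩
      obtain ⟨x1, x2⟩ := (mem_filter.1 hx).2
      exact ⟨sched_side_base x1 (fun A => (x2 A).1) _ _ _,
        sched_side_base x1 (fun A => (x2 A).2) _ _ _⟩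
  · intro a ha
    have hr := sched_range h.e₁ hS ht ((hF.mem _ a).1 ha).1
    rw [hsu] at hr
    unfold Inst.wx
    rw [hF.wt]
    refine sum_eq_zero fun p _ => ?_
    unfold sw
    split_ifs with h1 h2
    · subst h1
      rw [show -a (eτ n, false) = 0 by omega, sched_sφ_zero]
    · subst h2
      rw [show a (eσ n, false) = 0 by omega, sched_sφ_zero]
    · rfl

theorem IsFam.pos (hF : IsFam r₁ r₂ R S I) (h : Inp r₁ r₂ R) (hS : SzIn n R S) (t : ℕ) :
    0 < (I t).Z 0 := by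
  obtain ⟨x, x1, x2, x3⟩ := h.sched_exists
  have _ := hS
  exact sum_pos (fun a _ => (I t).W_pos a)
    ⟨_, sched_dbl_mem hF t (sched_side_base x1 x2 _ _ _) (sched_side_base x1 x3 _ _ _)⟩

/-- At stage `0` the rank constraints and the bound on `σ` are void. -/
lemma side_zero (hS : SzIn n R S) (r : Finset (Fin n) → ℕ) (y : Fin (n + 2) → ℤ) :
    Side r R (sb R) (sd n R S 0) (su S 0) 0 (st R S 0) y ↔
      (∀ e : Fin n, 0 ≤ y (eo e) ∧ y (eo e) < 2 ^ sb R) ∧
        (-(sU S : ℤ) ≤ y (eτ n) ∧ y (eτ n) ≤ 0) ∧ ∑ e, y e = R := by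
  have _ := hS
  have e1 : sd n R S 0 = n * 2 ^ sb R := by simp [sd]
  have e2 : su S 0 = sU S := by unfold su; rw [if_pos (by unfold sT; omega)]
  have e3 : st R S 0 = R + sU S := by simp [st]
  rw [e1, e2, e3]
  constructor
  · rintro ⟨h1, h2, -, h4, -⟩
    exact ⟨h1, by simpa using h2, h4⟩
  · rintro ⟨h1, h2, h4⟩
    refine ⟨h1, by simpa using h2, ?_, h4, fun A => ?_⟩
    · rw [sched_sum_univ] at h4
      have : 0 ≤ ∑ e, y (eo e) := sum_nonneg fun e _ => (h1 e).1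
      push_cast
      omega
    · have h5 : ∑ e ∈ A, y (eo e) ≤ ∑ e, y (eo e) :=
        sum_le_sum_of_subset_of_nonneg (subset_univ _) fun e _ _ => (h1 e).1
      have e6 : ∑ e, y (eo e) ≤ n * 2 ^ sb R := by
        calc ∑ e, y (eo e) ≤ ∑ _e : Fin n, (2 : ℤ) ^ sb R := sum_le_sum fun e _ => (h1 e).2.le
          _ = n * 2 ^ sb R := by simp
      push_cast
      generalize (n : ℤ) * 2 ^ sb R = N at *
      omega

lemma sched_wx_zero (hF : IsFam r₁ r₂ R S I) (a : Fin (n + 2) × Bool → ℤ) : (I 0).wx a = 0 := by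
  unfold Inst.wx
  rw [hF.wt]
  exact sum_eq_zero fun p _ => sched_sw_zero (by simp [sj]) p _

theorem IsFam.tot (hF : IsFam r₁ r₂ R S I) (hS : SzIn n R S) :
    (I 0).Z 0 = ((2 ^ (sb R * n) * (2 * S ^ 3) : ℕ) : ℝ) := by
  have hb := hS.sched_big
  rw [sched_Z_card fun a _ => sched_wx_zero hF a]
  congr 1
  rw [sched_card_zero hF 0
    ((Fintype.piFinset fun _ : Fin n => Ico (0 : ℤ) (2 ^ sb R)) ×ˢ Icc (-(sU S : ℤ)) 0)
    (fun x => schedExt x.1 x.2 (R - ∑ e, x.1 e - x.2)) (fun x _ x' _ e => ?_) fun y => ?_]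
  · rw [card_product, Fintype.card_piFinset, ← sched_sU_succ (S := S) (by omega)]
    simp only [Int.card_Ico, Int.card_Icc, sub_zero, prod_const, card_univ, Fintype.card_fin]
    have e1 : ((2 : ℤ) ^ sb R).toNat = 2 ^ sb R := by exact_mod_cast Int.toNat_natCast (2 ^ sb R)
    have e2 : (0 + 1 - -(sU S : ℤ)).toNat = sU S + 1 := by omega
    rw [pow_mul, e1, e2]
  · refine Prod.ext (funext fun i => ?_) ?_
    · simpa using congrFun e (eo i)
    · simpa using congrFun e (eτ n)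
  · rw [side_zero hS, side_zero hS, and_self_iff]
    constructor
    · rintro ⟨h1, h2, h3⟩
      refine ⟨(fun e => y (eo e), y (eτ n)), mem_product.2 ⟨?_, mem_Icc.2 h2⟩, ?_⟩
      · exact Fintype.mem_piFinset.2 fun e => mem_Ico.2 (h1 e)
      · refine sched_ext (fun e => by simp) (by simp) ?_
        rw [sched_sum_univ] at h3
        simp only [schedExt_eσ]
        omega
    · rintro ⟨x, hx, rfl⟩
      obtain ⟨x1, x2⟩ := mem_product.1 hx
      refine ⟨fun e => ?_, ?_, ?_⟩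
      · simpa using mem_Ico.1 (Fintype.mem_piFinset.1 x1 e)
      · simpa using mem_Icc.1 x2
      · rw [sched_sum_univ]
        simp only [schedExt_eo, schedExt_eτ, schedExt_eσ]
        ring

/-- Both sides are the same set and all weights are one. -/
theorem IsFam.bal (hF : IsFam r₁ r₂ R S I) (hS : SzIn n R S) (γ : Fin (n + 2) → ℤ) :
    (I 0).Z γ ≤ (I 0).Z 0 := by
  rw [sched_Z_card fun a _ => sched_wx_zero hF a, sched_Z_card fun a _ => sched_wx_zero hF a]
  refine Nat.cast_le.2 (card_le_card_of_injOn (fun a => schedDbl fun e => a (e, false))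
    (fun a ha => ?_) fun a ha a' ha' e => ?_)
  · have s1 := ((hF.mem 0 a).1 ((I 0).mem_N.1 (mem_filter.1 ha).1)).1
    exact sched_dbl_mem hF 0 s1 ((side_zero hS _ _).2 ((side_zero hS _ _).1 s1))
  · have a1 := (mem_filter.1 ha).2
    have a2 := (mem_filter.1 ha').2
    have e1 : ∀ p, a (p, false) = a' (p, false) := fun p => by
      simpa [schedDbl] using congrFun e (p, false)
    funext ⟨p, b⟩
    cases b
    · exact e1 p
    · have b1 := congrFun a1 p
      have b2 := congrFun a2 p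
      rw [ell_apply] at b1 b2
      have := e1 p
      omega

end Crest.Agent.R302
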