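import Crest.Agent.R302.DL

/-!
Row 302, auxiliary lemmas for `Smooth.lean`: difference and averaging operators on `I → ℤ`,
discrete Taylor formula.
-/

set_option autoImplicit false
set_option linter.unusedSectionVars false

namespace Crest.Agent.R302

open Finset

variable {I : Type} [Fintype I] [DecidableEq I]

/-- Difference operator. -/
def smoothD (a : I → ℤ) (g : (I → ℤ) → ℝ) : (I → ℤ) → ℝ := fun x => g (x + a) - g x

/-- Averaging operator along a direction. -/
noncomputable def smoothAv (L : ℕ) (a : I → ℤ) (g : (I → ℤ) → ℝ) : (I → ℤ) → ℝ :=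
  fun x => (∑ j ∈ range L, g (x + j • a)) / L

/-- The `ℓ¹` norm. -/
def smoothN (a : I → ℤ) : ℕ := ∑ p, (a p).natAbs

lemma smoothD_comm (a b : I → ℤ) (g : (I → ℤ) → ℝ) :
    smoothD a (smoothD b g) = smoothD b (smoothD a g) := by
  funext x
  simp only [smoothD]
  rw [add_right_comm x a b]
  ring

lemma smoothD_av (L : ℕ) (a b : I → ℤ) (g : (I → ℤ) → ℝ) :
    smoothD b (smoothAv L a g) = smoothAv L a (smoothD b g) := by
  funext x
  simp only [smoothD, smoothAv]
  rw [← sub_div, ← Finset.sum_sub_distrib]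
  congr 1
  refine Finset.sum_congr rfl fun j _ => ?_
  rw [add_right_comm x b]

lemma smoothD_av_self (L : ℕ) (a : I → ℤ) (g : (I → ℤ) → ℝ) (x : I → ℤ) :
    smoothD a (smoothAv L a g) x = (g (x + L • a) - g x) / L := by
  simp only [smoothD, smoothAv]
  rw [← sub_div, ← Finset.sum_sub_distrib]
  congr 1
  have h := Finset.sum_range_sub (fun j => g (x + j • a)) L
  simp only [zero_smul, add_zero] at h
  rw [← h]
  refine Finset.sum_congr rfl fun j _ => ?_
  rw [succ_nsmul, add_assoc, add_comm a]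

lemma smoothAv_abs_le {L : ℕ} (hL : 0 < L) (a : I → ℤ) {g : (I → ℤ) → ℝ} {M : ℝ}
    (hg : ∀ x, |g x| ≤ M) (x : I → ℤ) : |smoothAv L a g x| ≤ M := by
  have hL' : (0 : ℝ) < L := by exact_mod_cast hL
  simp only [smoothAv]
  rw [abs_div, abs_of_pos hL', div_le_iff₀ hL']
  calc |∑ j ∈ range L, g (x + j • a)| ≤ ∑ j ∈ range L, |g (x + j • a)| :=
        Finset.abs_sum_le_sum_abs _ _
    _ ≤ ∑ _j ∈ range L, M := Finset.sum_le_sum fun j _ => hg _
    _ = M * L := by simp [mul_comm]

lemma smooth_nsmul_le (a : I → ℤ) {g : (I → ℤ) → ℝ} {Λ : ℝ}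
    (hg : ∀ x, |g (x + a) - g x| ≤ Λ) (x : I → ℤ) (j : ℕ) : |g (x + j • a) - g x| ≤ j * Λ := by
  induction j with
  | zero => simp
  | succ j ih =>
    have h1 := hg (x + j • a)
    rw [succ_nsmul, ← add_assoc]
    push_cast
    have : g (x + j • a + a) - g x = (g (x + j • a + a) - g (x + j • a)) + (g (x + j • a) - g x) := by
      ring
    rw [this]
    calc _ ≤ _ := abs_add_le _ _
      _ ≤ Λ + j * Λ := add_le_add h1 ih
      _ = (j + 1) * Λ := by ring

lemma smoothAv_close {L : ℕ} (hL : 0 < L) (a : I → ℤ) {g : (I → ℤ) → ℝ} {Λ : ℝ}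
    (hg : ∀ x, |g (x + a) - g x| ≤ Λ) (x : I → ℤ) : |smoothAv L a g x - g x| ≤ L * Λ := by
  have hL' : (0 : ℝ) < L := by exact_mod_cast hL
  have hΛ : 0 ≤ Λ := (abs_nonneg _).trans (hg x)
  have e : smoothAv L a g x - g x = (∑ j ∈ range L, (g (x + j • a) - g x)) / L := by
    simp only [smoothAv]
    rw [Finset.sum_sub_distrib]
    simp only [sum_const, card_range, nsmul_eq_mul]
    field_simp
  rw [e, abs_div, abs_of_pos hL', div_le_iff₀ hL']
  calc |∑ j ∈ range L, (g (x + j • a) - g x)| ≤ ∑ j ∈ range L, |g (x + j • a) - g x| :=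
        Finset.abs_sum_le_sum_abs _ _
    _ ≤ ∑ _j ∈ range L, L * Λ := Finset.sum_le_sum fun j hj => by
        refine (smooth_nsmul_le a hg x j).trans ?_
        have : (j : ℝ) ≤ L := by exact_mod_cast (mem_range.1 hj).le
        exact mul_le_mul_of_nonneg_right this hΛ
    _ = L * Λ * L := by simp; ring

lemma smoothAv_convex (L : ℕ) (a : I → ℤ) {g : (I → ℤ) → ℝ}
    (hg : ∀ x y, 2 * g x ≤ g (x + y) + g (x - y)) (x y : I → ℤ) :
    2 * smoothAv L a g x ≤ smoothAv L a g (x + y) + smoothAv L a g (x - y) := by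
  simp only [smoothAv]
  rw [← add_div, ← mul_div_assoc, Finset.mul_sum, ← Finset.sum_add_distrib]
  refine div_le_div_of_nonneg_right (Finset.sum_le_sum fun j _ => ?_) (Nat.cast_nonneg _)
  have := hg (x + j • a) y
  rwa [add_right_comm x, show x + j • a - y = x - y + j • a by abel] at this

/-- Lipschitz, midpoint convex, invariant outside `S`. -/
def SmoothGood (S : Finset I) (Λ : ℝ) (g : (I → ℤ) → ℝ) : Prop :=
  (∀ x p, |g (x + uv p) - g x| ≤ Λ) ∧ (∀ x y, 2 * g x ≤ g (x + y) + g (x - y)) ∧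
    ∀ x, ∀ p ∉ S, g (x + uv p) = g x

lemma SmoothGood.av {S : Finset I} {Λ : ℝ} {g : (I → ℤ) → ℝ} (h : SmoothGood S Λ g) {L : ℕ}
    (hL : 0 < L) (a : I → ℤ) : SmoothGood S Λ (smoothAv L a g) := by
  refine ⟨fun x p => ?_, smoothAv_convex L a h.2.1, fun x p hp => ?_⟩
  · have := smoothAv_abs_le hL a (g := smoothD (uv p) g) (fun y => h.1 y p) x
    rwa [← smoothD_av] at this
  · simp only [smoothAv]
    congr 1
    refine Finset.sum_congr rfl fun j _ => ?_
    rw [add_right_comm, h.2.2 _ p hp]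

lemma smooth_round {J : Type} (𝒟 : J → ((I → ℤ) → ℝ) → (I → ℤ) → ℝ) {L : ℕ} (hL : 0 < L)
    (h𝒟 : ∀ j a g, 𝒟 j (smoothAv L a g) = smoothAv L a (𝒟 j g)) {S : Finset I} {Λ M : ℝ}
    {g : (I → ℤ) → ℝ} (hg : SmoothGood S Λ g) (hM : ∀ j x, |𝒟 j g x| ≤ M) (T : Finset I) :
    ∃ g', SmoothGood S Λ g' ∧ (∀ x, |g' x - g x| ≤ T.card * (L * Λ)) ∧ (∀ j x, |𝒟 j g' x| ≤ M) ∧
      ∀ p ∈ T, ∀ j x, |smoothD (uv p) (𝒟 j g') x| ≤ 2 * M / L := by
  have hL' : (0 : ℝ) < L := by exact_mod_cast hL
  induction T using Finset.induction_on with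
  | empty => exact ⟨g, hg, fun x => by simp, hM, fun p hp => by simp at hp⟩
  | insert p T hp ih =>
    obtain ⟨g', h1, h2, h3, h4⟩ := ih
    refine ⟨smoothAv L (uv p) g', h1.av hL _, fun x => ?_, fun j x => ?_, fun q hq j x => ?_⟩
    · have := smoothAv_close hL (uv p) (fun y => h1.1 y p) x
      rw [card_insert_of_notMem hp]
      push_cast
      have e : smoothAv L (uv p) g' x - g x = (smoothAv L (uv p) g' x - g' x) + (g' x - g x) := by
        ring
      rw [e]
      calc _ ≤ _ := abs_add_le _ _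
        _ ≤ L * Λ + T.card * (L * Λ) := add_le_add this (h2 x)
        _ = _ := by ring
    · rw [h𝒟]
      exact smoothAv_abs_le hL _ (h3 j) x
    · rw [h𝒟]
      rcases mem_insert.1 hq with rfl | hq
      · rw [smoothD_av_self, abs_div, abs_of_pos hL']
        refine div_le_div_of_nonneg_right ?_ hL'.le
        calc _ ≤ _ := abs_sub _ _
          _ ≤ M + M := add_le_add (h3 j _) (h3 j _)
          _ = 2 * M := by ring
      · rw [smoothD_av]
        exact smoothAv_abs_le hL _ (h4 q hq j) x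

lemma smoothD_zero {S : Finset I} {Λ : ℝ} {g : (I → ℤ) → ℝ} (h : SmoothGood S Λ g) {p : I}
    (hp : p ∉ S) : smoothD (uv p) g = 0 := by
  funext x
  simp [smoothD, h.2.2 x p hp]

/-- Two rounds of averaging. -/
lemma smooth_two_rounds {S : Finset I} {Λ : ℝ} (hΛ : 0 ≤ Λ) {g : (I → ℤ) → ℝ}
    (hg : SmoothGood S Λ g) {L : ℕ} (hL : 0 < L) :
    ∃ g', SmoothGood S Λ g' ∧ (∀ x, |g' x - g x| ≤ 2 * (S.card * (L * Λ))) ∧
      (∀ p q x, |smoothD (uv p) (smoothD (uv q) g') x| ≤ 2 * Λ / L) ∧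
      ∀ p q r x, |smoothD (uv p) (smoothD (uv q) (smoothD (uv r) g')) x| ≤ 2 * (2 * Λ / L) / L := by
  have hL' : (0 : ℝ) < L := by exact_mod_cast hL
  obtain ⟨g₁, h1, h2, -, h4⟩ := smooth_round (fun q : I => smoothD (uv q)) hL
    (fun j a g => smoothD_av L a _ g) hg (M := Λ) (fun j x => hg.1 x j) S
  have h5 : ∀ p q x, |smoothD (uv p) (smoothD (uv q) g₁) x| ≤ 2 * Λ / L := by
    intro p q x
    by_cases hp : p ∈ S
    · exact h4 p hp q x
    · rw [smoothD_comm, smoothD_zero h1 hp]
      simp only [smoothD, Pi.zero_apply, sub_self, abs_zero]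
      positivity
  obtain ⟨g₂, k1, k2, k3, k4⟩ := smooth_round
    (fun q : I × I => fun g => smoothD (uv q.1) (smoothD (uv q.2) g)) hL
    (fun j a g => by simp only [smoothD_av]) h1 (M := 2 * Λ / L) (fun j x => h5 j.1 j.2 x) S
  refine ⟨g₂, k1, fun x => ?_, fun p q x => k3 (p, q) x, fun p q r x => ?_⟩
  · have e : g₂ x - g x = (g₂ x - g₁ x) + (g₁ x - g x) := by ring
    rw [e]
    calc _ ≤ _ := abs_add_le _ _
      _ ≤ _ := add_le_add (k2 x) (h2 x)
      _ = _ := by ring
  · by_cases hp : p ∈ S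
    · exact k4 p hp (q, r) x
    · rw [smoothD_comm (uv p), smoothD_comm (uv p), smoothD_zero k1 hp]
      simp only [smoothD, Pi.zero_apply, sub_self, abs_zero]
      positivity

lemma smoothN_update (a : I → ℤ) (p : I) (c : ℤ) :
    smoothN (a + Pi.single p c) + (a p).natAbs = smoothN a + (a p + c).natAbs := by
  simp only [smoothN]
  rw [← Finset.add_sum_erase _ _ (mem_univ p), ← Finset.add_sum_erase univ _ (mem_univ p)]
  have : ∑ x ∈ univ.erase p, ((a + Pi.single p c : I → ℤ) x).natAbs =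
      ∑ x ∈ univ.erase p, (a x).natAbs :=
    Finset.sum_congr rfl fun q hq => by simp [Pi.single_eq_of_ne (ne_of_mem_erase hq)]
  rw [this]
  simp only [Pi.add_apply, Pi.single_eq_same]
  omega

lemma smooth_induction (P : (I → ℤ) → Prop) (h0 : P 0)
    (hp : ∀ a p, smoothN (a + uv p) = smoothN a + 1 → P a → P (a + uv p))
    (hm : ∀ a p, smoothN (a - uv p) = smoothN a + 1 → P a → P (a - uv p)) (a : I → ℤ) : P a := by
  induction hn : smoothN a generalizing a with
  | zero =>
    have : a = 0 := by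
      funext p
      have := (Finset.sum_eq_zero_iff.1 hn) p (mem_univ p)
      simpa using this
    rwa [this]
  | succ n ih =>
    have : ∃ p, a p ≠ 0 := by
      by_contra hc
      push Not at hc
      simp [smoothN, hc] at hn
    obtain ⟨p, hp0⟩ := this
    rcases lt_or_gt_of_ne hp0 with hlt | hgt
    · have h1 := smoothN_update a p 1
      have h2 : smoothN (a + uv p) = n := by
        simp only [uv]
        omega
      have h3 := hm (a + uv p) p (by rw [add_sub_cancel_right, h2, hn]) (ih _ h2)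
      rwa [add_sub_cancel_right] at h3
    · have h1 := smoothN_update a p (-1)
      have h2 : smoothN (a - uv p) = n := by
        simp only [uv]
        rw [sub_eq_add_neg, ← Pi.single_neg]
        omega
      have h3 := hp (a - uv p) p (by rw [sub_add_cancel, h2, hn]) (ih _ h2)
      rwa [sub_add_cancel] at h3

lemma smooth_lip {g : (I → ℤ) → ℝ} {M : ℝ} (hg : ∀ p x, |smoothD (uv p) g x| ≤ M) (x a : I → ℤ) :
    |g (x + a) - g x| ≤ M * smoothN a := by
  induction a using smooth_induction with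
  | h0 => simp [smoothN]
  | hp a p hn ih =>
    have h1 := hg p (x + a)
    simp only [smoothD] at h1
    rw [hn, ← add_assoc]
    push_cast
    have e : g (x + a + uv p) - g x = (g (x + a + uv p) - g (x + a)) + (g (x + a) - g x) := by ring
    rw [e]
    calc _ ≤ _ := abs_add_le _ _
      _ ≤ _ := add_le_add h1 ih
      _ = _ := by ring
  | hm a p hn ih =>
    have h1 := hg p (x + (a - uv p))
    simp only [smoothD] at h1
    rw [add_assoc, sub_add_cancel, abs_sub_comm] at h1
    rw [hn]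
    push_cast
    have e : g (x + (a - uv p)) - g x = (g (x + (a - uv p)) - g (x + a)) + (g (x + a) - g x) := by
      ring
    rw [e]
    calc _ ≤ _ := abs_add_le _ _
      _ ≤ _ := add_le_add h1 ih
      _ = _ := by ring

lemma smooth_sum_uv (p : I) (c : I → ℝ) : ∑ q, ((uv p q : ℤ) : ℝ) * c q = c p := by
  rw [Finset.sum_eq_single p]
  · simp [uv]
  · intro q _ hq
    simp [uv, Pi.single_eq_of_ne hq]
  · simp

lemma smooth_taylor1 {g : (I → ℤ) → ℝ} {M : ℝ} (hM : 0 ≤ M)
    (hg : ∀ p q x, |smoothD (uv p) (smoothD (uv q) g) x| ≤ M) (x a : I → ℤ) :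
    |g (x + a) - g x - ∑ p, (a p : ℝ) * smoothD (uv p) g x| ≤ M * (smoothN a : ℝ) ^ 2 := by
  induction a using smooth_induction with
  | h0 => simp [smoothN]
  | hp a p hn ih =>
    have h1 := smooth_lip (g := smoothD (uv p) g) (fun q y => hg q p y) x a
    have e : g (x + (a + uv p)) - g x - ∑ q, ((a + uv p) q : ℝ) * smoothD (uv q) g x =
        (g (x + a) - g x - ∑ p, (a p : ℝ) * smoothD (uv p) g x) +
          (smoothD (uv p) g (x + a) - smoothD (uv p) g x) := by
      simp only [Pi.add_apply, Int.cast_add, add_mul, Finset.sum_add_distrib, smooth_sum_uv]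
      rw [← add_assoc]
      simp only [smoothD]
      ring
    rw [e, hn]
    push_cast
    have hn0 : (0 : ℝ) ≤ smoothN a := Nat.cast_nonneg _
    calc _ ≤ _ := abs_add_le _ _
      _ ≤ _ := add_le_add ih h1
      _ ≤ _ := by nlinarith [mul_nonneg hM hn0]
  | hm a p hn ih =>
    have h1 := smooth_lip (g := smoothD (uv p) g) (fun q y => hg q p y) x (a - uv p)
    have e : g (x + (a - uv p)) - g x - ∑ q, ((a - uv p) q : ℝ) * smoothD (uv q) g x =
        (g (x + a) - g x - ∑ p, (a p : ℝ) * smoothD (uv p) g x) -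
          (smoothD (uv p) g (x + (a - uv p)) - smoothD (uv p) g x) := by
      simp only [Pi.sub_apply, Int.cast_sub, sub_mul, Finset.sum_sub_distrib, smooth_sum_uv]
      simp only [smoothD]
      rw [add_assoc, sub_add_cancel]
      ring
    rw [hn] at h1
    rw [e, hn]
    push_cast at h1 ⊢
    have hn0 : (0 : ℝ) ≤ smoothN a := Nat.cast_nonneg _
    calc _ ≤ _ := abs_sub _ _
      _ ≤ _ := add_le_add ih h1
      _ ≤ _ := by nlinarith [mul_nonneg hM hn0]

/-- The discrete Hessian of a midpoint convex function is almost positive semidefinite. -/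
lemma smooth_hessian {g : (I → ℤ) → ℝ} {M : ℝ} (hM : 0 ≤ M)
    (hcv : ∀ x y, 2 * g x ≤ g (x + y) + g (x - y))
    (hg : ∀ p q r x, |smoothD (uv p) (smoothD (uv q) (smoothD (uv r) g)) x| ≤ M) (x a : I → ℤ) :
    -(2 * M * (smoothN a : ℝ) ^ 3) ≤
      ∑ p, ∑ q, (a p : ℝ) * (a q : ℝ) * smoothD (uv p) (smoothD (uv q) g) x := by
  have hn0 : (0 : ℝ) ≤ smoothN a := Nat.cast_nonneg _
  have h0 : 0 ≤ smoothD a g (x + a) - smoothD a g x := by
    have := hcv (x + a) a
    simp only [smoothD]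
    rw [add_sub_cancel_right] at this
    linarith
  have h1 := smooth_taylor1 (g := smoothD a g) (M := M * smoothN a) (mul_nonneg hM hn0)
    (fun p q y => by
      rw [smoothD_comm (uv q), smoothD_comm (uv p)]
      exact smooth_lip (g := smoothD (uv p) (smoothD (uv q) g)) (fun r z => hg r p q z) y a) x a
  have h2 : ∀ p, |smoothD (uv p) (smoothD a g) x -
      ∑ q, (a q : ℝ) * smoothD (uv p) (smoothD (uv q) g) x| ≤ M * (smoothN a : ℝ) ^ 2 := by
    intro p
    have := smooth_taylor1 (g := smoothD (uv p) g) hM (fun q r y => hg q r p y) x a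
    rw [smoothD_comm (uv p) a]
    simp only [smoothD_comm (uv p)]
    exact this
  have h3 : |∑ p, (a p : ℝ) * smoothD (uv p) (smoothD a g) x -
      ∑ p, ∑ q, (a p : ℝ) * (a q : ℝ) * smoothD (uv p) (smoothD (uv q) g) x| ≤
      smoothN a * (M * (smoothN a : ℝ) ^ 2) := by
    rw [← Finset.sum_sub_distrib]
    calc _ ≤ _ := Finset.abs_sum_le_sum_abs _ _
      _ ≤ ∑ p, ((a p).natAbs : ℝ) * (M * (smoothN a : ℝ) ^ 2) := Finset.sum_le_sum fun p _ => by
          simp only [mul_assoc]
          rw [← Finset.mul_sum, ← mul_sub, abs_mul, Nat.cast_natAbs, Int.cast_abs]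
          exact mul_le_mul_of_nonneg_left (h2 p) (abs_nonneg _)
      _ = _ := by
          rw [← Finset.sum_mul]
          simp only [smoothN, Nat.cast_sum]
  have h4 := (abs_le.1 h1).2
  have h5 := (abs_le.1 h3).2
  nlinarith

end Crest.Agent.R302
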