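import Crest.Agent.R302.AC
import Crest.Agent.R302.Flat
import Crest.Agent.R302.Str

/-!
Row 302, part D9: typical bases can serve as centres.
-/

set_option autoImplicit false
set_option linter.unusedSectionVars false

namespace Crest.Agent.R302

open Finset

variable {E : Type} [Fintype E] [DecidableEq E]

lemma typ_cell {P c y n : ℤ} (hP : 0 < P) :
    (c + n * P ≤ y ∧ y ≤ c + (n + 1) * P - 1) ↔ (y - c) / P = n := by
  rw [Int.ediv_eq_iff_of_pos hP]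
  constructor <;> rintro ⟨h1, h2⟩ <;> constructor <;> nlinarith

/-- Some shift keeps all coordinates away from the cuts. -/
lemma typ_shift {s : ℕ} (hs : Fintype.card E < s) {Q w : ℤ} (hw : 0 ≤ w) (hQ : 2 * w ≤ Q)
    (hQ0 : 0 < Q) (x : E → ℤ) : ∃ u ∈ range s, ∀ e,
      u * Q + (x e - u * Q) / (s * Q) * (s * Q) + w ≤ x e ∧
        x e + w ≤ u * Q + ((x e - u * Q) / (s * Q) + 1) * (s * Q) - 1 := by
  have hs0 : (0 : ℤ) < s := by exact_mod_cast (Nat.zero_le _).trans_lt hs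
  obtain ⟨u, hu, hu'⟩ := exists_mem_notMem_of_card_lt_card
    (s := univ.image fun e => (((x e + w) / Q) % s).toNat) (t := range s)
    (by rw [card_range]; exact (card_image_le.trans (by simp)).trans_lt hs)
  refine ⟨u, hu, fun e => ?_⟩
  have hus : (u : ℤ) < s := by exact_mod_cast mem_range.1 hu
  have hne : ((x e + w) / Q) % s ≠ u := fun h => hu' (mem_image.2 ⟨e, mem_univ e, by simp [h]⟩)
  set a := (x e + w) / Q with ha
  have h1 := Int.mul_ediv_add_emod (x e + w) Q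
  have h2 := Int.emod_nonneg (x e + w) hQ0.ne'
  have h3 := Int.emod_lt_of_pos (x e + w) hQ0
  set b := (x e + w) % Q
  have h4 := Int.mul_ediv_add_emod (a - u) s
  have h5 := Int.emod_nonneg (a - u) hs0.ne'
  have h6 := Int.emod_lt_of_pos (a - u) hs0
  have h7 : (a - u) % s ≠ 0 := fun h => hne (by
    have : a = u + s * ((a - u) / s) := by omega
    rw [this, Int.add_mul_emod_self_left, Int.emod_eq_of_lt (Int.natCast_nonneg u) hus])
  set n := (a - u) / s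
  set r := (a - u) % s
  have h8 : 1 ≤ r := by omega
  have h9 : r ≤ s - 1 := by omega
  have e1 : x e + w = u * Q + n * (s * Q) + r * Q + b := by
    rw [← h1, ← ha, show a = u + s * n + r by omega]; ring
  have k1 : u * Q + n * (s * Q) + w ≤ x e := by nlinarith
  have k2 : x e + w ≤ u * Q + (n + 1) * (s * Q) - 1 := by nlinarith
  have k3 : (x e - u * Q) / (s * Q) = n :=
    (typ_cell (mul_pos hs0 hQ0)).1 ⟨by omega, by omega⟩
  rw [k3]
  exact ⟨k1, k2⟩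

lemma typ_two_le {I : Inst E} {s : ℕ} (h : I.Sz s) : (64 : ℝ) ≤ s := by
  have := h.big
  exact_mod_cast le_trans (by norm_num) this

/-- Neighbours of a base that is not `Good 32` are not `Good 16`. -/
lemma Sys.Ok.typ_near {Y : Sys E} (h : Y.Ok) {z a : E × Bool → ℤ} (hz : ¬ Y.Good 32 z)
    (hd : ∀ p, |z p - a p| ≤ 2 * (Y.s : ℤ) ^ 338) : ¬ Y.Good 16 a := by
  intro ha
  refine hz fun S j hj hS => ?_
  have h1 := ha S j hj hS
  have hs := typ_two_le h.sz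
  have h2 : slack Y.F S (toR a) ≤ slack Y.F S (toR z) + 2 * (Y.s : ℝ) ^ 339 := by
    have h3 : ∑ p ∈ S, (toR z p - toR a p) ≤ S.card • (2 * (Y.s : ℝ) ^ 338) :=
      sum_le_card_nsmul _ _ _ fun p _ => by
        have := (le_abs_self _).trans (hd p)
        unfold toR
        exact_mod_cast this
    have h4 : (S.card : ℝ) ≤ Y.s := by exact_mod_cast (card_le_univ S).trans h.sz.card.le
    rw [nsmul_eq_mul, sum_sub_distrib] at h3
    have h5 : (S.card : ℝ) * (2 * (Y.s : ℝ) ^ 338) ≤ Y.s * (2 * (Y.s : ℝ) ^ 338) := by gcongr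
    unfold slack
    nlinarith
  have h6 : (Y.s : ℝ) ^ 366 ≤ pθ Y.s j := by
    have : pθ Y.s (jK Y.s) ≤ pθ Y.s j :=
      Nat.mul_le_mul_left _ (Nat.pow_le_pow_right two_pos hj)
    rw [h.sz.pθ_jK] at this
    exact_mod_cast this
  have hT : (pT Y.s : ℝ) = (Y.s : ℝ) ^ 11 := by simp [pT]
  rw [hT] at h1 ⊢
  have hs0 : (0 : ℝ) < Y.s := by linarith
  have h7 : 2 * (Y.s : ℝ) ^ 339 ≤ pθ Y.s j / (32 * (Y.s : ℝ) ^ 11) := by
    rw [le_div_iff₀ (by positivity)]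
    refine le_trans ?_ h6
    calc 2 * (Y.s : ℝ) ^ 339 * (32 * (Y.s : ℝ) ^ 11) = 64 * (Y.s : ℝ) ^ 350 := by ring
      _ ≤ Y.s * (Y.s : ℝ) ^ 350 := by gcongr
      _ = (Y.s : ℝ) ^ 351 := by ring
      _ ≤ _ := pow_le_pow_right₀ (by linarith) (by norm_num)
  have h8 : (pθ Y.s j : ℝ) / (16 * (Y.s : ℝ) ^ 11) =
      2 * (pθ Y.s j / (32 * (Y.s : ℝ) ^ 11)) := by field_simp; ring
  linarith

open Classical in
/-- One bad cell. -/
lemma Sys.Ok.typ_one {Y : Sys E} (h : Y.Ok) [Nonempty E] {c : ℤ} {z : E × Bool → ℤ}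
    (hz : InB Y.F z) (hz0 : ell z = 0) (hz1 : ¬ Y.Good 32 z) {n : E → ℤ}
    (hb : ∀ e, c + n e * (Y.s : ℤ) ^ 338 + 3 * Y.s ^ 6 * pw Y.s ≤ z (e, true) ∧
      z (e, true) + 3 * Y.s ^ 6 * pw Y.s ≤ c + (n e + 1) * (Y.s : ℤ) ^ 338 - 1) :
    Y.lbox.card * Y.Zb (fun e => c + n e * (Y.s : ℤ) ^ 338)
        (fun e => c + (n e + 1) * (Y.s : ℤ) ^ 338 - 1) 0 ≤
      2 * ∑ a ∈ (Y.Om.filter fun a => Y.ty a = 0 ∧ ¬ Y.Good 16 a).filter
        (fun a => (fun e => (a (e, true) - c) / (Y.s : ℤ) ^ 338) = n), Y.W a := by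
  obtain ⟨i⟩ := ‹Nonempty E›
  set lo : E → ℤ := fun e => c + n e * (Y.s : ℤ) ^ 338 with hlo
  set hi : E → ℤ := fun e => c + (n e + 1) * (Y.s : ℤ) ^ 338 - 1 with hhi
  have hs : (64 : ℤ) ≤ Y.s := by exact_mod_cast typ_two_le h.sz
  have hP : (0 : ℤ) < (Y.s : ℤ) ^ 338 := by positivity
  have h1 : ∀ φ ∈ Y.lbox, Y.Zb lo hi 0 ≤ 2 * Y.Zb lo hi (Y.τ i i + ell (Y.tv φ)) := by
    intro φ hφ
    have := (h.flat_box (lo := lo) (hi := hi) hz (i := i) (k := i) (by rw [hz0, Y.τ_self]) hb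
      (h.leak_spec i i hφ).1 (h.leak_spec i i hφ).2).2
    rwa [Y.τ_self] at this ⊢
  have h2 := h.sum_type i i fun a =>
    if ∀ e, lo e ≤ a (e, true) ∧ a (e, true) ≤ hi e then Y.W a else 0
  have h3 : ∀ φ, ∑ a ∈ Y.N.filter (fun a => ell a = Y.τ i i + ell (Y.tv φ)),
      (if ∀ e, lo e ≤ a (e, true) ∧ a (e, true) ≤ hi e then Y.W a else 0) =
      Y.Zb lo hi (Y.τ i i + ell (Y.tv φ)) := by
    intro φ
    rw [← sum_filter, filter_filter]
    rfl
  simp only [h3] at h2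
  rw [← sum_filter] at h2
  have h4 : (Y.lbox.card : ℝ) * Y.Zb lo hi 0 ≤
      2 * ∑ φ ∈ Y.lbox, Y.Zb lo hi (Y.τ i i + ell (Y.tv φ)) := by
    rw [mul_sum, ← nsmul_eq_mul]
    exact card_nsmul_le_sum _ _ _ h1
  refine h4.trans ?_
  rw [← h2]
  refine mul_le_mul_of_nonneg_left (sum_le_sum_of_subset_of_nonneg (fun a ha => ?_)
    fun a _ _ => (Y.W_pos a).le) (by norm_num)
  simp only [mem_filter] at ha ⊢
  obtain ⟨⟨ha1, ha2⟩, ha3⟩ := ha
  rw [Y.τ_self] at ha2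
  refine ⟨⟨ha1, ha2, h.typ_near hz1 ?_⟩, funext fun e => (typ_cell hP).1 (ha3 e)⟩
  have hw : (pw Y.s : ℤ) = (Y.s : ℤ) ^ 330 := Nat.cast_pow _ _
  have hw0 : (0 : ℤ) ≤ 3 * Y.s ^ 6 * pw Y.s :=
    mul_nonneg (mul_nonneg (by norm_num) (pow_nonneg (Int.natCast_nonneg _) _))
      (Int.natCast_nonneg _)
  have k : ∀ e, |z (e, true) - a (e, true)| ≤ (Y.s : ℤ) ^ 338 := fun e => by
    have k1 := hb e
    have k2 := ha3 e
    simp only [hlo, hhi] at k2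
    rw [abs_le]
    constructor <;> nlinarith [k1.1, k1.2, k2.1, k2.2]
  rintro ⟨e, _ | _⟩
  · have k1 := congrFun hz0 e
    rw [ell_apply] at k1
    have k2 := ell_apply a e
    have k3 : |ell a e| ≤ 3 * Y.s * pw Y.s :=
      (single_le_sum (f := fun e => |ell a e|) (fun _ _ => abs_nonneg _) (mem_univ e)).trans
        (h.norm_ell_le ha1)
    have k4 : 3 * (Y.s : ℤ) * pw Y.s ≤ (Y.s : ℤ) ^ 338 := by
      rw [hw]
      calc 3 * (Y.s : ℤ) * (Y.s : ℤ) ^ 330 ≤ Y.s * Y.s * (Y.s : ℤ) ^ 330 := by gcongr; omega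
        _ = (Y.s : ℤ) ^ 332 := by ring
        _ ≤ _ := pow_le_pow_right₀ (by omega) (by norm_num)
    have k5 := k e
    simp only [Pi.zero_apply] at k1
    rw [abs_le] at k3 k5 ⊢
    constructor <;> linarith [k3.1, k3.2, k5.1, k5.2]
  · exact (k e).trans (by linarith)

open Classical in
/-- One shift. -/
lemma Sys.Ok.typ_sum {Y : Sys E} (h : Y.Ok) [Nonempty E] (c : ℤ) :
    ∑ z ∈ (Y.N.filter (fun z => ell z = 0 ∧ ¬ Y.Good 32 z)).filter (fun z => ∀ e,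
      c + (z (e, true) - c) / (Y.s : ℤ) ^ 338 * (Y.s : ℤ) ^ 338 + 3 * Y.s ^ 6 * pw Y.s ≤
        z (e, true) ∧ z (e, true) + 3 * Y.s ^ 6 * pw Y.s ≤
          c + ((z (e, true) - c) / (Y.s : ℤ) ^ 338 + 1) * (Y.s : ℤ) ^ 338 - 1), Y.W z ≤
      4 / Y.s ^ 5 * Y.Z 0 := by
  obtain ⟨i⟩ := id ‹Nonempty E›
  set B := (Y.N.filter (fun z => ell z = 0 ∧ ¬ Y.Good 32 z)).filter (fun z => ∀ e,
      c + (z (e, true) - c) / (Y.s : ℤ) ^ 338 * (Y.s : ℤ) ^ 338 + 3 * Y.s ^ 6 * pw Y.s ≤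
        z (e, true) ∧ z (e, true) + 3 * Y.s ^ 6 * pw Y.s ≤
          c + ((z (e, true) - c) / (Y.s : ℤ) ^ 338 + 1) * (Y.s : ℤ) ^ 338 - 1) with hB
  set cell : (E × Bool → ℤ) → E → ℤ := fun a e => (a (e, true) - c) / (Y.s : ℤ) ^ 338 with hcell
  set T := Y.Om.filter fun a => Y.ty a = 0 ∧ ¬ Y.Good 16 a with hT
  have hs := typ_two_le h.sz
  have hs' : (64 : ℤ) ≤ Y.s := by exact_mod_cast hs
  have hP : (0 : ℤ) < (Y.s : ℤ) ^ 338 := by positivity
  have hL : (0 : ℝ) < Y.lbox.card := by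
    rw [Sys.Ok.card_lbox]
    have : 0 < Y.s := by exact_mod_cast (show (0 : ℝ) < Y.s by linarith)
    have : 0 < pw Y.s := Nat.pow_pos this
    positivity
  have h1 : ∀ n ∈ B.image cell, Y.lbox.card * ∑ z ∈ B.filter (fun z => cell z = n), Y.W z ≤
      2 * ∑ a ∈ T.filter (fun a => cell a = n), Y.W a := by
    intro n hn
    obtain ⟨z, hz, rfl⟩ := mem_image.1 hn
    simp only [hB, mem_filter, Inst.mem_N] at hz
    refine le_trans ?_ (h.typ_one (c := c) hz.1.1 hz.1.2.1 hz.1.2.2 (n := cell z) hz.2)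
    refine mul_le_mul_of_nonneg_left (sum_le_sum_of_subset_of_nonneg (fun a ha => ?_)
      fun a _ _ => (Y.W_pos a).le) hL.le
    simp only [hB, mem_filter] at ha ⊢
    exact ⟨ha.1.1.1, ha.1.1.2.1, fun e => (typ_cell hP).2 (congrFun ha.2 e)⟩
  have h2 := sum_le_sum h1
  rw [← mul_sum, ← mul_sum, sum_fiberwise_of_maps_to fun z hz => mem_image_of_mem cell hz,
    sum_fiberwise_eq_sum_filter] at h2
  have h3 : ∑ a ∈ T.filter (fun a => cell a ∈ B.image cell), Y.W a ≤ ∑ a ∈ T, Y.W a :=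
    sum_le_sum_of_subset_of_nonneg (filter_subset _ _) fun a _ _ => (Y.W_pos a).le
  have h4 : ∑ a ∈ T, Y.W a ≤ 1 / Y.s ^ 5 * Y.Zlk 0 := h.ac_good
  have h5 := (h.Zlk_flat i i).1
  rw [Y.τ_self] at h5
  have h6 : 1 / (Y.s : ℝ) ^ 5 * Y.Zlk 0 ≤ 1 / Y.s ^ 5 * (2 * (Y.lbox.card * Y.Z 0)) :=
    mul_le_mul_of_nonneg_left h5 (by positivity)
  refine le_of_mul_le_mul_left ?_ hL
  calc _ ≤ 2 * (1 / Y.s ^ 5 * (2 * (Y.lbox.card * Y.Z 0))) := by linarith
    _ = _ := by ring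

open Classical in
/-- Let `Q = s ^ 7 pw`, `P₂ = s Q`.  For every shift `u < s` cut the coordinates `(e, true)` into
the intervals `[u Q + n P₂, u Q + (n + 1) P₂)`.  Every `z` is at distance `≥ 3 s ^ 6 pw` from the boundary
of its cell for some shift (each `e` excludes at most one `u`).  If such a `z` is not `Good 32`, then all
states of type `0` in its cell are not `Good 16` (they are within `2 P₂` of `z` in every coordinate,
`2 s P₂ ≤ s ^ 366 / (32 pT)`), and `lbox.card * Zb 0 ≤ 2 ∑ φ, Zb (ell (tv φ))` by `flat_box`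
(`leak_spec`, `sum_type`).  Sum over the cells and the shifts; `ac_good`, `Zlk_flat`. -/
theorem Sys.Ok.ac0 {Y : Sys E} (h : Y.Ok) [Nonempty E] :
    ∑ z ∈ Y.N.filter (fun z => ell z = 0 ∧ ¬ Y.Good 32 z), Y.W z ≤ 1 / Y.s ^ 3 * Y.Z 0 := by
  set B := Y.N.filter (fun z => ell z = 0 ∧ ¬ Y.Good 32 z) with hB
  have hs := typ_two_le h.sz
  have hs' : (64 : ℤ) ≤ Y.s := by exact_mod_cast hs
  let ok : ℕ → (E × Bool → ℤ) → Prop := fun u z => ∀ e,
      u * (Y.s : ℤ) ^ 337 + (z (e, true) - u * (Y.s : ℤ) ^ 337) / (Y.s : ℤ) ^ 338 *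
        (Y.s : ℤ) ^ 338 + 3 * Y.s ^ 6 * pw Y.s ≤ z (e, true) ∧
      z (e, true) + 3 * Y.s ^ 6 * pw Y.s ≤ u * (Y.s : ℤ) ^ 337 +
        ((z (e, true) - u * (Y.s : ℤ) ^ 337) / (Y.s : ℤ) ^ 338 + 1) * (Y.s : ℤ) ^ 338 - 1
  have h1 : ∀ z, ∃ u ∈ range Y.s, ok u z := fun z => by
    have hc : Fintype.card E < Y.s := by
      have := h.sz.card
      rw [Fintype.card_prod, Fintype.card_bool] at this
      omega
    have hw : (pw Y.s : ℤ) = (Y.s : ℤ) ^ 330 := Nat.cast_pow _ _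
    have := typ_shift hc (Q := (Y.s : ℤ) ^ 337) (w := 3 * Y.s ^ 6 * pw Y.s) (by positivity)
      (by
        rw [hw]
        calc 2 * (3 * (Y.s : ℤ) ^ 6 * (Y.s : ℤ) ^ 330) = 6 * (Y.s : ℤ) ^ 336 := by ring
          _ ≤ Y.s * (Y.s : ℤ) ^ 336 := by gcongr; omega
          _ = _ := by ring) (by positivity) fun e => z (e, true)
    rwa [← pow_succ'] at this
  have h2 : ∑ z ∈ B, Y.W z ≤ ∑ u ∈ range Y.s, ∑ z ∈ B.filter (ok u), Y.W z := by
    simp only [sum_filter]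
    rw [sum_comm]
    refine sum_le_sum fun z _ => ?_
    obtain ⟨u, hu, hz⟩ := h1 z
    refine le_trans ?_ (single_le_sum (f := fun u => if ok u z then Y.W z else 0)
      (fun u _ => by
        split_ifs
        · exact (Y.W_pos z).le
        · exact le_rfl) hu)
    simp only [if_pos hz, le_refl]
  refine h2.trans ((sum_le_card_nsmul _ _ (4 / Y.s ^ 5 * Y.Z 0) fun u _ => ?_).trans ?_)
  · convert h.typ_sum (u * (Y.s : ℤ) ^ 337)
  · rw [card_range, nsmul_eq_mul, ← mul_assoc]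
    refine mul_le_mul_of_nonneg_right ?_ (Y.Z_nonneg 0)
    have hs0 : (0 : ℝ) < Y.s := by linarith
    rw [← mul_div_assoc, div_le_div_iff₀ (by positivity) (by positivity)]
    calc (Y.s : ℝ) * 4 * (Y.s : ℝ) ^ 3 = 4 * (Y.s : ℝ) ^ 4 := by ring
      _ ≤ Y.s * (Y.s : ℝ) ^ 4 := by gcongr; linarith
      _ = _ := by ring

open Classical in
/-- Let `c` be the centre of `exists_centre`, `σ₀` a structure for it (`exists_str`), `Y` the system
with parameter `s`, `Typ = Y.Good 32`.  `dr` for `z₀`: for `S` let `j` be `pl S` if this is at least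
`jK`; `range_le` for `a` and `z₀` at the level `j + 1` (or `jK`) bounds `|a S - z₀ S|` by
`512 s ^ 15 slack S z₀` (or by `8 s ^ 370`).  `Liftable`: a set that splits a class of
`Cap2 F z₀ ((s ^ 200) ^ 345)` splits a class of `Cap2 F c (s ^ 68999)`, so its slack at `z` is at least
`s ^ 68999 / (32 s ^ 11)`; the other sets do not see the `v g` (`Valid.cls`, `Valid.norm`). -/
theorem exists_typ {m s : ℕ} (hm : 0 < m) {I : Inst (Fin m)} (h : I.Sz s) (hZ : 0 < I.Z 0) :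
    ∃ Typ : (Fin m × Bool → ℤ) → Prop,
      ∑ z ∈ I.N.filter (fun z => ell z = 0 ∧ ¬ Typ z), I.W z ≤ 1 / s ^ 3 * I.Z 0 ∧
      ∀ z₀, InB I.F z₀ → ell z₀ = 0 → Typ z₀ → ∀ σ : Str (Fin m),
        σ.Valid (fun j => Cap2 I.F (toR z₀) (pθ (s ^ 200) j)) →
          (Sys.mk I (s ^ 200) (toR z₀) σ).Ok ∧ ∀ z, InB I.F z → ell z = 0 → Typ z →
            (Sys.mk I (s ^ 200) (toR z₀) σ).Liftable z := by
  haveI : Nonempty (Fin m) := ⟨⟨0, hm⟩⟩
  have hs := typ_two_le h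
  have hs0 : (0 : ℝ) < s := by linarith
  have hs1 : (1 : ℝ) ≤ s := by linarith
  have hcard : (Fintype.card (Fin m × Bool) : ℝ) + 1 ≤ s := by exact_mod_cast h.card
  have ellR : ∀ a : Fin m × Bool → ℤ, ell a = 0 → ell (toR a) = 0 := fun a ha => by
    funext e
    have := congrFun ha e
    rw [ell_apply, Pi.zero_apply] at this ⊢
    unfold toR
    exact_mod_cast this
  obtain ⟨a₀, ha₀⟩ : (I.N.filter fun a => ell a = 0).Nonempty :=
    nonempty_of_sum_ne_zero hZ.ne'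
  rw [mem_filter, Inst.mem_N] at ha₀
  obtain ⟨c, hc, hc0, hcc⟩ := exists_centre (F := I.F) Prod.fst (γ := 0)
    ⟨toR a₀, inBR_toR.2 ha₀.1, ellR _ ha₀.2⟩
  have hcs : ∀ a, InBR I.F a → ell a = 0 → ∀ S, slack I.F S a ≤ s * slack I.F S c :=
    fun a ha ha0 S => (hcc a ha ha0 S).trans
      (mul_le_mul_of_nonneg_right hcard (hc.slack_nonneg S))
  have hdr : ∀ a, InBR I.F a → ell a = 0 → ∀ S, slack I.F S a ≤ s * (slack I.F S c + s) :=
    fun a ha ha0 S => (hcs a ha ha0 S).trans (by gcongr; linarith)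
  have hθ : ∀ j, (pθ s j : ℝ) = (s : ℝ) ^ 345 * 2 ^ j := fun j => by
    unfold pθ; push_cast; rfl
  have hθ1 : ∀ j, (1 : ℝ) ≤ pθ s j := fun j => by
    rw [hθ]
    exact one_le_mul_of_one_le_of_one_le (one_le_pow₀ hs1) (one_le_pow₀ one_le_two)
  obtain ⟨σ₀, hσ₀⟩ := exists_str (fun j => Cap2 I.F c (pθ s j))
    (fun j => ⟨Cap2.refl _ _ _, Cap2.symm, Cap2.trans⟩)
    (fun j p q hpq => hpq.mono (by rw [hθ, hθ, pow_succ (2 : ℝ) j]; gcongr; linarith [pow_pos (two_pos (α := ℝ)) j]))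
    (J := s + 2) (fun p q hpq => h.cap_triv hc (by
      rw [hθ]
      calc (2 : ℝ) ^ (s + 1) < 1 * 2 ^ (s + 2) := by
            rw [one_mul]; exact pow_lt_pow_right₀ one_lt_two (by omega)
        _ ≤ _ := by gcongr; exact one_le_pow₀ hs1) hpq.1)
  set Y : Sys (Fin m) := Sys.mk I s c σ₀ with hY
  have hOk : Y.Ok := ⟨h, hc, hc0, hdr, hσ₀⟩
  have hT : (pT s : ℝ) = (s : ℝ) ^ 11 := Nat.cast_pow _ _
  refine ⟨Y.Good 32, hOk.ac0, fun z₀ hz₀ hz₀0 hg₀ σ hσ => ?_⟩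
  have hz₀R := inBR_toR.2 hz₀
  have hsl := hz₀R.slack_nonneg
  have hOk' : (Sys.mk I (s ^ 200) (toR z₀) σ).Ok := by
    refine ⟨h.mono (by norm_num), hz₀R, ellR _ hz₀0, fun a ha ha0 S => ?_, hσ⟩
    change slack I.F S a ≤ ((s ^ 200 : ℕ) : ℝ) * (slack I.F S (toR z₀) + ((s ^ 200 : ℕ) : ℝ))
    push_cast
    have key : ∀ j, Cls (Y.R j) S →
        slack I.F S a ≤ slack I.F S (toR z₀) + 8 * (s : ℝ) ^ 4 * pθ s j := fun j hj => by
      have k1 := range_le h.sub h.empty hc ha (s := s) (by linarith) hs1 (hθ1 j)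
        (hdr a ha ha0) hj
      have k2 := range_le h.sub h.empty hc hz₀R (s := s) (by linarith) hs1 (hθ1 j)
        (hdr _ hz₀R (ellR _ hz₀0)) hj
      rw [abs_le] at k1 k2
      unfold slack
      linarith [k1.1, k2.2]
    have h200 : (1 : ℝ) ≤ (s : ℝ) ^ 200 := one_le_pow₀ hs1
    by_cases hS : Cls (Y.R (jK s)) S
    · have k1 := key _ hS
      rw [h.pθ_jK] at k1
      push_cast at k1
      have k2 : 8 * (s : ℝ) ^ 4 * (s : ℝ) ^ 366 ≤ (s : ℝ) ^ 200 * (s : ℝ) ^ 200 :=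
        calc 8 * (s : ℝ) ^ 4 * (s : ℝ) ^ 366 ≤ s * (s : ℝ) ^ 4 * (s : ℝ) ^ 366 := by
              gcongr; linarith
          _ = (s : ℝ) ^ 371 := by ring
          _ ≤ (s : ℝ) ^ 400 := pow_le_pow_right₀ hs1 (by norm_num)
          _ = _ := by ring
      have k3 := mul_le_mul_of_nonneg_right h200 (hsl S)
      rw [mul_add]
      linarith
    · obtain ⟨k1, k2, k3⟩ := hOk.pl_spec hS
      have k4 := key _ k3
      have k5 : (pθ s (Y.pl S) : ℝ) / (32 * pT s) ≤ slack I.F S (toR z₀) := hg₀ S _ k1 k2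
      rw [hT, div_le_iff₀ (by positivity)] at k5
      have k6 : (pθ s (Y.pl S + 1) : ℝ) = 2 * pθ s (Y.pl S) := by rw [hθ, hθ]; ring
      rw [k6] at k4
      have k7 : 8 * (s : ℝ) ^ 4 * (2 * pθ s (Y.pl S)) ≤
          8 * (s : ℝ) ^ 4 * (2 * (slack I.F S (toR z₀) * (32 * (s : ℝ) ^ 11))) := by gcongr
      have k8 : 1 + 512 * (s : ℝ) ^ 15 ≤ (s : ℝ) ^ 200 :=
        calc 1 + 512 * (s : ℝ) ^ 15 ≤ (s : ℝ) ^ 15 + 512 * (s : ℝ) ^ 15 := by
              gcongr; exact one_le_pow₀ hs1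
          _ = 513 * (s : ℝ) ^ 15 := by ring
          _ ≤ s * s * (s : ℝ) ^ 15 := by gcongr; nlinarith
          _ = (s : ℝ) ^ 17 := by ring
          _ ≤ _ := pow_le_pow_right₀ hs1 (by norm_num)
      have k9 := mul_le_mul_of_nonneg_right k8 (hsl S)
      have k10 : 0 ≤ (s : ℝ) ^ 200 * (s : ℝ) ^ 200 := by positivity
      rw [mul_add]
      linarith
  refine ⟨hOk', fun z hz hz0 hg φ hφ => ?_⟩
  set Y' : Sys (Fin m) := Sys.mk I (s ^ 200) (toR z₀) σ with hY'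
  have hsum : ∀ A : Finset (Fin m × Bool), ∑ p ∈ A, (z + Y'.tv φ) p =
      ∑ p ∈ A, z p + ∑ g ∈ σ.tree, φ g * ∑ p ∈ A, σ.v g p := fun A => by
    simp only [Sys.tv, Pi.add_apply, Finset.sum_apply, Pi.smul_apply, smul_eq_mul,
      sum_add_distrib, mul_sum]
    rw [sum_comm]
  have hcls : ∀ A : Finset (Fin m × Bool), Cls (Y'.R 0) A →
      ∑ p ∈ A, (z + Y'.tv φ) p = ∑ p ∈ A, z p := fun A hA => by
    rw [hsum, sum_eq_zero (s := σ.tree) fun g hg => ?_, add_zero]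
    rw [hσ.cls g (hσ.tree_sub hg) A (Sys.cls_mono (Y := Y') (Nat.zero_le _) hA), mul_zero]
  refine ⟨fun A => ?_, ?_⟩
  swap
  · rw [hcls univ fun p q _ => by simp]
    exact hz.2
  by_cases hA : Cls (Y'.R 0) A
  · rw [hcls A hA]
    exact hz.1 A
  have hlog : (2 : ℝ) ^ Nat.log 2 s = s := by exact_mod_cast h.pow_log
  have e1 : (pθ s (68654 * Nat.log 2 s) : ℝ) = (s : ℝ) ^ 68999 := by
    rw [hθ, mul_comm 68654, pow_mul, hlog, ← pow_add]
  have e2 : (pθ (s ^ 200) 0 : ℝ) = s * (s : ℝ) ^ 68999 := by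
    unfold pθ
    rw [pow_zero, mul_one, ← pow_mul, ← pow_succ', Nat.cast_pow]
  have hcap : ∀ p q, Cap I.F (toR z₀) (pθ (s ^ 200) 0) p q →
      Cap I.F c (pθ s (68654 * Nat.log 2 s)) p q := fun p q hpq S hp hq => by
    have k1 := (hpq S hp hq).trans (hcs _ hz₀R (ellR _ hz₀0) S)
    rw [e2] at k1
    rw [e1]
    exact le_of_mul_le_mul_left k1 hs0
  have hA' : ¬ Cls (Y.R (68654 * Nat.log 2 s)) A := fun h' =>
    hA fun p q hpq => h' p q ⟨hcap p q hpq.1, hcap q p hpq.2⟩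
  have k1 : (pθ s (68654 * Nat.log 2 s) : ℝ) / (32 * pT s) ≤ slack I.F A (toR z) :=
    hg A _ (Nat.mul_le_mul_right _ (by norm_num)) hA'
  rw [e1, hT] at k1
  have hsz : (1 : ℤ) ≤ s := by exact_mod_cast hs1
  have hcz : (Fintype.card (Fin m × Bool) : ℤ) ≤ s := by exact_mod_cast h.card.le
  have k2 : ∑ g ∈ σ.tree, φ g * ∑ p ∈ A, σ.v g p ≤ σ.tree.card • ((s : ℤ) ^ 66000 * (2 * s)) := by
    refine sum_le_card_nsmul _ _ _ fun g hg => (le_abs_self _).trans ?_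
    rw [abs_mul]
    have k3 := (Sys.Ok.mem_lbox.1 hφ).1 g hg
    have k4 : (pw Y'.s : ℤ) = (s : ℤ) ^ 66000 := by
      change ((pw (s ^ 200) : ℕ) : ℤ) = _
      unfold pw
      rw [← pow_mul, Nat.cast_pow]
    rw [k4] at k3
    refine mul_le_mul (abs_le.2 ⟨k3.1, k3.2.le⟩) ?_ (abs_nonneg _) (by positivity)
    refine (abs_sum_le_sum_abs _ _).trans ((sum_le_sum_of_subset_of_nonneg (subset_univ A)
      fun _ _ _ => abs_nonneg _).trans ((hσ.norm g (hσ.tree_sub hg)).trans ?_))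
    linarith
  have k3 : σ.tree.card • ((s : ℤ) ^ 66000 * (2 * s)) ≤ s * ((s : ℤ) ^ 66000 * (2 * s)) := by
    rw [nsmul_eq_mul]
    refine mul_le_mul_of_nonneg_right ?_ (by positivity)
    exact_mod_cast (card_le_univ σ.tree).trans h.card.le
  have k4 : (s : ℝ) * ((s : ℝ) ^ 66000 * (2 * s)) ≤ (s : ℝ) ^ 68999 / (32 * (s : ℝ) ^ 11) := by
    rw [le_div_iff₀ (by positivity)]
    calc (s : ℝ) * ((s : ℝ) ^ 66000 * (2 * s)) * (32 * (s : ℝ) ^ 11)
        = 64 * ((s : ℝ) ^ 66000 * (s : ℝ) ^ 13) := by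
          generalize (s : ℝ) ^ 66000 = u
          ring
      _ ≤ s * ((s : ℝ) ^ 66000 * (s : ℝ) ^ 13) := by gcongr
      _ = (s : ℝ) ^ 66014 := by rw [← pow_add, ← pow_succ']
      _ ≤ _ := pow_le_pow_right₀ hs1 (by norm_num)
  have k5 : (((s : ℤ) * ((s : ℤ) ^ 66000 * (2 * s)) : ℤ) : ℝ) ≤
      ((I.F A - ∑ p ∈ A, z p : ℤ) : ℝ) := by
    have := k4.trans k1
    unfold slack toR at this
    push_cast
    exact this
  have k6 := Int.cast_le.1 k5
  rw [hsum]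
  change _ ≤ I.F A
  generalize (s : ℤ) ^ 66000 = u at k2 k3 k6
  linarith

end Crest.Agent.R302
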