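import Crest.Agent.R302.Trial
import Crest.Agent.R302.Typ

/-!
Row 302, part E5: one stage succeeds with high probability.
-/

set_option autoImplicit false

namespace Crest.Agent.R302

open Finset Crest.Agent.Lib.PT Crest.Agent.R309

lemma stage_ix_inj {m : ℕ} {p q : Fin m × Bool} : ix p = ix q ↔ p = q := by
  refine ⟨fun h => ?_, fun h => by rw [h]⟩
  obtain ⟨e, b⟩ := p
  obtain ⟨e', b'⟩ := q
  unfold ix at h
  cases b <;> cases b' <;> simp at h ⊢ <;> first | (ext; omega) | omega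

lemma stage_getD_map {α : Type} (n : ℕ) (f : ℕ → α) (d : α) {i : ℕ} (hi : i < n) :
    ((List.range n).map f).getD i d = f i := by
  simp [List.getD_eq_getElem?_getD, hi]

lemma stage_avg_sub {α : Type} {Ω : Finset α} {π K : α → ℝ} (hπ : ∀ z ∈ Ω, 0 ≤ π z)
    (hs : 0 < ∑ z ∈ Ω, π z) {c η : ℝ} (h : ∑ z ∈ Ω, π z * |K z - c| ≤ η * ∑ z ∈ Ω, π z) :
    |avg Ω π K - c| ≤ η := by
  have e : avg Ω π K - c = (∑ z ∈ Ω, π z * (K z - c)) / ∑ z ∈ Ω, π z := by
    unfold avg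
    simp only [mul_sub, sum_sub_distrib, ← sum_mul]
    field_simp
  rw [e, abs_div, abs_of_pos hs, div_le_iff₀ hs]
  refine le_trans ((abs_sum_le_sum_abs _ _).trans (le_of_eq ?_)) h
  exact sum_congr rfl fun z hz => by rw [abs_mul, abs_of_nonneg (hπ z hz)]

lemma stage_countP {α : Type} (L : List α) (P : α → Bool) :
    (L.countP P : ℝ) = (L.map fun a => if P a = true then (1 : ℝ) else 0).sum := by
  induction L with
  | nil => simp
  | cons a L ih =>
    rw [List.countP_cons, List.map_cons, List.sum_cons, ← ih]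
    by_cases h : P a = true <;> simp [h, add_comm]

lemma stage_sum_div {α : Type} (L : List α) (f : α → ℕ) (c : ℝ) :
    (((L.map f).sum : ℕ) : ℝ) / c = (L.map fun a => (f a : ℝ) / c).sum := by
  induction L with
  | nil => simp
  | cons a L ih =>
    rw [List.map_cons, List.sum_cons, List.map_cons, List.sum_cons, ← ih, Nat.cast_add, add_div]

/-- the arithmetic of the potentials -/
lemma stage_pot_arith {ι : Type} {u : ι → ℝ} {z : ι → ι → ℝ} {Z : ℝ} {fl : ι → Prop}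
    [DecidablePred fl] (hu : ∀ i, 0 < u i) (hz : ∀ i k, 0 ≤ z i k) (hZ : 0 < Z)
    (ha : ∀ i k, u i * z i k ≤ 2 ^ 16 * (u k * Z))
    (hb : ∀ i, ¬ fl i → ∀ k, u i * z i k ≤ 2 ^ 13 * (u k * Z))
    (hc : ∀ i, fl i → ∃ k, 2 ^ 7 * (u k * Z) ≤ u i * z i k)
    (ht : ∀ i k j, z i k * z k j ≤ 2 * (z i j * Z)) (i k : ι) :
    u i * (if fl i then 1 / 8 else 1) * z i k ≤
      2 ^ 13 * (u k * (if fl k then 1 / 8 else 1) * Z) := by
  have h0 : 0 ≤ u i * z i k := mul_nonneg (hu i).le (hz i k)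
  have h1 : 0 < u k * Z := mul_pos (hu k) hZ
  by_cases hk : fl k
  · obtain ⟨j, hj⟩ := hc k hk
    have h2 : 0 < u j * Z := mul_pos (hu j) hZ
    have h3 : u i * z i k * (2 ^ 7 * (u j * Z)) ≤ 2 ^ 10 * (u k * Z) * (2 ^ 7 * (u j * Z)) := by
      calc u i * z i k * (2 ^ 7 * (u j * Z)) ≤ u i * z i k * (u k * z k j) := by gcongr
        _ = u i * u k * (z i k * z k j) := by ring
        _ ≤ u i * u k * (2 * (z i j * Z)) :=
          mul_le_mul_of_nonneg_left (ht i k j) (mul_pos (hu i) (hu k)).le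
        _ = 2 * (u k * Z) * (u i * z i j) := by ring
        _ ≤ 2 * (u k * Z) * (2 ^ 16 * (u j * Z)) := mul_le_mul_of_nonneg_left (ha i j) (by positivity)
        _ = _ := by ring
    have h4 := le_of_mul_le_mul_right h3 (by positivity)
    rw [if_pos hk]
    split_ifs <;> nlinarith
  · rw [if_neg hk]
    by_cases hi : fl i
    · rw [if_pos hi]
      have := ha i k
      nlinarith
    · rw [if_neg hi]
      have := hb i hi k
      nlinarith

namespace Alg

variable {A : Alg} {I : ℕ → Inst (Fin A.m)}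

lemma stage_big (hA : A.Spec I) : (2 : ℝ) ^ 20 ≤ A.S := by
  obtain ⟨k, hk, hS⟩ := hA.pow
  rw [hS]
  push_cast
  exact pow_le_pow_right₀ (by norm_num) hk

lemma stage_vec_shift (z : List ℤ) (θ : ℕ) (p q : Fin A.m × Bool) :
    vec A.m (A.shift z θ (ix p) (ix q)) =
      vec A.m z + (θ : ℤ) • (Pi.single p 1 - Pi.single q 1) := by
  funext x
  simp only [vec, shift, stage_getD_map _ _ _ (ix_lt x), kr, stage_ix_inj, Pi.add_apply,
    Pi.smul_apply, Pi.sub_apply, Pi.single_apply, smul_eq_mul]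

lemma stage_piL_nonneg (t : ℕ) (l : List ℤ) : 0 ≤ A.piL I t l := ((I t).W_pos _).le

lemma stage_len_le (hA : A.Spec I) {t : ℕ} (ht : t ≤ A.Tn) :
    (t : ℝ) / (A.S : ℝ) ^ 40 ≤ 1 / (A.S : ℝ) ^ 32 := by
  have hS := stage_big hA
  have hT : (t : ℝ) ≤ (A.S : ℝ) ^ 8 := by exact_mod_cast ht.trans hA.Tn_le
  rw [div_le_div_iff₀ (by positivity) (by positivity)]
  calc (t : ℝ) * (A.S : ℝ) ^ 32 ≤ (A.S : ℝ) ^ 8 * (A.S : ℝ) ^ 32 := by gcongr
    _ = _ := by ring

lemma stage_inv_le (hA : A.Spec I) {a b : ℕ} (h : a < b) :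
    2 / (A.S : ℝ) ^ b ≤ 1 / (A.S : ℝ) ^ a := by
  have hS := stage_big hA
  rw [div_le_div_iff₀ (by positivity) (by positivity), one_mul]
  calc 2 * (A.S : ℝ) ^ a ≤ A.S * (A.S : ℝ) ^ a := by
        gcongr
        linarith
    _ = (A.S : ℝ) ^ (a + 1) := by ring
    _ ≤ _ := pow_le_pow_right₀ (by linarith) h

lemma stage_build (hA : A.Spec I) {t : ℕ} (ht : t ≤ A.Tn) {l : List ℤ}
    (hl : InB (I t).F (vec A.m l)) :
    ∃ σ : Str (Fin A.m), σ.Valid (fun j => Cap2 (I t).F (toR (vec A.m l)) (pθ (q2 A.S) j)) ∧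
      σ.Rep (A.build (A.m, A.table t l)) := by
  have hlen : (A.table t l).length = q2 A.S + 2 := by simp [table]
  refine hA.build _ _ (fun j => ⟨Cap2.refl _ _ _, Cap2.symm, Cap2.trans⟩) (fun j p q h => h.mono ?_)
    (fun j hj p q => ?_) fun p q h => ?_
  · unfold pθ
    exact_mod_cast Nat.mul_le_mul_left _ (Nat.pow_le_pow_right two_pos (Nat.le_succ j))
  · rw [hlen] at hj
    unfold table
    rw [stage_getD_map _ _ _ hj, stage_getD_map _ _ _ (ix_lt p), stage_getD_map _ _ _ (ix_lt q),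
      Bool.and_eq_true, hA.mem t ht, hA.mem t ht, stage_vec_shift, stage_vec_shift,
      ← cap_iff_inB hl, ← cap_iff_inB hl]
    simp [shift, Cap2]
  · have hsz : (I t).Sz (q2 A.S) := (hA.sz t ht).mono (by norm_num)
    refine hsz.cap_triv (inBR_toR.2 hl) ?_ h.1
    rw [hlen]
    have h1 : 1 ≤ q2 A.S ^ 345 := Nat.one_le_pow _ _ ((Nat.two_pow_pos 20).trans_le hsz.big)
    have h2 : 2 ^ (q2 A.S + 1) < pθ (q2 A.S) (q2 A.S + 2) := by
      unfold pθ
      generalize q2 A.S ^ 345 = w at h1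
      calc 2 ^ (q2 A.S + 1) < 2 ^ (q2 A.S + 2) := Nat.pow_lt_pow_right (by norm_num) (by omega)
        _ ≤ _ := Nat.le_mul_of_pos_left _ h1
    exact_mod_cast h2

/-- `exists_typ` for `I t`; a sample is a typical base without leak up to probability
`t / S ^ 40 + 1 / S ^ 60` (`sample_near`); then `table` is the table of `Cap2` (`cap_iff_inB`,
`cap_triv` for the size `q2 S`) and `Spec.build` applies. -/
theorem ref_good (hA : A.Spec I) {θs : List Th} (hθ : A.GoodThs I θs) (hl : θs.length < A.Tn) :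
    Pr A.rS (fun ω => ¬ ∃ c σ, A.GS I θs.length c σ
      (A.build (A.m, A.table θs.length (A.sample θs ω)))) ≤ 2 / A.S ^ 32 := by
  classical
  have hZ := hA.pos _ hl.le
  obtain ⟨Typ, h1, h2⟩ := exists_typ hA.m_pos (hA.sz _ hl.le) hZ
  have e60 : (1 : ℝ) / ((A.S ^ 20 : ℕ) : ℝ) ^ 3 = 1 / (A.S : ℝ) ^ 60 := by
    rw [Nat.cast_pow, ← pow_mul]
  rw [e60] at h1
  let φ : List ℤ → ℝ := fun l => tapeInd (¬ (l ∈ A.PL I θs.length ∧ Typ (vec A.m l)))
  have hφ : Unit01 φ := fun l => ⟨tapeInd_nonneg _, tapeInd_le_one _⟩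
  have h3 := (abs_le.1 (sample_near hA hθ hl.le φ hφ)).2
  have h4 : avg (A.PL I θs.length) (A.piL I θs.length) φ ≤ 1 / (A.S : ℝ) ^ 60 := by
    unfold avg
    rw [sum_piL, div_le_iff₀ hZ, sum_PL]
    refine le_trans (le_of_eq ?_) h1
    rw [← filter_filter, sum_filter (p := fun z => ¬ Typ z)]
    refine sum_congr rfl fun a ha => ?_
    have ha' : lst a ∈ A.PL I θs.length := mem_image_of_mem _ ha
    simp only [piL, φ, vec_lst, ha', true_and, tapeInd]
    split_ifs <;> simp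
  have h5 : Pr A.rS (fun ω => ¬ ∃ c σ, A.GS I θs.length c σ
      (A.build (A.m, A.table θs.length (A.sample θs ω)))) ≤ Ex A.rS fun ω => φ (A.sample θs ω) := by
    rw [tape_Pr]
    refine Ex_mono fun ω _ => tapeInd_mono fun hn hg => hn ?_
    obtain ⟨g1, g2⟩ := hg
    obtain ⟨-, g3, g4⟩ := mem_PL.1 g1
    obtain ⟨σ, g5, g6⟩ := stage_build hA hl.le g3
    obtain ⟨g7, g8⟩ := h2 _ g3 g4 g2 σ g5
    refine ⟨_, σ, g7, g6, le_trans (sum_le_sum_of_subset_of_nonneg (fun z hz => ?_)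
      fun z _ _ => ((I θs.length).W_pos z).le) h1⟩
    simp only [mem_filter] at hz ⊢
    exact ⟨hz.1, hz.2.1, fun hT => hz.2.2 (g8 z ((I θs.length).mem_N.1 hz.1) hz.2.1 hT)⟩
  have h6 := stage_len_le hA hl.le
  have h7 := stage_inv_le hA (show 32 < 60 by norm_num)
  have h8 : (0 : ℝ) ≤ 1 / (A.S : ℝ) ^ 60 := by positivity
  have e1 : 2 / (A.S : ℝ) ^ 60 = 2 * (1 / (A.S : ℝ) ^ 60) := by ring
  have e2 : 2 / (A.S : ℝ) ^ 32 = 2 * (1 / (A.S : ℝ) ^ 32) := by ring
  linarith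

lemma yv_unit (A : Alg) (t : ℕ) : Unit01 fun z => (A.yv t z : ℝ) / 2 ^ nA A.S := by
  intro z
  refine ⟨by positivity, div_le_one_of_le₀ ?_ (by positivity)⟩
  unfold yv
  split_ifs
  · push_cast
    exact pow_le_pow_right₀ (by norm_num) (Nat.sub_le _ _)
  · simp

lemma avg_yv (hA : A.Spec I) {t : ℕ} (ht : t < A.Tn) :
    avg (A.PL I t) (A.piL I t) (fun z => (A.yv t z : ℝ) / 2 ^ nA A.S) =
      (I (t + 1)).Z 0 / (I t).Z 0 := by
  classical
  have ht' : t + 1 ≤ A.Tn := ht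
  unfold avg
  rw [sum_piL, sum_PL]
  congr 1
  have e : (I (t + 1)).N.filter (fun a => ell a = 0) =
      ((I t).N.filter (fun a => ell a = 0)).filter fun a => InB (I (t + 1)).F a := by
    ext a
    simp only [mem_filter, Inst.mem_N]
    exact ⟨fun h => ⟨⟨(hA.mono t ht a h.1).1, h.2⟩, h.1⟩, fun h => ⟨h.2, h.1.2⟩⟩
  rw [Inst.Z, e, sum_filter (p := fun a => InB (I (t + 1)).F a)]
  refine sum_congr rfl fun a ha => ?_
  have h1 : A.perf (lst a) = true := (perf_iff _).2 (by rw [vec_lst]; exact (mem_filter.1 ha).2)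
  have h2 : A.mem (t + 1) (lst a) = true ↔ InB (I (t + 1)).F a := by
    rw [hA.mem _ ht', vec_lst]
    simp [length_lst]
  simp only [piL, yv, vec_lst, h1, Bool.true_and, h2, hA.wex _ ht', hA.wex _ ht.le]
  split_ifs with h
  · have h3 := (hA.mono t ht a h).2
    have h4 := (hA.sz _ ht').wx_le h
    have h5 : (A.S ^ 20) ^ 2 ≤ nA A.S := by
      unfold nA
      rw [← pow_mul]
      refine Nat.pow_le_pow_right ?_ (by norm_num)
      exact lt_of_lt_of_le hA.m_pos hA.m_le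
    obtain ⟨d, hd⟩ := Nat.exists_eq_add_of_le h3
    obtain ⟨r, hr⟩ := Nat.exists_eq_add_of_le (show d ≤ nA A.S by omega)
    unfold Inst.W
    rw [hd, hr, Nat.add_sub_cancel_left, Nat.add_sub_cancel_left]
    push_cast
    rw [pow_add, pow_add, one_div_pow, one_div_pow]
    field_simp
  · simp

/-- the frequency of a type under the stationary law -/
noncomputable def freq (A : Alg) (I : ℕ → Inst (Fin A.m)) (θ : Th) (c : Fin A.m × Bool → ℝ)
    (σ : Str (Fin A.m)) (i k : ℕ) : ℝ :=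
  avg (A.OmL I θ.1 c σ) (A.muL θ) fun a => if A.isTy θ.2.1 a i k = true then 1 else 0

lemma stage_Z_mono (hA : A.Spec I) {t : ℕ} (ht : t < A.Tn) (γ : Fin A.m → ℤ) :
    (I (t + 1)).Z γ ≤ (I t).Z γ := by
  classical
  unfold Inst.Z
  refine le_trans (sum_le_sum fun a ha => ?_) (sum_le_sum_of_subset_of_nonneg
    (s := (I (t + 1)).N.filter fun a => ell a = γ) (fun a ha => ?_) fun a _ _ => ((I t).W_pos a).le)
  · exact pow_le_pow_of_le_one (by norm_num) (by norm_num)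
      (hA.mono t ht a ((I (t + 1)).mem_N.1 (mem_filter.1 ha).1)).2
  · simp only [mem_filter, Inst.mem_N] at ha ⊢
    exact ⟨(hA.mono t ht a ha.1).1, ha.2⟩

lemma Cx.stage_freq {θ : Th} {c : Fin A.m × Bool → ℝ} {σ : Str (Fin A.m)} (h : Cx A I θ c σ)
    (i k : Fin A.m) :
    A.freq I θ c σ i k * (∑ l ∈ A.OmL I θ.1 c σ, A.muL θ l) * (2 : ℝ) ^ A.potF θ.2.2 (σ.root k) =
      (2 : ℝ) ^ A.potF θ.2.2 (σ.root i) *
        (A.sys I θ.1 c σ).Zlk ((A.sys I θ.1 c σ).τ i k) := by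
  classical
  have hM := h.Zlk_pos.trans_le h.le_sum_muL
  unfold freq avg
  rw [div_mul_cancel₀ _ hM.ne', sum_OmL]
  have e : ∑ a ∈ (A.sys I θ.1 c σ).Om,
      A.muL θ (lst a) * (if A.isTy θ.2.1 (lst a) i k = true then 1 else 0) =
      ∑ a ∈ (A.sys I θ.1 c σ).Om.filter
        (fun a => (A.sys I θ.1 c σ).ty a = (A.sys I θ.1 c σ).τ i k),
        (A.sys I θ.1 c σ).mu (A.potF θ.2.2) a := by
    rw [sum_filter]
    refine sum_congr rfl fun a _ => ?_
    simp only [isTy_iff (I := I) (t := θ.1) (c := c) h.gs.rep, h.muL_eq, vec_lst]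
    split_ifs <;> simp
  rw [e, h.gs.ok.sum_mu_type, zpow_sub₀ two_ne_zero]
  change (2 : ℝ) ^ A.potF θ.2.2 (σ.root i) / (2 : ℝ) ^ A.potF θ.2.2 (σ.root k) * _ * _ = _
  have : (2 : ℝ) ^ A.potF θ.2.2 (σ.root k) ≠ 0 := by positivity
  field_simp

/-- Put `B i k = 2 ^ (pot i - pot k) Z (uv i - uv k) / Z 0 ≤ 2 ^ 16`.  For roots `r`, `r'` the ratio
`freq r r' / freq 0 0` is within a factor `4` of `B r r'` (`sum_mu_type`, `Zlk_flat`), and
`freq 0 0 ≥ 1 / S³`.  So a flagged `r` has `B r r'' ≥ 2 ^ 10 / 8` for some root `r''`, and an unflagged `r`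
has `B r r'' ≤ 8 * 2 ^ 10` for all roots.  `B r r' * B r' r'' ≤ 2 B r r''` (`Z_tri`), so `B r r' ≤ 2 ^ 10`
if `r'` is flagged.  With `Z_root` (factor `2`) the new potentials give the bound `2 ^ 14` at stage `t`
in all cases (`flag` only depends on the root), and passing to stage `t + 1` costs a factor `4`
(`Spec.mono`, `Spec.ratio`). -/
theorem Cx.newPot_good {θ : Th} {c : Fin A.m × Bool → ℝ} {σ : Str (Fin A.m)} (h : Cx A I θ c σ)
    {as : List (List ℤ)} {n : ℕ} (hn : 0 < n)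
    (hc : ∀ i < A.m, ∀ k < A.m, |(A.cnt θ.2.1 as i k : ℝ) / n - A.freq I θ c σ i k| ≤ 2 / A.S ^ 10) :
    A.GoodPot I (θ.1 + 1) (A.newPot θ.2.1 θ.2.2 as) := by
  classical
  have hA := h.spec
  have hS := stage_big hA
  have hok := h.gs.ok
  have hroot : ∀ e : Fin A.m, rootL θ.2.1 e = σ.root e := h.gs.rep.root
  refine ⟨fun i k => ?_, fun i => ?_⟩
  swap
  · by_cases hi : i < A.m
    · unfold newPot
      rw [stage_getD_map _ _ _ hi]
      have h1 := abs_le.1 (h.pot.bd (rootL θ.2.1 i))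
      push_cast
      rw [abs_le]
      split_ifs <;> constructor <;> linarith [h1.1, h1.2]
    · rw [List.getD_eq_default _ _ (by simpa [newPot] using hi), abs_zero]
      positivity
  let o : Fin A.m := ⟨0, hA.m_pos⟩
  set Y := A.sys I θ.1 c σ with hY
  set M := ∑ l ∈ A.OmL I θ.1 c σ, A.muL θ l with hM
  let u : Fin A.m → ℝ := fun i => (2 : ℝ) ^ A.potF θ.2.2 (σ.root i)
  have hu : ∀ i, 0 < u i := fun i => by positivity
  have hZ : 0 < (I θ.1).Z 0 := hA.pos _ h.lt.le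
  have hK := h.Zlk_pos
  have hM0 : 0 < M := hK.trans_le h.le_sum_muL
  have hτ : Y.τ o o = 0 := sub_self _
  have hf : ∀ i k : Fin A.m, A.freq I θ c σ i k * M * u k = u i * Y.Zlk (Y.τ i k) :=
    h.stage_freq
  have hf0 : A.freq I θ c σ 0 0 * M = Y.Zlk 0 := by
    have h1 := hf o o
    rw [hτ, mul_comm (u o)] at h1
    exact mul_right_cancel₀ (hu o).ne' h1
  have hfl := fun i k => hok.Zlk_flat i k
  have hfl0 := hfl o o
  rw [hτ] at hfl0
  have hn' : (0 : ℝ) < n := Nat.cast_pos.2 hn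
  have hε : 2 / (A.S : ℝ) ^ 10 * 2 ^ 12 ≤ A.freq I θ c σ 0 0 := by
    refine le_of_mul_le_mul_right ?_ hM0
    rw [hf0]
    calc 2 / (A.S : ℝ) ^ 10 * 2 ^ 12 * M ≤ 2 / (A.S : ℝ) ^ 10 * 2 ^ 12 * (A.S ^ 3 * Y.Zlk 0) := by
          gcongr
          exact h.sum_muL_le
      _ = 2 ^ 13 / (A.S : ℝ) ^ 7 * Y.Zlk 0 := by field_simp
      _ ≤ _ := by
          refine mul_le_of_le_one_left hK.le ?_
          rw [div_le_one (by positivity)]
          calc (2 : ℝ) ^ 13 ≤ A.S := by linarith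
            _ ≤ _ := le_self_pow₀ (by linarith) (by norm_num)
  have hε0 : 0 ≤ 2 / (A.S : ℝ) ^ 10 := by positivity
  have hc0 := abs_le.1 (hc 0 hA.m_pos 0 hA.m_pos)
  have hℓ : (0 : ℝ) < Y.lbox.card := by
    by_contra hℓ
    have h1 : (Y.lbox.card : ℝ) = 0 := le_antisymm (not_lt.1 hℓ) (Nat.cast_nonneg _)
    have h2 := hfl0.1
    rw [h1] at h2
    linarith
  have key := stage_pot_arith (u := u) (z := fun i k => (I θ.1).Z (Y.τ i k)) (Z := (I θ.1).Z 0)
    (fl := fun i => A.flag θ.2.1 as i = true) hu (fun i k => Inst.Z_nonneg _ _) hZ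
    (fun i k => h.pot.bal (σ.root i) (σ.root k)) (fun i hi k => ?_) (fun i hi => ?_)
    (fun i k j => Inst.Z_tri (hA.sz _ h.lt.le) (σ.root i) (σ.root k) (σ.root j)) i k
  · have e : ∀ i : Fin A.m, (2 : ℝ) ^ A.potF (A.newPot θ.2.1 θ.2.2 as) i =
        u i * (if A.flag θ.2.1 as i = true then 1 / 8 else 1) := fun i => by
      unfold potF newPot
      rw [stage_getD_map _ _ _ i.2, hroot, zpow_sub₀ two_ne_zero]
      simp only [u, potF]
      split_ifs <;> norm_num [div_eq_mul_inv]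
    rw [e, e]
    have h1 : (I (θ.1 + 1)).Z (uv i - uv k) ≤ 2 * (I θ.1).Z (Y.τ i k) :=
      (stage_Z_mono hA h.lt _).trans (hok.Z_root i k).1
    have h2 := hA.ratio _ h.lt
    have h3 : 0 ≤ u i * (if A.flag θ.2.1 as i = true then 1 / 8 else 1) :=
      mul_nonneg (hu i).le (by split_ifs <;> norm_num)
    have h4 : 0 ≤ u k * (if A.flag θ.2.1 as k = true then 1 / 8 else 1) :=
      mul_nonneg (hu k).le (by split_ifs <;> norm_num)
    have h5 := mul_le_mul_of_nonneg_left h1 h3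
    have h6 := mul_le_mul_of_nonneg_left h2 h4
    linarith
  · have h1 : A.cnt θ.2.1 as i k ≤ 2 ^ 10 * A.cnt θ.2.1 as 0 0 := by
      by_contra h1
      exact hi (decide_eq_true ⟨k, k.2, not_le.1 h1⟩)
    have h2 : (A.cnt θ.2.1 as i k : ℝ) / n ≤ 2 ^ 10 * ((A.cnt θ.2.1 as 0 0 : ℝ) / n) := by
      rw [← mul_div_assoc]
      exact div_le_div_of_nonneg_right (by exact_mod_cast h1) hn'.le
    have h3 := abs_le.1 (hc i i.2 k k.2)
    have h4 : A.freq I θ c σ i k ≤ 2 ^ 11 * A.freq I θ c σ 0 0 := by linarith [h3.1, hc0.2]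
    have h5 : u i * Y.Zlk (Y.τ i k) ≤ 2 ^ 11 * (u k * Y.Zlk 0) := by
      rw [← hf, ← hf0]
      have := mul_le_mul_of_nonneg_right h4 (mul_pos hM0 (hu k)).le
      linarith
    have h6 := mul_le_mul_of_nonneg_left (hfl i k).2 (hu i).le
    have h7 := mul_le_mul_of_nonneg_left hfl0.1 (hu k).le
    refine le_of_mul_le_mul_left ?_ hℓ
    change _ * (u i * Y.Z (Y.τ i k)) ≤ _ * (2 ^ 13 * (u k * Y.Z 0))
    linarith
  · obtain ⟨k, hk, h1⟩ := of_decide_eq_true hi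
    refine ⟨⟨k, hk⟩, ?_⟩
    have h2 : 2 ^ 10 * ((A.cnt θ.2.1 as 0 0 : ℝ) / n) ≤ (A.cnt θ.2.1 as i k : ℝ) / n := by
      rw [← mul_div_assoc]
      exact div_le_div_of_nonneg_right (by exact_mod_cast h1.le) hn'.le
    have h3 := abs_le.1 (hc i i.2 k hk)
    have h4 : 2 ^ 9 * A.freq I θ c σ 0 0 ≤ A.freq I θ c σ i k := by linarith [h3.2, hc0.1]
    have h5 : 2 ^ 9 * (u ⟨k, hk⟩ * Y.Zlk 0) ≤ u i * Y.Zlk (Y.τ i ⟨k, hk⟩) := by
      rw [← hf, ← hf0]
      have := mul_le_mul_of_nonneg_right h4 (mul_pos hM0 (hu ⟨k, hk⟩)).le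
      linarith
    have h6 := mul_le_mul_of_nonneg_left (hfl i ⟨k, hk⟩).1 (hu i).le
    have h7 := mul_le_mul_of_nonneg_left hfl0.2 (hu ⟨k, hk⟩).le
    refine le_of_mul_le_mul_left ?_ hℓ
    change _ * (2 ^ 7 * (u ⟨k, hk⟩ * Y.Z 0)) ≤ _ * (u i * Y.Z (Y.τ i ⟨k, hk⟩))
    linarith

/-- `chebyshev` with `t = 1 / S ^ 10` for `yv` and for the `m²` type indicators; the means are within
`2 / S ^ 32` of the targets (`Ex_split`, `sample_near`, `avg_yv`, `lr_near`). -/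
theorem Cx.probes_good {θ : Th} {c : Fin A.m × Bool → ℝ} {σ : Str (Fin A.m)} (h : Cx A I θ c σ)
    {θs : List Th} (hθ : A.GoodThs I θs) (hl : θs.length = θ.1) :
    Pr (nP A.S * A.rProbe) (fun ω => ¬ (A.GoodPot I (θ.1 + 1)
      (A.newPot θ.2.1 θ.2.2 ((A.probes θs θ ω).map Prod.snd)) ∧
        |(A.ratio (A.probes θs θ ω) : ℝ) - (I (θ.1 + 1)).Z 0 / (I θ.1).Z 0| ≤ 2 / A.S ^ 10)) ≤
      2 / A.S ^ 10 := by
  classical
  have hA := h.spec
  have hS := stage_big hA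
  have hS0 : (0 : ℝ) < A.S := by linarith
  have hn : 0 < nP A.S := pow_pos (lt_of_lt_of_le hA.m_pos hA.m_le) _
  have hn' : (0 : ℝ) < nP A.S := Nat.cast_pos.2 hn
  have hnear := sample_near hA hθ (hl.le.trans h.lt.le)
  rw [hl] at hnear
  have h6 := stage_len_le hA h.lt.le
  have h7 := stage_inv_le hA (show 32 < 60 by norm_num)
  have h8 := stage_inv_le hA (show 10 < 32 by norm_num)
  have h9 : (0 : ℝ) ≤ 1 / (A.S : ℝ) ^ 32 := by positivity
  have e1 : 2 / (A.S : ℝ) ^ 32 = 2 * (1 / (A.S : ℝ) ^ 32) := by ring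
  have e2 : 2 / (A.S : ℝ) ^ 10 = 2 * (1 / (A.S : ℝ) ^ 10) := by ring
  let Y0 : List Bool → ℝ := fun u => (A.yv θ.1 (A.sample θs (u.take A.rS)) : ℝ) / 2 ^ nA A.S
  let ψ : ℕ × ℕ → List ℤ → ℝ := fun x a => if A.isTy θ.2.1 a x.1 x.2 = true then 1 else 0
  let Y : ℕ × ℕ → List Bool → ℝ := fun x u =>
    ψ x (A.lr θ (A.sample θs (u.take A.rS)) (u.drop A.rS))
  have hY0 : Unit01 Y0 := fun u => A.yv_unit θ.1 _
  have hψ : ∀ x, Unit01 (ψ x) := fun x a => by
    simp only [ψ]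
    split_ifs <;> norm_num
  have hY : ∀ x, Unit01 (Y x) := fun x u => hψ x _
  have m0 : |Ex A.rProbe Y0 - (I (θ.1 + 1)).Z 0 / (I θ.1).Z 0| ≤ 1 / (A.S : ℝ) ^ 10 := by
    have h1 := hnear _ (A.yv_unit θ.1)
    rw [avg_yv hA h.lt] at h1
    have h2 : Ex A.rProbe Y0 = Ex A.rS fun u => (A.yv θ.1 (A.sample θs u) : ℝ) / 2 ^ nA A.S :=
      Ex_take (Nat.le_add_right _ _) fun u => (A.yv θ.1 (A.sample θs u) : ℝ) / 2 ^ nA A.S
    rw [h2]
    linarith
  have m1 : ∀ x : ℕ × ℕ, |Ex A.rProbe (Y x) - A.freq I θ c σ x.1 x.2| ≤ 1 / (A.S : ℝ) ^ 10 := by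
    intro x
    let K : List ℤ → ℝ := fun z => Ex A.rLR fun v => ψ x (A.lr θ z v)
    have hK : Unit01 K := Kop_unit01 A.rLR (A.lr θ) (hψ x)
    have h1 := hnear K hK
    have h2 : Ex A.rProbe (Y x) = Ex A.rS fun u => K (A.sample θs u) :=
      Ex_split A.rS A.rLR fun u v => ψ x (A.lr θ (A.sample θs u) v)
    have h3 := stage_avg_sub (K := K) (fun z _ => stage_piL_nonneg θ.1 z)
      (by rw [sum_piL]; exact hA.pos _ h.lt.le) (h.lr_near (hψ x))
    rw [h2]
    have h4 := abs_sub_le (Ex A.rS fun u => K (A.sample θs u))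
      (avg (A.PL I θ.1) (A.piL I θ.1) K) (A.freq I θ c σ x.1 x.2)
    change |_ - A.freq I θ c σ x.1 x.2| ≤ _ at h3
    linarith
  have ht : (0 : ℝ) < 1 / (A.S : ℝ) ^ 10 := by positivity
  have e3 : 1 / ((nP A.S : ℝ) * (1 / (A.S : ℝ) ^ 10) ^ 2) = 1 / (A.S : ℝ) ^ 12 := by
    unfold nP
    push_cast
    field_simp
  have c0 := chebyshev (nP A.S) A.rProbe hn hY0 ht
  have c1 := fun x => chebyshev (nP A.S) A.rProbe hn (hY x) ht
  rw [e3] at c0 c1
  have c2 := (Pr_exists_le (nP A.S * A.rProbe) (range A.m ×ˢ range A.m) fun x l =>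
    1 / (A.S : ℝ) ^ 10 ≤ |((chunks (nP A.S) A.rProbe l).map (Y x)).sum / nP A.S -
      Ex A.rProbe (Y x)|).trans (sum_le_card_nsmul _ _ _ fun x _ => c1 x)
  refine le_trans (Pr_mono ?_) ((Pr_or_le _ _ _).trans ((add_le_add c0 c2).trans ?_))
  · intro ω _ hω
    by_contra hg
    simp only [not_or, not_exists, not_and, not_le] at hg
    obtain ⟨g0, g1⟩ := hg
    refine hω ⟨h.newPot_good hn fun i hi k hk => ?_, ?_⟩
    · have g2 := g1 (i, k) (by simp [hi, hk])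
      have g3 := m1 (i, k)
      have g4 : (A.cnt θ.2.1 ((A.probes θs θ ω).map Prod.snd) i k : ℝ) =
          ((chunks (nP A.S) A.rProbe ω).map (Y (i, k))).sum := by
        unfold cnt probes
        rw [stage_countP, List.map_map, List.map_map]
        rfl
      rw [g4]
      have g5 := abs_sub_le (((chunks (nP A.S) A.rProbe ω).map (Y (i, k))).sum / nP A.S)
        (Ex A.rProbe (Y (i, k))) (A.freq I θ c σ i k)
      linarith
    · have g4 : (A.ratio (A.probes θs θ ω) : ℝ) =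
          ((chunks (nP A.S) A.rProbe ω).map Y0).sum / nP A.S := by
        unfold ratio probes
        rw [List.map_map, Rat.cast_div, Rat.cast_natCast, Rat.cast_natCast, Nat.cast_mul,
          mul_comm (nP A.S : ℝ), ← div_div, stage_sum_div]
        simp only [Nat.cast_pow, Nat.cast_ofNat]
        rfl
      rw [g4]
      have g5 := abs_sub_le (((chunks (nP A.S) A.rProbe ω).map Y0).sum / nP A.S)
        (Ex A.rProbe Y0) ((I (θ.1 + 1)).Z 0 / (I θ.1).Z 0)
      linarith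
  · rw [card_product, card_range, nsmul_eq_mul]
    have hm : (A.m : ℝ) ≤ A.S := by exact_mod_cast hA.m_le
    have k1 : ((A.m * A.m : ℕ) : ℝ) * (1 / (A.S : ℝ) ^ 12) ≤ 1 / (A.S : ℝ) ^ 10 := by
      push_cast
      calc (A.m : ℝ) * A.m * (1 / (A.S : ℝ) ^ 12) ≤ A.S * A.S * (1 / (A.S : ℝ) ^ 12) := by gcongr
        _ = _ := by field_simp
    have k2 := stage_inv_le hA (show 10 < 12 by norm_num)
    have k3 : (0 : ℝ) ≤ 1 / (A.S : ℝ) ^ 12 := by positivity
    have k4 : 2 / (A.S : ℝ) ^ 12 = 2 * (1 / (A.S : ℝ) ^ 12) := by ring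
    linarith

/-- `Pr_split`, `ref_good`, `probes_good`. -/
theorem stage_good (hA : A.Spec I) {st : List Th × List ℤ × ℚ} (hθ : A.GoodThs I st.1)
    (hp : A.GoodPot I st.1.length st.2.1) (hl : st.1.length < A.Tn) :
    Pr A.rStage (fun ω => ¬ (A.GoodThs I (A.stage st ω).1 ∧
      A.GoodPot I (st.1.length + 1) (A.stage st ω).2.1 ∧ ∃ ρ : ℚ, (A.stage st ω).2.2 = st.2.2 * ρ ∧
        |(ρ : ℝ) - (I (st.1.length + 1)).Z 0 / (I st.1.length).Z 0| ≤ 2 / A.S ^ 10)) ≤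
      1 / A.S ^ 9 := by
  let P : List Bool → List Bool → Prop := fun u v =>
    ¬ (A.GoodThs I (st.1 ++ [A.newTh st.1 st.2.1 u]) ∧
      A.GoodPot I (st.1.length + 1) (A.newPot (A.newTh st.1 st.2.1 u).2.1 st.2.1
        ((A.probes st.1 (A.newTh st.1 st.2.1 u) v).map Prod.snd)) ∧
      ∃ ρ : ℚ, st.2.2 * A.ratio (A.probes st.1 (A.newTh st.1 st.2.1 u) v) = st.2.2 * ρ ∧
        |(ρ : ℝ) - (I (st.1.length + 1)).Z 0 / (I st.1.length).Z 0| ≤ 2 / A.S ^ 10)
  have h0 := Pr_split A.rS (nP A.S * A.rProbe) P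
  have h1 := ref_good hA hθ hl
  have hε0 : 0 ≤ 2 / (A.S : ℝ) ^ 10 := by positivity
  have h2 : (Ex A.rS fun u => Pr (nP A.S * A.rProbe) fun v => P u v) ≤
      Ex A.rS fun u => tapeInd (¬ ∃ c σ, A.GS I st.1.length c σ
        (A.build (A.m, A.table st.1.length (A.sample st.1 u)))) + 2 / (A.S : ℝ) ^ 10 := by
    refine Ex_mono fun u _ => ?_
    by_cases hg : ∃ c σ, A.GS I st.1.length c σ
        (A.build (A.m, A.table st.1.length (A.sample st.1 u)))
    · have k0 := tapeInd_nonneg (¬ ∃ c σ, A.GS I st.1.length c σ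
        (A.build (A.m, A.table st.1.length (A.sample st.1 u))))
      obtain ⟨c, σ, hg⟩ := hg
      have hx : Cx A I (A.newTh st.1 st.2.1 u) c σ := ⟨hA, hl, hp, hg⟩
      have hθ' : A.GoodThs I (st.1 ++ [A.newTh st.1 st.2.1 u]) := by
        intro t ht
        by_cases ht' : t < st.1.length
        · rw [List.getElem_append_left ht']
          exact hθ t ht'
        · obtain rfl : t = st.1.length := by
            simp only [List.length_append, List.length_singleton] at ht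
            omega
          rw [List.getElem_append_right le_rfl]
          simp only [Nat.sub_self, List.getElem_cons_zero]
          exact ⟨rfl, hp, c, σ, hg⟩
      refine le_trans (le_trans (Pr_mono ?_) (hx.probes_good hθ rfl)) (by linarith)
      intro v _ hv hg'
      exact hv ⟨hθ', hg'.1, _, rfl, hg'.2⟩
    · have k1 := Pr_le_one (nP A.S * A.rProbe) fun v => P u v
      have k2 : tapeInd (¬ ∃ c σ, A.GS I st.1.length c σ
        (A.build (A.m, A.table st.1.length (A.sample st.1 u)))) = 1 := by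
        unfold tapeInd
        rw [if_pos hg]
      linarith
  rw [Ex_add, Ex_const, ← tape_Pr] at h2
  have hS := stage_big hA
  have h3 : 2 / (A.S : ℝ) ^ 32 ≤ 1 / (A.S : ℝ) ^ 10 := stage_inv_le hA (by norm_num)
  have h4 : 3 / (A.S : ℝ) ^ 10 ≤ 1 / (A.S : ℝ) ^ 9 := by
    rw [div_le_div_iff₀ (by positivity) (by positivity), one_mul]
    calc 3 * (A.S : ℝ) ^ 9 ≤ A.S * (A.S : ℝ) ^ 9 := by
          gcongr
          linarith
      _ = _ := by ring
  have e : 3 / (A.S : ℝ) ^ 10 = 1 / (A.S : ℝ) ^ 10 + 2 / (A.S : ℝ) ^ 10 := by ring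
  refine le_trans (le_of_eq h0) ?_
  linarith

end Alg

end Crest.Agent.R302
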