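import Crest.Agent.R302.StrDef

/-!
Row 302, part C (auxiliary): the first level (class representatives) and the second level
(Kruskal's algorithm) of the multi-scale structure, abstractly.
-/

set_option autoImplicit false
set_option linter.unusedSectionVars false

namespace Crest.Agent.R302

open Finset

section Level

variable {P : Type} [Fintype P] [DecidableEq P]

/-- `rt j p` represents the `R j`-class of `p`; `g` is a representative from level `l g` on. -/
structure StrLev (R : ℕ → P → P → Prop) (rt : ℕ → P → P) (l : P → ℕ) : Prop where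
  eqv : ∀ j, Equivalence (R j)
  dec : ∀ j p q, R (j + 1) p q → R j p q
  rt1 : ∀ j p, R j p (rt j p)
  rt2 : ∀ j p q, R j p q → rt j p = rt j q
  hl : ∀ j g, rt j g = g ↔ l g ≤ j

/-- the parent of an active index -/
def strPar (rt : ℕ → P → P) (l : P → ℕ) (g : P) : P := rt (l g - 1) g

/-- the first-level basis -/
def strB (rt : ℕ → P → P) (l : P → ℕ) (g : P) : P → ℤ :=
  Pi.single g 1 - Pi.single (strPar rt l g) 1

/-- the first-level cuts -/
def strS (rt : ℕ → P → P) (l : P → ℕ) (g : P) : Finset P := univ.filter fun p => rt (l g) p = g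

lemma str_sum_single (S : Finset P) (q : P) :
    ∑ p ∈ S, (Pi.single q 1 : P → ℤ) p = if q ∈ S then 1 else 0 := by
  simp [Pi.single_apply]

lemma str_sum_strB (rt : ℕ → P → P) (l : P → ℕ) (S : Finset P) (g : P) :
    ∑ p ∈ S, strB rt l g p = (if g ∈ S then 1 else 0) - if strPar rt l g ∈ S then 1 else 0 := by
  simp only [strB, Pi.sub_apply, sum_sub_distrib, str_sum_single]

lemma str_abs_strB (rt : ℕ → P → P) (l : P → ℕ) (g : P) : ∑ p, |strB rt l g p| ≤ 2 := by
  have h : ∀ p, |strB rt l g p| ≤
      (Pi.single g 1 : P → ℤ) p + (Pi.single (strPar rt l g) 1 : P → ℤ) p := fun p => by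
    simp only [strB, Pi.sub_apply, Pi.single_apply]
    split_ifs <;> simp
  refine (sum_le_sum fun p _ => h p).trans ?_
  simp [sum_add_distrib]

lemma str_strB_ne {rt : ℕ → P → P} {l : P → ℕ} {g p : P} (h : strB rt l g p ≠ 0) :
    p = g ∨ p = strPar rt l g := by
  by_contra h'
  push Not at h'
  simp [strB, h'.1, h'.2] at h

variable {R : ℕ → P → P → Prop} {rt : ℕ → P → P} {l : P → ℕ}

lemma StrLev.mono (H : StrLev R rt l) {j k : ℕ} (hjk : j ≤ k) {p q : P} (h : R k p q) :
    R j p q := by
  induction k, hjk using Nat.le_induction with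
  | base => exact h
  | succ k _ ih => exact ih (H.dec k p q h)

lemma StrLev.le_rt (H : StrLev R rt l) (j : ℕ) (p : P) : l (rt j p) ≤ j :=
  (H.hl j _).1 (H.rt2 j _ _ (H.rt1 j p)).symm

lemma StrLev.rt_rt (H : StrLev R rt l) {j k : ℕ} (hjk : j ≤ k) (p : P) :
    rt j (rt k p) = rt j p := (H.rt2 j _ _ (H.mono hjk (H.rt1 k p))).symm

lemma StrLev.dual (H : StrLev R rt l) (g : P) {h : P} (hh : 0 < l h) :
    ∑ p ∈ strS rt l g, strB rt l h p = if g = h then 1 else 0 := by
  rw [str_sum_strB]
  simp only [strS, mem_filter, mem_univ, true_and, strPar]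
  by_cases hlt : l g < l h
  · rw [H.rt_rt (by omega), sub_self, if_neg]
    rintro rfl
    omega
  · have h1 := H.le_rt (l h - 1) h
    rw [(H.hl _ h).2 (by omega), (H.hl _ (rt (l h - 1) h)).2 (by omega),
      if_neg (c := rt (l h - 1) h = g), sub_zero]
    · simp only [eq_comm]
    · rintro rfl
      omega

lemma StrLev.step (H : StrLev R rt l) (k : ℕ) (p : P) :
    (l (rt (k + 1) p) = k + 1 ∧ strPar rt l (rt (k + 1) p) = rt k p) ∨
      (l (rt (k + 1) p) ≤ k ∧ rt (k + 1) p = rt k p) := by
  have h1 := H.le_rt (k + 1) p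
  rcases h1.eq_or_lt with h | h
  · refine Or.inl ⟨h, ?_⟩
    rw [strPar, h, Nat.add_sub_cancel, H.rt_rt (Nat.le_succ k)]
  · refine Or.inr ⟨by omega, ?_⟩
    rw [← H.rt_rt (Nat.le_add_right k 1) p, (H.hl k _).2 (by omega)]

lemma StrLev.tele (H : StrLev R rt l) (p : P) {j k : ℕ} (hjk : j ≤ k) :
    (Pi.single (rt k p) 1 - Pi.single (rt j p) 1 : P → ℤ) =
      ∑ g ∈ univ.filter (fun g => j < l g ∧ l g ≤ k ∧ rt (l g) p = g), strB rt l g := by
  induction k, hjk using Nat.le_induction with
  | base =>
    rw [sub_self, filter_false_of_mem, sum_empty]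
    intro g _ h
    omega
  | succ k hjk ih =>
    rcases H.step k p with ⟨h1, h2⟩ | ⟨h1, h2⟩
    · have : univ.filter (fun g => j < l g ∧ l g ≤ k + 1 ∧ rt (l g) p = g) =
          insert (rt (k + 1) p) (univ.filter fun g => j < l g ∧ l g ≤ k ∧ rt (l g) p = g) := by
        ext g
        simp only [mem_filter, mem_univ, true_and, mem_insert]
        constructor
        · rintro ⟨a1, a2, a3⟩
          rcases a2.eq_or_lt with a4 | a4
          · exact Or.inl (by rw [← a4, a3])
          · exact Or.inr ⟨a1, by omega, a3⟩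
        · rintro (rfl | ⟨a1, a2, a3⟩)
          · exact ⟨by omega, by omega, by rw [h1]⟩
          · exact ⟨a1, by omega, a3⟩
      rw [this, sum_insert, ← ih, strB, h2]
      · abel
      · simp only [mem_filter, mem_univ, true_and]
        omega
    · rw [h2, ih]
      refine sum_congr ?_ fun _ _ => rfl
      ext g
      simp only [mem_filter, mem_univ, true_and]
      refine ⟨fun ⟨a1, a2, a3⟩ => ⟨a1, by omega, a3⟩, fun ⟨a1, a2, a3⟩ => ⟨a1, ?_, a3⟩⟩
      rcases a2.eq_or_lt with a4 | a4
      · rw [a4] at a3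
        rw [← a3]
        exact h1
      · omega

lemma StrLev.span (H : StrLev R rt l) (j : ℕ) (a : P → ℤ)
    (ha : ∀ S, Cls (R j) S → ∑ p ∈ S, a p = 0) :
    a = ∑ g ∈ univ.filter (fun g => j < l g), (∑ p ∈ strS rt l g, a p) • strB rt l g := by
  have h1 : ∀ p, (Pi.single p 1 - Pi.single (rt j p) 1 : P → ℤ) =
      ∑ g ∈ univ.filter (fun g => j < l g), if rt (l g) p = g then strB rt l g else 0 := fun p => by
    have h2 : ∀ g, l g ≤ j + univ.sup l := fun g =>
      (le_sup (f := l) (mem_univ g)).trans (Nat.le_add_left _ _)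
    have h3 := H.tele p (Nat.le_add_right j (univ.sup l))
    rw [(H.hl _ p).2 (h2 p)] at h3
    rw [h3, ← sum_filter, filter_filter]
    simp only [h2, true_and]
  have h2 : ∑ p, a p • (Pi.single (rt j p) 1 : P → ℤ) = 0 := by
    funext q
    have := ha (univ.filter fun p => rt j p = q) fun p p' h => by simp [H.rt2 j p p' h]
    rw [sum_filter] at this
    simpa [Finset.sum_apply, Pi.single_apply, eq_comm] using this
  have h3 : a = ∑ p, a p • (Pi.single p 1 - Pi.single (rt j p) 1 : P → ℤ) := by
    simp only [smul_sub, sum_sub_distrib, h2, sub_zero]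
    funext q
    simp [Finset.sum_apply, Pi.single_apply]
  refine h3.trans ?_
  simp only [h1, smul_sum]
  rw [sum_comm]
  refine sum_congr rfl fun g _ => ?_
  rw [strS, sum_filter, sum_smul]
  refine sum_congr rfl fun p _ => ?_
  split_ifs <;> simp

lemma StrLev.chain (H : StrLev R rt l) {C : Type} (c : P → C)
    (hc : ∀ g, 0 < l g → c g = c (strPar rt l g)) {p q : P} (h : R 0 p q) : c p = c q := by
  have h1 : ∀ p k, c (rt k p) = c (rt 0 p) := fun p k => by
    induction k with
    | zero => rfl
    | succ k ih =>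
      rcases H.step k p with ⟨h1, h2⟩ | ⟨-, h2⟩
      · rw [hc _ (by omega), h2, ih]
      · rw [h2, ih]
  have h2 : ∀ p, c p = c (rt 0 p) := fun p => by rw [← h1 p (l p), (H.hl _ p).2 le_rfl]
  rw [h2 p, h2 q, H.rt2 0 p q h]

end Level

section Kruskal

variable {V P : Type} [Fintype V] [DecidableEq V] [Fintype P] [DecidableEq P]

/-- one step of Kruskal's algorithm: `s.1 e` is the root of the component of `e`, `s.2 e` the signed
path from `e` to the root -/
def strStep (tl hd : P → V) (s : (V → V) × (V → P → ℤ)) (h : P) : (V → V) × (V → P → ℤ) :=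
  if s.1 (tl h) = s.1 (hd h) then s else
    (fun e => if s.1 e = s.1 (tl h) then s.1 (hd h) else s.1 e,
      fun e => s.2 e + if s.1 e = s.1 (tl h) then Pi.single h 1 - s.2 (tl h) + s.2 (hd h) else 0)

/-- the invariant after processing the edges of `L` -/
structure StrInv (tl hd : P → V) (pr : P → ℕ) (L : Set P) (s : (V → V) × (V → P → ℤ)) : Prop where
  div : ∀ e, ∑ g, s.2 e g • (Pi.single (tl g) 1 - Pi.single (hd g) 1 : V → ℤ) =
    Pi.single e 1 - Pi.single (s.1 e) 1
  supp : ∀ e g, s.2 e g ≠ 0 → g ∈ L ∧ s.1 e = s.1 (tl g)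
  same : ∀ f ∈ L, s.1 (tl f) = s.1 (hd f)
  deep : ∀ f ∈ L, ∀ g, s.2 (tl f) g ≠ s.2 (hd f) g → pr f ≤ pr g
  tree : ∀ e f, s.2 e f ≠ 0 → ∀ g, s.2 (tl f) g - s.2 (hd f) g = if g = f then 1 else 0
  col : ∀ e e' g, s.2 e g ≠ 0 → s.2 e' g ≠ 0 → s.2 e g = s.2 e' g
  idem : ∀ e, s.1 (s.1 e) = s.1 e
  zero : ∀ e g, s.2 (s.1 e) g = 0

lemma strInv_init (tl hd : P → V) (pr : P → ℕ) : StrInv tl hd pr ∅ (id, 0) where
  div e := by simp
  supp e g h := by simp at h
  same f hf := hf.elim
  deep f hf := hf.elim
  tree e f h := by simp at h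
  col e e' g h := by simp at h
  idem _ := rfl
  zero _ _ := rfl

lemma StrInv.step {tl hd : P → V} {pr : P → ℕ} {L : Set P} {s : (V → V) × (V → P → ℤ)}
    (H : StrInv tl hd pr L s) {h : P} (hh : ∀ t ∈ L, pr h ≤ pr t) :
    StrInv tl hd pr (insert h L) (strStep tl hd s h) := by
  obtain ⟨c, X⟩ := s
  obtain ⟨h1, h2, h3, h4, h5, h6, h7, h8⟩ := H
  dsimp only at h1 h2 h3 h4 h5 h6 h7 h8
  have new : ∀ Y : V → P → ℤ, (∀ e g, Y e g ≠ 0 → g ∈ insert h L) →
      ∀ g, Y (tl h) g ≠ Y (hd h) g → pr h ≤ pr g := fun Y hY g hg => by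
    have : g ∈ insert h L := by
      by_contra hn
      have a1 : Y (tl h) g = 0 := by_contra fun h' => hn (hY _ _ h')
      have a2 : Y (hd h) g = 0 := by_contra fun h' => hn (hY _ _ h')
      exact hg (a1.trans a2.symm)
    rcases this with rfl | this
    · exact le_rfl
    · exact hh g this
  unfold strStep
  dsimp only
  split_ifs with hc
  · refine ⟨h1, fun e g hg => ⟨Or.inr (h2 e g hg).1, (h2 e g hg).2⟩, ?_, ?_, h5, h6, h7, h8⟩
    · rintro f (rfl | hf)
      · exact hc
      · exact h3 f hf
    · rintro f (rfl | hf)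
      · exact new X fun e g hg => Or.inr (h2 e g hg).1
      · exact h4 f hf
  · have hL : h ∉ L := fun hL => hc (h3 h hL)
    have hz : ∀ e, X e h = 0 := fun e => by_contra fun h' => hL (h2 e h h').1
    have hs : ∀ e g, (X e + if c e = c (tl h) then Pi.single h 1 - X (tl h) + X (hd h) else 0 :
        P → ℤ) g ≠ 0 → g ∈ insert h L ∧ (if c e = c (tl h) then c (hd h) else c e) =
          if c (tl g) = c (tl h) then c (hd h) else c (tl g) := by
      intro e g hg
      by_cases he : c e = c (tl h)
      · rw [if_pos he] at hg ⊢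
        by_cases a0 : g = h
        · subst a0
          simp
        by_cases a1 : X e g = 0
        · by_cases a2 : X (tl h) g = 0
          · have a3 : X (hd h) g ≠ 0 := by simpa [a0, a1, a2] using hg
            refine ⟨Or.inr (h2 _ _ a3).1, ?_⟩
            rw [← (h2 _ _ a3).2, if_neg (Ne.symm hc)]
          · exact ⟨Or.inr (h2 _ _ a2).1, by rw [if_pos (h2 _ _ a2).2.symm]⟩
        · exact ⟨Or.inr (h2 _ _ a1).1, by rw [if_pos ((h2 _ _ a1).2.symm.trans he)]⟩
      · rw [if_neg he, add_zero] at hg
        exact ⟨Or.inr (h2 _ _ hg).1, by rw [(h2 _ _ hg).2]⟩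
    have hroot : ∀ e, ¬ c (if c e = c (tl h) then c (hd h) else c e) = c (tl h) := fun e => by
      split_ifs with he
      · rw [h7]
        exact Ne.symm hc
      · rwa [h7]
    refine ⟨fun e => ?_, hs, ?_, ?_, ?_, ?_, fun e => ?_, fun e g => ?_⟩
    · dsimp only
      split_ifs with he
      · simp only [Pi.add_apply, Pi.sub_apply, add_smul, sub_smul, sum_add_distrib,
          sum_sub_distrib, h1, he]
        rw [sum_eq_single h (fun g _ hg => by simp [hg]) (by simp)]
        simp only [Pi.single_eq_same, one_smul]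
        abel
      · rw [add_zero, h1]
    · rintro f (rfl | hf)
      · simp [Ne.symm hc]
      · simp only [h3 f hf]
    · rintro f (rfl | hf)
      · exact new (fun e => X e + if c e = c (tl f) then
          Pi.single f 1 - X (tl f) + X (hd f) else 0) fun e g hg => (hs e g hg).1
      · intro g hg
        refine h4 f hf g fun h' => hg ?_
        simp only [h3 f hf, Pi.add_apply, h']
    · intro e f hf g
      by_cases a0 : f = h
      · subst a0
        simp [Ne.symm hc, Pi.single_apply]
        ring
      · have hfL : f ∈ L := (hs e f hf).1.resolve_left a0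
        obtain ⟨e', he'⟩ : ∃ e', X e' f ≠ 0 := by
          by_contra hn
          push Not at hn
          apply hf
          dsimp only
          split_ifs <;> simp [hn, a0]
        rw [← h5 e' f he' g]
        simp only [h3 f hfL, Pi.add_apply]
        ring
    · intro e e' g he he'
      dsimp only at he he' ⊢
      by_cases a0 : g = h
      · subst a0
        by_cases b1 : c e = c (tl g)
        · by_cases b2 : c e' = c (tl g)
          · simp [b1, b2, hz]
          · simp [b2, hz] at he'
        · simp [b1, hz] at he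
      · have z : ∀ x, c x ≠ c (tl g) → X x g = 0 := fun x hx =>
          by_contra fun h' => hx (h2 x g h').2
        have key : ∀ x y, X x g = 0 ∨ X y g = 0 ∨ X x g = X y g := fun x y => by
          by_contra hn
          push Not at hn
          exact hn.2.2 (h6 x y g hn.1 hn.2.1)
        have k1 := key e e'
        have k2 := key e (tl h)
        have k3 := key e (hd h)
        have k4 := key e' (tl h)
        have k5 := key e' (hd h)
        have val : ∀ x, (X x + if c x = c (tl h) then Pi.single h 1 - X (tl h) + X (hd h) else 0 :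
            P → ℤ) g = X x g + if c x = c (tl h) then X (hd h) g - X (tl h) g else 0 := fun x => by
          split_ifs <;> simp [a0]
          ring
        rw [val] at he he' ⊢
        rw [val]
        by_cases b0 : c (tl g) = c (tl h)
        · have z1 : X (hd h) g = 0 := z _ (by rw [b0]; exact Ne.symm hc)
          by_cases b1 : c e = c (tl h)
          · by_cases b2 : c e' = c (tl h)
            · simp only [b1, b2, if_true] at he he' ⊢
              omega
            · simp [b2, z e' (by rwa [b0])] at he'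
          · simp [b1, z e (by rwa [b0])] at he
        · have z1 : X (tl h) g = 0 := z _ (Ne.symm b0)
          have z2 : ∀ x, c x = c (tl h) → X x g = 0 := fun x hx => z x (by rw [hx]; exact Ne.symm b0)
          by_cases b1 : c e = c (tl h) <;> by_cases b2 : c e' = c (tl h)
          · simp [b1, b2, z2]
          · have := z2 e b1
            simp only [b1, b2, if_true, if_false] at he he' ⊢
            omega
          · have := z2 e' b2
            simp only [b1, b2, if_true, if_false] at he he' ⊢
            omega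
          · simp only [b1, b2, if_false] at he he' ⊢
            omega
    · dsimp only
      rw [if_neg (hroot e)]
      split_ifs <;> exact h7 _
    · dsimp only
      rw [if_neg (hroot e), add_zero]
      split_ifs <;> exact h8 _ _

end Kruskal

section Final

variable {E : Type} [Fintype E] [DecidableEq E]

/-- coordinates of `v g` in the first-level basis -/
def strK (par : E × Bool → E × Bool) (X : E → E × Bool → ℤ) (g t : E × Bool) : ℤ :=
  if ∃ e, X e g ≠ 0 then (if t = g then X g.1 g + X (par g).1 g else 0)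
  else (if t = g then 1 else 0) - X g.1 t + X (par g).1 t

/-- the structure given by the two levels -/
def strMk (rt : ℕ → E × Bool → E × Bool) (l : E × Bool → ℕ)
    (s : (E → E) × (E → E × Bool → ℤ)) : Str E where
  act := univ.filter fun g => 0 < l g
  tree := univ.filter fun g => ∃ e, s.2 e g ≠ 0
  lv g := l g - 1
  v g := ∑ t, strK (strPar rt l) s.2 g t • strB rt l t
  S := strS rt l
  U g := univ.filter fun e => s.2 e g ≠ 0
  root := s.1

lemma str_ell_sum {ι : Type} (T : Finset ι) (α : ι → ℤ) (u : ι → E × Bool → ℤ) :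
    ell (∑ h ∈ T, α h • u h) = ∑ h ∈ T, α h • ell (u h) := by
  funext e
  simp only [ell_apply, Finset.sum_apply, Pi.smul_apply, smul_eq_mul, mul_add, sum_add_distrib]

lemma str_sum_sum {ι P : Type} (T : Finset ι) (α : ι → ℤ) (u : ι → P → ℤ) (S : Finset P) :
    ∑ p ∈ S, (∑ h ∈ T, α h • u h) p = ∑ h ∈ T, α h * ∑ p ∈ S, u h p := by
  simp only [Finset.sum_apply, Pi.smul_apply, smul_eq_mul, mul_sum]
  exact sum_comm

lemma str_coef_sum (σ : Str E) (g : E × Bool) {ι : Type} (T : Finset ι) (α : ι → ℤ)
    (u : ι → E × Bool → ℤ) : σ.coef g (∑ h ∈ T, α h • u h) = ∑ h ∈ T, α h * σ.coef g (u h) := by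
  unfold Str.coef
  split_ifs
  · rw [str_ell_sum, str_sum_sum]
  · rw [str_sum_sum]

lemma str_ell_strB (rt : ℕ → E × Bool → E × Bool) (l : E × Bool → ℕ) (g : E × Bool) :
    ell (strB rt l g) = Pi.single g.1 1 - Pi.single (strPar rt l g).1 1 := by
  have h : ∀ (p : E × Bool) e, (Pi.single p 1 : E × Bool → ℤ) (e, false) +
      (Pi.single p 1 : E × Bool → ℤ) (e, true) = (Pi.single p.1 1 : E → ℤ) e := by
    rintro ⟨a, b⟩ e
    cases b <;> simp [Pi.single_apply]
  funext e
  simp only [ell_apply, strB, Pi.sub_apply, ← h]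
  ring

theorem strMk_valid {R : ℕ → E × Bool → E × Bool → Prop} {rt : ℕ → E × Bool → E × Bool}
    {l : E × Bool → ℕ} {s : (E → E) × (E → E × Bool → ℤ)} (H : StrLev R rt l)
    (K : StrInv Prod.fst (fun g => (strPar rt l g).1) l {g | 0 < l g} s) :
    (strMk rt l s).Valid R := by
  obtain ⟨c, X⟩ := s
  obtain ⟨h1, h2, h3, h4, h5, h6, h7, h8⟩ := K
  simp only [Set.mem_ofPred_eq] at h1 h2 h3 h4 h5 h6 h7 h8
  set par := strPar rt l with hpar
  set σ := strMk rt l (c, X) with hσ
  have mact : ∀ g, g ∈ σ.act ↔ 0 < l g := fun g => by simp [hσ, strMk]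
  have mtree : ∀ g, g ∈ σ.tree ↔ ∃ e, X e g ≠ 0 := fun g => by simp [hσ, strMk]
  have mU : ∀ g e, e ∈ σ.U g ↔ X e g ≠ 0 := fun g e => by simp [hσ, strMk]
  have hv : ∀ g, σ.v g = ∑ t, strK par X g t • strB rt l t := fun g => rfl
  -- the sign of a tree index
  have sg : ∀ e g, X e g ≠ 0 → X e g = X g.1 g + X (par g).1 g ∧ (X e g = 1 ∨ X e g = -1) :=
    fun e g h => by
      have a1 := h5 e g h g
      rw [if_pos rfl] at a1
      have a2 : X g.1 g = 0 ∨ X g.1 g = X e g := by
        by_contra hn
        push Not at hn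
        exact hn.2 (h6 _ _ _ hn.1 h)
      have a3 : X (par g).1 g = 0 ∨ X (par g).1 g = X e g := by
        by_contra hn
        push Not at hn
        exact hn.2 (h6 _ _ _ hn.1 h)
      omega
  have sg2 : ∀ g, (∃ e, X e g ≠ 0) →
      (X g.1 g + X (par g).1 g) * (X g.1 g + X (par g).1 g) = 1 := fun g ⟨e, h⟩ => by
    rw [← (sg e g h).1]
    rcases (sg e g h).2 with h' | h' <;> simp [h']
  have dif : ∀ e e' g, |X e g - X e' g| ≤ 1 := fun e e' g => by
    rw [abs_le]
    by_cases a1 : X e g = 0 <;> by_cases a2 : X e' g = 0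
    · omega
    · have := (sg e' g a2).2
      omega
    · have := (sg e g a1).2
      omega
    · have := h6 e e' g a1 a2
      omega
  have vt : ∀ g, (∃ e, X e g ≠ 0) → σ.v g = (X g.1 g + X (par g).1 g) • strB rt l g :=
    fun g h => by
      rw [hv, sum_eq_single g (fun t _ ht => by simp [strK, h, ht]) (by simp), strK, if_pos h,
        if_pos rfl]
  have vn : ∀ g, (¬ ∃ e, X e g ≠ 0) →
      σ.v g = strB rt l g - ∑ t, (X g.1 t - X (par g).1 t) • strB rt l t := fun g h => by
    have : strB rt l g = ∑ t, (if t = g then (1 : ℤ) else 0) • strB rt l t := by simp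
    rw [hv, this, ← sum_sub_distrib]
    refine sum_congr rfl fun t _ => ?_
    rw [strK, if_neg h, ← sub_smul]
    congr 1
    ring
  have kabs : ∀ g t, |strK par X g t| ≤ 1 := fun g t => by
    unfold strK
    split_ifs with a1 a2 a2
    · obtain ⟨e, he⟩ := a1
      rw [← (sg e g he).1]
      rcases (sg e g he).2 with h' | h' <;> simp [h']
    · simp
    · push Not at a1
      simp [a2, a1]
    · rw [zero_sub, neg_add_eq_sub]
      exact dif _ _ _
  have ksupp : ∀ g t, 0 < l g → strK par X g t ≠ 0 → l g ≤ l t ∧ c t.1 = c g.1 :=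
    fun g t hg h => by
      by_cases a0 : t = g
      · simp [a0]
      unfold strK at h
      rw [if_neg a0, if_neg a0] at h
      split_ifs at h
      · exact absurd rfl h
      have a1 : X g.1 t ≠ X (par g).1 t := fun h' => h (by omega)
      refine ⟨h4 g hg t a1, ?_⟩
      by_cases a2 : X g.1 t = 0
      · exact (h2 _ _ (by omega : X (par g).1 t ≠ 0)).2.symm.trans (h3 g hg).symm
      · exact (h2 _ _ a2).2.symm
  have usum : ∀ g (γ : E → ℤ), (∃ e, X e g ≠ 0) →
      ∑ e ∈ σ.U g, γ e = (X g.1 g + X (par g).1 g) * ∑ e, γ e * X e g := fun g γ h => by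
    have : σ.U g = univ.filter fun e => X e g ≠ 0 := rfl
    rw [this, sum_filter, mul_sum]
    refine sum_congr rfl fun e _ => ?_
    split_ifs with he
    · rw [(sg e g he).1, mul_left_comm, sg2 g h, mul_one]
    · simp [not_not.1 he]
  have ct : ∀ g t, (∃ e, X e g ≠ 0) →
      σ.coef g (strB rt l t) = (X g.1 g + X (par g).1 g) * (X t.1 g - X (par t).1 g) :=
    fun g t h => by
      rw [Str.coef, if_pos ((mtree g).2 h), usum g _ h, str_ell_strB]
      simp [Pi.single_apply, sub_mul, hpar]
  have cn : ∀ g t, (¬ ∃ e, X e g ≠ 0) → 0 < l t →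
      σ.coef g (strB rt l t) = if g = t then 1 else 0 := fun g t h ht => by
    rw [Str.coef, if_neg (mt (mtree g).1 h)]
    exact H.dual g ht
  have cyc : ∀ g, 0 < l g → (¬ ∃ e, X e g ≠ 0) → ell (σ.v g) = 0 := fun g hg h => by
    rw [hv, str_ell_sum]
    simp only [strK, if_neg h, str_ell_strB, add_smul, sub_smul, sum_add_distrib, sum_sub_distrib,
      ← hpar, h1, h3 g hg]
    simp
  have rootR : ∀ p q, R 0 p q → c p.1 = c q.1 := fun p q h =>
    H.chain (fun p => c p.1) h3 h
  refine ⟨fun g hg => ?_, fun g hg h hh => ?_, fun g _ => ?_, fun g hg h => ?_,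
    fun g hg S hS => ?_, fun j a ha => ?_, fun g hg _ p q h => ?_, h7, rootR,
    fun g _ e he => ?_, fun g _ p hp => ?_, fun g hg p hp => ?_, fun γ => ?_, fun g hg => ?_⟩
  · obtain ⟨e, he⟩ := (mtree g).1 hg
    exact (mact g).2 (h2 e g he).1
  · rw [mact] at hg hh
    by_cases a1 : ∃ e, X e h ≠ 0
    · have a3 := str_coef_sum σ g {h} (fun _ => X h.1 h + X (par h).1 h) (strB rt l)
      rw [sum_singleton, sum_singleton] at a3
      rw [vt h a1, a3]
      by_cases a2 : ∃ e, X e g ≠ 0
      · obtain ⟨e, he⟩ := a1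
        rw [ct g h a2, h5 e h he g]
        split_ifs with a4
        · subst a4
          rw [mul_one, sg2 g a2]
        · simp
      · have a4 : g ≠ h := fun h' => a2 (h' ▸ a1)
        rw [cn g h a2 hh, if_neg a4, mul_zero]
    · by_cases a2 : ∃ e, X e g ≠ 0
      · have a4 : g ≠ h := fun h' => a1 (h' ▸ a2)
        rw [Str.coef, if_pos ((mtree g).2 a2), cyc h hh a1, if_neg a4]
        simp
      · rw [hv, str_coef_sum, sum_eq_single g]
        · rw [cn g g a2 hg, strK, if_neg a1]
          push Not at a2
          simp [a2]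
        · intro t _ ht
          by_cases a3 : strK par X h t = 0
          · rw [a3, zero_mul]
          · rw [cn g t a2 (hh.trans_le (ksupp h t hh a3).1), if_neg (Ne.symm ht), mul_zero]
        · simp
  · calc ∑ p, |σ.v g p| ≤ ∑ p, ∑ t, |strB rt l t p| := by
          refine sum_le_sum fun p _ => ?_
          rw [hv, Finset.sum_apply]
          refine (abs_sum_le_sum_abs _ _).trans (sum_le_sum fun t _ => ?_)
          rw [Pi.smul_apply, smul_eq_mul, abs_mul]
          exact mul_le_of_le_one_left (abs_nonneg _) (kabs g t)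
      _ ≤ ∑ _t : E × Bool, (2 : ℤ) := by
          rw [sum_comm]
          exact sum_le_sum fun t _ => str_abs_strB rt l t
      _ = _ := by simp [mul_comm]
  · exact cyc g ((mact g).1 hg) (mt (mtree g).2 h)
  · rw [mact] at hg
    rw [hv, str_sum_sum]
    refine sum_eq_zero fun t _ => ?_
    by_cases a3 : strK par X g t = 0
    · rw [a3, zero_mul]
    · have a4 : R (l g - 1) t (strPar rt l t) :=
        H.mono (Nat.sub_le_sub_right (ksupp g t hg a3).1 1) (H.rt1 _ t)
      rw [str_sum_strB]
      simp [hS _ _ a4]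
  · have hT : σ.act.filter (fun g => j ≤ σ.lv g) = univ.filter fun g => j < l g := by
      ext g
      have : σ.lv g = l g - 1 := rfl
      simp only [mem_filter, mact, this, mem_univ, true_and]
      omega
    have hb : ∀ h, j < l h →
        ∑ g ∈ univ.filter (fun g => j < l g), σ.coef g (strB rt l h) • σ.v g = strB rt l h := by
      intro h hh
      have b1 : ∀ g ∈ univ.filter (fun g => j < l g), σ.coef g (strB rt l h) • σ.v g =
          (X h.1 g - X (par h).1 g) • strB rt l g +
            if g = h then (if ∃ e, X e h ≠ 0 then 0 else σ.v h) else 0 := fun g _ => by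
        by_cases a2 : ∃ e, X e g ≠ 0
        · rw [ct g h a2, vt g a2, smul_smul, mul_right_comm, sg2 g a2, one_mul]
          split_ifs with a3 a4
          · simp
          · exact absurd (a3 ▸ a2) a4
          · simp
        · rw [cn g h a2 (by omega)]
          split_ifs with a3 a4
          · exact absurd (a3 ▸ a4) a2
          · push Not at a2
            subst a3
            simp [a2]
          · push Not at a2
            simp [a2]
      have b2 : ∑ g ∈ univ.filter (fun g => j < l g), (X h.1 g - X (par h).1 g) • strB rt l g =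
          ∑ g, (X h.1 g - X (par h).1 g) • strB rt l g := by
        refine sum_subset (subset_univ _) fun g _ hg => ?_
        have : X h.1 g = X (par h).1 g := by
          by_contra hn
          have := h4 h (by omega) g hn
          simp only [mem_filter, mem_univ, true_and] at hg
          omega
        simp [this]
      rw [sum_congr rfl b1, sum_add_distrib, b2, sum_ite_eq', if_pos (by simpa using hh)]
      split_ifs with a1
      · obtain ⟨e, he⟩ := a1
        simp [h5 e h he]
      · rw [vn h a1]
        abel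
    rw [hT]
    obtain ⟨α, rfl⟩ : ∃ α : E × Bool → ℤ,
      a = ∑ g ∈ univ.filter (fun g => j < l g), α g • strB rt l g := ⟨_, H.span j a ha⟩
    simp only [str_coef_sum, sum_smul, mul_smul]
    rw [sum_comm]
    refine sum_congr rfl fun h hh => ?_
    rw [← smul_sum, hb h (by simpa using hh)]
  · have : σ.lv g + 1 = l g := Nat.sub_add_cancel ((mact g).1 hg)
    rw [this] at h
    have hS : σ.S g = strS rt l g := rfl
    simp [hS, strS, H.rt2 _ p q h]
  · rw [mU] at he
    refine ⟨(h2 e g he).2, fun h => he ?_⟩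
    have : c e = e := h
    rw [← this]
    exact h8 e g
  · have hp' : rt (l g) p = g := by simpa [hσ, strMk, strS] using hp
    refine rootR p g (H.mono (Nat.zero_le (l g)) ?_)
    conv_rhs => rw [← hp']
    exact H.rt1 _ p
  · rw [mact] at hg
    rw [hv, Finset.sum_apply] at hp
    obtain ⟨t, -, ht⟩ := exists_ne_zero_of_sum_ne_zero hp
    rw [Pi.smul_apply, smul_eq_mul, mul_ne_zero_iff] at ht
    obtain ⟨a1, a2⟩ := ksupp g t hg ht.1
    rcases str_strB_ne ht.2 with rfl | rfl
    · exact a2
    · exact (h3 t (by omega)).symm.trans a2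
  · have b1 : ∑ g ∈ σ.tree, (∑ e ∈ σ.U g, γ e) • ell (σ.v g) =
        ∑ g, (∑ e, γ e * X e g) • (Pi.single g.1 1 - Pi.single (par g).1 1 : E → ℤ) := by
      rw [← sum_subset (subset_univ σ.tree) fun g _ hg => ?_]
      · refine sum_congr rfl fun g hg => ?_
        rw [mtree] at hg
        have a3 := str_ell_sum {g} (fun _ => X g.1 g + X (par g).1 g) (strB rt l)
        rw [sum_singleton, sum_singleton] at a3
        rw [usum g γ hg, vt g hg, a3, str_ell_strB, smul_smul, mul_right_comm, sg2 g hg, one_mul]
      · rw [mtree] at hg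
        push Not at hg
        simp [hg]
    have b2 : agg σ.root γ = ∑ e, γ e • (Pi.single (c e) 1 : E → ℤ) := by
      funext x
      have : σ.root = c := rfl
      simp [agg, this, sum_filter, Finset.sum_apply, Pi.single_apply, eq_comm]
    rw [b1, b2]
    simp only [sum_smul, mul_smul]
    rw [sum_comm, ← sum_add_distrib]
    simp only [← smul_sum, h1, ← smul_add, sub_add_cancel]
    funext x
    simp [Finset.sum_apply, Pi.single_apply]
  · rw [mtree] at hg
    have a3 := str_ell_sum {g} (fun _ => X g.1 g + X (par g).1 g) (strB rt l)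
    rw [sum_singleton, sum_singleton] at a3
    rw [vt g hg, a3, str_ell_strB]
    obtain ⟨e, he⟩ := hg
    rw [← (sg e g he).1]
    rcases (sg e g he).2 with h' | h'
    · exact ⟨g.1, (par g).1, by simp [h', hpar]⟩
    · exact ⟨(par g).1, g.1, by simp [h', hpar]⟩

end Final

end Crest.Agent.R302
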