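import Crest.Agent.R302.StrAux

/-!
Row 302, part C (auxiliary): the list implementation of the multi-scale structure runs in polynomial
time.
-/

set_option autoImplicit false

namespace Crest.Agent.R302

open Crest.Agent.Lib.PT

/-- the input: `m` in unary and the table -/
abbrev StrI : Type := List Unit × List (List (List Bool))

/-- the state of Kruskal's algorithm -/
abbrev StrSt : Type := List ℕ × List (List ℤ)

/-- the table -/
def strTb (I : StrI) (j a b : ℕ) : Bool := ((I.2.getD j []).getD a []).getD b false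

/-- the least element of the class -/
def strRtN (I : StrI) (j a : ℕ) : ℕ :=
  if j < I.2.length then (List.range (2 * I.1.length)).findIdx (fun b => strTb I j a b) else a

/-- the first level at which `a` is the least element of its class -/
def strLN (I : StrI) (a : ℕ) : ℕ :=
  (List.range I.2.length).findIdx fun j => decide (strRtN I j a = a)

/-- the parent -/
def strParN (I : StrI) (a : ℕ) : ℕ := strRtN I (strLN I a - 1) a

/-- the active indices by decreasing level -/
def strOrd (I : StrI) : List ℕ :=
  ((List.range (2 * I.1.length)).filter fun a => decide (0 < strLN I a)).insertionSort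
    fun a b => strLN I b ≤ strLN I a

/-- an entry of the state -/
def strX (st : StrSt) (e t : ℕ) : ℤ := (st.2.getD e []).getD t 0

/-- a step of Kruskal's algorithm -/
def strStepN (I : StrI) (st : StrSt) (a : ℕ) : StrSt :=
  if st.1.getD (a / 2) 0 = st.1.getD (strParN I a / 2) 0 then st else
    ((List.range I.1.length).map fun e =>
        if st.1.getD e 0 = st.1.getD (a / 2) 0 then st.1.getD (strParN I a / 2) 0
        else st.1.getD e 0,
      (List.range I.1.length).map fun e => (List.range (2 * I.1.length)).map fun t =>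
        strX st e t + if st.1.getD e 0 = st.1.getD (a / 2) 0 then
          (if t = a then 1 else 0) - strX st (a / 2) t + strX st (strParN I a / 2) t else 0)

/-- the final state -/
def strFin (I : StrI) : StrSt := (strOrd I).foldl (strStepN I) (List.range I.1.length, [])

/-- tree indices -/
def strTr (I : StrI) (st : StrSt) (g : ℕ) : Bool :=
  (List.range I.1.length).any fun e => decide (strX st e g ≠ 0)

/-- coordinates of `v g` in the first-level basis -/
def strKN (I : StrI) (st : StrSt) (g t : ℕ) : ℤ :=
  if strTr I st g = true then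
    (if t = g then strX st (g / 2) g + strX st (strParN I g / 2) g else 0)
  else (if t = g then 1 else 0) - strX st (g / 2) t + strX st (strParN I g / 2) t

/-- the first-level basis -/
def strBN (I : StrI) (t p : ℕ) : ℤ :=
  (if p = t then 1 else 0) - if p = strParN I t then 1 else 0

/-- the output -/
def strOut (I : StrI) (st : StrSt) : StrL :=
  ((List.range (2 * I.1.length)).map fun a => decide (0 < strLN I a),
    (List.range (2 * I.1.length)).map fun a => strTr I st a,
    (List.range (2 * I.1.length)).map fun g => (List.range (2 * I.1.length)).map fun p =>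
      ∑ t ∈ Finset.range (2 * I.1.length), strKN I st g t * strBN I t p,
    (List.range (2 * I.1.length)).map fun g => (List.range I.1.length).map fun e =>
      decide (strX st e g ≠ 0),
    st.1)

/-! ### sizes -/

/-- bounds valid on all inputs -/
def StrBd (m n : ℕ) (st : StrSt) : Prop :=
  st.1.length ≤ m ∧ (∀ x ∈ st.1, x ≤ m) ∧ st.2.length ≤ m ∧
    ∀ l ∈ st.2, l.length ≤ 2 * m ∧ ∀ z ∈ l, |z| ≤ (4 ^ n : ℕ)

lemma str_getD_prop {β : Type} {P : β → Prop} {l : List β} {d : β} (hd : P d)
    (hl : ∀ x ∈ l, P x) (i : ℕ) : P (l.getD i d) := by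
  rw [List.getD_eq_getElem?_getD]
  cases h : l[i]? with
  | none => exact hd
  | some x => exact hl x (List.mem_of_getElem? h)

lemma StrBd.entry {m n : ℕ} {st : StrSt} (h : StrBd m n st) (x t : ℕ) :
    |strX st x t| ≤ (4 ^ n : ℕ) :=
  str_getD_prop (P := fun z : ℤ => |z| ≤ (4 ^ n : ℕ)) (by simp)
    (str_getD_prop (P := fun l : List ℤ => ∀ z ∈ l, |z| ≤ (4 ^ n : ℕ)) (by simp)
      (fun l hl => (h.2.2.2 l hl).2) x) t

lemma StrBd.mono {m n k : ℕ} {st : StrSt} (h : StrBd m n st) (hnk : n ≤ k) : StrBd m k st :=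
  ⟨h.1, h.2.1, h.2.2.1, fun l hl => ⟨(h.2.2.2 l hl).1, fun z hz => ((h.2.2.2 l hl).2 z hz).trans
    (Int.ofNat_le.2 (Nat.pow_le_pow_right (by norm_num) hnk))⟩⟩

lemma StrBd.step {I : StrI} {n : ℕ} {st : StrSt} (h : StrBd I.1.length n st) (a : ℕ) :
    StrBd I.1.length (n + 1) (strStepN I st a) := by
  unfold strStepN
  split_ifs
  · exact h.mono (Nat.le_succ n)
  have lab : ∀ x, st.1.getD x 0 ≤ I.1.length :=
    str_getD_prop (P := fun y => y ≤ I.1.length) (Nat.zero_le _) h.2.1
  refine ⟨by simp, ?_, by simp, ?_⟩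
  · intro y hy
    obtain ⟨x, -, rfl⟩ := List.mem_map.1 hy
    split_ifs <;> exact lab _
  · intro l hl
    obtain ⟨x, -, rfl⟩ := List.mem_map.1 hl
    refine ⟨by simp, fun z hz => ?_⟩
    obtain ⟨t, -, rfl⟩ := List.mem_map.1 hz
    have a1 := abs_le.1 (h.entry x t)
    have a2 := abs_le.1 (h.entry (a / 2) t)
    have a3 := abs_le.1 (h.entry (strParN I a / 2) t)
    have a4 : (1 : ℤ) ≤ (4 ^ n : ℕ) := Int.ofNat_le.2 (Nat.one_le_pow _ _ (by norm_num))
    rw [pow_succ, Nat.cast_mul, abs_le]
    split_ifs <;> constructor <;> push_cast at * <;> linarith [a1.1, a1.2, a2.1, a2.2, a3.1, a3.2]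

lemma StrBd.fold {I : StrI} (l : List ℕ) : ∀ {n : ℕ} {st : StrSt}, StrBd I.1.length n st →
    StrBd I.1.length (n + l.length) (l.foldl (strStepN I) st) := by
  induction l with
  | nil => intro n st h; exact h
  | cons e l ih =>
    intro n st h
    have := ih (h.step e)
    rwa [add_assoc, add_comm 1] at this

lemma strBd_init (m : ℕ) : StrBd m 0 (List.range m, []) :=
  ⟨by simp, fun x hx => (List.mem_range.1 hx).le, by simp, by simp⟩

lemma StrBd.sz_le {m n : ℕ} {st : StrSt} (h : StrBd m n st) :
    sz st ≤ ((6 * m + 2) * m + 1) + (((n * sz (4 : ℕ) + 14) * (2 * m) + 2) * m + 1) + 1 := by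
  rw [sz_prod]
  have h1 : sz st.1 ≤ (6 * m + 2) * m + 1 := by
    refine (sz_list_le st.1 (6 * m + 1) fun x hx => ?_).trans (by gcongr; exact h.1)
    exact (sz_nat_mono (h.2.1 x hx)).trans (sz_nat_le_self _)
  have h2 : sz st.2 ≤ ((n * sz (4 : ℕ) + 14) * (2 * m) + 2) * m + 1 := by
    refine (sz_list_le st.2 ((n * sz (4 : ℕ) + 14) * (2 * m) + 1) fun l hl => ?_).trans
      (by gcongr; exact h.2.2.1)
    refine (sz_list_le l (n * sz (4 : ℕ) + 13) fun z hz => ?_).trans
      (by gcongr; exact (h.2.2.2 l hl).1)
    have h1 := sz_int_le_of_abs_le ((h.2.2.2 l hl).2 z hz)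
    have h2 := sz_pow_le 4 n
    omega
  omega

lemma str_length_ord (I : StrI) : (strOrd I).length ≤ 2 * I.1.length := by
  rw [strOrd, List.length_insertionSort]
  exact (List.length_filter_le _ _).trans (by simp)

section PT

variable {α : Type} [Enc α] {I : α → StrI} {st : α → StrSt}

@[fun_prop] lemma str_pt_tb {j a b : α → ℕ} (hI : PT I) (hj : PT j) (ha : PT a) (hb : PT b) :
    PT fun x => strTb (I x) (j x) (a x) (b x) := by unfold strTb; fun_prop
@[fun_prop] lemma str_pt_rt {j a : α → ℕ} (hI : PT I) (hj : PT j) (ha : PT a) :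
    PT fun x => strRtN (I x) (j x) (a x) := by unfold strRtN; fun_prop
@[fun_prop] lemma str_pt_l {a : α → ℕ} (hI : PT I) (ha : PT a) :
    PT fun x => strLN (I x) (a x) := by unfold strLN; fun_prop
@[fun_prop] lemma str_pt_par {a : α → ℕ} (hI : PT I) (ha : PT a) :
    PT fun x => strParN (I x) (a x) := by unfold strParN; fun_prop
@[fun_prop] lemma str_pt_ord (hI : PT I) : PT fun x => strOrd (I x) := by
  unfold strOrd
  exact PT.insertionSort (r := fun x a b => strLN (I x) b ≤ strLN (I x) a)
    (by fun_prop) (by fun_prop)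
@[fun_prop] lemma str_pt_x {e t : α → ℕ} (hst : PT st) (he : PT e) (ht : PT t) :
    PT fun x => strX (st x) (e x) (t x) := by unfold strX; fun_prop
@[fun_prop] lemma str_pt_step {a : α → ℕ} (hI : PT I) (hst : PT st) (ha : PT a) :
    PT fun x => strStepN (I x) (st x) (a x) := by unfold strStepN; fun_prop
@[fun_prop] lemma str_pt_fin (hI : PT I) : PT fun x => strFin (I x) := by
  unfold strFin
  refine PT.foldl (f := fun x => strStepN (I x))
    (fun x => ((6 * (I x).1.length + 2) * (I x).1.length + 1) +
      (((2 * (I x).1.length * sz (4 : ℕ) + 14) * (2 * (I x).1.length) + 2) * (I x).1.length + 1) + 1)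
    (by fun_prop) (by fun_prop) (by fun_prop) (by fun_prop) fun x i => ?_
  refine ((StrBd.fold _ (strBd_init _)).mono ?_).sz_le
  rw [zero_add, List.length_take]
  exact (min_le_right _ _).trans (str_length_ord _)
@[fun_prop] lemma str_pt_tr {g : α → ℕ} (hI : PT I) (hst : PT st) (hg : PT g) :
    PT fun x => strTr (I x) (st x) (g x) := by unfold strTr; fun_prop
@[fun_prop] lemma str_pt_k {g t : α → ℕ} (hI : PT I) (hst : PT st) (hg : PT g) (ht : PT t) :
    PT fun x => strKN (I x) (st x) (g x) (t x) := by unfold strKN; fun_prop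
@[fun_prop] lemma str_pt_b {t p : α → ℕ} (hI : PT I) (ht : PT t) (hp : PT p) :
    PT fun x => strBN (I x) (t x) (p x) := by unfold strBN; fun_prop
@[fun_prop] lemma str_pt_out (hI : PT I) (hst : PT st) : PT fun x => strOut (I x) (st x) := by
  unfold strOut; fun_prop

end PT

end Crest.Agent.R302
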