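import Crest.Agent.R302.Cap
import Crest.Agent.Lib.PT.Exp
import Crest.Agent.Lib.PT.Mat

/-!
Row 302, part C (definitions): the multi-scale structure on `P = E × Bool` attached to a decreasing
family of equivalence relations `R j`, and its representation by lists.
-/

set_option autoImplicit false
set_option linter.unusedSectionVars false

namespace Crest.Agent.R302

open Finset

section

variable {E : Type} [Fintype E] [DecidableEq E]

/-- The leak `a (e, false) + a (e, true)`. -/
def ell {R : Type} [AddCommMonoid R] (a : E × Bool → R) : E → R := agg Prod.fst a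

lemma ell_apply {R : Type} [AddCommMonoid R] (a : E × Bool → R) (e : E) :
    ell a e = a (e, false) + a (e, true) := by
  unfold ell agg
  rw [Finset.sum_filter, Fintype.sum_prod_type, Finset.sum_eq_single e (by simp +contextual) (by simp)]
  simp [add_comm]

/-- Active indices `g` with a level and a vector `v g`; the tree indices change the leak, the others
are cycles; `S`, `U` define the dual functionals; `root` labels the components of `E`. -/
structure Str (E : Type) where
  /-- active indices -/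
  act : Finset (E × Bool)
  /-- tree indices -/
  tree : Finset (E × Bool)
  /-- levels -/
  lv : E × Bool → ℕ
  /-- basis vectors -/
  v : E × Bool → E × Bool → ℤ
  /-- cuts of the cycle indices -/
  S : E × Bool → Finset (E × Bool)
  /-- cuts of the tree indices -/
  U : E × Bool → Finset E
  /-- component labels -/
  root : E → E

/-- The coordinate functionals. -/
def Str.coef (σ : Str E) (g : E × Bool) (a : E × Bool → ℤ) : ℤ :=
  if g ∈ σ.tree then ∑ e ∈ σ.U g, ell a e else ∑ p ∈ σ.S g, a p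

/-- The structure is adapted to the relations `R j`. -/
structure Str.Valid (σ : Str E) (R : ℕ → E × Bool → E × Bool → Prop) : Prop where
  tree_sub : σ.tree ⊆ σ.act
  dual : ∀ g ∈ σ.act, ∀ h ∈ σ.act, σ.coef g (σ.v h) = if g = h then 1 else 0
  norm : ∀ g ∈ σ.act, ∑ p, |σ.v g p| ≤ 2 * Fintype.card (E × Bool)
  cyc : ∀ g ∈ σ.act, g ∉ σ.tree → ell (σ.v g) = 0
  cls : ∀ g ∈ σ.act, ∀ S, Cls (R (σ.lv g)) S → ∑ p ∈ S, σ.v g p = 0
  span : ∀ (j : ℕ) (a : E × Bool → ℤ), (∀ S, Cls (R j) S → ∑ p ∈ S, a p = 0) →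
    a = ∑ g ∈ σ.act.filter (fun g => j ≤ σ.lv g), σ.coef g a • σ.v g
  cut : ∀ g ∈ σ.act, g ∉ σ.tree → Cls (R (σ.lv g + 1)) (σ.S g)
  root_idem : ∀ e, σ.root (σ.root e) = σ.root e
  root_R : ∀ p q, R 0 p q → σ.root p.1 = σ.root q.1
  U_sub : ∀ g ∈ σ.tree, ∀ e ∈ σ.U g, σ.root e = σ.root g.1 ∧ σ.root e ≠ e
  S_sub : ∀ g ∈ σ.act, ∀ p ∈ σ.S g, σ.root p.1 = σ.root g.1
  v_sub : ∀ g ∈ σ.act, ∀ p, σ.v g p ≠ 0 → σ.root p.1 = σ.root g.1
  leak : ∀ γ : E → ℤ, γ = ∑ g ∈ σ.tree, (∑ e ∈ σ.U g, γ e) • ell (σ.v g) + agg σ.root γ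
  tree_root : ∀ g ∈ σ.tree, ∃ a b, ell (σ.v g) = Pi.single a 1 - Pi.single b 1

end

/-- position of `p` in a list -/
def ix {m : ℕ} (p : Fin m × Bool) : ℕ := 2 * p.1 + p.2.toNat

/-- a list as a vector -/
def vec (m : ℕ) (l : List ℤ) : Fin m × Bool → ℤ := fun p => l.getD (ix p) 0

/-- a vector as a list -/
def lst {m : ℕ} (a : Fin m × Bool → ℤ) : List ℤ :=
  List.ofFn fun i : Fin (2 * m) => a (⟨i / 2, by omega⟩, decide (i.1 % 2 = 1))

lemma ix_lt {m : ℕ} (p : Fin m × Bool) : ix p < 2 * m := by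
  have := p.1.2
  have := Bool.toNat_le p.2
  unfold ix
  omega

lemma length_lst {m : ℕ} (a : Fin m × Bool → ℤ) : (lst a).length = 2 * m := by simp [lst]

lemma vec_lst {m : ℕ} (a : Fin m × Bool → ℤ) : vec m (lst a) = a := by
  funext p
  obtain ⟨e, b⟩ := p
  have h := ix_lt (e, b)
  simp only [vec, lst, List.getD_eq_getElem?_getD, List.getElem?_ofFn, h, dif_pos, Option.getD_some]
  congr 1
  cases b
  · simp [ix]
  · refine Prod.ext (Fin.ext ?_) ?_ <;> simp [ix]
    omega

lemma lst_vec {m : ℕ} {l : List ℤ} (h : l.length = 2 * m) : lst (vec m l) = l := by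
  refine List.ext_getElem (by simp [lst, h]) fun i h1 h2 => ?_
  have e : ix ((⟨i / 2, by omega⟩ : Fin m), decide (i % 2 = 1)) = i := by
    unfold ix
    by_cases hi : i % 2 = 1 <;> simp [hi] <;> omega
  simp only [lst, vec, List.getElem_ofFn, e]
  simp [List.getD_eq_getElem?_getD, h2]

lemma lst_injective {m : ℕ} : Function.Injective (lst : (Fin m × Bool → ℤ) → List ℤ) :=
  fun a b h => by rw [← vec_lst a, h, vec_lst]

/-- `act`, `tree`, `v`, `U`, `root` as lists -/
abbrev StrL : Type := List Bool × List Bool × List (List ℤ) × List (List Bool) × List ℕ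

/-- The lists `L` represent the structure `σ`. -/
structure Str.Rep {m : ℕ} (σ : Str (Fin m)) (L : StrL) : Prop where
  act : ∀ g, g ∈ σ.act ↔ L.1.getD (ix g) false = true
  tree : ∀ g, g ∈ σ.tree ↔ L.2.1.getD (ix g) false = true
  v : ∀ g, vec m (L.2.2.1.getD (ix g) []) = σ.v g
  U : ∀ g (e : Fin m), e ∈ σ.U g ↔ (L.2.2.2.1.getD (ix g) []).getD e false = true
  root : ∀ e : Fin m, L.2.2.2.2.getD e 0 = σ.root e

end Crest.Agent.R302
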