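import Crest.Agent.R302.TrialAux

/-!
Row 302, part E4: lifting, running and absorbing moves the law of stage `t` to the law of stage
`t + 1`.
-/

set_option autoImplicit false

namespace Crest.Agent.R302

open Finset Crest.Agent.Lib.PT Crest.Agent.R309

namespace Alg

variable {A : Alg} {I : ℕ → Inst (Fin A.m)}

/-- The coefficients on the tree indices are uniform on `lbox` (`2 ^ rw = 2 pw`; `Ex_prod_chunks`
or induction with `Ex_chunks_succ`, `Ex_ofBits`). -/
theorem Ex_phi (hA : A.Spec I) (t : ℕ) (c : Fin A.m × Bool → ℝ) (σ : Str (Fin A.m))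
    (g : (Fin A.m × Bool → ℤ) → ℝ) :
    Ex A.rL (fun ω => g ((A.sys I t c σ).tv (vec A.m (A.phi ω)))) =
      (∑ φ ∈ (A.sys I t c σ).lbox, g ((A.sys I t c σ).tv φ)) / (A.sys I t c σ).lbox.card := by
  classical
  obtain ⟨k, -, hk⟩ := hA.pow
  have hrw := trial_rw hk
  set Y := A.sys I t c σ with hY
  have hs : Y.s = q2 A.S := rfl
  have hσ : Y.σ = σ := rfl
  set X : List Bool → Fin A.m × Bool → ℤ :=
    fun ω g => if g ∈ σ.tree then vec A.m (A.phi ω) g else 0 with hX
  have h1 : ∀ ω, Y.tv (vec A.m (A.phi ω)) = Y.tv (X ω) := fun ω =>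
    Sys.Ok.flat_tv_congr fun g hg => by simp only [hX]; rw [if_pos (hσ ▸ hg)]
  have h2 : ∀ ω, ω.length = A.rL → X ω ∈ Y.lbox := fun ω hω => by
    refine Sys.Ok.mem_lbox.2 ⟨fun g hg => ?_, fun g hg => if_neg hg⟩
    simp only [hX]
    rw [if_pos (hσ ▸ hg), trial_vec_phi, hs]
    have hl : ix g < (chunks (2 * A.m) (rw A.S) ω).length := by
      rw [length_chunks]; exact ix_lt g
    have h3 := R309.ofBits_lt ((chunks (2 * A.m) (rw A.S) ω).getD (ix g) [])
    rw [List.getD_eq_getElem _ _ hl] at h3 ⊢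
    rw [length_of_mem_chunks (le_of_eq hω.symm) (List.getElem_mem hl), hrw] at h3
    generalize pw (q2 A.S) = w at h3 ⊢
    omega
  simp only [h1]
  rw [Ex_comp A.rL Y.lbox X h2 fun φ => g (Y.tv φ), sum_div]
  refine sum_congr rfl fun φ hφ => ?_
  rw [div_eq_inv_mul]
  congr 1
  obtain ⟨hφ1, hφ2⟩ := Sys.Ok.mem_lbox.1 hφ
  set F : ℕ → List Bool → ℝ := fun i u => if i ∈ σ.tree.image ix then
    tapeInd ((ofBits u : ℤ) - pw (q2 A.S) = (lst φ).getD i 0) else 1 with hF
  have h3 : ∀ ω, tapeInd (X ω = φ) =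
      ∏ i ∈ range (2 * A.m), F i ((chunks (2 * A.m) (rw A.S) ω).getD i []) := fun ω => by
    by_cases h : X ω = φ
    · rw [tapeInd, if_pos h]
      refine (prod_eq_one fun i _ => ?_).symm
      simp only [hF]
      split_ifs with hi
      · obtain ⟨g, hg, rfl⟩ := mem_image.1 hi
        have e : (lst φ).getD (ix g) 0 = φ g := congrFun (vec_lst φ) g
        have e2 := congrFun h g
        simp only [hX] at e2
        rw [if_pos hg, trial_vec_phi] at e2
        rw [tapeInd, if_pos (e2.trans e.symm)]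
      · rfl
    · rw [tapeInd, if_neg h]
      obtain ⟨g, hg⟩ := Function.ne_iff.1 h
      have hgt : g ∈ σ.tree := by
        by_contra hn
        exact hg (by simp only [hX]; rw [if_neg hn, hφ2 g hn])
      refine (prod_eq_zero (mem_range.2 (ix_lt g)) ?_).symm
      have e : (lst φ).getD (ix g) 0 = φ g := congrFun (vec_lst φ) g
      simp only [hX] at hg
      rw [if_pos hgt, trial_vec_phi] at hg
      simp only [hF]
      rw [if_pos (mem_image_of_mem ix hgt), e, tapeInd, if_neg hg]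
  have h4 : ∀ i, Ex (rw A.S) (F i) =
      if i ∈ σ.tree.image ix then 1 / (2 * (pw (q2 A.S) : ℝ)) else 1 := fun i => by
    simp only [hF]
    split_ifs with hi
    · obtain ⟨g, hg, rfl⟩ := mem_image.1 hi
      have e : (lst φ).getD (ix g) 0 = φ g := congrFun (vec_lst φ) g
      rw [e]
      exact trial_Ex_bits hrw (hφ1 g hg).1 (hφ1 g hg).2
    · exact Ex_const _ _
  rw [tape_Pr]
  simp only [h3]
  rw [rL, Ex_prod_chunks]
  simp only [h4]
  rw [prod_ite_mem, prod_const, inter_eq_right.2 (fun i hi => by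
    obtain ⟨g, -, rfl⟩ := mem_image.1 hi
    exact mem_range.2 (ix_lt g)), card_image_of_injective _ fun _ _ => trial_ix_inj,
    Sys.Ok.card_lbox, hs, hσ]
  push_cast
  rw [one_div, inv_pow]

namespace Cx

variable {θ : Th} {c : Fin A.m × Bool → ℝ} {σ : Str (Fin A.m)}

/-- Let `K a = Ex (ψ ∘ run a)`.  For liftable `z` the lift is uniform on the `z + tv φ` (`Ex_phi`,
`lift_mem`), these points are distinct (`lift_inj`) and have weight `W z`; so the liftable `z` contribute
at most `(∑ μ |K - avg|) / lbox.card ≤ √(2 / q2) ∑ μ / lbox.card` (Cauchy–Schwarz, `run_mix`), and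
`∑ μ ≤ S³ Zlk 0 ≤ 2 S³ lbox.card Z 0`; the other `z` have total weight `≤ Z 0 / S ^ 60`. -/
theorem lr_near (h : Cx A I θ c σ) {ψ : List ℤ → ℝ} (hψ : Unit01 ψ) :
    ∑ z ∈ A.PL I θ.1, A.piL I θ.1 z *
      |Ex A.rLR (fun ω => ψ (A.lr θ z ω)) - avg (A.OmL I θ.1 c σ) (A.muL θ) ψ| ≤
      2 / A.S ^ 60 * ∑ z ∈ A.PL I θ.1, A.piL I θ.1 z := by
  classical
  haveI : Nonempty (Fin A.m) := ⟨⟨0, h.spec.m_pos⟩⟩
  have hS := trial_S h.spec
  have hS0 : (0 : ℝ) < A.S := lt_of_lt_of_le (by norm_num) hS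
  set Y := A.sys I θ.1 c σ with hY
  have hok : Y.Ok := h.gs.ok
  set M := avg (A.OmL I θ.1 c σ) (A.muL θ) ψ with hM
  have hμ : ∀ l, 0 < A.muL θ l := fun l => zpow_pos two_pos _
  have hM01 : 0 ≤ M ∧ M ≤ 1 := markov_avg (fun l _ => (hμ l).le) hψ
  set K : List ℤ → ℝ := fun a => Ex (nT A.S * r1 A.S) fun ω => ψ (A.run θ a ω) with hK
  have hL : (0 : ℝ) < Y.lbox.card := by
    rw [Sys.Ok.card_lbox]
    have := hok.flat_pw_pos
    positivity
  set pot := A.potF θ.2.2 with hpot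
  -- the liftable points
  have h1 : ∀ z, ell z = 0 → Y.Liftable z →
      Y.lbox.card * (Y.W z * |Ex A.rLR (fun ω => ψ (A.lr θ (lst z) ω)) - M|) ≤
      ∑ φ ∈ Y.lbox, Y.mu pot (z + Y.tv φ) * |K (lst (z + Y.tv φ)) - M| := by
    intro z hz hl
    have e1 : Ex A.rLR (fun ω => ψ (A.lr θ (lst z) ω)) =
        Ex A.rL fun u => K (A.lift θ (lst z) u) :=
      Ex_split A.rL (nT A.S * r1 A.S) fun u v => ψ (A.run θ (A.lift θ (lst z) u) v)
    have e2 := Ex_phi h.spec θ.1 c σ fun v =>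
      K (if A.valid θ (lst (z + v)) = true then lst (z + v) else lst z)
    have e3 : ∑ φ ∈ Y.lbox, K (if A.valid θ (lst (z + Y.tv φ)) = true then lst (z + Y.tv φ)
        else lst z) = ∑ φ ∈ Y.lbox, K (lst (z + Y.tv φ)) := sum_congr rfl fun φ hφ => by
      rw [if_pos ((h.valid_iff _).2 (mem_image_of_mem lst (hok.lift_mem hz hφ (hl φ hφ)).1))]
    simp only [lift, trial_addT (I := I) (t := θ.1) (c := c) h.gs.rep] at e1
    rw [e1, e2, ← hY, e3]
    have e4 : ∑ φ ∈ Y.lbox, Y.mu pot (z + Y.tv φ) * |K (lst (z + Y.tv φ)) - M| =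
        Y.W z * ∑ φ ∈ Y.lbox, |K (lst (z + Y.tv φ)) - M| := by
      rw [mul_sum]
      exact sum_congr rfl fun φ hφ => by rw [(hok.lift_mem hz hφ (hl φ hφ)).2.2.2]
    rw [e4, mul_left_comm]
    refine mul_le_mul_of_nonneg_left (le_trans (le_of_eq ?_) (abs_sum_le_sum_abs _ _))
      (Y.W_pos z).le
    rw [sum_sub_distrib, sum_const, nsmul_eq_mul, ← abs_of_pos hL, ← abs_mul, abs_of_pos hL]
    congr 1
    field_simp
  set P := (I θ.1).N.filter (fun a => ell a = 0) with hP
  have h2 : ∑ z ∈ P.filter Y.Liftable, ∑ φ ∈ Y.lbox,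
      Y.mu pot (z + Y.tv φ) * |K (lst (z + Y.tv φ)) - M| ≤
      ∑ a ∈ Y.Om, Y.mu pot a * |K (lst a) - M| := by
    rw [← sum_product', ← sum_image (s := P.filter Y.Liftable ×ˢ Y.lbox)
      (g := fun x => x.1 + Y.tv x.2) (f := fun a => Y.mu pot a * |K (lst a) - M|)]
    · refine sum_le_sum_of_subset_of_nonneg (fun a ha => ?_) fun a _ _ =>
        mul_nonneg (Y.mu_pos pot a).le (abs_nonneg _)
      obtain ⟨x, hx, rfl⟩ := mem_image.1 ha
      simp only [hP, mem_product, mem_filter] at hx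
      exact (hok.lift_mem hx.1.1.2 hx.2 (hx.1.2 _ hx.2)).1
    · intro x hx y hy e
      simp only [hP, coe_product, coe_filter, mem_filter, Set.mem_prod, Set.mem_setOf_eq,
        mem_coe] at hx hy
      exact Prod.ext (hok.lift_inj hx.1.1.2 hy.1.1.2 hx.2 hy.2 e).1
        (hok.lift_inj hx.1.1.2 hy.1.1.2 hx.2 hy.2 e).2
  set T := ∑ a ∈ A.OmL I θ.1 c σ, A.muL θ a with hT
  have hT0 : 0 ≤ T := sum_nonneg fun l _ => (hμ l).le
  have h3 : ∑ a ∈ Y.Om, Y.mu pot a * |K (lst a) - M| ≤ 1 / (2 * A.S ^ 63) * T := by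
    have e : ∑ a ∈ Y.Om, Y.mu pot a * |K (lst a) - M| =
        ∑ l ∈ A.OmL I θ.1 c σ, A.muL θ l * |K l - M| := by
      rw [sum_OmL]
      exact sum_congr rfl fun a _ => by rw [h.muL_eq, vec_lst]
    rw [e]
    refine le_of_abs_le (abs_le_of_sq_le_sq ?_ (by positivity))
    refine (Finset.sum_sq_le_sum_mul_sum_of_sq_le_mul (A.OmL I θ.1 c σ) (f := A.muL θ)
      (g := fun x => A.muL θ x * (K x - M) ^ 2) (fun l _ => (hμ l).le)
      (fun l _ => mul_nonneg (hμ l).le (sq_nonneg _))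
      (fun l _ => le_of_eq (by rw [mul_pow, sq_abs]; ring))).trans ?_
    have k1 : ∑ l ∈ A.OmL I θ.1 c σ, A.muL θ l * (K l - M) ^ 2 ≤ 2 / q2 A.S * T := h.run_mix hψ
    have k2 : 2 / (q2 A.S : ℝ) ≤ (1 / (2 * A.S ^ 63)) ^ 2 := by
      have k3 : (A.S : ℝ) ^ 127 ≤ q2 A.S := by
        have hS1 : 1 ≤ A.S := by
          have k : (1 : ℝ) ≤ A.S := le_trans (by norm_num) hS
          exact_mod_cast k
        have : A.S ^ 127 ≤ q2 A.S := by
          rw [q2, ← pow_mul]
          exact Nat.pow_le_pow_right hS1 (by norm_num)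
        exact_mod_cast this
      generalize (q2 A.S : ℝ) = q at k3 ⊢
      have k4 : (0 : ℝ) < (A.S : ℝ) ^ 126 := by positivity
      rw [div_pow, div_le_div_iff₀ (lt_of_lt_of_le (by positivity) k3) (by positivity)]
      calc 2 * (2 * (A.S : ℝ) ^ 63) ^ 2 = 8 * (A.S : ℝ) ^ 126 := by ring
        _ ≤ A.S * (A.S : ℝ) ^ 126 := by gcongr; exact le_trans (by norm_num) hS
        _ = (A.S : ℝ) ^ 127 := by ring
        _ ≤ 1 ^ 2 * q := by rw [one_pow, one_mul]; exact k3
    rw [← hT, mul_pow, sq T, ← mul_assoc, mul_comm T]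
    exact mul_le_mul_of_nonneg_right (k1.trans (mul_le_mul_of_nonneg_right k2 hT0)) hT0
  have h4 : T ≤ A.S ^ 3 * (2 * (Y.lbox.card * (I θ.1).Z 0)) := by
    obtain ⟨i⟩ := ‹Nonempty (Fin A.m)›
    have := (hok.Zlk_flat i i).1
    rw [Y.τ_self] at this
    exact h.sum_muL_le.trans (mul_le_mul_of_nonneg_left this (by positivity))
  have h5 : ∑ z ∈ P.filter Y.Liftable,
      Y.W z * |Ex A.rLR (fun ω => ψ (A.lr θ (lst z) ω)) - M| ≤ 1 / A.S ^ 60 * (I θ.1).Z 0 := by
    refine le_of_mul_le_mul_left ?_ hL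
    rw [mul_sum]
    refine (sum_le_sum fun z hz => h1 z (mem_filter.1 (mem_filter.1 hz).1).2
      (mem_filter.1 hz).2).trans (h2.trans (h3.trans ?_))
    refine (mul_le_mul_of_nonneg_left h4 (by positivity)).trans (le_of_eq ?_)
    field_simp
  have h6 : ∑ z ∈ P.filter (fun z => ¬ Y.Liftable z),
      Y.W z * |Ex A.rLR (fun ω => ψ (A.lr θ (lst z) ω)) - M| ≤ 1 / A.S ^ 60 * (I θ.1).Z 0 := by
    refine le_trans ?_ h.gs.lift
    rw [hP, filter_filter]
    refine le_trans (sum_le_sum fun z _ => ?_) (le_of_eq (sum_congr (by congr) fun _ _ => rfl))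
    refine mul_le_of_le_one_right (Y.W_pos z).le ?_
    have := trial_unit01 A.rLR (A.lr θ) hψ (lst z)
    rw [abs_le]
    constructor <;> linarith [this.1, this.2, hM01.1, hM01.2]
  rw [sum_piL, sum_PL]
  simp only [piL, vec_lst]
  rw [← sum_filter_add_sum_filter_not _ Y.Liftable]
  refine (add_le_add h5 h6).trans (le_of_eq ?_)
  ring

/-- For `ψ a = Ex (φ ∘ fin a)` (failure counts `0`; `Pr_allFalse`):
`∑ μ ψ = ∑_{y ∈ PL (t + 1)} n y * W_{t+1} y * φ y` where `n y ≤ lbox.card` is the number of lifts of `y`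
that are bases (`sum_absorb`, `lift_mem`), with equality for liftable `y`.  Take `p = avg ψ` for
`φ = 1`. -/
theorem fin_near (h : Cx A I θ c σ) : ∃ p : ℝ, 1 / A.S ^ 4 ≤ p ∧ p ≤ 1 ∧ ∀ φ, Unit01 φ →
    |avg (A.OmL I θ.1 c σ) (A.muL θ) (fun a => Ex (nA A.S) fun ω => (A.fin θ a ω).elim 0 φ) -
      p * avg (A.PL I (θ.1 + 1)) (A.piL I (θ.1 + 1)) φ| ≤ 4 / A.S ^ 60 := by
  classical
  haveI : Nonempty (Fin A.m) := ⟨⟨0, h.spec.m_pos⟩⟩
  have hS := trial_S h.spec
  have hS0 : (0 : ℝ) < A.S := lt_of_lt_of_le (by norm_num) hS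
  set Y := A.sys I θ.1 c σ with hY
  have hok : Y.Ok := h.gs.ok
  have hμ : ∀ l, 0 < A.muL θ l := fun l => zpow_pos two_pos _
  have hL : (0 : ℝ) < Y.lbox.card := by
    rw [Sys.Ok.card_lbox]
    have := hok.flat_pw_pos
    positivity
  set P := (I (θ.1 + 1)).N.filter (fun a => ell a = 0) with hP
  set W' := (I (θ.1 + 1)).W with hW'
  set n : (Fin A.m × Bool → ℤ) → ℝ :=
    fun y => ((Y.lbox.filter fun φ => InB Y.F (y + Y.tv φ)).card : ℝ) with hn
  have h1 : ∀ φ : List ℤ → ℝ, ∑ l ∈ A.OmL I θ.1 c σ,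
      A.muL θ l * Ex (nA A.S) (fun ω => (A.fin θ l ω).elim 0 φ) =
      ∑ y ∈ P, n y * (W' y * φ (lst y)) := by
    intro φ
    rw [sum_OmL]
    simp only [h.muL_eq, vec_lst, trial_fin h.spec h.lt (c := c) h.gs.rep φ _ _ rfl, mul_ite,
      mul_zero]
    rw [← sum_filter, ← hP, ← hY, ← sum_fiberwise_of_maps_to (t := P)
      (g := fun a => a - Y.tv fun g => σ.coef g a) fun a ha => (mem_filter.1 ha).2]
    refine sum_congr rfl fun y hy => ?_
    have hy0 := (mem_filter.1 hy).2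
    have e := hok.sum_absorb hy0 fun a => Y.mu (A.potF θ.2.2) a * (W' y / Y.W y * φ (lst y))
    have e2 : ∑ x ∈ Y.lbox.filter (fun φ => InB Y.F (y + Y.tv φ)),
        Y.mu (A.potF θ.2.2) (y + Y.tv x) * (W' y / Y.W y * φ (lst y)) =
        n y * (W' y * φ (lst y)) := by
      rw [sum_congr rfl fun x hx => by
        rw [(hok.lift_mem hy0 (mem_filter.1 hx).1 (mem_filter.1 hx).2).2.2.2]]
      rw [sum_const, nsmul_eq_mul]
      have := (Y.W_pos y).ne'
      simp only [hn]
      field_simp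
    rw [← e2]
    refine Eq.trans ?_ (e.trans (by congr))
    rw [filter_filter]
    refine sum_congr (filter_congr fun a _ => ⟨fun h => h.2, fun h => ⟨?_, h⟩⟩) fun a ha => ?_
    · exact (show _ = y from h) ▸ hy
    · rw [show (a - Y.tv fun g => σ.coef g a) = y from (mem_filter.1 ha).2]
      rfl
  have hn0 : ∀ y, 0 ≤ n y := fun y => Nat.cast_nonneg _
  have hn1 : ∀ y, n y ≤ Y.lbox.card := fun y => Nat.cast_le.2 (card_filter_le _ _)
  have hn2 : ∀ y, Y.Liftable y → n y = Y.lbox.card := fun y hy => by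
    simp only [hn]
    rw [filter_true_of_mem hy]
  have hW0 : ∀ y, 0 < W' y := (I (θ.1 + 1)).W_pos
  set Z := (I θ.1).Z 0 with hZ
  set Z' := (I (θ.1 + 1)).Z 0 with hZ'
  have hZ0 : 0 < Z := h.spec.pos _ h.lt.le
  have hZ'0 : 0 < Z' := h.spec.pos _ h.lt
  have hZZ : Z ≤ 4 * Z' := h.spec.ratio _ h.lt
  have hZ'e : Z' = ∑ y ∈ P, W' y := rfl
  have h2 : ∑ y ∈ P, (Y.lbox.card - n y) * W' y ≤ Y.lbox.card * (1 / A.S ^ 60 * Z) := by
    refine le_trans ?_ (mul_le_mul_of_nonneg_left h.gs.lift hL.le)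
    rw [← sum_filter_of_ne (p := fun y => ¬ Y.Liftable y) fun y _ hy hl => hy (by
      rw [hn2 y hl, sub_self, zero_mul]), mul_sum]
    refine le_trans (sum_le_sum (g := fun y => Y.lbox.card * (I θ.1).W y) fun y hy => ?_)
      (sum_le_sum_of_subset_of_nonneg (fun y hy => ?_) fun y _ _ =>
        mul_nonneg hL.le ((I θ.1).W_pos y).le)
    · have hB := (I (θ.1 + 1)).mem_N.1 (mem_filter.1 (mem_filter.1 hy).1).1
      refine mul_le_mul (by linarith [hn0 y]) ?_ (hW0 y).le hL.le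
      exact pow_le_pow_of_le_one (by norm_num) (by norm_num) (h.spec.mono _ h.lt y hB).2
    · simp only [hP, mem_filter, Inst.mem_N] at hy ⊢
      exact ⟨(h.spec.mono _ h.lt y hy.1.1).1, hy.1.2, hy.2⟩
  set T := ∑ a ∈ A.OmL I θ.1 c σ, A.muL θ a with hT
  have h3 : T ≤ A.S ^ 3 * (2 * (Y.lbox.card * Z)) ∧ Y.lbox.card * Z ≤ 2 * T := by
    obtain ⟨i⟩ := ‹Nonempty (Fin A.m)›
    have := hok.Zlk_flat i i
    rw [Y.τ_self] at this
    exact ⟨h.sum_muL_le.trans (mul_le_mul_of_nonneg_left this.1 (by positivity)),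
      this.2.trans (mul_le_mul_of_nonneg_left h.le_sum_muL (by norm_num))⟩
  have hLZ : 0 < Y.lbox.card * Z := mul_pos hL hZ0
  have hT0 : 0 < T := by linarith [h3.2]
  have h60 : 1 / (A.S : ℝ) ^ 60 ≤ 1 / 8 := by
    refine one_div_le_one_div_of_le (by norm_num) (le_trans (le_trans (by norm_num) hS) ?_)
    exact le_self_pow₀ (le_trans (by norm_num) hS) (by norm_num)
  refine ⟨(∑ y ∈ P, n y * W' y) / T, ?_, ?_, fun φ hφ => ?_⟩
  · have e : ∑ y ∈ P, n y * W' y = Y.lbox.card * Z' - ∑ y ∈ P, (Y.lbox.card - n y) * W' y := by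
      rw [hZ'e, mul_sum, ← sum_sub_distrib]
      exact sum_congr rfl fun y _ => by ring
    have k1 : Y.lbox.card * Z ≤ Y.lbox.card * (4 * Z') := mul_le_mul_of_nonneg_left hZZ hL.le
    have k2 := mul_le_mul_of_nonneg_right h60 hLZ.le
    have k3 : Y.lbox.card * Z / 8 ≤ ∑ y ∈ P, n y * W' y := by
      rw [e]
      linarith
    rw [div_le_div_iff₀ (by positivity) hT0, one_mul]
    refine h3.1.trans (le_trans ?_ (mul_le_mul_of_nonneg_right k3 (by positivity)))
    calc (A.S : ℝ) ^ 3 * (2 * (Y.lbox.card * Z)) = Y.lbox.card * Z / 8 * (16 * (A.S : ℝ) ^ 3) := by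
          ring
      _ ≤ Y.lbox.card * Z / 8 * (A.S * (A.S : ℝ) ^ 3) := by
          gcongr
          exact le_trans (by norm_num) hS
      _ = _ := by ring
  · have k := (markov_avg (Ω := A.OmL I θ.1 c σ) (fun l _ => (hμ l).le)
      (trial_unit01 (nA A.S) (A.fin θ) (trial_elim (φ := fun _ => 1) fun _ =>
        ⟨zero_le_one, le_rfl⟩))).2
    rw [avg, h1] at k
    simpa only [mul_one] using k
  · have hM := markov_avg (Ω := A.PL I (θ.1 + 1)) (π := A.piL I (θ.1 + 1))
      (fun l _ => (hW0 _).le) hφ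
    have hMe : avg (A.PL I (θ.1 + 1)) (A.piL I (θ.1 + 1)) φ * Z' = ∑ y ∈ P, W' y * φ (lst y) := by
      rw [avg, sum_piL, div_mul_cancel₀ _ hZ'0.ne', sum_PL]
      simp only [piL, vec_lst]
      rfl
    rw [avg, h1, ← hT]
    generalize avg (A.PL I (θ.1 + 1)) (A.piL I (θ.1 + 1)) φ = M at hM hMe ⊢
    have e : (∑ y ∈ P, n y * (W' y * φ (lst y))) / T - (∑ y ∈ P, n y * W' y) / T * M =
        (∑ y ∈ P, (Y.lbox.card - n y) * W' y * (M - φ (lst y))) / T := by
      have e1 : ∑ y ∈ P, (Y.lbox.card - n y) * W' y * (M - φ (lst y)) =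
          Y.lbox.card * (M * ∑ y ∈ P, W' y - ∑ y ∈ P, W' y * φ (lst y)) +
            (∑ y ∈ P, n y * (W' y * φ (lst y)) - (∑ y ∈ P, n y * W' y) * M) := by
        simp only [mul_sum, sum_mul, mul_sub, ← sum_sub_distrib, ← sum_add_distrib]
        exact sum_congr rfl fun y _ => by ring
      rw [e1, ← hZ'e, hMe]
      field_simp
      ring
    rw [e, abs_div, abs_of_pos hT0, div_le_iff₀ hT0]
    refine (abs_sum_le_sum_abs _ _).trans (le_trans (sum_le_sum fun y _ => ?_) (h2.trans ?_))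
    · have k : 0 ≤ (Y.lbox.card - n y) * W' y := mul_nonneg (by linarith [hn1 y]) (hW0 y).le
      rw [abs_mul, abs_of_nonneg k]
      refine mul_le_of_le_one_right k ?_
      rw [abs_le]
      constructor <;> linarith [(hφ (lst y)).1, (hφ (lst y)).2, hM.1, hM.2]
    · have k : (0 : ℝ) ≤ 1 / A.S ^ 60 := by positivity
      calc Y.lbox.card * (1 / (A.S : ℝ) ^ 60 * Z) = 1 / A.S ^ 60 * (Y.lbox.card * Z) := by ring
        _ ≤ 1 / A.S ^ 60 * (4 * T) := mul_le_mul_of_nonneg_left (by linarith [h3.2]) k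
        _ = _ := by ring

/-- `Ex_split`, `lr_near`, `fin_near`, `retry_near` with `κ = 6 / S ^ 60`. -/
theorem trans_near (h : Cx A I θ c σ) {φ : List ℤ → ℝ} (hφ : Unit01 φ) :
    |avg (A.PL I θ.1) (A.piL I θ.1) (fun z => Ex A.rTrans fun ω => φ (A.trans θ z ω)) -
      avg (A.PL I (θ.1 + 1)) (A.piL I (θ.1 + 1)) φ| ≤ 1 / A.S ^ 40 := by
  have hS := trial_S h.spec
  obtain ⟨p, hp0, hp1, hp⟩ := h.fin_near
  have hπ : ∀ t l, 0 ≤ A.piL I t l := fun t l => ((I t).W_pos _).le
  refine (retry_near (c := avg (A.PL I (θ.1 + 1)) (A.piL I (θ.1 + 1))) (κ := 6 / A.S ^ 60)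
    (fun z _ => hπ _ z) ?_ (fun φ hφ => markov_avg (fun z _ => hπ _ z) hφ) ?_
    (le_trans (by positivity) hp0) hp1 (fun φ hφ => ?_) hφ).trans
    (trial_exp (le_trans (by norm_num) hS) hp0 hp1 (Nat.cast_pow _ _))
  · rw [sum_piL]
    exact h.spec.pos _ h.lt.le
  · simp only [avg, mul_one]
    rw [sum_piL]
    exact div_self (h.spec.pos _ h.lt).ne'
  · have h1 := h.lr_near (trial_unit01 (nA A.S) (A.fin θ) (trial_elim hφ))
    have h2 := hp φ hφ
    have e : ∀ z, Ex A.rTrial (fun ω => (A.trial θ z ω).elim 0 φ) =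
        Ex A.rLR fun u => Ex (nA A.S) fun ω => (A.fin θ (A.lr θ z u) ω).elim 0 φ := fun z =>
      Ex_split A.rLR (nA A.S) fun u v => (A.fin θ (A.lr θ z u) v).elim 0 φ
    simp only [e]
    refine le_trans (sum_le_sum fun z _ => mul_le_mul_of_nonneg_left
      ((abs_sub_le _ _ _).trans (add_le_add le_rfl h2)) (hπ _ z)) ?_
    simp only [mul_add, sum_add_distrib, ← sum_mul]
    refine (add_le_add h1 le_rfl).trans (le_of_eq ?_)
    ring

end Cx

/-- Induction on `θs` from the right (`Ex_chunks_succ'`, `trans_near`); then `Ex_of_prefix`. -/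
theorem sample_near (hA : A.Spec I) {θs : List Th} (hθ : A.GoodThs I θs) (hl : θs.length ≤ A.Tn) :
    Near (fun φ => Ex A.rS fun ω => φ (A.sample θs ω)) (A.PL I θs.length) (A.piL I θs.length)
      (θs.length / A.S ^ 40) := by
  have key : Near (fun φ => Ex (A.rI + θs.length * A.rTrans) fun ω => φ (A.sample θs ω))
      (A.PL I θs.length) (A.piL I θs.length) (θs.length / A.S ^ 40) := by
    induction θs using List.reverseRecOn with
    | nil =>
      intro φ _
      have := hA.init φ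
      simp only [List.length_nil, zero_mul, add_zero, sample, List.zip_nil_left, List.foldl_nil]
      rw [Ex_take le_rfl fun l => φ (A.init l), this]
      simp
    | append_singleton θs θ ih =>
      intro φ hφ
      rw [List.length_append, List.length_singleton] at hl ⊢
      have hθ' : A.GoodThs I θs := fun t ht => by
        have := hθ t (by rw [List.length_append]; omega)
        rwa [List.getElem_append_left ht] at this
      obtain ⟨e, hpot, c, σ, hgs⟩ : A.GoodTh I θs.length θ := by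
        have := hθ θs.length (by simp)
        rwa [List.getElem_concat_length rfl] at this
      have hC : Cx A I θ c σ := ⟨hA, by omega, e ▸ hpot, e ▸ hgs⟩
      have h1 := ih hθ' (by omega) _ (trial_unit01 A.rTrans (A.trans θ) hφ)
      have h2 := hC.trans_near hφ
      rw [e] at h2
      have h3 : Ex (A.rI + (θs.length + 1) * A.rTrans) (fun ω => φ (A.sample (θs ++ [θ]) ω)) =
          Ex (A.rI + θs.length * A.rTrans) fun u =>
            Ex A.rTrans fun v => φ (A.trans θ (A.sample θs u) v) := by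
        rw [← Ex_split _ _ fun u v => φ (A.trans θ (A.sample θs u) v), Nat.succ_mul, add_assoc]
        refine Ex_congr fun l hl => ?_
        simp only [sample]
        rw [List.length_append, List.length_singleton, chunks_succ',
          List.zip_append (length_chunks _ _ _).symm, List.foldl_append, List.drop_take,
          Nat.add_sub_cancel_left, chunks_take le_rfl, List.take_take,
          Nat.min_eq_left (Nat.le_add_right _ _), List.drop_drop,
          List.take_of_length_le (l := l.drop _) (by rw [List.length_drop]; omega)]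
        rfl
      simp only at h1 ⊢
      rw [h3]
      refine (abs_sub_le _ _ _).trans ((add_le_add h1 h2).trans (le_of_eq ?_))
      push_cast
      ring
  intro φ hφ
  have := key φ hφ
  simp only at this ⊢
  rwa [rS, Ex_of_prefix (r := A.rI + θs.length * A.rTrans)
    (Nat.add_le_add_left (Nat.mul_le_mul_right _ hl) _) fun l => ?_]
  simp only [sample]
  rw [List.drop_take, Nat.add_sub_cancel_left, chunks_take le_rfl, List.take_take,
    Nat.min_eq_left (Nat.le_add_right _ _)]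

end Alg

end Crest.Agent.R302
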