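import Crest.Agent.R302.Chain

/-!
Row 302, auxiliary lemmas for `Trial.lean`.
-/

set_option autoImplicit false

namespace Crest.Agent.R302

open Finset Crest.Agent.Lib.PT Crest.Agent.R309

lemma trial_ix_inj {m : ℕ} {p q : Fin m × Bool} (h : ix p = ix q) : p = q := by
  obtain ⟨e, b⟩ := p
  obtain ⟨e', b'⟩ := q
  cases b <;> cases b' <;> simp [ix] at h ⊢ <;> omega

lemma trial_two_pow {s n : ℕ} (h : s = 2 ^ n) (a : ℕ) : 2 ^ (a * Nat.log 2 s + 1) = 2 * s ^ a := by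
  subst h
  rw [Nat.log_pow (by norm_num), pow_succ', ← pow_mul, mul_comm a]

lemma trial_rw {S k : ℕ} (h : S = 2 ^ k) : 2 ^ rw S = 2 * pw (q2 S) := by
  have : q2 S = 2 ^ (k * 20 * 200) := by rw [q2, h, ← pow_mul, ← pow_mul, mul_assoc]
  exact trial_two_pow this 330

lemma trial_Ex_bits {r w : ℕ} (h : 2 ^ r = 2 * w) {a : ℤ} (h1 : -(w : ℤ) ≤ a) (h2 : a < w) :
    Ex r (fun u => tapeInd ((ofBits u : ℤ) - w = a)) = 1 / (2 * w) := by
  rw [Ex_ofBits r fun k => tapeInd ((k : ℤ) - w = a)]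
  have h' : (2 : ℝ) ^ r = 2 * w := by exact_mod_cast h
  rw [h', h, Finset.sum_eq_single (a + w).toNat]
  · have : (((a + w).toNat : ℕ) : ℤ) - w = a := by omega
    rw [tapeInd, if_pos this]
  · intro k _ hk
    have : ¬ ((k : ℤ) - w = a) := fun h => hk (by omega)
    simp [tapeInd, this]
  · intro hk
    exact absurd (mem_range.2 (by omega)) hk

lemma trial_unit01 {α β : Type} (r : ℕ) (f : α → List Bool → β) {φ : β → ℝ} (h : Unit01 φ) :
    Unit01 fun a => Ex r fun ω => φ (f a ω) := fun _ =>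
  ⟨Ex_nonneg fun _ _ => (h _).1, (Ex_mono fun _ _ => (h _).2).trans (Ex_const r 1).le⟩

lemma trial_elim {α : Type} {φ : α → ℝ} (h : Unit01 φ) :
    Unit01 fun o : Option α => o.elim 0 φ := fun o => by
  cases o with
  | none => simp
  | some a => exact h a

lemma trial_exp {S p : ℝ} (hS : 41 ≤ S) (hp : 1 / S ^ 4 ≤ p) (hp1 : p ≤ 1) {R : ℕ}
    (hR : (R : ℝ) = S ^ 6) : 3 * (R : ℝ) ^ 2 * (6 / S ^ 60) + 2 * (1 - p) ^ R ≤ 1 / S ^ 40 := by
  have hS0 : 0 < S := by linarith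
  have h1 : (1 - p) ^ R ≤ Real.exp (-p) ^ R :=
    pow_le_pow_left₀ (by linarith) (by linarith [Real.add_one_le_exp (-p)]) R
  have h2 : Real.exp (-p) ^ R ≤ Real.exp (-S) ^ 41 := by
    rw [← Real.exp_nat_mul, ← Real.exp_nat_mul, Real.exp_le_exp, hR]
    have k1 : S ^ 6 * (1 / S ^ 4) = S * S := by field_simp
    have k2 : S ^ 6 * (1 / S ^ 4) ≤ S ^ 6 * p := by gcongr
    push_cast
    nlinarith
  have h3 : Real.exp (-S) ≤ 1 / S := by
    rw [Real.exp_neg, ← one_div]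
    exact one_div_le_one_div_of_le hS0 (by linarith [Real.add_one_le_exp S])
  have h4 : Real.exp (-S) ^ 41 ≤ (1 / S) ^ 41 := pow_le_pow_left₀ (Real.exp_pos _).le h3 41
  have h5 : (1 / S) ^ 41 = 1 / S * (1 / S ^ 40) := by field_simp
  have h6 : 3 * (R : ℝ) ^ 2 * (6 / S ^ 60) = 18 / S ^ 8 * (1 / S ^ 40) := by
    rw [hR]
    field_simp
    norm_num
  have h7 : 1 / S ≤ 1 / 41 := one_div_le_one_div_of_le (by norm_num) hS
  have h8 : 18 / S ^ 8 ≤ 18 / 41 := by
    refine div_le_div_of_nonneg_left (by norm_num) (by norm_num) (hS.trans ?_)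
    exact le_self_pow₀ (by linarith) (by norm_num)
  have h9 : 0 ≤ 1 / S ^ 40 := by positivity
  rw [h6]
  nlinarith [mul_le_mul_of_nonneg_right h7 h9, mul_le_mul_of_nonneg_right h8 h9]

namespace Alg

variable {A : Alg} {I : ℕ → Inst (Fin A.m)}

lemma trial_S (hA : A.Spec I) : (2 : ℝ) ^ 20 ≤ A.S := by
  obtain ⟨k, hk, e⟩ := hA.pow
  rw [e]
  exact_mod_cast Nat.pow_le_pow_right two_pos hk

lemma trial_vec_phi (ω : List Bool) (g : Fin A.m × Bool) : vec A.m (A.phi ω) g =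
    (ofBits ((chunks (2 * A.m) (rw A.S) ω).getD (ix g) []) : ℤ) - pw (q2 A.S) := by
  have h : ix g < (chunks (2 * A.m) (rw A.S) ω).length := by
    rw [length_chunks]; exact ix_lt g
  simp only [vec, phi]
  rw [List.getD_eq_getElem _ _ (by simpa using h), List.getD_eq_getElem _ _ h, List.getElem_map]

lemma trial_addT {t : ℕ} {c : Fin A.m × Bool → ℝ} {σ : Str (Fin A.m)} {L : StrL} (h : σ.Rep L)
    (z : Fin A.m × Bool → ℤ) (φ : List ℤ) :
    A.addT L (lst z) φ = lst (z + (A.sys I t c σ).tv (vec A.m φ)) := by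
  rw [← lst_vec (length_addT L (lst z) φ), vec_addT (I := I) (t := t) (c := c) h, vec_lst]

lemma trial_absorb {t : ℕ} {c : Fin A.m × Bool → ℝ} {σ : Str (Fin A.m)} {L : StrL} (h : σ.Rep L)
    (a : Fin A.m × Bool → ℤ) :
    A.absorb L (lst a) = lst (a - (A.sys I t c σ).tv fun g => σ.coef g a) := by
  rw [absorb, trial_addT (I := I) (t := t) (c := c) h, sub_eq_add_neg]
  congr 2
  simp only [Sys.tv]
  rw [← sum_neg_distrib]
  refine sum_congr rfl fun g hg => ?_
  rw [← neg_smul]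
  congr 1
  have := coefL_eq h hg (lst a)
  rw [vec_lst] at this
  rw [← this, vec, List.getD_eq_getElem _ _ (by simpa using ix_lt g)]
  simp

open Classical in
lemma trial_fin (hA : A.Spec I) {θ : Th} (ht : θ.1 < A.Tn) {c : Fin A.m × Bool → ℝ}
    {σ : Str (Fin A.m)} (h : σ.Rep θ.2.1) (φ : List ℤ → ℝ) (a y : Fin A.m × Bool → ℤ)
    (hy : a - (A.sys I θ.1 c σ).tv (fun g => σ.coef g a) = y) :
    Ex (nA A.S) (fun ω => (A.fin θ (lst a) ω).elim 0 φ) =
      if y ∈ (I (θ.1 + 1)).N.filter (fun a => ell a = 0) then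
        (I (θ.1 + 1)).W y / (I θ.1).W y * φ (lst y) else 0 := by
  simp only [fin, trial_absorb (I := I) (t := θ.1) (c := c) h, hy]
  have e : (A.perf (lst y) && A.mem (θ.1 + 1) (lst y)) = true ↔
      y ∈ (I (θ.1 + 1)).N.filter (fun a => ell a = 0) := by
    rw [Bool.and_eq_true, perf_iff, hA.mem _ ht, vec_lst, mem_filter, Inst.mem_N]
    simp only [length_lst, true_and]
    exact and_comm
  split_ifs with hm
  · have hB := (I (θ.1 + 1)).mem_N.1 (mem_filter.1 hm).1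
    have h1 := (hA.mono _ ht y hB).2
    have h2 : (I (θ.1 + 1)).wx y ≤ (A.S ^ 20) ^ 2 := (hA.sz _ ht).wx_le hB
    have hS : 1 ≤ A.S := by
      have := trial_S hA
      have k : (1 : ℝ) ≤ A.S := le_trans (by norm_num) this
      exact_mod_cast k
    have h3 : (A.S ^ 20) ^ 2 ≤ nA A.S := by
      rw [← pow_mul]
      exact Nat.pow_le_pow_right hS (by norm_num)
    rw [e.2 hm, hA.wex _ ht, hA.wex _ ht.le, vec_lst]
    obtain ⟨d, hd⟩ := Nat.exists_eq_add_of_le h1
    have h4 : (I (θ.1 + 1)).W y / (I θ.1).W y = 1 / 2 ^ d := by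
      rw [Inst.W, Inst.W, hd, pow_add]
      field_simp
      simp
    rw [h4, hd, Nat.add_sub_cancel_left, ← Pr_allFalse (r := nA A.S) (by omega), Pr,
      ← Ex_mul_right]
    refine Ex_congr fun l hl => ?_
    rw [List.take_of_length_le hl.le, Bool.true_and]
    split_ifs <;> simp
  · have : (A.perf (lst y) && A.mem (θ.1 + 1) (lst y)) = false := by
      rw [← Bool.not_eq_true, e]; exact hm
    simp [this, Ex_const]

end Alg

end Crest.Agent.R302
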